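import Vale.Agent.Lib.P322.K2

/-!
The second Bellman inequality and the comparison argument: the Courtade-Kumar inequality for all
Boolean functions, from the numerical input `KEYprop`.
-/

open Real Set Filter Topology

namespace CK322

noncomputable section

section fam

variable {Z : Type*} [Fintype Z] [Nonempty Z]

/-- Jensen for the entropy -/
theorem jensen_phi (u : Z → ℝ) (hu : ∀ z, u z ∈ Ioo (-1 : ℝ) 1) :
    avg (fun z => phi (u z)) ≤ phi (avg u) := by
  have ha := avg_mem' hu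
  have hL := L_pos
  have hpt : ∀ z, phi (u z) ≤ (0 * u z + (-(artanh (avg u)) / L) * u z + 0 * u z + 0 * u z)
      + (phi (avg u) + artanh (avg u) / L * avg u) := by
    intro z
    have h := KL_nonneg ha (hu z)
    have e : (0 * u z + (-(artanh (avg u)) / L) * u z + 0 * u z + 0 * u z)
        + (phi (avg u) + artanh (avg u) / L * avg u)
        = phi (avg u) - (artanh (avg u) * (u z - avg u)) / L := by
      field_simp
      ring
    rw [e, le_sub_iff_add_le, ← le_sub_iff_add_le', div_le_iff₀ hL]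
    nlinarith
  have h2 : avg (fun z => phi (u z)) ≤ avg (fun z => (0 * u z + (-(artanh (avg u)) / L) * u z
      + 0 * u z + 0 * u z) + (phi (avg u) + artanh (avg u) / L * avg u)) := avg_mono' hpt
  have h3 : avg (fun z => (0 * u z + (-(artanh (avg u)) / L) * u z + 0 * u z + 0 * u z)
      + (phi (avg u) + artanh (avg u) / L * avg u))
      = avg (fun z => 0 * u z + (-(artanh (avg u)) / L) * u z + 0 * u z + 0 * u z)
        + (phi (avg u) + artanh (avg u) / L * avg u) := by
    unfold avg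
    simp only [Finset.sum_add_distrib, Finset.sum_const, Finset.card_univ, nsmul_eq_mul]
    have h := card_pos_real (Z := Z)
    field_simp
  rw [h3, avg_lin] at h2
  have e : 0 * avg u + -artanh (avg u) / L * avg u + 0 * avg u + 0 * avg u
      + (phi (avg u) + artanh (avg u) / L * avg u) = phi (avg u) := by
    field_simp
    ring
  rwa [e] at h2

theorem K2_core (hKEY : ∀ t q : ℝ, 0 ≤ t → t < 1 → 0 < q → q < 1 → KEYprop t q)
    (u w : Z → ℝ) (hu : ∀ z, u z ∈ Ioo (-1 : ℝ) 1) (hw : ∀ z, w z ∈ Ioo (-1 : ℝ) 1)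
    (hlt : avg w < avg u) (hs : 0 ≤ avg u + avg w) :
    2 * (phi ((avg u + avg w) / 2) - (phi (avg u) + phi (avg w)) / 2)
        + psiC (phi ((avg u + avg w) / 2)
            - (avg (fun z => phi (u z)) + avg (fun z => phi (w z))) / 2)
        - psiC ((phi (avg u) + phi (avg w)) / 2
            - (avg (fun z => phi (u z)) + avg (fun z => phi (w z))) / 2)
      ≤ avg (fun z => D1 (u z) (w z)) := by
  have hL := L_pos
  have hv : 0 < (avg (fun z => phi (u z)) + avg (fun z => phi (w z))) / 2 := by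
    have h1 : 0 < avg (fun z => phi (u z)) := avg_pos' fun z => phi_pos (hu z)
    have h2 : 0 < avg (fun z => phi (w z)) := avg_pos' fun z => phi_pos (hw z)
    linarith
  have hvx : (avg (fun z => phi (u z)) + avg (fun z => phi (w z))) / 2
      ≤ (phi (avg u) + phi (avg w)) / 2 := by
    have := jensen_phi u hu
    have := jensen_phi w hw
    linarith
  apply K2_det (avg_mem' hu) (avg_mem' hw) hlt hs hv hvx (D1_var_bound u w hu hw hlt) _ hKEY
  intro θ hθ hy
  have hg := gam_pos hθ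
  have hpt : ∀ z, (θ / (2 * L) + gam θ / 2 * (S θ / tanh θ)) * u z
        + (-(θ / (2 * L) + gam θ / 2 * (S θ / tanh θ))) * w z
        + (-(gam θ / 2)) * phi (u z) + (-(gam θ / 2)) * phi (w z)
      ≤ D1 (u z) (w z) := by
    intro z
    have := M_pt hθ (hu z) (hw z)
    calc _ = (u z - w z) * θ / (2 * L)
            + gam θ / 2 * ((u z - w z) * (S θ / tanh θ) - (phi (u z) + phi (w z))) := by
          field_simp
          ring
      _ ≤ _ := this
  have havg := avg_mono' hpt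
  rw [avg_lin] at havg
  refine le_trans (le_of_eq ?_) havg
  have e : avg (fun z => phi (u z)) + avg (fun z => phi (w z))
      = (avg u - avg w) * (S θ / tanh θ) := by
    linarith
  have e' : (-(gam θ / 2)) * avg (fun z => phi (u z)) + (-(gam θ / 2)) * avg (fun z => phi (w z))
      = -(gam θ / 2) * ((avg u - avg w) * (S θ / tanh θ)) := by
    rw [← e]; ring
  have : (θ / (2 * L) + gam θ / 2 * (S θ / tanh θ)) * avg u
        + (-(θ / (2 * L) + gam θ / 2 * (S θ / tanh θ))) * avg w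
        + (-(gam θ / 2)) * avg (fun z => phi (u z)) + (-(gam θ / 2)) * avg (fun z => phi (w z))
      = (avg u - avg w) * (θ / (2 * L)) := by
    linear_combination e'
  rw [this]
  field_simp

/-- the core case with the sign condition removed -/
theorem K2_core2 (hKEY : ∀ t q : ℝ, 0 ≤ t → t < 1 → 0 < q → q < 1 → KEYprop t q)
    (u w : Z → ℝ) (hu : ∀ z, u z ∈ Ioo (-1 : ℝ) 1) (hw : ∀ z, w z ∈ Ioo (-1 : ℝ) 1)
    (hlt : avg w < avg u) :
    2 * (phi ((avg u + avg w) / 2) - (phi (avg u) + phi (avg w)) / 2)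
        + psiC (phi ((avg u + avg w) / 2)
            - (avg (fun z => phi (u z)) + avg (fun z => phi (w z))) / 2)
        - psiC ((phi (avg u) + phi (avg w)) / 2
            - (avg (fun z => phi (u z)) + avg (fun z => phi (w z))) / 2)
      ≤ avg (fun z => D1 (u z) (w z)) := by
  by_cases hs : 0 ≤ avg u + avg w
  · exact K2_core hKEY u w hu hw hlt hs
  · have hs' : avg u + avg w < 0 := not_le.mp hs
    have h := K2_core hKEY (fun z => - w z) (fun z => - u z)
      (fun z => neg_mem' (hw z)) (fun z => neg_mem' (hu z))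
      (by rw [avg_neg', avg_neg']; linarith) (by rw [avg_neg', avg_neg']; linarith)
    rw [avg_neg', avg_neg'] at h
    have e1 : (-avg w + -avg u) / 2 = -((avg u + avg w) / 2) := by ring
    rw [e1, phi_neg, phi_neg, phi_neg] at h
    simp only [phi_neg] at h
    have e2 : (fun z => D1 (- w z) (- u z)) = (fun z => D1 (u z) (w z)) := by
      funext z
      exact D1_neg (hu z) (hw z)
    rw [e2] at h
    have e3 : (phi (avg u) + phi (avg w)) = (phi (avg w) + phi (avg u)) := add_comm _ _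
    have e5 : avg (fun z => phi (u z)) + avg (fun z => phi (w z))
        = avg (fun z => phi (w z)) + avg (fun z => phi (u z)) := add_comm _ _
    rw [e3, e5]
    exact h

/-- the one step inequality -/
theorem K2_all (hKEY : ∀ t q : ℝ, 0 ≤ t → t < 1 → 0 < q → q < 1 → KEYprop t q)
    (u w : Z → ℝ) (hu : ∀ z, u z ∈ Ioo (-1 : ℝ) 1) (hw : ∀ z, w z ∈ Ioo (-1 : ℝ) 1) :
    2 * (phi ((avg u + avg w) / 2) - (phi (avg u) + phi (avg w)) / 2)
        + psiC (phi ((avg u + avg w) / 2)
            - (avg (fun z => phi (u z)) + avg (fun z => phi (w z))) / 2)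
        - psiC ((phi (avg u) + phi (avg w)) / 2
            - (avg (fun z => phi (u z)) + avg (fun z => phi (w z))) / 2)
      ≤ avg (fun z => D1 (u z) (w z)) := by
  rcases lt_trichotomy (avg w) (avg u) with h | h | h
  · exact K2_core2 hKEY u w hu hw h
  · rw [h]
    have e1 : (avg u + avg u) / 2 = avg u := by ring
    have e3 : (phi (avg u) + phi (avg u)) / 2 = phi (avg u) := by ring
    rw [e1, e3]
    have : 0 ≤ avg (fun z => D1 (u z) (w z)) := by
      have := avg_mono' (f := fun _ : Z => (0 : ℝ)) (g := fun z => D1 (u z) (w z))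
        (fun z => D1_nonneg (hu z) (hw z))
      rwa [avg_const'] at this
    linarith
  · have h2 := K2_core2 hKEY w u hw hu h
    have e2 : (fun z => D1 (w z) (u z)) = (fun z => D1 (u z) (w z)) := by
      funext z
      exact D1_symm _ _
    rw [e2] at h2
    have e3 : (phi (avg u) + phi (avg w)) = (phi (avg w) + phi (avg u)) := add_comm _ _
    have e5 : avg (fun z => phi (u z)) + avg (fun z => phi (w z))
        = avg (fun z => phi (w z)) + avg (fun z => phi (u z)) := add_comm _ _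
    have e6 : avg u + avg w = avg w + avg u := add_comm _ _
    rw [e3, e5, e6]
    exact h2

end fam

/-- The second Bellman inequality -/
theorem bellman2 (hKEY : ∀ t q : ℝ, 0 ≤ t → t < 1 → 0 < q → q < 1 → KEYprop t q)
    {n : ℕ} (g : (Fin n → Bool) → ℝ) (hg : ∀ x, g x ∈ Ioo (-1 : ℝ) 1) {θ : ℝ} (hθ : 0 ≤ θ)
    (hS : 1 / 2 ≤ S θ) :
    2 * (phi (avg g) - avg (fun x => phi (g x))) + tanL θ (phi (avg g) - avg (fun x => phi (g x)))
      ≤ Dir g := by
  induction n generalizing θ with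
  | zero =>
    have hav : ∀ f : (Fin 0 → Bool) → ℝ, avg f = f default := by
      intro f
      unfold avg
      simp
      congr 1
      exact Subsingleton.elim _ _
    have hD : Dir g = 0 := by
      unfold Dir
      simp
    rw [hav g, hav (fun x => phi (g x)), hD]
    have a2 := rhoθ_tangent hθ (le_refl (0 : ℝ))
    rw [S_zero, rhoθ_zero] at a2
    unfold tanL
    simp only [sub_self, mul_zero, zero_add]
    linarith
  | succ n ih =>
    set gT : (Fin n → Bool) → ℝ := fun y => g (Fin.cons true y) with hgT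
    set gF : (Fin n → Bool) → ℝ := fun y => g (Fin.cons false y) with hgF
    have hT : ∀ y, gT y ∈ Ioo (-1 : ℝ) 1 := fun y => hg _
    have hF : ∀ y, gF y ∈ Ioo (-1 : ℝ) 1 := fun y => hg _
    have hstep := K2_all hKEY gT gF hT hF
    have havg : avg g = (avg gT + avg gF) / 2 := avg_cons g
    have hv : avg (fun x => phi (g x))
        = (avg (fun z => phi (gT z)) + avg (fun z => phi (gF z))) / 2 :=
      avg_cons (fun x => phi (g x))
    have hDir := Dir_cons g
    rw [havg, hv, hDir]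
    set a := avg gT with ha
    set b := avg gF with hb
    set vT := avg (fun z => phi (gT z)) with hvT
    set vF := avg (fun z => phi (gF z)) with hvF
    have hvT0 : 0 < vT := avg_pos' fun z => phi_pos (hT z)
    have hvF0 : 0 < vF := avg_pos' fun z => phi_pos (hF z)
    have hamem : a ∈ Ioo (-1 : ℝ) 1 := avg_mem' hT
    have hbmem : b ∈ Ioo (-1 : ℝ) 1 := avg_mem' hF
    have hp1 := phi_le_one' hamem
    have hp2 := phi_le_one' hbmem
    have habmem : (a + b) / 2 ∈ Ioo (-1 : ℝ) 1 :=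
      ⟨by have := hamem.1; have := hbmem.1; linarith, by have := hamem.2; have := hbmem.2; linarith⟩
    have hp3 := phi_le_one' habmem
    have hDt1 : (phi a + phi b) / 2 - (vT + vF) / 2 < 1 := by linarith
    obtain ⟨θ', h0', hS', hattain, -⟩ := psiC_attain hDt1
    have ih1 := ih gT hT h0' hS'
    have ih2 := ih gF hF h0' hS'
    have hle := tanL_le_psiC hθ hS (show phi ((a + b) / 2) - (vT + vF) / 2 < 1 by linarith)
    unfold tanL at ih1 ih2 hattain
    nlinarith [hstep, ih1, ih2, hattain, hle]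

/-- the low noise case in noise form -/
theorem noise_low {n : ℕ} (F : (Fin n → Bool) → ℝ) (hF : ∀ x, F x = 1 ∨ F x = -1)
    {x₁ x₂ : Fin n → Bool} (hx₁ : F x₁ = 1) (hx₂ : F x₂ = -1)
    {ρ : ℝ} (h0 : 0 ≤ ρ) (h1 : ρ ≤ 1) (hρ : phi ρ ≤ 1 / 2) :
    phi (avg F) - avg (fun y => phi (noise ρ F y)) ≤ 1 - phi ρ := by
  have h := noise_xf_phi F hF hx₁ hx₂ h0 h1
  have ha0 : avg F ∈ Ioo (-1 : ℝ) 1 := by
    rw [← noise_zero F default]
    exact noise_mem_Ioo le_rfl one_pos hF hx₁ hx₂ default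
  have hp := phi_le_one_sub ha0.1 ha0.2
  have hphi0 := phi_nonneg (by linarith : (-1 : ℝ) ≤ ρ) h1
  set a := avg F with ha
  have hL := L_bounds
  have hq : a ^ 2 ≤ 1 := by nlinarith [ha0.1, ha0.2]
  have hq0 : 0 ≤ a ^ 2 := sq_nonneg a
  have hx : xf a = 1 - a ^ 2 * (7 / 5 - 2 / 5 * a ^ 2) := by unfold xf; ring
  have h1L : (7 / 10 : ℝ) ≤ 1 / (2 * L) := by
    rw [le_div_iff₀ (by linarith [hL.1])]
    nlinarith [hL.2]
  have h2 : a ^ 2 * (7 / 5 - 2 / 5 * a ^ 2) * phi ρ ≤ a ^ 2 / (2 * L) := by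
    have e : a ^ 2 / (2 * L) = a ^ 2 * (1 / (2 * L)) := by ring
    rw [e, mul_assoc]
    apply mul_le_mul_of_nonneg_left _ hq0
    have h3 : (7 / 5 - 2 / 5 * a ^ 2) * phi ρ ≤ 7 / 5 * (1 / 2) := by
      have h4 : 0 ≤ 7 / 5 - 2 / 5 * a ^ 2 := by linarith
      have h5 : (7 / 5 - 2 / 5 * a ^ 2) * phi ρ ≤ (7 / 5) * phi ρ :=
        mul_le_mul_of_nonneg_right (by linarith) hphi0
      linarith
    linarith
  rw [hx] at h
  nlinarith

/-- `phi` on `[0,1)` through the parameter -/
theorem phi_eq_S {s : ℝ} (h0 : 0 ≤ s) (h1 : s < 1) : phi s = S (artanh s) := by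
  rw [← phi_tanh, Real.tanh_artanh ⟨by linarith, h1⟩]

theorem phi_anti {s s' : ℝ} (h0 : 0 ≤ s) (h : s ≤ s') (h1 : s' < 1) : phi s' ≤ phi s := by
  rw [phi_eq_S h0 (h.trans_lt h1), phi_eq_S (h0.trans h) h1]
  have t0 : 0 ≤ artanh s := Real.artanh_nonneg h0
  have t1 : artanh s ≤ artanh s' := Real.artanh_le_artanh (by linarith) h1 h
  exact S_strictAnti.antitoneOn t0 (t0.trans t1) t1

/-- the comparison step -/
theorem comparison2 (hKEY : ∀ t q : ℝ, 0 ≤ t → t < 1 → 0 < q → q < 1 → KEYprop t q)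
    {n : ℕ} (F : (Fin n → Bool) → ℝ) (hF : ∀ x, F x = 1 ∨ F x = -1)
    {x₁ x₂ : Fin n → Bool} (hx₁ : F x₁ = 1) (hx₂ : F x₂ = -1)
    {ρ ρ₁ : ℝ} (h0 : 0 < ρ) (hρ : ρ ≤ ρ₁) (h1 : ρ₁ < 1) (hphi1 : 1 / 2 ≤ phi ρ₁)
    (hend : phi (avg F) - avg (fun y => phi (noise ρ₁ F y)) ≤ 1 - phi ρ₁) :
    phi (avg F) - avg (fun y => phi (noise ρ F y)) ≤ 1 - phi ρ := by
  set Δ : ℝ → ℝ := fun s => phi (avg F) - avg (fun y => phi (noise s F y)) - (1 - phi s) with hΔ
  have hL := L_pos
  -- the derivative of `Δ`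
  have hd : ∀ s, 0 < s → s < 1 → ∃ d, HasDerivAt Δ d s ∧
      s * d = Dir (noise s F) - hh (artanh s) := by
    intro s hs0 hs1
    have hg := noise_mem_Ioo hs0.le hs1 hF hx₁ hx₂
    obtain ⟨dV, hdV, hdV'⟩ := avg_hasDerivAt_phi hg
    have hmem : s ∈ Ioo (-1 : ℝ) 1 := ⟨by linarith, hs1⟩
    have hphi := hasDerivAt_phi_semi hmem
    refine ⟨-dV + (-artanh s / L), ?_, ?_⟩
    · have a1 : HasDerivAt (fun r => phi (avg F) - avg (fun y => phi (noise r F y))) (-dV) s := by
        simpa using hdV.const_sub (phi (avg F))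
      have a2 : HasDerivAt (fun r => 1 - phi r) (-(-artanh s / L)) s := by
        simpa using hphi.const_sub 1
      have a3 := a1.sub a2
      refine a3.congr_deriv ?_
      ring
    · unfold hh
      rw [Real.tanh_artanh hmem]
      have e : s * (-dV + -artanh s / L) = -(s * dV) - artanh s * s / L := by
        field_simp
        ring
      rw [e]
      linarith
  -- the basic inequality
  have hbasic : ∀ s, 0 < s → s ≤ ρ₁ → 0 ≤ Δ s → ∀ d, HasDerivAt Δ d s →
      s * d = Dir (noise s F) - hh (artanh s) → 2 * Δ s ≤ s * d := by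
    intro s hs0 hs1 hΔs d _ hd'
    have hs2 : s < 1 := hs1.trans_lt h1
    have hg := noise_mem_Ioo hs0.le hs2 hF hx₁ hx₂
    have hθ : 0 ≤ artanh s := Real.artanh_nonneg hs0.le
    have hphis : phi s = S (artanh s) := phi_eq_S hs0.le hs2
    have hS : 1 / 2 ≤ S (artanh s) := by
      rw [← hphis]
      exact hphi1.trans (phi_anti hs0.le hs1 h1)
    have hb := bellman2 hKEY (noise s F) hg hθ hS
    rw [avg_noise] at hb
    have hΔdef : Δ s = phi (avg F) - avg (fun y => phi (noise s F y)) - (1 - phi s) := rfl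
    unfold tanL at hb
    unfold rhoθ at hb
    rw [hd']
    have hTT := TT_nonneg hθ
    rw [hphis] at hΔdef
    have e : phi (avg F) - avg (fun x => phi (noise s F x)) - 1 + S (artanh s) = Δ s := by
      rw [hΔdef]; ring
    rw [e] at hb
    have := mul_nonneg hTT hΔs
    linarith
  by_contra hcon
  have hΔρ : 0 < Δ ρ := by
    simp only [hΔ]
    linarith [not_le.1 hcon]
  have hcont : ContinuousOn Δ (Icc ρ ρ₁) := by
    intro s hs
    obtain ⟨d, hd1, -⟩ := hd s (h0.trans_le hs.1) (hs.2.trans_lt h1)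
    exact hd1.continuousAt.continuousWithinAt
  -- the first zero
  have hclosed : IsClosed (Icc ρ ρ₁ ∩ Δ ⁻¹' (Iic 0)) :=
    hcont.preimage_isClosed_of_isClosed isClosed_Icc isClosed_Iic
  have hcompact : IsCompact (Icc ρ ρ₁ ∩ Δ ⁻¹' (Iic 0)) :=
    isCompact_Icc.of_isClosed_subset hclosed inter_subset_left
  have hne : (Icc ρ ρ₁ ∩ Δ ⁻¹' (Iic 0)).Nonempty :=
    ⟨ρ₁, right_mem_Icc.2 hρ, by
      show Δ ρ₁ ≤ 0
      simp only [hΔ]
      linarith⟩
  obtain ⟨s₀, hs₀, hleast⟩ := hcompact.exists_isLeast hne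
  have hs₀1 : ρ ≤ s₀ := hs₀.1.1
  have hs₀2 : s₀ ≤ ρ₁ := hs₀.1.2
  have hs₀3 : Δ s₀ ≤ 0 := hs₀.2
  have hpos : ∀ s, ρ ≤ s → s < s₀ → 0 < Δ s := by
    intro s h2 h3
    by_contra h4
    have : s ∈ Icc ρ ρ₁ ∩ Δ ⁻¹' (Iic 0) := ⟨⟨h2, h3.le.trans hs₀2⟩, not_lt.1 h4⟩
    have := hleast this
    linarith
  -- monotonicity
  have hmono : MonotoneOn (fun s => Δ s / s ^ 2) (Icc ρ s₀) := by
    have hds : ∀ s, ρ ≤ s → s ≤ s₀ → ∃ d, HasDerivAt Δ d s ∧
        s * d = Dir (noise s F) - hh (artanh s) := fun s h2 h3 =>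
      hd s (h0.trans_le h2) ((h3.trans hs₀2).trans_lt h1)
    have hdq : ∀ s d, ρ ≤ s → s ≤ s₀ → HasDerivAt Δ d s →
        HasDerivAt (fun s => Δ s / s ^ 2) ((d * s ^ 2 - Δ s * (2 * s)) / (s ^ 2) ^ 2) s := by
      intro s d h2 h3 hd1
      have hs0 : 0 < s := h0.trans_le h2
      have b1 : HasDerivAt (fun s : ℝ => s ^ 2) (2 * s) s := by
        simpa using hasDerivAt_pow 2 s
      exact hd1.div b1 (by positivity)
    apply monotoneOn_of_deriv_nonneg (convex_Icc _ _)
    · intro s hs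
      obtain ⟨d, hd1, -⟩ := hds s hs.1 hs.2
      exact (hdq s d hs.1 hs.2 hd1).continuousAt.continuousWithinAt
    · intro s hs
      rw [interior_Icc] at hs
      obtain ⟨d, hd1, -⟩ := hds s hs.1.le hs.2.le
      exact (hdq s d hs.1.le hs.2.le hd1).differentiableAt.differentiableWithinAt
    · intro s hs
      rw [interior_Icc] at hs
      obtain ⟨d, hd1, hd2⟩ := hds s hs.1.le hs.2.le
      rw [(hdq s d hs.1.le hs.2.le hd1).deriv]
      have hs0 : 0 < s := h0.trans hs.1
      have h3 := hbasic s hs0 (hs.2.le.trans hs₀2) (hpos s hs.1.le hs.2).le d hd1 hd2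
      apply div_nonneg _ (by positivity)
      nlinarith
  have hfin := hmono (left_mem_Icc.2 hs₀1) (right_mem_Icc.2 hs₀1) hs₀1
  simp only at hfin
  have hs₀0 : 0 < s₀ := h0.trans_le hs₀1
  have h5 : 0 < Δ ρ / ρ ^ 2 := by positivity
  have h6 : Δ s₀ / s₀ ^ 2 ≤ 0 := div_nonpos_of_nonpos_of_nonneg hs₀3 (by positivity)
  linarith

/-- the full inequality for nonconstant `F` -/
theorem noise_full (hKEY : ∀ t q : ℝ, 0 ≤ t → t < 1 → 0 < q → q < 1 → KEYprop t q)
    {n : ℕ} (F : (Fin n → Bool) → ℝ) (hF : ∀ x, F x = 1 ∨ F x = -1)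
    {x₁ x₂ : Fin n → Bool} (hx₁ : F x₁ = 1) (hx₂ : F x₂ = -1)
    {ρ : ℝ} (h0 : 0 ≤ ρ) (h1 : ρ ≤ 1) :
    phi (avg F) - avg (fun y => phi (noise ρ F y)) ≤ 1 - phi ρ := by
  by_cases hρ : phi ρ ≤ 1 / 2
  · exact noise_low F hF hx₁ hx₂ h0 h1 hρ
  have hρ' : 1 / 2 < phi ρ := not_le.1 hρ
  have hρ1 : ρ < 1 := by
    rcases h1.lt_or_eq with h | h
    · exact h
    · rw [h, phi_one_semi] at hρ'
      norm_num at hρ'
  rcases h0.eq_or_lt with h | h
  · rw [← h]
    simp only [noise_zero]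
    rw [avg_constG, phi_zero_semi]
    linarith
  -- the point `ρ₁`
  set ρ₁ := tanh θc with hρ₁
  have hρ₁1 : ρ₁ < 1 := Real.tanh_lt_one _
  have hphiρ₁ : phi ρ₁ = 1 / 2 := by
    rw [hρ₁, phi_tanh, S_θc]
  have hρρ₁ : ρ ≤ ρ₁ := by
    by_contra hcon
    have h2 : ρ₁ ≤ ρ := (not_le.1 hcon).le
    have h3 : 0 ≤ ρ₁ := by
      rw [hρ₁, ← Real.tanh_zero]
      exact tanh_mono' θc_nonneg
    have := phi_anti h3 h2 hρ1
    linarith
  have hend := noise_low F hF hx₁ hx₂ (h.le.trans hρρ₁) hρ₁1.le hphiρ₁.le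
  exact comparison2 hKEY F hF hx₁ hx₂ h hρρ₁ hρ₁1 hphiρ₁.ge hend

/-- the Courtade-Kumar inequality from the numerical input -/
theorem mutualInfo_full (hKEY : ∀ t q : ℝ, 0 ≤ t → t < 1 → 0 < q → q < 1 → KEYprop t q)
    {n : ℕ} (f : (Fin n → Bool) → Bool) {ε : ℝ} (h0 : 0 ≤ ε) (h1 : ε ≤ 1 / 2) :
    mutualInfoBits f ε ≤ 1 - Real.binEntropy ε / Real.log 2 := by
  by_cases hc : ∃ x₁ x₂, signOf f x₁ = 1 ∧ signOf f x₂ = -1
  · obtain ⟨x₁, x₂, hx₁, hx₂⟩ := hc
    have ha0 : avg (signOf f) ∈ Ioo (-1 : ℝ) 1 := by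
      rw [← noise_zero (signOf f) default]
      exact noise_mem_Ioo le_rfl one_pos (signOf_cases f) hx₁ hx₂ default
    rw [mutualInfo_eq_gen f ha0 h0 h1]
    have := noise_full hKEY (signOf f) (signOf_cases f) hx₁ hx₂ (ρ := 1 - 2 * ε)
      (by linarith) (by linarith)
    rw [phi_one_sub_two_mul] at this
    exact this
  · -- constant
    have hconst : ∃ b, ∀ x, f x = b := by
      by_cases hb : ∃ x, f x = true
      · obtain ⟨x₁, hx₁⟩ := hb
        refine ⟨true, fun x => ?_⟩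
        by_contra hne
        have hfx : f x = false := by simpa using hne
        apply hc
        refine ⟨x₁, x, ?_, ?_⟩
        · unfold signOf sgn; rw [hx₁]; simp
        · unfold signOf sgn; rw [hfx]; simp
      · refine ⟨false, fun x => ?_⟩
        by_contra hne
        have hfx : f x = true := by simpa using hne
        exact hb ⟨x, hfx⟩
    obtain ⟨b, hb⟩ := hconst
    rw [mutualInfo_const f b hb ε]
    exact one_sub_binEntropy_nonneg ε

end

end CK322
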