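import Vale.Agent.Lib.P322.Defs

/-!
Dirichlet form recursion on the discrete cube, and the induction step of the Bellman
inequality, with the one-step inequality and the base case as explicit hypotheses.
-/

open Real Set

namespace CK322

noncomputable section

theorem D1_symm' (u w : ℝ) : D1 u w = D1 w u := by
  unfold D1; ring

/-- The average over the cube splits at the first coordinate. -/
theorem avg_cons {n : ℕ} (h : (Fin (n + 1) → Bool) → ℝ) :
    avg h = (avg (fun y : Fin n → Bool => h (Fin.cons true y))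
      + avg (fun y : Fin n → Bool => h (Fin.cons false y))) / 2 := by
  unfold avg
  have hsum : ∑ z, h z = ∑ y : Fin n → Bool, h (Fin.cons true y)
      + ∑ y : Fin n → Bool, h (Fin.cons false y) := by
    rw [← Fintype.sum_equiv (Fin.consEquiv (fun _ : Fin (n + 1) => Bool))
      (fun p : Bool × (Fin n → Bool) => h (Fin.cons p.1 p.2)) h (fun p => rfl)]
    rw [Fintype.sum_prod_type, Fintype.sum_bool]
  rw [hsum]
  simp only [Fintype.card_fun, Fintype.card_bool, Fintype.card_fin]
  push_cast
  have h2 : ((2 : ℝ) ^ n) ≠ 0 := by positivity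
  field_simp
  ring

theorem flip_cons_zero {n : ℕ} (b : Bool) (y : Fin n → Bool) :
    flip (0 : Fin (n + 1)) (Fin.cons b y : Fin (n + 1) → Bool) = Fin.cons (!b) y := by
  unfold flip
  simp [Fin.update_cons_zero]

theorem flip_cons_succ {n : ℕ} (j : Fin n) (b : Bool) (y : Fin n → Bool) :
    flip j.succ (Fin.cons b y : Fin (n + 1) → Bool) = Fin.cons b (flip j y) := by
  unfold flip
  simp [Fin.cons_update]

/-- Recursion of the Dirichlet form along the first coordinate. -/
theorem Dir_cons {n : ℕ} (g : (Fin (n + 1) → Bool) → ℝ) :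
    Dir g = (Dir (fun y : Fin n → Bool => g (Fin.cons true y))
        + Dir (fun y : Fin n → Bool => g (Fin.cons false y))) / 2
      + avg (fun y : Fin n → Bool => D1 (g (Fin.cons true y)) (g (Fin.cons false y))) := by
  unfold Dir
  rw [Fin.sum_univ_succ]
  have h0 : avg (fun x => D1 (g x) (g (flip (0 : Fin (n + 1)) x)))
      = avg (fun y : Fin n → Bool => D1 (g (Fin.cons true y)) (g (Fin.cons false y))) := by
    rw [avg_cons]
    simp only [flip_cons_zero, Bool.not_true, Bool.not_false]
    simp_rw [D1_symm' (g (Fin.cons false _)) (g (Fin.cons true _))]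
    ring
  have hs : ∀ j : Fin n, avg (fun x => D1 (g x) (g (flip j.succ x)))
      = (avg (fun y : Fin n → Bool => D1 (g (Fin.cons true y)) (g (Fin.cons true (flip j y))))
        + avg (fun y : Fin n → Bool => D1 (g (Fin.cons false y)) (g (Fin.cons false (flip j y)))))
          / 2 := by
    intro j
    rw [avg_cons]
    simp only [flip_cons_succ]
  rw [h0]
  simp_rw [hs]
  rw [← Finset.sum_div, Finset.sum_add_distrib]
  ring

/-- The Bellman inequality for all functions on the cube, from the one-step inequality (as a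
hypothesis for functions on cubes) and the base case. -/
theorem bellman_of
    (hbase : ∀ a : ℝ, a ∈ Ioo (-1 : ℝ) 1 → ∀ θ : ℝ, 0 ≤ θ → alR θ * xf a - TT θ * phi a ≤ 0)
    (hK : ∀ (n : ℕ) (u w : (Fin n → Bool) → ℝ),
      (∀ z, u z ∈ Ioo (-1 : ℝ) 1) → (∀ z, w z ∈ Ioo (-1 : ℝ) 1) → ∀ θ : ℝ, 0 ≤ θ →
      ∃ θ', 0 ≤ θ' ∧
        2 * (phi ((avg u + avg w) / 2) - (phi (avg u) + phi (avg w)) / 2)
          + alR θ * xf ((avg u + avg w) / 2)
          - TT θ * ((avg (fun z => phi (u z)) + avg (fun z => phi (w z))) / 2)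
        ≤ avg (fun z => D1 (u z) (w z))
          + alR θ' * ((xf (avg u) + xf (avg w)) / 2)
          - TT θ' * ((avg (fun z => phi (u z)) + avg (fun z => phi (w z))) / 2))
    {n : ℕ} (g : (Fin n → Bool) → ℝ) (hg : ∀ x, g x ∈ Ioo (-1 : ℝ) 1) {θ : ℝ} (hθ : 0 ≤ θ) :
    2 * (phi (avg g) - avg (fun x => phi (g x))) + alR θ * xf (avg g)
        - TT θ * avg (fun x => phi (g x))
      ≤ Dir g := by
  induction n generalizing θ with
  | zero =>
    have hav : ∀ f : (Fin 0 → Bool) → ℝ, avg f = f default := by
      intro f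
      unfold avg
      simp
      congr 1
      exact Subsingleton.elim _ _
    have hD : Dir g = 0 := by
      unfold Dir
      simp
    rw [hav g, hav (fun x => phi (g x)), hD]
    have := hbase (g default) (hg default) θ hθ
    linarith
  | succ n ih =>
    set gT : (Fin n → Bool) → ℝ := fun y => g (Fin.cons true y) with hgT
    set gF : (Fin n → Bool) → ℝ := fun y => g (Fin.cons false y) with hgF
    have hT : ∀ y, gT y ∈ Ioo (-1 : ℝ) 1 := fun y => hg _
    have hF : ∀ y, gF y ∈ Ioo (-1 : ℝ) 1 := fun y => hg _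
    obtain ⟨θ', hθ', hstep⟩ := hK n gT gF hT hF θ hθ
    have ih1 := ih gT hT hθ'
    have ih2 := ih gF hF hθ'
    have havg : avg g = (avg gT + avg gF) / 2 := avg_cons g
    have hv : avg (fun x => phi (g x))
        = (avg (fun z => phi (gT z)) + avg (fun z => phi (gF z))) / 2 :=
      avg_cons (fun x => phi (g x))
    have hDir := Dir_cons g
    rw [havg, hv, hDir]
    nlinarith [hstep, ih1, ih2]

end

end CK322
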