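import Mathlib

/-!
Courtade-Kumar, balanced case: core definitions shared by all modules.
All modules live in `Vale/Agent/Lib/P322/`, namespace `CK322`.
-/

open Real

namespace CK322

noncomputable section

/-- `log 2`. -/
def L : ℝ := Real.log 2

/-- `phi u = h₂((1+u)/2)` in bits. -/
def phi (u : ℝ) : ℝ := Real.binEntropy ((1 + u) / 2) / L

/-- a quarter of the Jeffreys divergence, in bits. -/
def D1 (u w : ℝ) : ℝ := (u - w) * (artanh u - artanh w) / (4 * L)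

/-- entropy in nats of `(1 + tanh θ)/2`. -/
def Phi (θ : ℝ) : ℝ := L - θ * tanh θ + log (cosh θ)

/-- `S θ = phi (tanh θ)`. -/
def S (θ : ℝ) : ℝ := Phi θ / L

/-- `hh θ = D1 (tanh θ) (-tanh θ)`. -/
def hh (θ : ℝ) : ℝ := θ * tanh θ / L

/-- `sinh (2θ) / (2θ)`, with value `1` at `0`. -/
def zeta (θ : ℝ) : ℝ := if θ = 0 then 1 else sinh (2 * θ) / (2 * θ)

def TT (θ : ℝ) : ℝ := zeta θ - 1

/-- `rho(S θ)` where `rho s = Psi s - 2 (1 - s)`, `Psi (S θ) = hh θ`. -/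
def rhoθ (θ : ℝ) : ℝ := hh θ - 2 + 2 * S θ

def alR (θ : ℝ) : ℝ := hh θ - 2 + S θ * (zeta θ + 1)

/-- `f = s^2 |Psi''(s)|` in the parameter `θ`, for `θ > 0`. -/
def fF (θ : ℝ) : ℝ :=
  Phi θ ^ 2 * cosh θ ^ 2 * (θ * cosh (2 * θ) - sinh (2 * θ) / 2) / (L * θ ^ 3)

/-- the cost function `x(a)` of the Bellman function (`η = 2/5`). -/
def xf (a : ℝ) : ℝ := (1 - a ^ 2) * (1 - 2 / 5 * a ^ 2)

/-- `xf a - (xf (a+d) + xf (a-d)) / 2`. -/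
def Ix (a d : ℝ) : ℝ := d ^ 2 * (7 / 5 - 2 / 5 * (6 * a ^ 2 + d ^ 2))

/-- `gam θ = -1/(L y'(θ))` where `y θ = S θ / tanh θ`. -/
def gam (θ : ℝ) : ℝ := sinh θ ^ 2 / log (2 * cosh θ)

/-- inverse of `S` on `[0,∞)`. -/
def Sinv (s : ℝ) : ℝ := Function.invFunOn S (Set.Ici 0) s

def rhoT (s : ℝ) : ℝ := if s < 1 then rhoθ (Sinv s) else 0

def TTs (s : ℝ) : ℝ := if s < 1 then TT (Sinv s) else 0

/-- the perspective function `R(x,v) = x rho(v/x)`, `0` if `v ≥ x`. -/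
def RR (x v : ℝ) : ℝ := x * rhoT (v / x)

/-! coordinates `(t,q)`: `aP = (t+q)/(1+tq)`, `aM = (t-q)/(1-tq)`. -/

def ZZ (t q : ℝ) : ℝ := 1 - t ^ 2 * q ^ 2
def eps (t q : ℝ) : ℝ := t ^ 2 * (1 - q ^ 2) / ZZ t q
def p0 (t q : ℝ) : ℝ := (1 - t ^ 2) / ZZ t q
def uu (t q : ℝ) : ℝ := (1 - q ^ 2) / ZZ t q
def abar (t q : ℝ) : ℝ := t * uu t q
def delt (t q : ℝ) : ℝ := q * p0 t q
def aP (t q : ℝ) : ℝ := (t + q) / (1 + t * q)
def aM (t q : ℝ) : ℝ := (t - q) / (1 - t * q)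

/-- the excess `𝓛`. -/
def LL (t q : ℝ) : ℝ :=
  eps t q * (-log (1 - q ^ 2)) + log (1 + eps t q * q ^ 2) - 2 * abar t q * artanh (t * q ^ 2)

def N1 (t q : ℝ) : ℝ := LL t q / eps t q

def QQ (t q : ℝ) : ℝ :=
  (1 - abar t q ^ 2) * (q ^ 2 * ZZ t q / (1 - t ^ 2 * q ^ 4) - 2 / 5 * uu t q)

def Y1 (t q : ℝ) : ℝ := (1 - q ^ 2) * (1 + t ^ 2 * q ^ 2) / ZZ t q

def Xl (t q : ℝ) : ℝ := 3 / 5 * Y1 t q + 2 / 5 * p0 t q * Y1 t q ^ 2

def Bplus (X s : ℝ) : ℝ := if s < X then s - X + X * log (X / s) else 0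

/-! the discrete cube -/

/-- uniform average over a finite type -/
def avg {Z : Type*} [Fintype Z] (g : Z → ℝ) : ℝ := (∑ z, g z) / (Fintype.card Z : ℝ)

/-- flip coordinate `i`. -/
def flip {n : ℕ} (i : Fin n) (x : Fin n → Bool) : Fin n → Bool := Function.update x i (!x i)

/-- the Dirichlet form `D(g) = Σ_i E_x D1 (g x) (g (flip i x))`. -/
def Dir {n : ℕ} (g : (Fin n → Bool) → ℝ) : ℝ :=
  ∑ i : Fin n, avg (fun x => D1 (g x) (g (flip i x)))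

end

end CK322
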