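import Vale.Agent.Lib.P322.Theta

open Real Set Filter Topology

namespace CK322

noncomputable section

/-! ## Module M : MBound.lean -/

private theorem mb_cosh_ne (θ : ℝ) : cosh θ ≠ 0 := (Real.cosh_pos θ).ne'

private theorem mb_L_ne : L ≠ 0 := L_pos.ne'

/-- `log (2 cosh θ) > 1/2`, in fact `≥ log 2`. -/
private theorem mb_log_two_cosh_ge (θ : ℝ) : L ≤ log (2 * cosh θ) := by
  unfold L
  apply Real.log_le_log (by norm_num)
  have := Real.one_le_cosh θ
  linarith

private theorem mb_log_two_cosh_pos (θ : ℝ) : 0 < log (2 * cosh θ) :=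
  lt_of_lt_of_le L_pos (mb_log_two_cosh_ge θ)

theorem gam_pos {θ : ℝ} (h : 0 < θ) : 0 < gam θ := by
  unfold gam
  have : 0 < sinh θ := Real.sinh_pos_iff.mpr h
  have h2 := mb_log_two_cosh_pos θ
  positivity

private theorem mb_hasDerivAt_log2cosh (θ : ℝ) :
    HasDerivAt (fun x => log (2 * cosh x)) (sinh θ / cosh θ) θ := by
  have h1 : HasDerivAt (fun x => 2 * cosh x) (2 * sinh θ) θ :=
    (Real.hasDerivAt_cosh θ).const_mul 2
  have h2 := h1.log (by have := Real.cosh_pos θ; positivity)
  refine h2.congr_deriv ?_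
  have := mb_cosh_ne θ
  field_simp

private theorem mb_hasDerivAt_gam (θ : ℝ) :
    HasDerivAt gam
      ((2 * sinh θ * cosh θ * log (2 * cosh θ) - sinh θ ^ 2 * (sinh θ / cosh θ))
        / log (2 * cosh θ) ^ 2) θ := by
  have h1 : HasDerivAt (fun x => sinh x ^ 2) (2 * sinh θ * cosh θ) θ := by
    have := (Real.hasDerivAt_sinh θ).pow 2
    refine this.congr_deriv ?_
    simp
  have h2 := h1.div (mb_hasDerivAt_log2cosh θ) (mb_log_two_cosh_pos θ).ne'
  exact h2

theorem gam_mono : MonotoneOn gam (Ioi 0) := by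
  apply monotoneOn_of_deriv_nonneg (convex_Ioi 0)
  · exact fun x _ => (mb_hasDerivAt_gam x).continuousAt.continuousWithinAt
  · exact fun x _ => (mb_hasDerivAt_gam x).differentiableAt.differentiableWithinAt
  · intro θ hθ
    rw [interior_Ioi] at hθ
    have hθ' : (0:ℝ) < θ := hθ
    rw [(mb_hasDerivAt_gam θ).deriv]
    apply div_nonneg _ (by positivity)
    have hs : 0 < sinh θ := Real.sinh_pos_iff.mpr hθ'
    have hc := Real.cosh_pos θ
    have hl : (1 / 2 : ℝ) ≤ log (2 * cosh θ) := by
      have h1 := mb_log_two_cosh_ge θ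
      have h2 := L_bounds.1
      norm_num at h2
      linarith
    have hsc : sinh θ ≤ cosh θ := (Real.sinh_lt_cosh θ).le
    -- `sinh² · (sinh / cosh) ≤ sinh · cosh`
    have h3 : sinh θ ^ 2 * (sinh θ / cosh θ) ≤ sinh θ * cosh θ := by
      rw [show sinh θ ^ 2 * (sinh θ / cosh θ) = sinh θ * (sinh θ * (sinh θ / cosh θ)) by ring]
      apply mul_le_mul_of_nonneg_left _ hs.le
      have h4 : sinh θ / cosh θ ≤ 1 := by
        rw [div_le_one hc]; exact hsc
      have h5 : 0 ≤ sinh θ / cosh θ := by positivity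
      nlinarith
    have h6 : sinh θ * cosh θ ≤ 2 * sinh θ * cosh θ * log (2 * cosh θ) := by
      have : 0 < sinh θ * cosh θ := by positivity
      nlinarith
    linarith

/-- `θ tanh θ + Phi θ = log (2 cosh θ)`. -/
private theorem mb_Phi_add (θ : ℝ) : θ * tanh θ + Phi θ = log (2 * cosh θ) := by
  unfold Phi L
  rw [Real.log_mul (by norm_num) (mb_cosh_ne θ)]
  ring

theorem hasDerivAt_y {θ : ℝ} (h : 0 < θ) :
    HasDerivAt (fun s => S s / tanh s) (-1 / (L * gam θ)) θ := by
  have hs : 0 < sinh θ := Real.sinh_pos_iff.mpr h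
  have hc := Real.cosh_pos θ
  have htanh : tanh θ ≠ 0 := by
    rw [Real.tanh_eq_sinh_div_cosh]; positivity
  have h1 := (hasDerivAt_S θ).div (hasDerivAt_tanh_aux θ) htanh
  refine h1.congr_deriv ?_
  have hl := mb_log_two_cosh_pos θ
  have hPhi := mb_Phi_add θ
  have hL := mb_L_ne
  unfold gam
  rw [← hPhi]
  have hpos : θ * tanh θ + Phi θ ≠ 0 := by rw [hPhi]; exact hl.ne'
  have hSdef : S θ = Phi θ / L := rfl
  rw [hSdef, Real.tanh_eq_sinh_div_cosh]
  rw [Real.tanh_eq_sinh_div_cosh] at hpos
  have hpos2 : θ * sinh θ + Phi θ * cosh θ ≠ 0 := by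
    intro h0
    apply hpos
    field_simp
    linarith
  field_simp
  ring

/-! ### Lemma (b) -/

/-- the function `N(c)`. -/
private def mbN (C2 c : ℝ) : ℝ :=
  (cosh (2 * c) + C2) * log (2 * (cosh (2 * c) + C2)) - 2 * c * sinh (2 * c)

private theorem mb_cosh_sum (a b : ℝ) : cosh (a + b) + cosh (a - b) = 2 * (cosh a * cosh b) := by
  rw [Real.cosh_add a b, Real.cosh_sub a b]
  ring

private theorem mb_Phi_sum (c θ : ℝ) :
    (Phi (c + θ) + Phi (c - θ)) * (cosh (2 * c) + cosh (2 * θ))
      = mbN (cosh (2 * θ)) c - 2 * θ * sinh (2 * θ) := by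
  set a := c + θ with ha
  set b := c - θ with hb
  have hca := Real.cosh_pos a
  have hcb := Real.cosh_pos b
  have h1 : cosh (2 * c) + cosh (2 * θ) = 2 * (cosh a * cosh b) := by
    have e1 : 2 * c = a + b := by rw [ha, hb]; ring
    have e2 : 2 * θ = a - b := by rw [ha, hb]; ring
    rw [e1, e2]
    exact mb_cosh_sum a b
  have hs1 : sinh (2 * c) = sinh a * cosh b + cosh a * sinh b := by
    have e1 : 2 * c = a + b := by rw [ha, hb]; ring
    rw [e1]
    exact Real.sinh_add a b
  have hs2 : sinh (2 * θ) = sinh a * cosh b - cosh a * sinh b := by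
    have e2 : 2 * θ = a - b := by rw [ha, hb]; ring
    rw [e2]
    exact Real.sinh_sub a b
  have hlog : log (2 * (cosh (2 * c) + cosh (2 * θ))) = 2 * L + log (cosh a) + log (cosh b) := by
    rw [h1, show (2 : ℝ) * (2 * (cosh a * cosh b)) = 4 * (cosh a * cosh b) by ring,
      Real.log_mul (by norm_num) (by positivity), Real.log_mul hca.ne' hcb.ne']
    rw [show (4:ℝ) = 2 ^ 2 by norm_num, Real.log_pow]
    unfold L
    push_cast
    ring
  unfold mbN
  rw [hlog, h1, hs1, hs2]
  unfold Phi
  rw [Real.tanh_eq_sinh_div_cosh, Real.tanh_eq_sinh_div_cosh]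
  have e3 : a + b = 2 * c := by rw [ha, hb]; ring
  have e4 : a - b = 2 * θ := by rw [ha, hb]; ring
  have ec : c = (a + b) / 2 := by linarith
  have et : θ = (a - b) / 2 := by linarith
  rw [ec, et]
  field_simp
  ring

private theorem mb_hasDerivAt_N (C2 c : ℝ) (hC2 : 1 ≤ C2) :
    HasDerivAt (mbN C2)
      (2 * sinh (2 * c) * log (2 * (cosh (2 * c) + C2)) - 4 * c * cosh (2 * c)) c := by
  have h2 : HasDerivAt (fun x : ℝ => 2 * x) 2 c := by
    simpa using (hasDerivAt_id c).const_mul (2:ℝ)
  have hch : HasDerivAt (fun x : ℝ => cosh (2 * x)) (sinh (2 * c) * 2) c :=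
    (Real.hasDerivAt_cosh (2 * c)).comp c h2
  have hsh : HasDerivAt (fun x : ℝ => sinh (2 * x)) (cosh (2 * c) * 2) c :=
    (Real.hasDerivAt_sinh (2 * c)).comp c h2
  have hpos : 0 < cosh (2 * c) + C2 := by
    have := Real.cosh_pos (2 * c)
    linarith
  have hA : HasDerivAt (fun x : ℝ => cosh (2 * x) + C2) (sinh (2 * c) * 2) c :=
    hch.add_const C2
  have hB : HasDerivAt (fun x : ℝ => 2 * (cosh (2 * x) + C2)) (2 * (sinh (2 * c) * 2)) c :=
    hA.const_mul 2
  have hlog := hB.log (by positivity : 2 * (cosh (2 * c) + C2) ≠ 0)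
  have h1 := hA.mul hlog
  have h3 := h2.mul hsh
  have h4 := h1.sub h3
  refine h4.congr_deriv ?_
  field_simp
  ring

/-- the scalar inequality `log (2 cosh c) ≥ c coth 2c`, multiplied out. -/
private theorem mb_key {c : ℝ} (hc : 0 ≤ c) :
    2 * c * cosh (2 * c) ≤ 2 * sinh (2 * c) * log (2 * cosh c) := by
  rcases hc.eq_or_lt with rfl | hc'
  · simp
  set Y := exp (-2 * c) with hY
  have hYpos : 0 < Y := exp_pos _
  have hY1 : Y < 1 := by
    rw [hY, Real.exp_lt_one_iff]
    linarith
  have hE : exp (2 * c) * Y = 1 := by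
    rw [hY, ← exp_add]; simp
  have hEpos : 0 < exp (2 * c) := exp_pos _
  have hc2 : cosh (2 * c) = exp (2 * c) * (1 + Y ^ 2) / 2 := by
    rw [Real.cosh_eq, show -(2 * c) = -2 * c by ring, ← hY]
    have : Y = exp (2 * c) * Y ^ 2 := by
      rw [pow_two, ← mul_assoc, hE, one_mul]
    nth_rewrite 1 [this]
    ring
  have hs2 : sinh (2 * c) = exp (2 * c) * (1 - Y ^ 2) / 2 := by
    rw [Real.sinh_eq, show -(2 * c) = -2 * c by ring, ← hY]
    have : Y = exp (2 * c) * Y ^ 2 := by
      rw [pow_two, ← mul_assoc, hE, one_mul]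
    nth_rewrite 1 [this]
    ring
  have hlog : log (2 * cosh c) = c + log (1 + Y) := by
    have h1 : 2 * cosh c = exp c * (1 + Y) := by
      rw [Real.cosh_eq, hY]
      have : exp c * exp (-2 * c) = exp (-c) := by
        rw [← exp_add]; congr 1; ring
      nlinarith
    rw [h1, Real.log_mul (exp_pos c).ne' (by positivity), Real.log_exp]
  have hlogY : log (1 / Y) = 2 * c := by
    rw [hY, one_div, Real.log_inv, Real.log_exp]; ring
  -- `(1 - Y²) log (1 + Y) ≥ Y² log (1/Y) = 2 c Y²`
  have h1 : log (1 / Y) ≤ 1 / Y - 1 := by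
    have := Real.log_le_sub_one_of_pos (show 0 < 1 / Y by positivity)
    linarith
  have h2 : Y / (1 + Y) ≤ log (1 + Y) := by
    have := Real.one_sub_inv_le_log_of_pos (show 0 < 1 + Y by positivity)
    have e : 1 - (1 + Y)⁻¹ = Y / (1 + Y) := by
      field_simp
      ring
    linarith
  have h3 : 2 * c * Y ^ 2 ≤ (1 - Y ^ 2) * log (1 + Y) := by
    have h4 : 2 * c * Y ^ 2 ≤ Y * (1 - Y) := by
      rw [← hlogY]
      have : log (1 / Y) * Y ^ 2 ≤ (1 / Y - 1) * Y ^ 2 :=
        mul_le_mul_of_nonneg_right h1 (by positivity)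
      have e : (1 / Y - 1) * Y ^ 2 = Y * (1 - Y) := by
        field_simp
      linarith
    have h5 : Y * (1 - Y) ≤ (1 - Y ^ 2) * log (1 + Y) := by
      have h6 : (1 - Y ^ 2) * (Y / (1 + Y)) = Y * (1 - Y) := by
        field_simp
        ring
      rw [← h6]
      apply mul_le_mul_of_nonneg_left h2
      nlinarith
    linarith
  rw [hc2, hs2, hlog]
  have h7 : 0 < exp (2 * c) := hEpos
  have h8 : 2 * c * (exp (2 * c) * (1 + Y ^ 2) / 2)
      ≤ 2 * (exp (2 * c) * (1 - Y ^ 2) / 2) * (c + log (1 + Y)) ↔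
      2 * c * Y ^ 2 ≤ (1 - Y ^ 2) * (2 * log (1 + Y)) / 2 * 1 := by
    constructor
    · intro h
      have : 0 ≤ exp (2 * c) * ((1 - Y ^ 2) * log (1 + Y) - 2 * c * Y ^ 2) := by nlinarith
      have := nonneg_of_mul_nonneg_right this h7
      linarith
    · intro h
      have : 0 ≤ exp (2 * c) * ((1 - Y ^ 2) * log (1 + Y) - 2 * c * Y ^ 2) :=
        mul_nonneg h7.le (by linarith)
      nlinarith
  rw [h8]
  linarith

private theorem mb_N_mono {C2 : ℝ} (hC2 : 1 ≤ C2) : MonotoneOn (mbN C2) (Ici 0) := by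
  apply monotoneOn_of_deriv_nonneg (convex_Ici 0)
  · exact fun x _ => (mb_hasDerivAt_N C2 x hC2).continuousAt.continuousWithinAt
  · exact fun x _ => (mb_hasDerivAt_N C2 x hC2).differentiableAt.differentiableWithinAt
  · intro c hc
    rw [interior_Ici] at hc
    have hc' : (0:ℝ) < c := hc
    rw [(mb_hasDerivAt_N C2 c hC2).deriv]
    have hk := mb_key hc'.le
    have hs : 0 < sinh (2 * c) := Real.sinh_pos_iff.mpr (by positivity)
    have hle : 2 * (log (2 * cosh c)) ≤ log (2 * (cosh (2 * c) + C2)) := by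
      have e : 2 * log (2 * cosh c) = log ((2 * cosh c) ^ 2) := by
        rw [Real.log_pow]; push_cast; ring
      rw [e]
      apply Real.log_le_log (by have := Real.cosh_pos c; positivity)
      have h2 := Real.cosh_sq c
      have h3 : cosh (2 * c) = 2 * cosh c ^ 2 - 1 := by
        rw [Real.cosh_two_mul]; nlinarith
      rw [h3]
      nlinarith
    nlinarith

private theorem mb_S_even (θ : ℝ) : S (-θ) = S θ := by
  unfold S Phi
  rw [Real.tanh_neg, Real.cosh_neg]
  ring

/-- Lemma (b) -/
theorem lemma_b (c θ : ℝ) :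
    4 * cosh θ ^ 2 * S θ ≤ (S (c + θ) + S (c - θ)) * (cosh (2*c) + cosh (2*θ)) := by
  wlog hc : 0 ≤ c generalizing c
  · have := this (-c) (by linarith)
    have e1 : S (-c + θ) = S (c - θ) := by
      rw [← mb_S_even]; congr 1; ring
    have e2 : S (-c - θ) = S (c + θ) := by
      rw [← mb_S_even]; congr 1; ring
    have e3 : cosh (2 * -c) = cosh (2 * c) := by
      rw [show 2 * -c = -(2 * c) by ring, Real.cosh_neg]
    rw [e1, e2, e3] at this
    linarith
  have hL := L_pos
  have hC2 : 1 ≤ cosh (2 * θ) := Real.one_le_cosh _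
  have hm := mb_N_mono hC2 (mem_Ici.mpr le_rfl) (mem_Ici.mpr hc) hc
  have h1 := mb_Phi_sum c θ
  have h0 := mb_Phi_sum 0 θ
  have e0 : Phi (0 + θ) + Phi (0 - θ) = 2 * Phi θ := by
    have : Phi (0 - θ) = Phi θ := by
      rw [zero_sub]
      unfold Phi
      rw [Real.tanh_neg, Real.cosh_neg]
      ring
    rw [zero_add, this]; ring
  have e1 : cosh (2 * 0) + cosh (2 * θ) = 2 * cosh θ ^ 2 := by
    rw [mul_zero, Real.cosh_zero, Real.cosh_two_mul]
    have := Real.cosh_sq θ
    nlinarith
  rw [e0, e1] at h0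
  -- combine
  have h2 : 4 * cosh θ ^ 2 * Phi θ ≤ (Phi (c + θ) + Phi (c - θ)) * (cosh (2 * c) + cosh (2 * θ)) := by
    rw [h1]
    linarith
  have hS : ∀ x, S x = Phi x / L := fun _ => rfl
  rw [hS θ, hS (c + θ), hS (c - θ)]
  have e : (Phi (c + θ) / L + Phi (c - θ) / L) * (cosh (2 * c) + cosh (2 * θ))
      = ((Phi (c + θ) + Phi (c - θ)) * (cosh (2 * c) + cosh (2 * θ))) / L := by
    field_simp
  rw [e, show 4 * cosh θ ^ 2 * (Phi θ / L) = (4 * cosh θ ^ 2 * Phi θ) / L by ring]
  exact div_le_div_of_nonneg_right h2 hL.le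

/-! ### pointwise M-bound -/

private theorem mb_y_pos {θ : ℝ} (h : 0 < θ) : 0 < S θ / tanh θ := by
  have hs : 0 < sinh θ := Real.sinh_pos_iff.mpr h
  have hc := Real.cosh_pos θ
  have ht : 0 < tanh θ := by rw [Real.tanh_eq_sinh_div_cosh]; positivity
  exact div_pos (S_pos θ) ht

/-- `θ' ↦ θ' + L gam(θ) y(θ')` is minimal at `θ' = θ`. -/
private theorem mb_min {θ θ' : ℝ} (h : 0 < θ) (h' : 0 < θ') :
    θ + L * gam θ * (S θ / tanh θ) ≤ θ' + L * gam θ * (S θ' / tanh θ') := by
  have hL := L_pos
  have hg := gam_pos h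
  set G : ℝ → ℝ := fun x => x + L * gam θ * (S x / tanh x) with hG
  have hd : ∀ x, 0 < x → HasDerivAt G (1 + L * gam θ * (-1 / (L * gam x))) x := by
    intro x hx
    exact (hasDerivAt_id x).add ((hasDerivAt_y hx).const_mul _)
  have hdv : ∀ x, 0 < x → deriv G x = 1 - gam θ / gam x := by
    intro x hx
    rw [(hd x hx).deriv]
    have := gam_pos hx
    field_simp
    ring
  have hcont : ContinuousOn G (Ioi 0) := fun x hx =>
    (hd x hx).continuousAt.continuousWithinAt
  rcases le_total θ θ' with hle | hle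
  · have hm : MonotoneOn G (Ici θ) := by
      apply monotoneOn_of_deriv_nonneg (convex_Ici θ)
      · exact hcont.mono (fun x hx => lt_of_lt_of_le h hx)
      · intro x hx
        rw [interior_Ici] at hx
        exact (hd x (lt_trans h hx)).differentiableAt.differentiableWithinAt
      · intro x hx
        rw [interior_Ici] at hx
        have hx0 : 0 < x := lt_trans h hx
        rw [hdv x hx0]
        have hgx := gam_pos hx0
        have : gam θ ≤ gam x := gam_mono h hx0 (le_of_lt hx)
        rw [sub_nonneg, div_le_one hgx]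
        exact this
    exact hm (mem_Ici.mpr le_rfl) (mem_Ici.mpr hle) hle
  · have hm : AntitoneOn G (Icc θ' θ) := by
      apply antitoneOn_of_deriv_nonpos (convex_Icc θ' θ)
      · exact hcont.mono (fun x hx => lt_of_lt_of_le h' hx.1)
      · intro x hx
        rw [interior_Icc] at hx
        exact (hd x (lt_trans h' hx.1)).differentiableAt.differentiableWithinAt
      · intro x hx
        rw [interior_Icc] at hx
        have hx0 : 0 < x := lt_trans h' hx.1
        rw [hdv x hx0]
        have hgx := gam_pos hx0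
        have : gam x ≤ gam θ := gam_mono hx0 h (le_of_lt hx.2)
        rw [sub_nonpos, le_div_iff₀ hgx, one_mul]
        exact this
    exact hm (left_mem_Icc.mpr hle) (right_mem_Icc.mpr hle) hle

theorem D1_symm (u w : ℝ) : D1 u w = D1 w u := by
  unfold D1; ring

theorem D1_nonneg {u w : ℝ} (hu : u ∈ Ioo (-1:ℝ) 1) (hw : w ∈ Ioo (-1:ℝ) 1) : 0 ≤ D1 u w := by
  unfold D1
  apply div_nonneg _ (by have := L_pos; positivity)
  rcases le_total u w with h | h
  · have := Real.artanh_le_artanh hu.1 hw.2 h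
    nlinarith
  · have := Real.artanh_le_artanh hw.1 hu.2 h
    nlinarith

/-- pointwise M-bound -/
theorem M_pt {θ u w : ℝ} (hθ : 0 < θ) (hu : u ∈ Ioo (-1:ℝ) 1) (hw : w ∈ Ioo (-1:ℝ) 1) :
    (u - w) * θ / (2 * L) + gam θ / 2 * ((u - w) * (S θ / tanh θ) - (phi u + phi w)) ≤ D1 u w := by
  have hL := L_pos
  have hg := gam_pos hθ
  have hy := mb_y_pos hθ
  rcases le_or_gt u w with huw | huw
  · -- the trivial case
    have hD := D1_nonneg hu hw
    have h1 : (u - w) * θ / (2 * L) ≤ 0 :=
      div_nonpos_of_nonpos_of_nonneg (mul_nonpos_of_nonpos_of_nonneg (by linarith) hθ.le)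
        (by positivity)
    have hpu := phi_nonneg hu.1.le hu.2.le
    have hpw := phi_nonneg hw.1.le hw.2.le
    have h2 : (u - w) * (S θ / tanh θ) ≤ 0 :=
      mul_nonpos_of_nonpos_of_nonneg (by linarith) hy.le
    have h3 : gam θ / 2 * ((u - w) * (S θ / tanh θ) - (phi u + phi w)) ≤ 0 :=
      mul_nonpos_of_nonneg_of_nonpos (by positivity) (by linarith)
    linarith
  · -- the main case
    set α := artanh u with hα
    set β := artanh w with hβ
    have hαβ : β < α := Real.artanh_lt_artanh hw.1 hu.2 huw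
    set c := (α + β) / 2 with hc
    set θ' := (α - β) / 2 with hθ'
    have hθ'pos : 0 < θ' := by rw [hθ']; linarith
    have hu' : u = tanh (c + θ') := by
      have : c + θ' = α := by rw [hc, hθ']; ring
      rw [this, hα, Real.tanh_artanh hu]
    have hw' : w = tanh (c - θ') := by
      have : c - θ' = β := by rw [hc, hθ']; ring
      rw [this, hβ, Real.tanh_artanh hw]
    have hphi : phi u + phi w = S (c + θ') + S (c - θ') := by
      rw [hu', hw', phi_tanh, phi_tanh]
    have hb := lemma_b c θ'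
    have hca := Real.cosh_pos (c + θ')
    have hcb := Real.cosh_pos (c - θ')
    have hC : cosh (2 * c) + cosh (2 * θ') = 2 * (cosh (c + θ') * cosh (c - θ')) := by
      have e1 : 2 * c = (c + θ') + (c - θ') := by ring
      have e2 : 2 * θ' = (c + θ') - (c - θ') := by ring
      rw [e1, e2]
      exact mb_cosh_sum _ _
    have hCpos : 0 < cosh (2 * c) + cosh (2 * θ') := by rw [hC]; positivity
    have hdiff : u - w = 2 * sinh (2 * θ') / (cosh (2 * c) + cosh (2 * θ')) := by
      rw [hu', hw', Real.tanh_eq_sinh_div_cosh, Real.tanh_eq_sinh_div_cosh, hC]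
      have e2 : 2 * θ' = (c + θ') - (c - θ') := by ring
      rw [e2, Real.sinh_sub (c + θ') (c - θ')]
      field_simp
    -- `phi u + phi w ≥ (u - w) y(θ')`
    have hs' : 0 < sinh θ' := Real.sinh_pos_iff.mpr hθ'pos
    have hc' := Real.cosh_pos θ'
    have hlow : (u - w) * (S θ' / tanh θ') ≤ phi u + phi w := by
      rw [hphi, hdiff, Real.tanh_eq_sinh_div_cosh, Real.sinh_two_mul]
      have e : 2 * (2 * sinh θ' * cosh θ') / (cosh (2 * c) + cosh (2 * θ'))
            * (S θ' / (sinh θ' / cosh θ'))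
          = (4 * cosh θ' ^ 2 * S θ') / (cosh (2 * c) + cosh (2 * θ')) := by
        field_simp
        ring
      rw [e, div_le_iff₀ hCpos]
      exact hb
    have hD : D1 u w = (u - w) * θ' / (2 * L) := by
      unfold D1
      rw [← hα, ← hβ, hθ']
      field_simp
      ring
    have hmin := mb_min hθ hθ'pos
    rw [hD]
    have huw' : 0 < u - w := by linarith
    have h5 : gam θ / 2 * ((u - w) * (S θ / tanh θ) - (phi u + phi w))
        ≤ gam θ / 2 * ((u - w) * (S θ / tanh θ) - (u - w) * (S θ' / tanh θ')) := by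
      apply mul_le_mul_of_nonneg_left _ (by positivity)
      linarith
    have h6 : (u - w) * θ / (2 * L) + gam θ / 2 * ((u - w) * (S θ / tanh θ) - (u - w) * (S θ' / tanh θ'))
        ≤ (u - w) * θ' / (2 * L) := by
      have e : (u - w) * θ' / (2 * L) - ((u - w) * θ / (2 * L)
            + gam θ / 2 * ((u - w) * (S θ / tanh θ) - (u - w) * (S θ' / tanh θ')))
          = (u - w) / (2 * L) * ((θ' + L * gam θ * (S θ' / tanh θ'))
              - (θ + L * gam θ * (S θ / tanh θ))) := by
        field_simp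
        ring
      have : 0 ≤ (u - w) / (2 * L) * ((θ' + L * gam θ * (S θ' / tanh θ'))
              - (θ + L * gam θ * (S θ / tanh θ))) :=
        mul_nonneg (by positivity) (by linarith)
      linarith
    linarith

/-! ### Jensen -/

private theorem mb_avg_add {Z : Type*} [Fintype Z] (f g : Z → ℝ) :
    avg (fun z => f z + g z) = avg f + avg g := by
  unfold avg
  rw [Finset.sum_add_distrib, add_div]

private theorem mb_avg_const {Z : Type*} [Fintype Z] [Nonempty Z] (a : ℝ) :
    avg (fun _ : Z => a) = a := by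
  unfold avg
  have : (Fintype.card Z : ℝ) ≠ 0 := by
    have := Fintype.card_pos (α := Z)
    positivity
  rw [Finset.sum_const, Finset.card_univ, nsmul_eq_mul]
  field_simp

private theorem mb_avg_mul {Z : Type*} [Fintype Z] (a : ℝ) (f : Z → ℝ) :
    avg (fun z => a * f z) = a * avg f := by
  unfold avg
  rw [← Finset.mul_sum, mul_div_assoc]

private theorem mb_avg_mono {Z : Type*} [Fintype Z] {f g : Z → ℝ} (h : ∀ z, f z ≤ g z) :
    avg f ≤ avg g := by
  unfold avg
  apply div_le_div_of_nonneg_right _ (by positivity)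
  exact Finset.sum_le_sum fun z _ => h z

private theorem mb_avg_pos {Z : Type*} [Fintype Z] [Nonempty Z] {f : Z → ℝ} (h : ∀ z, 0 < f z) :
    0 < avg f := by
  unfold avg
  have : (0:ℝ) < Fintype.card Z := by
    have := Fintype.card_pos (α := Z)
    positivity
  apply div_pos _ this
  exact Finset.sum_pos (fun z _ => h z) Finset.univ_nonempty

/-- log-sum inequality. -/
private theorem mb_logsum {Z : Type*} [Fintype Z] [Nonempty Z] (a b : Z → ℝ)
    (ha : ∀ z, 0 < a z) (hb : ∀ z, 0 < b z) :
    avg a * log (avg a / avg b) ≤ avg (fun z => a z * log (a z / b z)) := by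
  have hA := mb_avg_pos ha
  have hB := mb_avg_pos hb
  set A := avg a with hAdef
  set B := avg b with hBdef
  have hpt : ∀ z, a z * log (A / B) + (a z + (-(A / B)) * b z) ≤ a z * log (a z / b z) := by
    intro z
    have haz := ha z
    have hbz := hb z
    have hlog := Real.log_le_sub_one_of_pos
      (show 0 < (b z * A) / (a z * B) by positivity)
    have e : log ((b z * A) / (a z * B)) = log (A / B) - log (a z / b z) := by
      rw [Real.log_div (by positivity) (by positivity), Real.log_mul hbz.ne' hA.ne',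
        Real.log_mul haz.ne' hB.ne', Real.log_div hA.ne' hB.ne', Real.log_div haz.ne' hbz.ne']
      ring
    rw [e] at hlog
    have h2 : a z * (log (A / B) - log (a z / b z)) ≤ a z * ((b z * A) / (a z * B) - 1) :=
      mul_le_mul_of_nonneg_left hlog haz.le
    have e2 : a z * ((b z * A) / (a z * B) - 1) = b z * (A / B) - a z := by
      field_simp
    rw [e2] at h2
    nlinarith
  have h := mb_avg_mono hpt
  have e : avg (fun z => a z * log (A / B) + (a z + (-(A / B)) * b z))
      = A * log (A / B) + (A + (-(A / B)) * B) := by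
    rw [mb_avg_add, mb_avg_add, mb_avg_mul]
    have e1 : avg (fun z => a z * log (A / B)) = A * log (A / B) := by
      have := mb_avg_mul (log (A / B)) a
      simp only [mul_comm] at this ⊢
      exact this
    rw [e1]
  rw [e] at h
  have e3 : A + (-(A / B)) * B = 0 := by
    field_simp
    ring
  rw [e3] at h
  linarith

/-- the four-term expansion of `J(x,y) = (x-y)(artanh x - artanh y)`. -/
private theorem mb_J {x y : ℝ} (hx : x ∈ Ioo (-1:ℝ) 1) (hy : y ∈ Ioo (-1:ℝ) 1) :
    (x - y) * (artanh x - artanh y)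
      = (1 + x) / 2 * log (((1 + x) / 2) / ((1 + y) / 2))
        + (1 + y) / 2 * log (((1 + y) / 2) / ((1 + x) / 2))
        + (1 - x) / 2 * log (((1 - x) / 2) / ((1 - y) / 2))
        + (1 - y) / 2 * log (((1 - y) / 2) / ((1 - x) / 2)) := by
  have h1 : 0 < 1 + x := by linarith [hx.1]
  have h2 : 0 < 1 - x := by linarith [hx.2]
  have h3 : 0 < 1 + y := by linarith [hy.1]
  have h4 : 0 < 1 - y := by linarith [hy.2]
  have ax : artanh x = 1 / 2 * (log (1 + x) - log (1 - x)) := by
    rw [Real.artanh_eq_half_log ⟨hx.1.le, hx.2.le⟩, Real.log_div h1.ne' h2.ne']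
  have ay : artanh y = 1 / 2 * (log (1 + y) - log (1 - y)) := by
    rw [Real.artanh_eq_half_log ⟨hy.1.le, hy.2.le⟩, Real.log_div h3.ne' h4.ne']
  have e1 : ((1 + x) / 2) / ((1 + y) / 2) = (1 + x) / (1 + y) := by field_simp
  have e2 : ((1 + y) / 2) / ((1 + x) / 2) = (1 + y) / (1 + x) := by field_simp
  have e3 : ((1 - x) / 2) / ((1 - y) / 2) = (1 - x) / (1 - y) := by field_simp
  have e4 : ((1 - y) / 2) / ((1 - x) / 2) = (1 - y) / (1 - x) := by field_simp
  rw [e1, e2, e3, e4, ax, ay, Real.log_div h1.ne' h3.ne', Real.log_div h3.ne' h1.ne',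
    Real.log_div h2.ne' h4.ne', Real.log_div h4.ne' h2.ne']
  ring

private theorem mb_avg_mem {Z : Type*} [Fintype Z] [Nonempty Z] (u : Z → ℝ)
    (hu : ∀ z, u z ∈ Ioo (-1:ℝ) 1) : avg u ∈ Ioo (-1:ℝ) 1 := by
  have h1 : 0 < avg (fun z => u z + 1) := mb_avg_pos fun z => by linarith [(hu z).1]
  have h2 : 0 < avg (fun z => 1 + (-1) * u z) := mb_avg_pos fun z => by linarith [(hu z).2]
  rw [mb_avg_add, mb_avg_const] at h1
  rw [mb_avg_add, mb_avg_const, mb_avg_mul] at h2
  constructor <;> linarith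

/-- Jensen -/
theorem D1_jensen {Z : Type*} [Fintype Z] [Nonempty Z] (u w : Z → ℝ)
    (hu : ∀ z, u z ∈ Ioo (-1:ℝ) 1) (hw : ∀ z, w z ∈ Ioo (-1:ℝ) 1) :
    D1 (avg u) (avg w) ≤ avg (fun z => D1 (u z) (w z)) := by
  have hA := mb_avg_mem u hu
  have hB := mb_avg_mem w hw
  have hL := L_pos
  -- the four functions
  set p : Z → ℝ := fun z => (1 + u z) / 2 with hp
  set q : Z → ℝ := fun z => (1 + w z) / 2 with hq
  set p' : Z → ℝ := fun z => (1 - u z) / 2 with hp'
  set q' : Z → ℝ := fun z => (1 - w z) / 2 with hq'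
  have pp : ∀ z, 0 < p z := fun z => by simp only [hp]; linarith [(hu z).1]
  have qp : ∀ z, 0 < q z := fun z => by simp only [hq]; linarith [(hw z).1]
  have pp' : ∀ z, 0 < p' z := fun z => by simp only [hp']; linarith [(hu z).2]
  have qp' : ∀ z, 0 < q' z := fun z => by simp only [hq']; linarith [(hw z).2]
  have avp : avg p = (1 + avg u) / 2 := by
    have e : p = fun z => (1 / 2 : ℝ) * (1 + u z) := by
      ext z; simp only [hp]; ring
    rw [e, mb_avg_mul, mb_avg_add, mb_avg_const]; ring
  have avq : avg q = (1 + avg w) / 2 := by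
    have e : q = fun z => (1 / 2 : ℝ) * (1 + w z) := by
      ext z; simp only [hq]; ring
    rw [e, mb_avg_mul, mb_avg_add, mb_avg_const]; ring
  have avp' : avg p' = (1 - avg u) / 2 := by
    have e : p' = fun z => (1 / 2 : ℝ) * (1 + (-1) * u z) := by
      ext z; simp only [hp']; ring
    rw [e, mb_avg_mul, mb_avg_add, mb_avg_const, mb_avg_mul]; ring
  have avq' : avg q' = (1 - avg w) / 2 := by
    have e : q' = fun z => (1 / 2 : ℝ) * (1 + (-1) * w z) := by
      ext z; simp only [hq']; ring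
    rw [e, mb_avg_mul, mb_avg_add, mb_avg_const, mb_avg_mul]; ring
  have h1 := mb_logsum p q pp qp
  have h2 := mb_logsum q p qp pp
  have h3 := mb_logsum p' q' pp' qp'
  have h4 := mb_logsum q' p' qp' pp'
  rw [avp, avq] at h1 h2
  rw [avp', avq'] at h3 h4
  have hJ0 := mb_J hA hB
  have hpt : ∀ z, D1 (u z) (w z) = (1 / (4 * L)) * (p z * log (p z / q z) + (q z * log (q z / p z)
      + (p' z * log (p' z / q' z) + q' z * log (q' z / p' z)))) := by
    intro z
    unfold D1
    rw [mb_J (hu z) (hw z)]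
    simp only [hp, hq, hp', hq']
    field_simp
    ring
  have e : avg (fun z => D1 (u z) (w z)) =
      (1 / (4 * L)) * (avg (fun z => p z * log (p z / q z)) + (avg (fun z => q z * log (q z / p z))
      + (avg (fun z => p' z * log (p' z / q' z)) + avg (fun z => q' z * log (q' z / p' z))))) := by
    have : (fun z => D1 (u z) (w z)) = fun z => (1 / (4 * L)) * (p z * log (p z / q z)
        + (q z * log (q z / p z) + (p' z * log (p' z / q' z) + q' z * log (q' z / p' z)))) :=
      funext hpt
    rw [this, mb_avg_mul, mb_avg_add, mb_avg_add, mb_avg_add]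
  rw [e]
  unfold D1
  rw [hJ0]
  rw [show ((1 + avg u) / 2 * log ((1 + avg u) / 2 / ((1 + avg w) / 2))
        + (1 + avg w) / 2 * log ((1 + avg w) / 2 / ((1 + avg u) / 2))
        + (1 - avg u) / 2 * log ((1 - avg u) / 2 / ((1 - avg w) / 2))
        + (1 - avg w) / 2 * log ((1 - avg w) / 2 / ((1 - avg u) / 2))) / (4 * L)
      = (1 / (4 * L)) * ((1 + avg u) / 2 * log ((1 + avg u) / 2 / ((1 + avg w) / 2))
        + ((1 + avg w) / 2 * log ((1 + avg w) / 2 / ((1 + avg u) / 2))
        + ((1 - avg u) / 2 * log ((1 - avg u) / 2 / ((1 - avg w) / 2))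
        + (1 - avg w) / 2 * log ((1 - avg w) / 2 / ((1 - avg u) / 2))))) by ring]
  apply mul_le_mul_of_nonneg_left _ (by positivity)
  linarith

/-! ### `xf ≤ phi` -/

private theorem mb_tanh_pos {x : ℝ} (h : 0 < x) : 0 < tanh x := by
  have hs : 0 < sinh x := Real.sinh_pos_iff.mpr h
  have hc := Real.cosh_pos x
  rw [Real.tanh_eq_sinh_div_cosh]; positivity

/-- `tanh x / x` is antitone on `(0,∞)`. -/
private theorem mb_tanh_ratio_anti : AntitoneOn (fun x => tanh x / x) (Ioi 0) := by
  have hd : ∀ x : ℝ, 0 < x → HasDerivAt (fun x => tanh x / x)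
      (((1 / cosh x ^ 2) * x - tanh x * 1) / x ^ 2) x := fun x hx =>
    (hasDerivAt_tanh_aux x).div (hasDerivAt_id x) hx.ne'
  apply antitoneOn_of_deriv_nonpos (convex_Ioi 0)
  · exact fun x hx => (hd x hx).continuousAt.continuousWithinAt
  · intro x hx
    rw [interior_Ioi] at hx
    exact (hd x hx).differentiableAt.differentiableWithinAt
  · intro x hx
    rw [interior_Ioi] at hx
    have hx' : (0:ℝ) < x := hx
    rw [(hd x hx').deriv]
    apply div_nonpos_of_nonpos_of_nonneg _ (by positivity)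
    have hc := Real.cosh_pos x
    have hs : x ≤ sinh x := Real.self_le_sinh_iff.mpr hx'.le
    have hc1 : 1 ≤ cosh x := Real.one_le_cosh x
    rw [Real.tanh_eq_sinh_div_cosh]
    have e : 1 / cosh x ^ 2 * x - sinh x / cosh x * 1 = (x - sinh x * cosh x) / cosh x ^ 2 := by
      field_simp
    rw [e]
    apply div_nonpos_of_nonpos_of_nonneg _ (by positivity)
    have : 0 < sinh x := lt_of_lt_of_le hx' hs
    nlinarith

private def mbK (θ : ℝ) : ℝ := Phi θ - L / cosh θ ^ 2

private theorem mb_hasDerivAt_K (θ : ℝ) :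
    HasDerivAt mbK ((2 * L * tanh θ - θ) / cosh θ ^ 2) θ := by
  have hc := Real.cosh_pos θ
  have h1 : HasDerivAt (fun x => cosh x ^ 2) (2 * cosh θ * sinh θ) θ := by
    have := (Real.hasDerivAt_cosh θ).pow 2
    refine this.congr_deriv ?_
    simp
  have h2 : HasDerivAt (fun x => L / cosh x ^ 2)
      ((0 * cosh θ ^ 2 - L * (2 * cosh θ * sinh θ)) / (cosh θ ^ 2) ^ 2) θ :=
    (hasDerivAt_const θ L).div h1 (by positivity)
  have h3 := (hasDerivAt_Phi θ).sub h2
  refine h3.congr_deriv ?_
  rw [Real.tanh_eq_sinh_div_cosh]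
  field_simp
  ring

private theorem mb_K_zero : mbK 0 = 0 := by
  unfold mbK Phi
  simp

private theorem mb_K_tendsto : Tendsto mbK atTop (𝓝 0) := by
  have h1 : Tendsto Phi atTop (𝓝 0) := by
    have h := S_tendsto.mul_const L
    rw [zero_mul] at h
    refine h.congr ?_
    intro θ
    have := L_pos.ne'
    unfold S
    field_simp
  have hch : Tendsto (fun x => cosh x ^ 2) atTop atTop := by
    have h0 : Tendsto cosh atTop atTop := by
      refine tendsto_atTop_mono' _ ?_ (tendsto_id : Tendsto (fun x : ℝ => x) atTop atTop)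
      filter_upwards [eventually_ge_atTop (0:ℝ)] with x hx
      have h1 : x ≤ sinh x := Real.self_le_sinh_iff.mpr hx
      have h2 := (Real.sinh_lt_cosh x).le
      exact h1.trans h2
    exact h0.comp tendsto_id |>.atTop_mul_atTop₀ (h0.comp tendsto_id) |>.congr (by
      intro x; simp [pow_two])
  have h2 : Tendsto (fun x => L / cosh x ^ 2) atTop (𝓝 0) := hch.const_div_atTop L
  have := h1.sub h2
  simp only [sub_zero] at this
  exact this

private theorem mb_K_nonneg {θ : ℝ} (h : 0 ≤ θ) : 0 ≤ mbK θ := by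
  rcases h.eq_or_lt with rfl | h'
  · rw [mb_K_zero]
  have hKc : Continuous mbK :=
    continuous_iff_continuousAt.mpr fun x => (mb_hasDerivAt_K x).continuousAt
  have hL := L_pos
  by_cases hg : θ ≤ 2 * L * tanh θ
  · -- increasing on `[0,θ]`
    have hm : MonotoneOn mbK (Icc 0 θ) := by
      apply monotoneOn_of_deriv_nonneg (convex_Icc 0 θ) hKc.continuousOn
      · exact fun x _ => (mb_hasDerivAt_K x).differentiableAt.differentiableWithinAt
      · intro x hx
        rw [interior_Icc] at hx
        rw [(mb_hasDerivAt_K x).deriv]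
        apply div_nonneg _ (by positivity)
        have hr := mb_tanh_ratio_anti (mem_Ioi.mpr hx.1) (mem_Ioi.mpr h') hx.2.le
        simp only at hr
        have h0 : tanh θ / θ * x ≤ tanh x / x * x := mul_le_mul_of_nonneg_right hr hx.1.le
        have e : tanh x / x * x = tanh x := by
          have := hx.1.ne'
          field_simp
        rw [e] at h0
        have h1 : 1 ≤ 2 * L * (tanh θ / θ) := by
          rw [show 2 * L * (tanh θ / θ) = (2 * L * tanh θ) / θ by ring, le_div_iff₀ h']
          linarith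
        have h2 : x ≤ 2 * L * (tanh θ / θ) * x := by
          have := hx.1
          nlinarith
        nlinarith
    have := hm (left_mem_Icc.mpr h) (right_mem_Icc.mpr h) h
    rwa [mb_K_zero] at this
  · -- decreasing on `[θ,∞)`
    rw [not_le] at hg
    have hm : AntitoneOn mbK (Ici θ) := by
      apply antitoneOn_of_deriv_nonpos (convex_Ici θ) hKc.continuousOn
      · exact fun x _ => (mb_hasDerivAt_K x).differentiableAt.differentiableWithinAt
      · intro x hx
        rw [interior_Ici] at hx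
        have hx1 : θ < x := hx
        have hx0 : 0 < x := lt_trans h' hx1
        rw [(mb_hasDerivAt_K x).deriv]
        apply div_nonpos_of_nonpos_of_nonneg _ (by positivity)
        have hr := mb_tanh_ratio_anti (mem_Ioi.mpr h') (mem_Ioi.mpr hx0) hx1.le
        simp only at hr
        have h0 : tanh x / x * x ≤ tanh θ / θ * x := mul_le_mul_of_nonneg_right hr hx0.le
        have e : tanh x / x * x = tanh x := by
          have := hx0.ne'
          field_simp
        rw [e] at h0
        have h1 : 2 * L * (tanh θ / θ) < 1 := by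
          rw [show 2 * L * (tanh θ / θ) = (2 * L * tanh θ) / θ by ring, div_lt_one h']
          linarith
        have h2 : 2 * L * (tanh θ / θ) * x ≤ x := by
          nlinarith
        nlinarith
    -- limit
    have hle : ∀ᶠ x in atTop, mbK x ≤ mbK θ := by
      filter_upwards [eventually_ge_atTop θ] with x hx
      exact hm (mem_Ici.mpr le_rfl) (mem_Ici.mpr hx) hx
    exact le_of_tendsto mb_K_tendsto hle

/-- `1 - a² ≤ phi a` on `(-1,1)`. -/
private theorem mb_one_sub_sq_le {a : ℝ} (h : a ∈ Ioo (-1:ℝ) 1) : 1 - a ^ 2 ≤ phi a := by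
  wlog ha : 0 ≤ a generalizing a
  · have := this (a := -a) ⟨by linarith [h.2], by linarith [h.1]⟩ (by linarith)
    rw [phi_neg] at this
    simpa using this
  set θ := artanh a with hθ
  have hθ0 : 0 ≤ θ := Real.artanh_nonneg ha
  have hta : tanh θ = a := Real.tanh_artanh h
  have hK := mb_K_nonneg hθ0
  have hL := L_pos
  have hc := Real.cosh_pos θ
  have h1 : 1 - a ^ 2 = 1 / cosh θ ^ 2 := by
    rw [← hta, Real.tanh_eq_sinh_div_cosh]
    have := Real.cosh_sq θ
    field_simp
    nlinarith
  rw [h1, ← hta, phi_tanh]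
  unfold mbK at hK
  unfold S
  rw [le_div_iff₀ hL]
  have e : 1 / cosh θ ^ 2 * L = L / cosh θ ^ 2 := by ring
  rw [e]
  linarith

theorem xf_le_phi {a : ℝ} (h : a ∈ Icc (-1:ℝ) 1) : xf a ≤ phi a := by
  have hsq : a ^ 2 ≤ 1 := by nlinarith [h.1, h.2]
  rcases eq_or_lt_of_le h.1 with h1 | h1
  · have : xf a = 0 := by
      unfold xf; rw [← h1]; norm_num
    rw [this]
    exact phi_nonneg h.1 h.2
  rcases eq_or_lt_of_le h.2 with h2 | h2
  · have : xf a = 0 := by
      unfold xf; rw [h2]; norm_num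
    rw [this]
    exact phi_nonneg h.1 h.2
  have h3 := mb_one_sub_sq_le (a := a) ⟨h1, h2⟩
  have h4 : xf a ≤ 1 - a ^ 2 := by
    unfold xf
    nlinarith [sq_nonneg a, mul_nonneg (sub_nonneg.mpr hsq) (sq_nonneg a)]
  linarith

end

end CK322
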