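import Vale.Agent.Lib.P322.Theta
import Vale.Agent.Lib.P322.MBound

open Real Set Filter Topology

namespace CK322

noncomputable section

/-! ## Module TQ : TQ.lean -/

private theorem tq_tanh_add (x y : ℝ) :
    tanh (x + y) = (tanh x + tanh y) / (1 + tanh x * tanh y) := by
  have hx := Real.cosh_pos x
  have hy := Real.cosh_pos y
  have hxy := Real.cosh_pos (x + y)
  simp only [Real.tanh_eq_sinh_div_cosh]
  have hd : 1 + sinh x / cosh x * (sinh y / cosh y) = cosh (x + y) / (cosh x * cosh y) := by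
    rw [Real.cosh_add]
    field_simp
  rw [hd, Real.sinh_add]
  field_simp

private theorem tq_tanh_sub (x y : ℝ) :
    tanh (x - y) = (tanh x - tanh y) / (1 - tanh x * tanh y) := by
  have := tq_tanh_add x (-y)
  rw [Real.tanh_neg] at this
  rw [sub_eq_add_neg, this]
  congr 1
  ring

private theorem tq_artanh_eq {x : ℝ} (hx : x ∈ Ioo (-1:ℝ) 1) :
    artanh x = 1 / 2 * (log (1 + x) - log (1 - x)) := by
  have h1 : 0 < 1 + x := by linarith [hx.1]
  have h2 : 0 < 1 - x := by linarith [hx.2]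
  rw [Real.artanh_eq_half_log ⟨hx.1.le, hx.2.le⟩, Real.log_div h1.ne' h2.ne']

private theorem tq_L_phi {u : ℝ} (hu : u ∈ Ioo (-1:ℝ) 1) :
    L * phi u = L - (1 + u) / 2 * log (1 + u) - (1 - u) / 2 * log (1 - u) := by
  have hL := L_pos.ne'
  have h1 : 0 < 1 + u := by linarith [hu.1]
  have h2 : 0 < 1 - u := by linarith [hu.2]
  unfold phi
  rw [mul_div_cancel₀ _ hL]
  unfold Real.binEntropy
  have e : 1 - (1 + u) / 2 = (1 - u) / 2 := by ring
  rw [e, Real.log_inv, Real.log_inv, Real.log_div h1.ne' (by norm_num),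
    Real.log_div h2.ne' (by norm_num)]
  unfold L
  ring

section TQ
variable {t q : ℝ}

private theorem tq_pos (ht0 : 0 ≤ t) (ht1 : t < 1) (hq0 : 0 < q) (hq1 : q < 1) :
    0 < 1 + t * q ∧ 0 < 1 - t * q := by
  have h : t * q < 1 := by nlinarith
  have h' : 0 ≤ t * q := by positivity
  constructor <;> linarith

private theorem ZZ_eq (t q : ℝ) : ZZ t q = (1 + t * q) * (1 - t * q) := by
  unfold ZZ; ring

private theorem ZZ_pos (ht0 : 0 ≤ t) (ht1 : t < 1) (hq0 : 0 < q) (hq1 : q < 1) : 0 < ZZ t q := by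
  obtain ⟨h1, h2⟩ := tq_pos ht0 ht1 hq0 hq1
  rw [ZZ_eq]; positivity

theorem tq_avg (ht0 : 0 ≤ t) (ht1 : t < 1) (hq0 : 0 < q) (hq1 : q < 1) :
    (aP t q + aM t q) / 2 = abar t q ∧ (aP t q - aM t q) / 2 = delt t q := by
  obtain ⟨h1, h2⟩ := tq_pos ht0 ht1 hq0 hq1
  constructor
  · unfold aP aM abar uu
    rw [ZZ_eq]
    field_simp
    ring
  · unfold aP aM delt p0
    rw [ZZ_eq]
    field_simp
    ring

theorem tq_mem (ht0 : 0 ≤ t) (ht1 : t < 1) (hq0 : 0 < q) (hq1 : q < 1) :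
    aP t q ∈ Ioo (-1:ℝ) 1 ∧ aM t q ∈ Ioo (-1:ℝ) 1 ∧ aM t q < aP t q ∧ 0 ≤ aP t q + aM t q := by
  obtain ⟨h1, h2⟩ := tq_pos ht0 ht1 hq0 hq1
  have ht1' : 0 < 1 - t := by linarith
  have hq1' : 0 < 1 - q := by linarith
  have ht2 : 0 < 1 + t := by linarith
  have hq2 : 0 < 1 + q := by linarith
  refine ⟨⟨?_, ?_⟩, ⟨?_, ?_⟩, ?_, ?_⟩
  · unfold aP
    rw [lt_div_iff₀ h1]
    nlinarith [mul_pos ht2 hq2]
  · unfold aP
    rw [div_lt_one h1]
    nlinarith [mul_pos ht1' hq1']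
  · unfold aM
    rw [lt_div_iff₀ h2]
    nlinarith [mul_pos ht2 hq1']
  · unfold aM
    rw [div_lt_one h2]
    nlinarith [mul_pos ht1' hq2]
  · have h := (tq_avg ht0 ht1 hq0 hq1).2
    have h3 : 0 < delt t q := by
      unfold delt p0
      have := ZZ_pos ht0 ht1 hq0 hq1
      have : 0 < 1 - t ^ 2 := by nlinarith
      positivity
    linarith
  · have h := (tq_avg ht0 ht1 hq0 hq1).1
    have h3 : 0 ≤ abar t q := by
      unfold abar uu
      have := ZZ_pos ht0 ht1 hq0 hq1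
      have : 0 < 1 - q ^ 2 := by nlinarith
      positivity
    linarith

private theorem aP_tanh (x y : ℝ) : aP (tanh x) (tanh y) = tanh (x + y) :=
  (tq_tanh_add x y).symm

private theorem aM_tanh (x y : ℝ) : aM (tanh x) (tanh y) = tanh (x - y) :=
  (tq_tanh_sub x y).symm

/-- every pair `am < ap` with `0 ≤ ap + am` arises from `(t,q)`. -/
theorem tq_exists {ap am : ℝ} (hap : ap ∈ Ioo (-1:ℝ) 1) (ham : am ∈ Ioo (-1:ℝ) 1) (hlt : am < ap)
    (hs : 0 ≤ ap + am) : ∃ t q, 0 ≤ t ∧ t < 1 ∧ 0 < q ∧ q < 1 ∧ ap = aP t q ∧ am = aM t q := by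
  set α := artanh ap with hα
  set β := artanh am with hβ
  have hαβ : β < α := Real.artanh_lt_artanh ham.1 hap.2 hlt
  have hneg : -β ≤ α := by
    -- `artanh (-am) ≤ artanh ap`
    have h1 : artanh (-am) ≤ artanh ap :=
      Real.artanh_le_artanh (by linarith [ham.2]) hap.2 (by linarith)
    have h2 : artanh (-am) = -artanh am := by
      have hm : (-am) ∈ Ioo (-1:ℝ) 1 := ⟨by linarith [ham.2], by linarith [ham.1]⟩
      rw [tq_artanh_eq hm, tq_artanh_eq ham]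
      rw [show 1 + -am = 1 - am by ring, show 1 - -am = 1 + am by ring]
      ring
    rw [h2] at h1
    exact h1
  set c := (α + β) / 2 with hc
  set θ := (α - β) / 2 with hθ
  have hc0 : 0 ≤ c := by rw [hc]; linarith
  have hθ0 : 0 < θ := by rw [hθ]; linarith
  refine ⟨tanh c, tanh θ, ?_, Real.tanh_lt_one c, ?_, Real.tanh_lt_one θ, ?_, ?_⟩
  · have h : 0 ≤ sinh c := Real.sinh_nonneg_iff.mpr hc0
    have hc' := Real.cosh_pos c
    rw [Real.tanh_eq_sinh_div_cosh]; positivity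
  · have h : 0 < sinh θ := Real.sinh_pos_iff.mpr hθ0
    have hc' := Real.cosh_pos θ
    rw [Real.tanh_eq_sinh_div_cosh]; positivity
  · rw [aP_tanh]
    have : c + θ = α := by rw [hc, hθ]; ring
    rw [this, hα, Real.tanh_artanh hap]
  · rw [aM_tanh]
    have : c - θ = β := by rw [hc, hθ]; ring
    rw [this, hβ, Real.tanh_artanh ham]

theorem tq_D1 (ht0 : 0 ≤ t) (ht1 : t < 1) (hq0 : 0 < q) (hq1 : q < 1) :
    D1 (aP t q) (aM t q) = delt t q * artanh q / L := by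
  have htm : t ∈ Ioo (-1:ℝ) 1 := ⟨by linarith, ht1⟩
  have hqm : q ∈ Ioo (-1:ℝ) 1 := ⟨by linarith, hq1⟩
  have hd := (tq_avg ht0 ht1 hq0 hq1).2
  have e1 : aP t q = tanh (artanh t + artanh q) := by
    rw [← aP_tanh, Real.tanh_artanh htm, Real.tanh_artanh hqm]
  have e2 : aM t q = tanh (artanh t - artanh q) := by
    rw [← aM_tanh, Real.tanh_artanh htm, Real.tanh_artanh hqm]
  have e3 : artanh (aP t q) = artanh t + artanh q := by rw [e1, Real.artanh_tanh]
  have e4 : artanh (aM t q) = artanh t - artanh q := by rw [e2, Real.artanh_tanh]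
  unfold D1
  rw [e3, e4, ← hd]
  have := L_pos.ne'
  field_simp
  ring

private theorem one_sub_sq_pos' {x : ℝ} (h0 : 0 < x) (h1 : x < 1) : 0 < 1 - x ^ 2 := by nlinarith

private theorem abar_mem (ht0 : 0 ≤ t) (ht1 : t < 1) (hq0 : 0 < q) (hq1 : q < 1) :
    abar t q ∈ Ioo (-1:ℝ) 1 := by
  obtain ⟨hP, hM, -, -⟩ := tq_mem ht0 ht1 hq0 hq1
  have h := (tq_avg ht0 ht1 hq0 hq1).1
  rw [← h]
  constructor <;> linarith [hP.1, hP.2, hM.1, hM.2]

theorem tq_identity (ht0 : 0 ≤ t) (ht1 : t < 1) (hq0 : 0 < q) (hq1 : q < 1) :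
    L * (D1 (aP t q) (aM t q) - 2 * (phi (abar t q) - (phi (aP t q) + phi (aM t q)) / 2))
      = LL t q + p0 t q * (L * rhoθ (artanh q)) := by
  obtain ⟨hP, hM, -, -⟩ := tq_mem ht0 ht1 hq0 hq1
  have hA := abar_mem ht0 ht1 hq0 hq1
  obtain ⟨hs, hr⟩ := tq_pos ht0 ht1 hq0 hq1
  have hLne := L_pos.ne'
  have ht2 : 0 < 1 + t := by linarith
  have ht3 : 0 < 1 - t := by linarith
  have hq2 : 0 < 1 + q := by linarith
  have hq3 : 0 < 1 - q := by linarith
  have hqq : q ^ 2 < 1 := by nlinarith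
  have hu : t * q ^ 2 < 1 := by nlinarith [sq_nonneg q]
  have hu0 : 0 ≤ t * q ^ 2 := by positivity
  have hu2 : 0 < 1 + t * q ^ 2 := by linarith
  have hu3 : 0 < 1 - t * q ^ 2 := by linarith
  have hqm : q ∈ Ioo (-1:ℝ) 1 := ⟨by linarith, hq1⟩
  have hum : t * q ^ 2 ∈ Ioo (-1:ℝ) 1 := ⟨by linarith, hu⟩
  -- factorisations
  have f1 : 1 + aP t q = (1 + t) * (1 + q) / (1 + t * q) := by
    unfold aP; field_simp; ring
  have f2 : 1 - aP t q = (1 - t) * (1 - q) / (1 + t * q) := by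
    unfold aP; field_simp; ring
  have f3 : 1 + aM t q = (1 + t) * (1 - q) / (1 - t * q) := by
    unfold aM; field_simp; ring
  have f4 : 1 - aM t q = (1 - t) * (1 + q) / (1 - t * q) := by
    unfold aM; field_simp; ring
  have f5 : 1 + abar t q = (1 + t) * (1 - t * q ^ 2) / ((1 + t * q) * (1 - t * q)) := by
    unfold abar uu; rw [ZZ_eq]; field_simp; ring
  have f6 : 1 - abar t q = (1 - t) * (1 + t * q ^ 2) / ((1 + t * q) * (1 - t * q)) := by
    unfold abar uu; rw [ZZ_eq]; field_simp; ring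
  have f7 : 1 + eps t q * q ^ 2 = (1 + t * q ^ 2) * (1 - t * q ^ 2) / ((1 + t * q) * (1 - t * q)) := by
    unfold eps; rw [ZZ_eq]; field_simp; ring
  have f8 : 1 - q ^ 2 = (1 + q) * (1 - q) := by ring
  set a := log (1 + t) with ha
  set b := log (1 - t) with hb
  set c := log (1 + q) with hc
  set d := log (1 - q) with hd
  set e := log (1 + t * q) with he
  set f := log (1 - t * q) with hf
  set g := log (1 + t * q ^ 2) with hg
  set h := log (1 - t * q ^ 2) with hh'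
  have l1 : log (1 + aP t q) = a + c - e := by
    rw [f1, Real.log_div (by positivity) hs.ne', Real.log_mul ht2.ne' hq2.ne']
  have l2 : log (1 - aP t q) = b + d - e := by
    rw [f2, Real.log_div (by positivity) hs.ne', Real.log_mul ht3.ne' hq3.ne']
  have l3 : log (1 + aM t q) = a + d - f := by
    rw [f3, Real.log_div (by positivity) hr.ne', Real.log_mul ht2.ne' hq3.ne']
  have l4 : log (1 - aM t q) = b + c - f := by
    rw [f4, Real.log_div (by positivity) hr.ne', Real.log_mul ht3.ne' hq2.ne']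
  have l5 : log (1 + abar t q) = a + h - e - f := by
    rw [f5, Real.log_div (by positivity) (by positivity), Real.log_mul ht2.ne' hu3.ne',
      Real.log_mul hs.ne' hr.ne']
    ring
  have l6 : log (1 - abar t q) = b + g - e - f := by
    rw [f6, Real.log_div (by positivity) (by positivity), Real.log_mul ht3.ne' hu2.ne',
      Real.log_mul hs.ne' hr.ne']
    ring
  have l7 : log (1 + eps t q * q ^ 2) = g + h - e - f := by
    rw [f7, Real.log_div (by positivity) (by positivity), Real.log_mul hu2.ne' hu3.ne',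
      Real.log_mul hs.ne' hr.ne']
    ring
  have l8 : log (1 - q ^ 2) = c + d := by
    rw [f8, Real.log_mul hq2.ne' hq3.ne']
  have l9 : artanh q = 1 / 2 * (c - d) := tq_artanh_eq hqm
  have l10 : artanh (t * q ^ 2) = 1 / 2 * (g - h) := tq_artanh_eq hum
  have hD := tq_D1 ht0 ht1 hq0 hq1
  have hpa := tq_L_phi hA
  have hpP := tq_L_phi hP
  have hpM := tq_L_phi hM
  have hpq := tq_L_phi hqm
  have hrho : L * rhoθ (artanh q) = artanh q * q - (1 + q) * c - (1 - q) * d := by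
    unfold rhoθ hh
    have hS : S (artanh q) = phi q := by
      rw [← phi_tanh, Real.tanh_artanh hqm]
    rw [hS, Real.tanh_artanh hqm]
    have e1 : L * (artanh q * q / L - 2 + 2 * phi q) = artanh q * q - 2 * L + 2 * (L * phi q) := by
      field_simp
    rw [e1, hpq]
    ring
  have e0 : L * (D1 (aP t q) (aM t q) - 2 * (phi (abar t q) - (phi (aP t q) + phi (aM t q)) / 2))
      = delt t q * artanh q - 2 * (L * phi (abar t q) - (L * phi (aP t q) + L * phi (aM t q)) / 2) := by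
    rw [hD]
    field_simp
  rw [e0, hpa, hpP, hpM, l1, l2, l3, l4, l5, l6, hrho]
  unfold LL
  rw [l7, l8, l9, l10]
  -- now linear in the logs
  have r1 : aP t q + aM t q = 2 * abar t q := by
    have := (tq_avg ht0 ht1 hq0 hq1).1; linarith
  have r2 : aP t q - aM t q = 2 * delt t q := by
    have := (tq_avg ht0 ht1 hq0 hq1).2; linarith
  have r3 : eps t q + p0 t q = 1 := by
    have hZ := ZZ_pos ht0 ht1 hq0 hq1
    unfold eps p0
    rw [← add_div, div_eq_one_iff_eq hZ.ne']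
    unfold ZZ
    ring
  have r4 : delt t q = q * p0 t q := rfl
  linear_combination (-a / 2 + b / 2) * r1 + c * (r3 - r2 / 2 - r4 / 2) + d * (r3 + r2 / 2 + r4 / 2)

/-! ### the function `N1` -/

/-- explicit form of `N1` in the variables `z = q²`, `t`. -/
private def Nhat (z t : ℝ) : ℝ :=
  -log (1 - z) + (1 - t ^ 2 * z) / (t ^ 2 * (1 - z)) * (log (1 - t ^ 2 * z ^ 2) - log (1 - t ^ 2 * z))
    - 1 / t * (log (1 + t * z) - log (1 - t * z))

private theorem N1_eq (ht0 : 0 < t) (ht1 : t < 1) (hq0 : 0 < q) (hq1 : q < 1) :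
    N1 t q = Nhat (q ^ 2) t := by
  have hZ := ZZ_pos ht0.le ht1 hq0 hq1
  have hqq : 0 < 1 - q ^ 2 := by nlinarith
  have he : 0 < eps t q := by
    unfold eps; positivity
  have hz2 : 0 < 1 - t ^ 2 * (q ^ 2) ^ 2 := by
    have : t ^ 2 * (q ^ 2) ^ 2 < 1 := by
      have h1 : t ^ 2 < 1 := by nlinarith
      have h2 : (q ^ 2) ^ 2 < 1 := by nlinarith [sq_nonneg q]
      have h3 : 0 ≤ (q ^ 2) ^ 2 := by positivity
      nlinarith
    linarith
  have hZ' : 0 < 1 - t ^ 2 * q ^ 2 := hZ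
  have hum : t * q ^ 2 ∈ Ioo (-1:ℝ) 1 := by
    have h0 : 0 ≤ t * q ^ 2 := by positivity
    have h1 : t * q ^ 2 < 1 := by nlinarith [sq_nonneg q]
    exact ⟨by linarith, h1⟩
  have f7 : 1 + eps t q * q ^ 2 = (1 - t ^ 2 * (q ^ 2) ^ 2) / (1 - t ^ 2 * q ^ 2) := by
    unfold eps ZZ; field_simp; ring
  unfold N1 LL Nhat
  rw [f7, Real.log_div hz2.ne' hZ'.ne', tq_artanh_eq hum]
  have e1 : abar t q = t * (1 - q ^ 2) / (1 - t ^ 2 * q ^ 2) := by
    unfold abar uu ZZ; ring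
  have e2 : eps t q = t ^ 2 * (1 - q ^ 2) / (1 - t ^ 2 * q ^ 2) := rfl
  rw [e1, e2]
  field_simp

private theorem artanh_bound {w : ℝ} (h0 : 0 ≤ w) (h1 : w < 1) :
    1 / 2 * (log (1 + w) - log (1 - w)) ≤ w / (1 - w ^ 2) := by
  set k : ℝ → ℝ := fun x => x / (1 - x ^ 2) - 1 / 2 * (log (1 + x) - log (1 - x)) with hk
  have hd : ∀ x : ℝ, x ∈ Ico (0:ℝ) 1 → HasDerivAt k (2 * x ^ 2 / (1 - x ^ 2) ^ 2) x := by
    intro x hx
    have hp : 0 < 1 + x := by linarith [hx.1]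
    have hm : 0 < 1 - x := by linarith [hx.2]
    have hx2 : 0 < 1 - x ^ 2 := by nlinarith [hx.1, hx.2]
    have h2 : HasDerivAt (fun s : ℝ => s ^ 2) (2 * x) x := by simpa using hasDerivAt_pow 2 x
    have h3 : HasDerivAt (fun s : ℝ => 1 - s ^ 2) (-(2 * x)) x := h2.const_sub 1
    have h4 : HasDerivAt (fun s : ℝ => s / (1 - s ^ 2))
        ((1 * (1 - x ^ 2) - x * (-(2 * x))) / (1 - x ^ 2) ^ 2) x :=
      (hasDerivAt_id x).div h3 hx2.ne'
    have h5 : HasDerivAt (fun s : ℝ => log (1 + s)) (1 / (1 + x)) x := by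
      have : HasDerivAt (fun s : ℝ => 1 + s) 1 x := (hasDerivAt_id x).const_add 1
      exact this.log hp.ne'
    have h6 : HasDerivAt (fun s : ℝ => log (1 - s)) (-1 / (1 - x)) x := by
      have : HasDerivAt (fun s : ℝ => 1 - s) (-1) x := (hasDerivAt_id x).const_sub 1
      exact this.log hm.ne'
    have h7 := h4.sub ((h5.sub h6).const_mul (1 / 2))
    refine h7.congr_deriv ?_
    have e : 1 - x ^ 2 = (1 + x) * (1 - x) := by ring
    rw [e]
    field_simp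
    ring
  have hm : MonotoneOn k (Ico 0 1) := by
    apply monotoneOn_of_deriv_nonneg (convex_Ico 0 1)
    · exact fun x hx => (hd x hx).continuousAt.continuousWithinAt
    · intro x hx
      rw [interior_Ico] at hx
      exact (hd x ⟨hx.1.le, hx.2⟩).differentiableAt.differentiableWithinAt
    · intro x hx
      rw [interior_Ico] at hx
      rw [(hd x ⟨hx.1.le, hx.2⟩).deriv]
      positivity
  have h := hm (left_mem_Ico.mpr (by norm_num : (0:ℝ) < 1)) ⟨h0, h1⟩ h0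
  simp only [hk] at h
  norm_num at h
  linarith

/-- derivative of `Nhat` in `t`. -/
private theorem Nhat_deriv_t {z : ℝ} (hz0 : 0 < z) (hz1 : z < 1) {s : ℝ} (hs0 : 0 < s) (hs1 : s ≤ 1) :
    HasDerivAt (Nhat z)
      (1 / s ^ 2 * (log (1 + s * z) - log (1 - s * z))
        - 2 * (log (1 - s ^ 2 * z ^ 2) - log (1 - s ^ 2 * z)) / (s ^ 3 * (1 - z))) s := by
  have hzz : 0 < 1 - z := by linarith
  have hs2 : s ^ 2 ≤ 1 := by nlinarith
  have hZ : 0 < 1 - s ^ 2 * z := by nlinarith [sq_nonneg s]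
  have hZ2 : 0 < 1 - s ^ 2 * z ^ 2 := by nlinarith [sq_nonneg s, sq_nonneg z, mul_pos hz0 hz0]
  have hp : 0 < 1 + s * z := by positivity
  have hm : 0 < 1 - s * z := by nlinarith
  have h1 : HasDerivAt (fun x : ℝ => x ^ 2) (2 * s) s := by simpa using hasDerivAt_pow 2 s
  have hdZ : HasDerivAt (fun x : ℝ => 1 - x ^ 2 * z) (-(2 * s * z)) s :=
    (h1.mul_const z).const_sub 1
  have hdZ2 : HasDerivAt (fun x : ℝ => 1 - x ^ 2 * z ^ 2) (-(2 * s * z ^ 2)) s :=
    (h1.mul_const (z ^ 2)).const_sub 1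
  have hdp : HasDerivAt (fun x : ℝ => 1 + x * z) z s := by
    simpa using ((hasDerivAt_id s).mul_const z).const_add 1
  have hdm : HasDerivAt (fun x : ℝ => 1 - x * z) (-z) s := by
    simpa using ((hasDerivAt_id s).mul_const z).const_sub 1
  have hdA : HasDerivAt (fun x : ℝ => (1 - x ^ 2 * z) / (x ^ 2 * (1 - z)))
      (((-(2 * s * z)) * (s ^ 2 * (1 - z)) - (1 - s ^ 2 * z) * (2 * s * (1 - z))) / (s ^ 2 * (1 - z)) ^ 2) s :=
    hdZ.div (h1.mul_const (1 - z)) (by positivity)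
  have hdB := (hdZ2.log hZ2.ne').sub (hdZ.log hZ.ne')
  have hdinv : HasDerivAt (fun x : ℝ => 1 / x) (-1 / s ^ 2) s := by
    have := (hasDerivAt_const s (1:ℝ)).div (hasDerivAt_id s) hs0.ne'
    refine this.congr_deriv ?_
    simp
  have hdC := (hdp.log hp.ne').sub (hdm.log hm.ne')
  have hT2 := hdA.mul hdB
  have hT3 := hdinv.mul hdC
  have hall := (hT2.const_add (-log (1 - z))).sub hT3
  have e : Nhat z = fun x => -log (1 - z) + (1 - x ^ 2 * z) / (x ^ 2 * (1 - z)) *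
      (log (1 - x ^ 2 * z ^ 2) - log (1 - x ^ 2 * z)) - 1 / x * (log (1 + x * z) - log (1 - x * z)) := rfl
  rw [e]
  refine hall.congr_deriv ?_
  simp only [Pi.sub_apply]
  field_simp
  ring

private theorem Nhat_deriv_t_nonpos {z : ℝ} (hz0 : 0 < z) (hz1 : z < 1) {s : ℝ} (hs0 : 0 < s)
    (hs1 : s ≤ 1) :
    1 / s ^ 2 * (log (1 + s * z) - log (1 - s * z))
        - 2 * (log (1 - s ^ 2 * z ^ 2) - log (1 - s ^ 2 * z)) / (s ^ 3 * (1 - z)) ≤ 0 := by
  have hzz : 0 < 1 - z := by linarith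
  -- `g(t) = log(Z2/Z)/(1-z) - (t/2)(log(1+tz) - log(1-tz)) ≥ 0`
  set g : ℝ → ℝ := fun x => (log (1 - x ^ 2 * z ^ 2) - log (1 - x ^ 2 * z)) / (1 - z)
      - x / 2 * (log (1 + x * z) - log (1 - x * z)) with hg
  have hbounds : ∀ x : ℝ, x ∈ Icc (0:ℝ) 1 → 0 < 1 - x ^ 2 * z ∧ 0 < 1 - x ^ 2 * z ^ 2 ∧
      0 < 1 + x * z ∧ 0 < 1 - x * z := by
    intro x hx
    have hx2 : x ^ 2 ≤ 1 := by nlinarith [hx.1, hx.2]
    have hx0 : 0 ≤ x ^ 2 := by positivity
    refine ⟨by nlinarith, by nlinarith [mul_pos hz0 hz0], ?_, ?_⟩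
    · have := mul_nonneg hx.1 hz0.le
      linarith
    · nlinarith [hx.1, hx.2]
  have hd : ∀ x : ℝ, x ∈ Icc (0:ℝ) 1 → HasDerivAt g
      (2 * x * z / ((1 - x ^ 2 * z) * (1 - x ^ 2 * z ^ 2))
        - x * z / (1 - x ^ 2 * z ^ 2) - 1 / 2 * (log (1 + x * z) - log (1 - x * z))) x := by
    intro x hx
    obtain ⟨hZ, hZ2, hp, hm⟩ := hbounds x hx
    have h1 : HasDerivAt (fun y : ℝ => y ^ 2) (2 * x) x := by simpa using hasDerivAt_pow 2 x
    have hdZ : HasDerivAt (fun y : ℝ => 1 - y ^ 2 * z) (-(2 * x * z)) x :=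
      (h1.mul_const z).const_sub 1
    have hdZ2 : HasDerivAt (fun y : ℝ => 1 - y ^ 2 * z ^ 2) (-(2 * x * z ^ 2)) x :=
      (h1.mul_const (z ^ 2)).const_sub 1
    have hdp : HasDerivAt (fun y : ℝ => 1 + y * z) z x := by
      simpa using ((hasDerivAt_id x).mul_const z).const_add 1
    have hdm : HasDerivAt (fun y : ℝ => 1 - y * z) (-z) x := by
      simpa using ((hasDerivAt_id x).mul_const z).const_sub 1
    have hdB := ((hdZ2.log hZ2.ne').sub (hdZ.log hZ.ne')).div_const (1 - z)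
    have hdC := (hdp.log hp.ne').sub (hdm.log hm.ne')
    have hdx : HasDerivAt (fun y : ℝ => y / 2) (1 / 2) x := by
      simpa using (hasDerivAt_id x).div_const 2
    have hall := hdB.sub (hdx.mul hdC)
    refine hall.congr_deriv ?_
    simp only [Pi.sub_apply]
    have e : 1 - x ^ 2 * z ^ 2 = (1 + x * z) * (1 - x * z) := by ring
    rw [e]
    have hpm : (1 + x * z) * (1 - x * z) ≠ 0 := by positivity
    field_simp
    ring
  have hm : MonotoneOn g (Icc 0 1) := by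
    apply monotoneOn_of_deriv_nonneg (convex_Icc 0 1)
    · exact fun x hx => (hd x hx).continuousAt.continuousWithinAt
    · intro x hx
      rw [interior_Icc] at hx
      exact (hd x ⟨hx.1.le, hx.2.le⟩).differentiableAt.differentiableWithinAt
    · intro x hx
      rw [interior_Icc] at hx
      have hx' : x ∈ Icc (0:ℝ) 1 := ⟨hx.1.le, hx.2.le⟩
      rw [(hd x hx').deriv]
      obtain ⟨hZ, hZ2, hp, hm⟩ := hbounds x hx'
      have hw0 : 0 ≤ x * z := by have := hx.1; positivity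
      have hw1 : x * z < 1 := by linarith
      have hb := artanh_bound hw0 hw1
      have e : 1 - (x * z) ^ 2 = 1 - x ^ 2 * z ^ 2 := by ring
      rw [e] at hb
      have hZle : 1 - x ^ 2 * z ≤ 1 := by
        have : 0 ≤ x ^ 2 * z := by positivity
        linarith
      have h3 : x * z / (1 - x ^ 2 * z ^ 2) ≤
          2 * x * z / ((1 - x ^ 2 * z) * (1 - x ^ 2 * z ^ 2)) - x * z / (1 - x ^ 2 * z ^ 2) := by
        have e2 : 2 * x * z / ((1 - x ^ 2 * z) * (1 - x ^ 2 * z ^ 2)) - x * z / (1 - x ^ 2 * z ^ 2)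
            - x * z / (1 - x ^ 2 * z ^ 2)
            = 2 * (x * z) * (x ^ 2 * z) / ((1 - x ^ 2 * z) * (1 - x ^ 2 * z ^ 2)) := by
          field_simp
          ring
        have : 0 ≤ 2 * (x * z) * (x ^ 2 * z) / ((1 - x ^ 2 * z) * (1 - x ^ 2 * z ^ 2)) := by
          have := hx.1
          positivity
        linarith
      linarith
  have hgs : 0 ≤ g s := by
    have h0 : g 0 = 0 := by simp [hg]
    have := hm (left_mem_Icc.mpr zero_le_one) ⟨hs0.le, hs1⟩ hs0.le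
    rwa [h0] at this
  have e : 1 / s ^ 2 * (log (1 + s * z) - log (1 - s * z))
        - 2 * (log (1 - s ^ 2 * z ^ 2) - log (1 - s ^ 2 * z)) / (s ^ 3 * (1 - z))
      = -(2 / s ^ 3) * g s := by
    simp only [hg]
    field_simp
    ring
  rw [e]
  have : 0 < 2 / s ^ 3 := by positivity
  nlinarith

private theorem Nhat_anti {z : ℝ} (hz0 : 0 < z) (hz1 : z < 1) : AntitoneOn (Nhat z) (Ioc 0 1) := by
  apply antitoneOn_of_deriv_nonpos (convex_Ioc 0 1)
  · exact fun x hx => (Nhat_deriv_t hz0 hz1 hx.1 hx.2).continuousAt.continuousWithinAt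
  · intro x hx
    rw [interior_Ioc] at hx
    exact (Nhat_deriv_t hz0 hz1 hx.1 hx.2.le).differentiableAt.differentiableWithinAt
  · intro x hx
    rw [interior_Ioc] at hx
    rw [(Nhat_deriv_t hz0 hz1 hx.1 hx.2.le).deriv]
    exact Nhat_deriv_t_nonpos hz0 hz1 hx.1 hx.2.le

private theorem Nhat_one {z : ℝ} (hz0 : 0 < z) (hz1 : z < 1) : Nhat z 1 = 0 := by
  have hzz : 0 < 1 - z := by linarith
  have hp : 0 < 1 + z := by linarith
  unfold Nhat
  have e : 1 - (1:ℝ) ^ 2 * z ^ 2 = (1 + z) * (1 - z) := by ring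
  rw [e, Real.log_mul hp.ne' hzz.ne']
  simp only [one_pow, one_mul, div_one]
  have : (1 - z) / (1 - z) = 1 := div_self hzz.ne'
  rw [this]
  ring

theorem N1_anti_t {t₁ t₂ : ℝ} (h0 : 0 < t₁) (h12 : t₁ ≤ t₂) (h1 : t₂ < 1) (hq0 : 0 < q) (hq1 : q < 1) :
    N1 t₂ q ≤ N1 t₁ q := by
  have h20 : 0 < t₂ := lt_of_lt_of_le h0 h12
  rw [N1_eq h0 (lt_of_le_of_lt h12 h1) hq0 hq1, N1_eq h20 h1 hq0 hq1]
  have hz0 : 0 < q ^ 2 := by positivity
  have hz1 : q ^ 2 < 1 := by nlinarith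
  exact Nhat_anti hz0 hz1 ⟨h0, (h12.trans h1.le)⟩ ⟨h20, h1.le⟩ h12

theorem LL_nonneg (ht0 : 0 ≤ t) (ht1 : t < 1) (hq0 : 0 < q) (hq1 : q < 1) : 0 ≤ LL t q := by
  rcases ht0.eq_or_lt with rfl | ht
  · unfold LL eps abar
    simp
  have hZ := ZZ_pos ht.le ht1 hq0 hq1
  have hqq : 0 < 1 - q ^ 2 := by nlinarith
  have he : 0 < eps t q := by
    unfold eps; positivity
  have hz0 : 0 < q ^ 2 := by positivity
  have hz1 : q ^ 2 < 1 := by nlinarith
  have h1 : 0 ≤ N1 t q := by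
    rw [N1_eq ht ht1 hq0 hq1, ← Nhat_one hz0 hz1]
    exact Nhat_anti hz0 hz1 ⟨ht, ht1.le⟩ ⟨one_pos, le_rfl⟩ ht1.le
  unfold N1 at h1
  have := mul_nonneg h1 he.le
  rwa [div_mul_cancel₀ _ he.ne'] at this

/-- derivative of `Nhat` in `z`. -/
private theorem Nhat_deriv_z {s : ℝ} (hs0 : 0 < s) (hs1 : s < 1) {z : ℝ} (hz0 : 0 < z) (hz1 : z < 1) :
    HasDerivAt (fun w => Nhat w s)
      ((1 - s ^ 2) / (s ^ 2 * (1 - z) ^ 2) * (log (1 - s ^ 2 * z ^ 2) - log (1 - s ^ 2 * z))) z := by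
  have hzz : 0 < 1 - z := by linarith
  have hs2 : s ^ 2 ≤ 1 := by nlinarith
  have hZ : 0 < 1 - s ^ 2 * z := by nlinarith [sq_nonneg s]
  have hZ2 : 0 < 1 - s ^ 2 * z ^ 2 := by nlinarith [sq_nonneg s, sq_nonneg z, mul_pos hz0 hz0]
  have hp : 0 < 1 + s * z := by positivity
  have hm : 0 < 1 - s * z := by nlinarith
  have h1 : HasDerivAt (fun x : ℝ => x ^ 2) (2 * z) z := by simpa using hasDerivAt_pow 2 z
  have hd1z : HasDerivAt (fun x : ℝ => 1 - x) (-1) z := (hasDerivAt_id z).const_sub 1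
  have hdZ : HasDerivAt (fun x : ℝ => 1 - s ^ 2 * x) (-(s ^ 2)) z := by
    simpa using ((hasDerivAt_id z).const_mul (s ^ 2)).const_sub 1
  have hdZ2 : HasDerivAt (fun x : ℝ => 1 - s ^ 2 * x ^ 2) (-(s ^ 2 * (2 * z))) z :=
    (h1.const_mul (s ^ 2)).const_sub 1
  have hdp : HasDerivAt (fun x : ℝ => 1 + s * x) s z := by
    simpa using ((hasDerivAt_id z).const_mul s).const_add 1
  have hdm : HasDerivAt (fun x : ℝ => 1 - s * x) (-s) z := by
    simpa using ((hasDerivAt_id z).const_mul s).const_sub 1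
  have hdD : HasDerivAt (fun x : ℝ => s ^ 2 * (1 - x)) (s ^ 2 * (-1)) z := hd1z.const_mul _
  have hdA : HasDerivAt (fun x : ℝ => (1 - s ^ 2 * x) / (s ^ 2 * (1 - x)))
      (((-(s ^ 2)) * (s ^ 2 * (1 - z)) - (1 - s ^ 2 * z) * (s ^ 2 * (-1))) / (s ^ 2 * (1 - z)) ^ 2) z :=
    hdZ.div hdD (by positivity)
  have hdB := (hdZ2.log hZ2.ne').sub (hdZ.log hZ.ne')
  have hdC := (hdp.log hp.ne').sub (hdm.log hm.ne')
  have hT2 := hdA.mul hdB
  have hT3 := hdC.const_mul (1 / s)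
  have hT1 := (hd1z.log hzz.ne').neg
  have hall := (hT1.add hT2).sub hT3
  have e : (fun w => Nhat w s) = fun x => -log (1 - x) + (1 - s ^ 2 * x) / (s ^ 2 * (1 - x)) *
      (log (1 - s ^ 2 * x ^ 2) - log (1 - s ^ 2 * x)) - 1 / s * (log (1 + s * x) - log (1 - s * x)) := rfl
  rw [e]
  refine hall.congr_deriv ?_
  simp only [Pi.sub_apply]
  have e2 : 1 - s ^ 2 * z ^ 2 = (1 + s * z) * (1 - s * z) := by ring
  have hZ' : 1 - s ^ 2 * z ≠ 0 := hZ.ne'
  have hZ2' : 1 - s ^ 2 * z ^ 2 ≠ 0 := hZ2.ne'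
  have hp' : 1 + s * z ≠ 0 := hp.ne'
  have hm' : 1 - s * z ≠ 0 := hm.ne'
  have hzz' : 1 - z ≠ 0 := hzz.ne'
  have hs' : s ≠ 0 := hs0.ne'
  have h1' : (-s ^ 2 * (s ^ 2 * (1 - z)) - (1 - s ^ 2 * z) * (s ^ 2 * -1)) / (s ^ 2 * (1 - z)) ^ 2
      = (1 - s ^ 2) / (s ^ 2 * (1 - z) ^ 2) := by
    field_simp
    ring
  have h2' : (1 - s ^ 2 * z) / (s ^ 2 * (1 - z)) *
      (-(s ^ 2 * (2 * z)) / (1 - s ^ 2 * z ^ 2) - -s ^ 2 / (1 - s ^ 2 * z))
      = (1 - 2 * z + s ^ 2 * z ^ 2) / ((1 - z) * (1 - s ^ 2 * z ^ 2)) := by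
    rw [e2]
    field_simp
    ring
  have h3' : 1 / s * (s / (1 + s * z) - -s / (1 - s * z)) = 2 / (1 - s ^ 2 * z ^ 2) := by
    rw [e2]
    field_simp
    ring
  have h4' : 1 / (1 - z) + (1 - 2 * z + s ^ 2 * z ^ 2) / ((1 - z) * (1 - s ^ 2 * z ^ 2))
      - 2 / (1 - s ^ 2 * z ^ 2) = 0 := by
    generalize hW : 1 - s ^ 2 * z ^ 2 = W at hZ2' ⊢
    field_simp
    rw [← hW]
    ring
  have e5 : -(-1 / (1 - z)) = 1 / (1 - z) := by
    rw [neg_div, neg_neg]
  rw [e5, h1', h3']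
  linear_combination h4' + h2'

theorem N1_mono_q {q₁ q₂ : ℝ} (ht0 : 0 < t) (ht1 : t < 1) (h0 : 0 < q₁) (h12 : q₁ ≤ q₂) (h1 : q₂ < 1) :
    N1 t q₁ ≤ N1 t q₂ := by
  have h20 : 0 < q₂ := lt_of_lt_of_le h0 h12
  rw [N1_eq ht0 ht1 h0 (lt_of_le_of_lt h12 h1), N1_eq ht0 ht1 h20 h1]
  have hm : MonotoneOn (fun w => Nhat w t) (Ioo 0 1) := by
    apply monotoneOn_of_deriv_nonneg (convex_Ioo 0 1)
    · exact fun x hx => (Nhat_deriv_z ht0 ht1 hx.1 hx.2).continuousAt.continuousWithinAt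
    · intro x hx
      rw [interior_Ioo] at hx
      exact (Nhat_deriv_z ht0 ht1 hx.1 hx.2).differentiableAt.differentiableWithinAt
    · intro x hx
      rw [interior_Ioo] at hx
      rw [(Nhat_deriv_z ht0 ht1 hx.1 hx.2).deriv]
      have hx0 := hx.1
      have hx1 := hx.2
      have ht2 : 0 < 1 - t ^ 2 := by nlinarith
      have hxx : 0 < 1 - x := by linarith
      have hZ : 0 < 1 - t ^ 2 * x := by nlinarith [sq_nonneg t]
      have hle : log (1 - t ^ 2 * x) ≤ log (1 - t ^ 2 * x ^ 2) := by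
        apply Real.log_le_log hZ
        have : t ^ 2 * x ^ 2 ≤ t ^ 2 * x := by
          apply mul_le_mul_of_nonneg_left _ (by positivity)
          nlinarith
        linarith
      apply mul_nonneg (by positivity) (by linarith)
  have hz1 : q₁ ^ 2 ∈ Ioo (0:ℝ) 1 := ⟨by positivity, by nlinarith⟩
  have hz2 : q₂ ^ 2 ∈ Ioo (0:ℝ) 1 := ⟨by positivity, by nlinarith⟩
  have hle : q₁ ^ 2 ≤ q₂ ^ 2 := by nlinarith
  exact hm hz1 hz2 hle

theorem x_sub_p0 (ht0 : 0 ≤ t) (ht1 : t < 1) (hq0 : 0 < q) (hq1 : q < 1) :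
    xf (abar t q) - p0 t q = eps t q * QQ t q := by
  have hZ := ZZ_pos ht0 ht1 hq0 hq1
  have hZ4 : 0 < 1 - t ^ 2 * q ^ 4 := by
    have h1 : t ^ 2 < 1 := by nlinarith
    have h2 : q ^ 4 < 1 := by
      have : q ^ 2 < 1 := by nlinarith
      nlinarith [sq_nonneg q]
    have h3 : 0 ≤ q ^ 4 := by positivity
    nlinarith
  unfold xf QQ eps p0 abar uu
  unfold ZZ at hZ ⊢
  field_simp
  ring

theorem Ix_eq (a d : ℝ) : xf a - (xf (a + d) + xf (a - d)) / 2 = Ix a d := by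
  unfold xf Ix
  ring

theorem xprime_lower (ht0 : 0 ≤ t) (ht1 : t < 1) (hq0 : 0 < q) (hq1 : q < 1) :
    p0 t q * Xl t q ≤ (xf (aP t q) + xf (aM t q)) / 2 := by
  obtain ⟨hs, hr⟩ := tq_pos ht0 ht1 hq0 hq1
  set Xp := 1 - aP t q ^ 2 with hXp
  set Xm := 1 - aM t q ^ 2 with hXm
  have h1 : xf (aP t q) = 3 / 5 * Xp + 2 / 5 * Xp ^ 2 := by
    unfold xf; rw [hXp]; ring
  have h2 : xf (aM t q) = 3 / 5 * Xm + 2 / 5 * Xm ^ 2 := by
    unfold xf; rw [hXm]; ring
  have h3 : (Xp + Xm) / 2 = p0 t q * Y1 t q := by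
    rw [hXp, hXm]
    unfold aP aM p0 Y1
    rw [ZZ_eq]
    field_simp
    ring
  have h4 : p0 t q * Xl t q = 3 / 5 * (p0 t q * Y1 t q) + 2 / 5 * (p0 t q * Y1 t q) ^ 2 := by
    unfold Xl; ring
  rw [h1, h2, h4, ← h3]
  nlinarith [sq_nonneg (Xp - Xm)]

end TQ

end

end CK322
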