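import Vale.Agent.Lib.P322.Defs

open Real Set Filter Topology

namespace CK322

noncomputable section

/-! ## Module A : Theta.lean -/

theorem L_pos : 0 < L := Real.log_pos (by norm_num)

theorem L_bounds : 0.6931471803 < L ∧ L < 0.6931471808 :=
  ⟨Real.log_two_gt_d9, Real.log_two_lt_d9⟩

private theorem L_ne : L ≠ 0 := L_pos.ne'

private theorem cosh_ne (θ : ℝ) : cosh θ ≠ 0 := (Real.cosh_pos θ).ne'

theorem hasDerivAt_tanh_aux (θ : ℝ) : HasDerivAt tanh (1 / cosh θ ^ 2) θ := by
  have h : HasDerivAt (fun x => sinh x / cosh x)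
      ((cosh θ * cosh θ - sinh θ * sinh θ) / cosh θ ^ 2) θ :=
    (Real.hasDerivAt_sinh θ).div (Real.hasDerivAt_cosh θ) (cosh_ne θ)
  have e : (tanh : ℝ → ℝ) = fun x => sinh x / cosh x := by
    ext x; exact Real.tanh_eq_sinh_div_cosh x
  rw [e]
  refine h.congr_deriv ?_
  have h2 := Real.cosh_sq θ
  congr 1
  nlinarith

private theorem tanh_mul_cosh (θ : ℝ) : tanh θ * cosh θ = sinh θ := by
  rw [Real.tanh_eq_sinh_div_cosh]; field_simp [cosh_ne θ]

theorem Phi_closed (θ : ℝ) :
    Phi θ = 2 * θ * exp (-2*θ) / (1 + exp (-2*θ)) + log (1 + exp (-2*θ)) := by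
  set y := exp (-2*θ) with hy
  have hypos : 0 < y := exp_pos _
  have hE : exp θ * exp θ * y = 1 := by
    rw [hy, ← exp_add, ← exp_add]
    have : θ + θ + -2 * θ = 0 := by ring
    rw [this, exp_zero]
  have hEm : exp (-θ) = exp θ * y := by
    rw [hy, ← exp_add]; congr 1; ring
  have hcosh : cosh θ = exp θ * (1 + y) / 2 := by
    rw [Real.cosh_eq, hEm]; ring
  have hsinh : sinh θ = exp θ * (1 - y) / 2 := by
    rw [Real.sinh_eq, hEm]; ring
  have h1y : 0 < 1 + y := by positivity
  have htanh : tanh θ = (1 - y) / (1 + y) := by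
    rw [Real.tanh_eq_sinh_div_cosh, hsinh, hcosh]
    have := exp_pos θ
    field_simp
  have hlog : log (cosh θ) = θ + log (1 + y) - L := by
    rw [hcosh, L, Real.log_div (by positivity) (by norm_num), Real.log_mul (exp_pos θ).ne' h1y.ne',
      Real.log_exp]
  unfold Phi
  rw [htanh, hlog]
  field_simp
  ring

theorem hasDerivAt_Phi (θ : ℝ) : HasDerivAt Phi (-θ / cosh θ ^ 2) θ := by
  have h1 : HasDerivAt (fun x => x * tanh x) (1 * tanh θ + θ * (1 / cosh θ ^ 2)) θ :=
    (hasDerivAt_id θ).mul (hasDerivAt_tanh_aux θ)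
  have h2 : HasDerivAt (fun x => log (cosh x)) (sinh θ / cosh θ) θ :=
    (Real.hasDerivAt_cosh θ).log (cosh_ne θ)
  have h3 : HasDerivAt (fun x => L - x * tanh x + log (cosh x))
      (0 - (1 * tanh θ + θ * (1 / cosh θ ^ 2)) + sinh θ / cosh θ) θ :=
    ((hasDerivAt_const θ L).sub h1).add h2
  have e : Phi = fun x => L - x * tanh x + log (cosh x) := rfl
  rw [e]
  refine h3.congr_deriv ?_
  rw [Real.tanh_eq_sinh_div_cosh]
  have := cosh_ne θ
  field_simp
  ring

theorem hasDerivAt_S (θ : ℝ) : HasDerivAt S (-θ / (L * cosh θ ^ 2)) θ := by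
  have h := (hasDerivAt_Phi θ).div_const L
  have e : S = fun x => Phi x / L := rfl
  rw [e]
  refine h.congr_deriv ?_
  have := cosh_ne θ
  have := L_ne
  field_simp

theorem hasDerivAt_hh (θ : ℝ) : HasDerivAt hh ((tanh θ + θ / cosh θ ^ 2) / L) θ := by
  have h1 : HasDerivAt (fun x => x * tanh x) (1 * tanh θ + θ * (1 / cosh θ ^ 2)) θ :=
    (hasDerivAt_id θ).mul (hasDerivAt_tanh_aux θ)
  have h := h1.div_const L
  have e : hh = fun x => x * tanh x / L := rfl
  rw [e]
  refine h.congr_deriv ?_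
  field_simp

theorem phi_tanh (θ : ℝ) : phi (tanh θ) = S θ := by
  unfold phi S
  congr 1
  have hc := Real.cosh_pos θ
  have hp : (1 + tanh θ) / 2 = exp θ / (2 * cosh θ) := by
    rw [Real.tanh_eq_sinh_div_cosh, ← Real.cosh_add_sinh θ]
    field_simp
  have hq : 1 - (1 + tanh θ) / 2 = exp (-θ) / (2 * cosh θ) := by
    rw [Real.tanh_eq_sinh_div_cosh, ← Real.cosh_sub_sinh θ]
    field_simp
    ring
  unfold Real.binEntropy
  rw [hq, hp]
  have h1 : log (exp θ / (2 * cosh θ))⁻¹ = L + log (cosh θ) - θ := by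
    rw [Real.log_inv, Real.log_div (exp_pos θ).ne' (by positivity), Real.log_exp,
      Real.log_mul (by norm_num) hc.ne', L]
    ring
  have h2 : log (exp (-θ) / (2 * cosh θ))⁻¹ = L + log (cosh θ) + θ := by
    rw [Real.log_inv, Real.log_div (exp_pos _).ne' (by positivity), Real.log_exp,
      Real.log_mul (by norm_num) hc.ne', L]
    ring
  rw [h1, h2]
  rw [← hp, ← hq]
  unfold Phi
  ring

theorem phi_neg (u : ℝ) : phi (-u) = phi u := by
  unfold phi
  congr 1
  rw [← Real.binEntropy_one_sub]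
  congr 1
  ring

theorem phi_nonneg {u : ℝ} (h1 : -1 ≤ u) (h2 : u ≤ 1) : 0 ≤ phi u := by
  unfold phi
  apply div_nonneg _ L_pos.le
  apply Real.binEntropy_nonneg <;> linarith

theorem S_zero : S 0 = 1 := by
  unfold S Phi
  simp [L_ne]

theorem S_pos (θ : ℝ) : 0 < S θ := by
  rw [← phi_tanh]
  unfold phi
  apply div_pos _ L_pos
  have h1 := Real.neg_one_lt_tanh θ
  have h2 := Real.tanh_lt_one θ
  apply Real.binEntropy_pos <;> linarith

theorem S_continuous : Continuous S :=
  continuous_iff_continuousAt.mpr fun θ => (hasDerivAt_S θ).continuousAt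

theorem S_strictAnti : StrictAntiOn S (Ici 0) := by
  apply strictAntiOn_of_deriv_neg (convex_Ici 0) S_continuous.continuousOn
  intro θ hθ
  rw [interior_Ici] at hθ
  have hθ' : 0 < θ := hθ
  rw [(hasDerivAt_S θ).deriv]
  have := L_pos
  have hc := Real.cosh_pos θ
  apply div_neg_of_neg_of_pos (by linarith) (by positivity)

theorem S_tendsto : Tendsto S atTop (𝓝 0) := by
  have hexp : Tendsto (fun θ : ℝ => exp (-2 * θ)) atTop (𝓝 0) := by
    have : Tendsto (fun θ : ℝ => 2 * θ) atTop atTop :=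
      tendsto_id.const_mul_atTop (by norm_num)
    have h2 := Real.tendsto_exp_neg_atTop_nhds_zero.comp this
    refine h2.congr ?_
    intro θ
    simp only [Function.comp]
    congr 1
    ring
  have hx : Tendsto (fun θ : ℝ => 2 * θ * exp (-2 * θ)) atTop (𝓝 0) := by
    have : Tendsto (fun θ : ℝ => 2 * θ) atTop atTop :=
      tendsto_id.const_mul_atTop (by norm_num)
    have h2 := (Real.tendsto_pow_mul_exp_neg_atTop_nhds_zero 1).comp this
    refine h2.congr ?_
    intro θ
    simp only [Function.comp, pow_one]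
    congr 2
    ring
  have h1y : Tendsto (fun θ : ℝ => 1 + exp (-2 * θ)) atTop (𝓝 (1 + 0)) :=
    tendsto_const_nhds.add hexp
  have hlog : Tendsto (fun θ : ℝ => log (1 + exp (-2 * θ))) atTop (𝓝 (log (1 + 0))) :=
    h1y.log (by norm_num)
  have hdiv : Tendsto (fun θ : ℝ => 2 * θ * exp (-2 * θ) / (1 + exp (-2 * θ))) atTop
      (𝓝 (0 / (1 + 0))) := hx.div h1y (by norm_num)
  have hPhi : Tendsto Phi atTop (𝓝 (0 / (1 + 0) + log (1 + 0))) := by
    have := hdiv.add hlog
    refine this.congr ?_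
    intro θ
    rw [Phi_closed]
  have hS := hPhi.div_const L
  have e : (0 / (1 + 0) + log (1 + 0)) / L = (0 : ℝ) := by simp
  rw [e] at hS
  exact hS

theorem hh_tendsto : Tendsto hh atTop atTop := by
  have htanh : ∀ θ : ℝ, 1 ≤ θ → (1 / 2 : ℝ) ≤ tanh θ := by
    intro θ hθ
    rw [Real.tanh_eq]
    have h1 : 0 < exp θ := exp_pos _
    have h2 : 0 < exp (-θ) := exp_pos _
    rw [le_div_iff₀ (by positivity)]
    have h3 : exp (-θ) * exp θ = 1 := by rw [← exp_add]; simp
    have h4 : (2 : ℝ) ≤ exp θ := by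
      have := Real.add_one_le_exp θ
      linarith
    nlinarith
  have : Tendsto (fun θ : ℝ => θ * (1 / 2 / L)) atTop atTop :=
    tendsto_id.atTop_mul_const (by have := L_pos; positivity)
  refine tendsto_atTop_mono' _ ?_ this
  filter_upwards [eventually_ge_atTop (1 : ℝ)] with θ hθ
  unfold hh
  have := L_pos
  rw [mul_div_assoc]
  apply mul_le_mul_of_nonneg_left _ (by linarith)
  apply div_le_div_of_nonneg_right (htanh θ hθ) this.le

theorem zeta_zero : zeta 0 = 1 := by simp [zeta]

theorem zeta_pos_eq {θ : ℝ} (h : θ ≠ 0) : zeta θ = sinh (2*θ) / (2*θ) := by simp [zeta, h]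

private theorem zeta_eq_dslope (θ : ℝ) : zeta θ = dslope sinh 0 (2 * θ) := by
  by_cases h : θ = 0
  · subst h
    simp [zeta_zero, dslope_same, Real.deriv_sinh]
  · rw [zeta_pos_eq h, dslope_of_ne _ (by simpa using h), slope_def_field]
    simp

private theorem zeta_continuous : Continuous zeta := by
  have hd : Continuous (dslope sinh (0:ℝ)) := by
    rw [continuous_iff_continuousAt]
    intro x
    by_cases hx : x = 0
    · subst hx
      exact continuousAt_dslope_same.mpr Real.differentiable_sinh.differentiableAt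
    · exact (continuousAt_dslope_of_ne hx).mpr Real.continuous_sinh.continuousAt
  have : zeta = fun θ => dslope sinh 0 (2 * θ) := funext zeta_eq_dslope
  rw [this]
  exact hd.comp (continuous_const.mul continuous_id)

theorem zeta_continuousOn : ContinuousOn zeta (Ici 0) := zeta_continuous.continuousOn

/-- derivative of zeta for θ>0 -/
theorem hasDerivAt_zeta {θ : ℝ} (h : 0 < θ) :
    HasDerivAt zeta ((θ * cosh (2*θ) - sinh (2*θ) / 2) / θ ^ 2) θ := by
  have h2 : HasDerivAt (fun x : ℝ => 2 * x) 2 θ := by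
    simpa using (hasDerivAt_id θ).const_mul (2:ℝ)
  have h1 : HasDerivAt (fun x : ℝ => sinh (2 * x)) (cosh (2 * θ) * 2) θ :=
    (Real.hasDerivAt_sinh (2 * θ)).comp θ h2
  have h3 := h1.div h2 (by positivity : (2:ℝ) * θ ≠ 0)
  have ev : zeta =ᶠ[𝓝 θ] fun x => sinh (2 * x) / (2 * x) := by
    filter_upwards [lt_mem_nhds h] with x hx
    exact zeta_pos_eq hx.ne'
  refine (h3.congr_of_eventuallyEq ev).congr_deriv ?_
  field_simp

/-- `sinh x ≤ x cosh x` for `x ≥ 0`. -/
theorem sinh_le_mul_cosh {x : ℝ} (hx : 0 ≤ x) : sinh x ≤ x * cosh x := by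
  have hd : ∀ y : ℝ, HasDerivAt (fun y => y * cosh y - sinh y) (y * sinh y) y := by
    intro y
    have h1 : HasDerivAt (fun y : ℝ => y * cosh y) (1 * cosh y + y * sinh y) y :=
      (hasDerivAt_id y).mul (Real.hasDerivAt_cosh y)
    have h2 := h1.sub (Real.hasDerivAt_sinh y)
    refine h2.congr_deriv ?_
    ring
  have hc : Continuous (fun y : ℝ => y * cosh y - sinh y) :=
    continuous_iff_continuousAt.mpr fun y => (hd y).continuousAt
  have hm : MonotoneOn (fun y : ℝ => y * cosh y - sinh y) (Ici 0) := by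
    apply monotoneOn_of_deriv_nonneg (convex_Ici 0) hc.continuousOn
    · exact fun y _ => (hd y).differentiableAt.differentiableWithinAt
    · intro y hy
      rw [interior_Ici] at hy
      rw [(hd y).deriv]
      have hy' : (0:ℝ) < y := hy
      have : 0 < sinh y := Real.sinh_pos_iff.mpr hy'
      positivity
  have := hm ((mem_Ici.mpr le_rfl)) (mem_Ici.mpr hx) hx
  simp at this
  linarith

private theorem zeta_deriv_nonneg {θ : ℝ} (h : 0 < θ) :
    0 ≤ (θ * cosh (2*θ) - sinh (2*θ) / 2) / θ ^ 2 := by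
  apply div_nonneg _ (by positivity)
  have := sinh_le_mul_cosh (x := 2 * θ) (by positivity)
  linarith

theorem zeta_mono : MonotoneOn zeta (Ici 0) := by
  apply monotoneOn_of_deriv_nonneg (convex_Ici 0) zeta_continuousOn
  · intro y hy
    rw [interior_Ici] at hy
    exact (hasDerivAt_zeta hy).differentiableAt.differentiableWithinAt
  · intro y hy
    rw [interior_Ici] at hy
    rw [(hasDerivAt_zeta hy).deriv]
    exact zeta_deriv_nonneg hy

theorem TT_nonneg {θ : ℝ} (h : 0 ≤ θ) : 0 ≤ TT θ := by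
  have := zeta_mono ((mem_Ici.mpr le_rfl)) (mem_Ici.mpr h) h
  rw [zeta_zero] at this
  unfold TT
  linarith

theorem TT_zero : TT 0 = 0 := by simp [TT, zeta_zero]

theorem hh_zero : hh 0 = 0 := by simp [hh]

theorem rhoθ_zero : rhoθ 0 = 0 := by
  unfold rhoθ
  rw [hh_zero, S_zero]
  norm_num

theorem alR_zero : alR 0 = 0 := by
  unfold alR
  rw [hh_zero, S_zero, zeta_zero]
  norm_num

theorem alR_eq (θ : ℝ) : alR θ = rhoθ θ + S θ * TT θ := by
  unfold alR rhoθ TT
  ring

private theorem sinh_two_eq (θ : ℝ) : sinh (2 * θ) = 2 * sinh θ * cosh θ := Real.sinh_two_mul θ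

private theorem zeta_mul {θ : ℝ} (h : 0 < θ) : zeta θ * θ = sinh θ * cosh θ := by
  rw [zeta_pos_eq h.ne', sinh_two_eq]
  field_simp

theorem hasDerivAt_rhoθ {θ : ℝ} (h : 0 < θ) :
    HasDerivAt rhoθ (TT θ * (θ / (L * cosh θ ^ 2))) θ := by
  have h1 := ((hasDerivAt_hh θ).sub_const 2).add ((hasDerivAt_S θ).const_mul 2)
  have e : rhoθ = fun x => hh x - 2 + 2 * S x := rfl
  rw [e]
  refine h1.congr_deriv ?_
  have hz := zeta_mul h
  have hc := cosh_ne θ
  have hL := L_ne
  unfold TT
  rw [Real.tanh_eq_sinh_div_cosh]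
  field_simp
  -- goal after clearing denominators
  have : (zeta θ - 1) * θ = sinh θ * cosh θ - θ := by rw [sub_mul, hz]; ring
  linear_combination (-1 : ℝ) * hz

theorem hasDerivAt_alR {θ : ℝ} (h : 0 < θ) :
    HasDerivAt alR (S θ * ((θ * cosh (2*θ) - sinh (2*θ) / 2) / θ ^ 2)) θ := by
  have hz' := (hasDerivAt_zeta h).add_const 1
  have h1 := ((hasDerivAt_hh θ).sub_const 2).add ((hasDerivAt_S θ).mul hz')
  have e : alR = fun x => hh x - 2 + S x * (zeta x + 1) := rfl
  rw [e]
  refine h1.congr_deriv ?_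
  have hz := zeta_mul h
  have hc := cosh_ne θ
  have hL := L_ne
  have key : (tanh θ + θ / cosh θ ^ 2) / L + -θ / (L * cosh θ ^ 2) * (zeta θ + 1) = 0 := by
    rw [Real.tanh_eq_sinh_div_cosh]
    field_simp
    linear_combination (-1 : ℝ) * hz
  linear_combination key

private theorem alR_continuousOn : ContinuousOn alR (Ici 0) := by
  have hh_c : Continuous hh :=
    continuous_iff_continuousAt.mpr fun θ => (hasDerivAt_hh θ).continuousAt
  have : alR = fun x => hh x - 2 + S x * (zeta x + 1) := rfl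
  rw [this]
  exact ((hh_c.sub continuous_const).add
    (S_continuous.mul (zeta_continuous.add continuous_const))).continuousOn

theorem alR_mono : MonotoneOn alR (Ici 0) := by
  apply monotoneOn_of_deriv_nonneg (convex_Ici 0) alR_continuousOn
  · intro y hy
    rw [interior_Ici] at hy
    exact (hasDerivAt_alR hy).differentiableAt.differentiableWithinAt
  · intro y hy
    rw [interior_Ici] at hy
    rw [(hasDerivAt_alR hy).deriv]
    exact mul_nonneg (S_pos y).le (zeta_deriv_nonneg hy)

theorem alR_nonneg {θ : ℝ} (h : 0 ≤ θ) : 0 ≤ alR θ := by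
  have := alR_mono ((mem_Ici.mpr le_rfl)) (mem_Ici.mpr h) h
  rwa [alR_zero] at this

/-- tangent line of `rho`: `rho` is convex as a function of `s = S θ`. -/
theorem rhoθ_tangent {θ₀ θ₁ : ℝ} (h0 : 0 ≤ θ₀) (h1 : 0 ≤ θ₁) :
    rhoθ θ₀ + TT θ₀ * (S θ₀ - S θ₁) ≤ rhoθ θ₁ := by
  set G : ℝ → ℝ := fun x => rhoθ x + TT θ₀ * S x with hG
  have hh_c : Continuous hh :=
    continuous_iff_continuousAt.mpr fun θ => (hasDerivAt_hh θ).continuousAt
  have hGc : Continuous G := by
    have : G = fun x => hh x - 2 + 2 * S x + TT θ₀ * S x := rfl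
    rw [this]
    exact ((hh_c.sub continuous_const).add (continuous_const.mul S_continuous)).add
      (continuous_const.mul S_continuous)
  have hd : ∀ x, 0 < x → HasDerivAt G
      (TT x * (x / (L * cosh x ^ 2)) + TT θ₀ * (-x / (L * cosh x ^ 2))) x := by
    intro x hx
    exact (hasDerivAt_rhoθ hx).add ((hasDerivAt_S x).const_mul _)
  have hdv : ∀ x, 0 < x → deriv G x = (TT x - TT θ₀) * (x / (L * cosh x ^ 2)) := by
    intro x hx
    rw [(hd x hx).deriv]
    rw [neg_div]
    ring
  have hpos : ∀ x, 0 < x → 0 < x / (L * cosh x ^ 2) := by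
    intro x hx
    have := L_pos
    have := Real.cosh_pos x
    positivity
  have hTmono : ∀ {x y : ℝ}, 0 ≤ x → x ≤ y → TT x ≤ TT y := by
    intro x y hx hxy
    have := zeta_mono (mem_Ici.mpr hx) (mem_Ici.mpr (hx.trans hxy)) hxy
    unfold TT
    linarith
  have key : G θ₀ ≤ G θ₁ := by
    rcases le_total θ₀ θ₁ with hle | hle
    · have hm : MonotoneOn G (Ici θ₀) := by
        apply monotoneOn_of_deriv_nonneg (convex_Ici θ₀) hGc.continuousOn
        · intro y hy
          rw [interior_Ici] at hy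
          have hy' : 0 < y := lt_of_le_of_lt h0 hy
          exact (hd y hy').differentiableAt.differentiableWithinAt
        · intro y hy
          rw [interior_Ici] at hy
          have hy1 : θ₀ < y := hy
          have hy' : 0 < y := lt_of_le_of_lt h0 hy
          rw [hdv y hy']
          exact mul_nonneg (sub_nonneg.mpr (hTmono h0 hy1.le)) (hpos y hy').le
      exact hm ((mem_Ici.mpr le_rfl)) (mem_Ici.mpr hle) hle
    · have hm : AntitoneOn G (Icc θ₁ θ₀) := by
        apply antitoneOn_of_deriv_nonpos (convex_Icc θ₁ θ₀) hGc.continuousOn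
        · intro y hy
          rw [interior_Icc] at hy
          have hy' : 0 < y := lt_of_le_of_lt h1 hy.1
          exact (hd y hy').differentiableAt.differentiableWithinAt
        · intro y hy
          rw [interior_Icc] at hy
          have hy' : 0 < y := lt_of_le_of_lt h1 hy.1
          rw [hdv y hy']
          exact mul_nonpos_of_nonpos_of_nonneg (sub_nonpos.mpr (hTmono hy'.le hy.2.le))
            (hpos y hy').le
      exact hm (left_mem_Icc.mpr hle) (right_mem_Icc.mpr hle) hle
  have : G θ₀ = rhoθ θ₀ + TT θ₀ * S θ₀ := rfl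
  have h2 : G θ₁ = rhoθ θ₁ + TT θ₀ * S θ₁ := rfl
  rw [this, h2] at key
  linarith

theorem rhoθ_nonneg {θ : ℝ} (h : 0 ≤ θ) : 0 ≤ rhoθ θ := by
  have := rhoθ_tangent (le_refl (0:ℝ)) h
  rw [rhoθ_zero, TT_zero] at this
  linarith

end

end CK322
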