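import Vale.Agent.Lib.P322.IV
import Vale.Agent.Lib.P322.Theta
import Vale.Agent.Lib.P322.TQ

/-!
Interval enclosures of the `(t,q)` functions, and the cell check for `E_main`.
-/

open Real

namespace CK322

/-! ### IV formulas -/

def ONE : IV := IV.pt SC

theorem mem_ONE : IV.mem 1 ONE := fun _ => ⟨le_of_eq val_SC, le_of_eq val_SC.symm⟩

def ivsq (I : IV) : IV := IV.mul I I

theorem mem_sq {x : ℝ} {I : IV} (h : IV.mem x I) : IV.mem (x ^ 2) (ivsq I) := by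
  rw [pow_two]; exact IV.mem_mul h h

def ivZZ (T Q : IV) : IV := IV.sub ONE (IV.mul (ivsq T) (ivsq Q))
def ivEps (T Q : IV) : IV := IV.div (IV.mul (ivsq T) (IV.sub ONE (ivsq Q))) (ivZZ T Q)
def ivP0 (T Q : IV) : IV := IV.div (IV.sub ONE (ivsq T)) (ivZZ T Q)
def ivUU (T Q : IV) : IV := IV.div (IV.sub ONE (ivsq Q)) (ivZZ T Q)
def ivAbar (T Q : IV) : IV := IV.mul T (ivUU T Q)

section
variable {t q : ℝ} {T Q : IV}

theorem mem_ZZ (ht : IV.mem t T) (hq : IV.mem q Q) : IV.mem (ZZ t q) (ivZZ T Q) :=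
  IV.mem_sub mem_ONE (IV.mem_mul (mem_sq ht) (mem_sq hq))

theorem mem_eps (ht : IV.mem t T) (hq : IV.mem q Q) : IV.mem (eps t q) (ivEps T Q) :=
  IV.mem_div (IV.mem_mul (mem_sq ht) (IV.mem_sub mem_ONE (mem_sq hq))) (mem_ZZ ht hq)

theorem mem_p0 (ht : IV.mem t T) (hq : IV.mem q Q) : IV.mem (p0 t q) (ivP0 T Q) :=
  IV.mem_div (IV.mem_sub mem_ONE (mem_sq ht)) (mem_ZZ ht hq)

theorem mem_uu (ht : IV.mem t T) (hq : IV.mem q Q) : IV.mem (uu t q) (ivUU T Q) :=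
  IV.mem_div (IV.mem_sub mem_ONE (mem_sq hq)) (mem_ZZ ht hq)

theorem mem_abar (ht : IV.mem t T) (hq : IV.mem q Q) : IV.mem (abar t q) (ivAbar T Q) :=
  IV.mem_mul ht (mem_uu ht hq)

end

/-- `-log (1 - q^2)` -/
def ivLam (Q : IV) : IV := IV.log (IV.div ONE (IV.sub ONE (ivsq Q)))

theorem mem_Lam {q : ℝ} {Q : IV} (hq : IV.mem q Q) : IV.mem (-log (1 - q ^ 2)) (ivLam Q) := by
  have := IV.mem_log (IV.mem_div mem_ONE (IV.mem_sub mem_ONE (mem_sq hq)))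
  rwa [one_div, Real.log_inv] at this

/-- `artanh w` for `0 ≤ w < 1`. -/
def ivAt (W : IV) : IV := IV.mul (IV.ofQ 1 2) (IV.log (IV.div (IV.add ONE W) (IV.sub ONE W)))

theorem mem_half : IV.mem (1 / 2 : ℝ) (IV.ofQ 1 2) := IV.mem_ofQ' 1 2 _ (by norm_num)

theorem mem_At {w : ℝ} {W : IV} (hw : IV.mem w W) (h0 : 0 ≤ w) (h1 : w < 1) :
    IV.mem (artanh w) (ivAt W) := by
  have e : artanh w = 1 / 2 * log ((1 + w) / (1 - w)) :=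
    Real.artanh_eq_half_log ⟨by linarith, by linarith⟩
  rw [e]
  exact IV.mem_mul mem_half (IV.mem_log (IV.mem_div (IV.mem_add mem_ONE hw) (IV.mem_sub mem_ONE hw)))

/-- `Phi (artanh q)` -/
def ivPhi (Q : IV) : IV :=
  IV.sub (IV.add LIV (IV.mul (IV.ofQ 1 2) (ivLam Q))) (IV.mul (ivAt Q) Q)

theorem Phi_artanh {q : ℝ} (h0 : 0 ≤ q) (h1 : q < 1) :
    Phi (artanh q) = L + 1 / 2 * (-log (1 - q ^ 2)) - artanh q * q := by
  have hmem : q ∈ Set.Ioo (-1 : ℝ) 1 := ⟨by linarith, h1⟩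
  have htanh := Real.tanh_artanh hmem
  have hcosh := Real.cosh_artanh hmem
  have hpos : 0 < 1 - q ^ 2 := by nlinarith
  unfold Phi
  rw [htanh, hcosh, one_div, Real.log_inv, Real.log_sqrt hpos.le]
  ring

theorem mem_Phi {q : ℝ} {Q : IV} (hq : IV.mem q Q) (h0 : 0 ≤ q) (h1 : q < 1) :
    IV.mem (Phi (artanh q)) (ivPhi Q) := by
  rw [Phi_artanh h0 h1]
  exact IV.mem_sub (IV.mem_add mem_LIV (IV.mem_mul mem_half (mem_Lam hq)))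
    (IV.mem_mul (mem_At hq h0 h1) hq)

/-- `S (artanh q)` -/
def ivS (Q : IV) : IV := IV.div (ivPhi Q) LIV

theorem mem_S {q : ℝ} {Q : IV} (hq : IV.mem q Q) (h0 : 0 ≤ q) (h1 : q < 1) :
    IV.mem (S (artanh q)) (ivS Q) :=
  IV.mem_div (mem_Phi hq h0 h1) mem_LIV

/-- `L * alR (artanh q)` -/
def ivKap (Q : IV) : IV :=
  IV.sub (IV.add (IV.mul (IV.ofQ 1 2) (ivLam Q))
    (IV.div (IV.mul (ivPhi Q) Q) (IV.mul (IV.sub ONE (ivsq Q)) (ivAt Q)))) LIV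

theorem kap_eq {q : ℝ} (h0 : 0 < q) (h1 : q < 1) :
    L * alR (artanh q) = 1 / 2 * (-log (1 - q ^ 2))
      + Phi (artanh q) * q / ((1 - q ^ 2) * artanh q) - L := by
  have hmem : q ∈ Set.Ioo (-1 : ℝ) 1 := ⟨by linarith, h1⟩
  have htanh := Real.tanh_artanh hmem
  have hθ : 0 < artanh q := Real.artanh_pos ⟨h0, h1⟩
  have hpos : 0 < 1 - q ^ 2 := by nlinarith
  have hL : L ≠ 0 := by
    unfold L; exact (Real.log_pos (by norm_num)).ne'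
  have hz : zeta (artanh q) = q / ((1 - q ^ 2) * artanh q) := by
    unfold zeta
    rw [if_neg hθ.ne', Real.sinh_two_mul, Real.sinh_artanh hmem, Real.cosh_artanh hmem]
    have hs : 0 < √(1 - q ^ 2) := Real.sqrt_pos.mpr hpos
    have hss : √(1 - q ^ 2) * √(1 - q ^ 2) = 1 - q ^ 2 := Real.mul_self_sqrt hpos.le
    field_simp
    rw [pow_two (√(1 - q ^ 2)), hss]
  have hP := Phi_artanh h0.le h1
  unfold alR hh S
  rw [htanh, hz]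
  field_simp
  rw [hP]
  field_simp
  ring

theorem mem_Kap {q : ℝ} {Q : IV} (hq : IV.mem q Q) (h0 : 0 < q) (h1 : q < 1) :
    IV.mem (L * alR (artanh q)) (ivKap Q) := by
  rw [kap_eq h0 h1]
  exact IV.mem_sub (IV.mem_add (IV.mem_mul mem_half (mem_Lam hq))
    (IV.mem_div (IV.mem_mul (mem_Phi hq h0.le h1) hq)
      (IV.mem_mul (IV.mem_sub mem_ONE (mem_sq hq)) (mem_At hq h0.le h1)))) mem_LIV


/-! ### `N1` in closed form -/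

theorem N1_eq {t q : ℝ} (ht0 : 0 < t) (ht1 : t < 1) (hq0 : 0 < q) (hq1 : q < 1) :
    N1 t q = (-log (1 - q ^ 2) + log (1 + eps t q * q ^ 2) / eps t q)
      - 2 * artanh (t * q ^ 2) / t := by
  have hz : 0 < 1 - q ^ 2 := by nlinarith
  have hZ : 0 < ZZ t q := by
    unfold ZZ
    have : t ^ 2 * q ^ 2 < 1 := by
      have h1 : t ^ 2 < 1 := by nlinarith
      have h2 : q ^ 2 < 1 := by nlinarith
      nlinarith [sq_nonneg t, sq_nonneg q]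
    linarith
  have he : 0 < eps t q := by
    unfold eps; positivity
  have hab : abar t q / eps t q = 1 / t := by
    unfold abar eps uu
    field_simp
  unfold N1 LL
  have : (eps t q * (-log (1 - q ^ 2)) + log (1 + eps t q * q ^ 2)
      - 2 * abar t q * artanh (t * q ^ 2)) / eps t q
      = -log (1 - q ^ 2) + log (1 + eps t q * q ^ 2) / eps t q
        - 2 * (abar t q / eps t q) * artanh (t * q ^ 2) := by
    field_simp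
  rw [this, hab]
  ring

def ivN1plus (T Q : IV) : IV :=
  IV.add (ivLam Q) (IV.div (IV.log (IV.add ONE (IV.mul (ivEps T Q) (ivsq Q)))) (ivEps T Q))

def ivN1minus (T Q : IV) : IV :=
  IV.div (IV.mul (IV.ofQ 2 1) (ivAt (IV.mul T (ivsq Q)))) T

theorem mem_N1plus {t q : ℝ} {T Q : IV} (ht : IV.mem t T) (hq : IV.mem q Q) :
    IV.mem (-log (1 - q ^ 2) + log (1 + eps t q * q ^ 2) / eps t q) (ivN1plus T Q) :=
  IV.mem_add (mem_Lam hq) (IV.mem_div (IV.mem_log (IV.mem_add mem_ONE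
    (IV.mem_mul (mem_eps ht hq) (mem_sq hq)))) (mem_eps ht hq))

theorem mem_N1minus {t q : ℝ} {T Q : IV} (ht : IV.mem t T) (hq : IV.mem q Q)
    (ht0 : 0 ≤ t) (ht1 : t < 1) (hq0 : 0 ≤ q) (hq1 : q < 1) :
    IV.mem (2 * artanh (t * q ^ 2) / t) (ivN1minus T Q) := by
  have hw0 : 0 ≤ t * q ^ 2 := by positivity
  have hw1 : t * q ^ 2 < 1 := by
    have : q ^ 2 < 1 := by nlinarith
    nlinarith [sq_nonneg q]
  exact IV.mem_div (IV.mem_mul (IV.mem_ofQ' 2 1 _ (by norm_num))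
    (mem_At (IV.mem_mul ht (mem_sq hq)) hw0 hw1)) ht

/-! ### monotonicity in `y = t^2` and `z = q^2` -/

section mono

variable {y y₁ y₂ z z₁ z₂ : ℝ}

theorem Z_pos (hy0 : 0 ≤ y) (hy1 : y ≤ 1) (hz0 : 0 ≤ z) (hz1 : z < 1) : 0 < 1 - y * z := by
  nlinarith

theorem Z2_pos (hy0 : 0 ≤ y) (hy1 : y ≤ 1) (hz0 : 0 ≤ z) (hz1 : z < 1) : 0 < 1 - y * z ^ 2 := by
  have : z ^ 2 < 1 := by nlinarith
  nlinarith [sq_nonneg z]

theorem U_mono_y (h0 : 0 ≤ y₁) (h : y₁ ≤ y₂) (h1 : y₂ ≤ 1) (hz0 : 0 ≤ z) (hz1 : z < 1) :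
    (1 - z) / (1 - y₁ * z) ≤ (1 - z) / (1 - y₂ * z) := by
  have a := Z_pos h0 (h.trans h1) hz0 hz1
  have b := Z_pos (h0.trans h) h1 hz0 hz1
  rw [div_le_div_iff₀ a b]
  nlinarith [mul_nonneg (sub_nonneg.mpr h) hz0, mul_nonneg (mul_nonneg (sub_nonneg.mpr h) hz0) (sub_pos.mpr hz1).le]

theorem U_anti_z (hy0 : 0 ≤ y) (hy1 : y ≤ 1) (h0 : 0 ≤ z₁) (h : z₁ ≤ z₂) (h1 : z₂ < 1) :
    (1 - z₂) / (1 - y * z₂) ≤ (1 - z₁) / (1 - y * z₁) := by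
  have a := Z_pos hy0 hy1 (h0.trans h) h1
  have b := Z_pos hy0 hy1 h0 (h.trans_lt h1)
  rw [div_le_div_iff₀ a b]
  nlinarith [mul_nonneg (sub_nonneg.mpr h) (sub_nonneg.mpr hy1)]

theorem U_corner (hy10 : 0 ≤ y₁) (hy1 : y₁ ≤ y) (hy2 : y ≤ 1) (hz0 : 0 ≤ z) (hz : z ≤ z₂) (hz1 : z₂ < 1) :
    (1 - z₂) / (1 - y₁ * z₂) ≤ (1 - z) / (1 - y * z) :=
  (U_mono_y hy10 hy1 hy2 (hz0.trans hz) hz1).trans (U_anti_z (hy10.trans hy1) hy2 hz0 hz hz1)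

theorem E_mono_y (h0 : 0 ≤ y₁) (h : y₁ ≤ y₂) (h1 : y₂ ≤ 1) (hz0 : 0 ≤ z) (hz1 : z < 1) :
    y₁ * (1 - z) / (1 - y₁ * z) ≤ y₂ * (1 - z) / (1 - y₂ * z) := by
  have a := Z_pos h0 (h.trans h1) hz0 hz1
  have b := Z_pos (h0.trans h) h1 hz0 hz1
  rw [div_le_div_iff₀ a b]
  have h3 : 0 ≤ 1 - z := by linarith
  nlinarith [mul_nonneg (sub_nonneg.mpr h) h3]

theorem E_anti_z (hy0 : 0 ≤ y) (hy1 : y ≤ 1) (h0 : 0 ≤ z₁) (h : z₁ ≤ z₂) (h1 : z₂ < 1) :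
    y * (1 - z₂) / (1 - y * z₂) ≤ y * (1 - z₁) / (1 - y * z₁) := by
  have := U_anti_z hy0 hy1 h0 h h1
  rw [mul_div_assoc, mul_div_assoc]
  exact mul_le_mul_of_nonneg_left this hy0

theorem E_corner (hy10 : 0 ≤ y₁) (hy1 : y₁ ≤ y) (hy2 : y ≤ 1) (hz0 : 0 ≤ z) (hz : z ≤ z₂) (hz1 : z₂ < 1) :
    y₁ * (1 - z₂) / (1 - y₁ * z₂) ≤ y * (1 - z) / (1 - y * z) :=
  (E_mono_y hy10 hy1 hy2 (hz0.trans hz) hz1).trans (E_anti_z (hy10.trans hy1) hy2 hz0 hz hz1)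

theorem E_corner' (hy0 : 0 ≤ y) (hy : y ≤ y₂) (hy2 : y₂ ≤ 1) (hz10 : 0 ≤ z₁) (hz : z₁ ≤ z) (hz1 : z < 1) :
    y * (1 - z) / (1 - y * z) ≤ y₂ * (1 - z₁) / (1 - y₂ * z₁) :=
  (E_mono_y hy0 hy hy2 (hz10.trans hz) hz1).trans (E_anti_z (hy0.trans hy) hy2 hz10 hz hz1)

theorem P_corner (hy0 : 0 ≤ y) (hy : y ≤ y₂) (hy2 : y₂ ≤ 1) (hz10 : 0 ≤ z₁) (hz : z₁ ≤ z) (hz1 : z < 1) :
    (1 - y₂) / (1 - y₂ * z₁) ≤ (1 - y) / (1 - y * z) := by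
  have a := Z_pos (hy0.trans hy) hy2 hz10 (hz.trans_lt hz1)
  have b := Z_pos hy0 (hy.trans hy2) (hz10.trans hz) hz1
  rw [div_le_div_iff₀ a b]
  have h3 : 0 ≤ y₂ - y := by linarith
  have h4 : 0 ≤ 1 - z := by linarith
  have h5 : 0 ≤ z - z₁ := by linarith
  have h6 : 0 ≤ 1 - y₂ := by linarith
  have h7 : 0 ≤ y := hy0
  nlinarith [mul_nonneg h3 h4, mul_nonneg h6 (mul_nonneg h7 h5), mul_nonneg h3 (mul_nonneg h4 h6)]

theorem B_corner (hy10 : 0 ≤ y₁) (hy1 : y₁ ≤ y) (hy2 : y ≤ 1) (hz0 : 0 ≤ z) (hz : z ≤ z₂) (hz1 : z₂ < 1) :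
    z * (1 - y * z) / (1 - y * z ^ 2) ≤ z₂ * (1 - y₁ * z₂) / (1 - y₁ * z₂ ^ 2) := by
  have hy0 := hy10.trans hy1
  have hz₁ := hz.trans_lt hz1
  have a1 := Z2_pos hy0 hy2 hz0 hz₁
  have a2 := Z2_pos hy10 (hy1.trans hy2) (hz0.trans hz) hz1
  have a3 := Z2_pos hy10 (hy1.trans hy2) hz0 hz₁
  have step1 : z * (1 - y * z) / (1 - y * z ^ 2) ≤ z * (1 - y₁ * z) / (1 - y₁ * z ^ 2) := by
    rw [div_le_div_iff₀ a1 a3]
    have h3 : 0 ≤ y - y₁ := by linarith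
    have h4 : 0 ≤ z - z ^ 2 := by nlinarith
    have := mul_nonneg hz0 (mul_nonneg h3 h4)
    nlinarith
  have step2 : z * (1 - y₁ * z) / (1 - y₁ * z ^ 2) ≤ z₂ * (1 - y₁ * z₂) / (1 - y₁ * z₂ ^ 2) := by
    rw [div_le_div_iff₀ a3 a2]
    have e : z₂ * (1 - y₁ * z₂) * (1 - y₁ * z ^ 2) - z * (1 - y₁ * z) * (1 - y₁ * z₂ ^ 2)
        = (z₂ - z) * ((1 - y₁) + y₁ * (1 - z) * (1 - z₂)) := by ring
    have h5 : 0 ≤ (z₂ - z) * ((1 - y₁) + y₁ * (1 - z) * (1 - z₂)) := by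
      apply mul_nonneg (by linarith)
      have : 0 ≤ y₁ * (1 - z) * (1 - z₂) :=
        mul_nonneg (mul_nonneg hy10 (by linarith)) (by linarith)
      linarith
    linarith
  exact step1.trans step2

end mono

/-! ### corner bounds in the `(t,q)` coordinates -/

section corner

variable {a₁ a₂ b₁ b₂ t q : ℝ}

theorem sq_range {x a b : ℝ} (h0 : 0 ≤ a) (h1 : a ≤ x) (h2 : x ≤ b) : a ^ 2 ≤ x ^ 2 ∧ x ^ 2 ≤ b ^ 2 :=
  ⟨pow_le_pow_left₀ h0 h1 2, pow_le_pow_left₀ (h0.trans h1) h2 2⟩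

theorem sq_lt_one' {x : ℝ} (h0 : 0 ≤ x) (h1 : x < 1) : x ^ 2 < 1 := by nlinarith

theorem sq_le_one' {x : ℝ} (h0 : 0 ≤ x) (h1 : x ≤ 1) : x ^ 2 ≤ 1 := by nlinarith

theorem c_eps_lo (h0 : 0 ≤ a₁) (h1 : a₁ ≤ t) (ht : t ≤ 1) (hq0 : 0 ≤ q) (hq : q ≤ b₂) (hb : b₂ < 1) :
    eps a₁ b₂ ≤ eps t q :=
  E_corner (sq_nonneg a₁) (sq_range h0 h1 le_rfl).1 (sq_le_one' (h0.trans h1) ht) (sq_nonneg q)
    (sq_range hq0 le_rfl hq).2 (sq_lt_one' (hq0.trans hq) hb)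

theorem c_eps_hi (h0 : 0 ≤ t) (h1 : t ≤ a₂) (ht : a₂ ≤ 1) (hb0 : 0 ≤ b₁) (hq : b₁ ≤ q) (hb : q < 1) :
    eps t q ≤ eps a₂ b₁ :=
  E_corner' (sq_nonneg t) (sq_range h0 le_rfl h1).2 (sq_le_one' (h0.trans h1) ht) (sq_nonneg b₁)
    (sq_range hb0 hq le_rfl).1 (sq_lt_one' (hb0.trans hq) hb)

theorem c_p0_lo (h0 : 0 ≤ t) (h1 : t ≤ a₂) (ht : a₂ ≤ 1) (hb0 : 0 ≤ b₁) (hq : b₁ ≤ q) (hb : q < 1) :
    p0 a₂ b₁ ≤ p0 t q :=
  P_corner (sq_nonneg t) (sq_range h0 le_rfl h1).2 (sq_le_one' (h0.trans h1) ht) (sq_nonneg b₁)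
    (sq_range hb0 hq le_rfl).1 (sq_lt_one' (hb0.trans hq) hb)

theorem c_uu_lo (h0 : 0 ≤ a₁) (h1 : a₁ ≤ t) (ht : t ≤ 1) (hq0 : 0 ≤ q) (hq : q ≤ b₂) (hb : b₂ < 1) :
    uu a₁ b₂ ≤ uu t q :=
  U_corner (sq_nonneg a₁) (sq_range h0 h1 le_rfl).1 (sq_le_one' (h0.trans h1) ht) (sq_nonneg q)
    (sq_range hq0 le_rfl hq).2 (sq_lt_one' (hq0.trans hq) hb)

theorem c_B (h0 : 0 ≤ a₁) (h1 : a₁ ≤ t) (ht : t ≤ 1) (hq0 : 0 ≤ q) (hq : q ≤ b₂) (hb : b₂ < 1) :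
    q ^ 2 * ZZ t q / (1 - t ^ 2 * q ^ 4) ≤ b₂ ^ 2 * ZZ a₁ b₂ / (1 - a₁ ^ 2 * b₂ ^ 4) := by
  have := B_corner (sq_nonneg a₁) (sq_range h0 h1 le_rfl).1 (sq_le_one' (h0.trans h1) ht) (sq_nonneg q)
    (sq_range hq0 le_rfl hq).2 (sq_lt_one' (hq0.trans hq) hb)
  have e1 : (q ^ 2) ^ 2 = q ^ 4 := by ring
  have e2 : (b₂ ^ 2) ^ 2 = b₂ ^ 4 := by ring
  rw [e1, e2] at this
  exact this

theorem uu_nonneg' (h0 : 0 ≤ t) (ht : t ≤ 1) (hq0 : 0 ≤ q) (hq : q < 1) : 0 ≤ uu t q := by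
  unfold uu ZZ
  exact div_nonneg (by linarith [sq_lt_one' hq0 hq]) (Z_pos (sq_nonneg t) (sq_le_one' h0 ht) (sq_nonneg q)
    (sq_lt_one' hq0 hq)).le

theorem eps_nonneg' (h0 : 0 ≤ t) (ht : t ≤ 1) (hq0 : 0 ≤ q) (hq : q < 1) : 0 ≤ eps t q := by
  unfold eps ZZ
  exact div_nonneg (mul_nonneg (sq_nonneg t) (by linarith [sq_lt_one' hq0 hq]))
    (Z_pos (sq_nonneg t) (sq_le_one' h0 ht) (sq_nonneg q) (sq_lt_one' hq0 hq)).le

theorem abar_sq (t q : ℝ) : abar t q ^ 2 = eps t q * uu t q := by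
  unfold abar eps uu
  ring

theorem c_abar (h0 : 0 ≤ a₁) (h1 : a₁ ≤ t) (ht : t ≤ 1) (hq0 : 0 ≤ q) (hq : q ≤ b₂) (hb : b₂ < 1) :
    abar a₁ b₂ ^ 2 ≤ abar t q ^ 2 := by
  rw [abar_sq, abar_sq]
  exact mul_le_mul (c_eps_lo h0 h1 ht hq0 hq hb) (c_uu_lo h0 h1 ht hq0 hq hb)
    (uu_nonneg' h0 (h1.trans ht) (hq0.trans hq) hb) (eps_nonneg' (h0.trans h1) ht hq0 (hq.trans_lt hb))

theorem abar_sq_lt_one (h0 : 0 ≤ t) (ht : t < 1) (hq0 : 0 < q) (hq : q < 1) : abar t q ^ 2 < 1 := by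
  have hy := sq_lt_one' h0 ht
  have hz := sq_lt_one' hq0.le hq
  have hZ : 0 < ZZ t q := Z_pos (sq_nonneg t) hy.le (sq_nonneg q) hz
  rw [abar_sq]
  unfold eps uu
  rw [div_mul_div_comm, div_lt_one (mul_pos hZ hZ)]
  have h3 : 0 < q ^ 2 := by positivity
  have h4 : t ^ 2 * q ^ 2 ≤ t ^ 2 := by nlinarith [sq_nonneg t]
  unfold ZZ at hZ ⊢
  have h5 : 1 - q ^ 2 < 1 - t ^ 2 * q ^ 2 := by
    nlinarith [sq_nonneg t]
  have h6 : t ^ 2 * (1 - q ^ 2) < 1 - t ^ 2 * q ^ 2 := by nlinarith [sq_nonneg t]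
  have h7 : 0 < 1 - q ^ 2 := by linarith
  nlinarith [mul_pos h7 h7, sq_nonneg t]

/-- the two factors of `QQ` at the corner -/
theorem c_QQ (h0 : 0 ≤ a₁) (h1 : a₁ ≤ t) (ht : t < 1) (hq0 : 0 < q) (hq : q ≤ b₂) (hb : b₂ < 1)
    (hQ : 0 < QQ t q) :
    0 < b₂ ^ 2 * ZZ a₁ b₂ / (1 - a₁ ^ 2 * b₂ ^ 4) - 2 / 5 * uu a₁ b₂ ∧
    QQ t q ≤ (1 - abar a₁ b₂ ^ 2)
      * (b₂ ^ 2 * ZZ a₁ b₂ / (1 - a₁ ^ 2 * b₂ ^ 4) - 2 / 5 * uu a₁ b₂) := by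
  have h3 := abar_sq_lt_one (h0.trans h1) ht hq0 (hq.trans_lt hb)
  have hB := c_B h0 h1 ht.le hq0.le hq hb
  have hU := c_uu_lo h0 h1 ht.le hq0.le hq hb
  have hA := c_abar h0 h1 ht.le hq0.le hq hb
  unfold QQ at hQ ⊢
  have hpos : 0 < q ^ 2 * ZZ t q / (1 - t ^ 2 * q ^ 4) - 2 / 5 * uu t q := by
    by_contra hc
    have hc' : q ^ 2 * ZZ t q / (1 - t ^ 2 * q ^ 4) - 2 / 5 * uu t q ≤ 0 := not_lt.mp hc
    nlinarith
  have hle : q ^ 2 * ZZ t q / (1 - t ^ 2 * q ^ 4) - 2 / 5 * uu t q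
      ≤ b₂ ^ 2 * ZZ a₁ b₂ / (1 - a₁ ^ 2 * b₂ ^ 4) - 2 / 5 * uu a₁ b₂ := by linarith
  refine ⟨by linarith, ?_⟩
  exact mul_le_mul (by linarith) hle hpos.le (by linarith)

theorem c_Ix (h0 : 0 ≤ a₁) (h1 : a₁ ≤ t) (ht : t < 1) (hq0 : 0 ≤ q) (hq : q ≤ b₂) (hb : b₂ < 1)
    (hE : 7 / 2 ≤ 6 * eps a₁ b₂ ^ 2) : Ix (abar t q) (delt t q) ≤ 0 := by
  have he := c_eps_lo h0 h1 ht.le hq0 hq hb
  have he0 := eps_nonneg' h0 (h1.trans ht.le) (hq0.trans hq) hb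
  have hq1 := hq.trans_lt hb
  have hy := sq_lt_one' (h0.trans h1) ht
  have hz := sq_lt_one' hq0 hq1
  have hZ : 0 < ZZ t q := Z_pos (sq_nonneg t) hy.le (sq_nonneg q) hz
  have hU : eps t q ≤ uu t q := by
    unfold eps uu
    apply div_le_div_of_nonneg_right _ hZ.le
    nlinarith
  have hEe : 0 ≤ eps t q := he0.trans he
  have hsq : eps a₁ b₂ ^ 2 ≤ abar t q ^ 2 := by
    rw [abar_sq]
    have : eps a₁ b₂ ^ 2 ≤ eps t q ^ 2 := pow_le_pow_left₀ he0 he 2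
    nlinarith
  unfold Ix
  have h6 : 7 / 5 - 2 / 5 * (6 * abar t q ^ 2 + delt t q ^ 2) ≤ 0 := by
    nlinarith [sq_nonneg (delt t q)]
  nlinarith [sq_nonneg (delt t q)]

/-- the lower bound of `Y1` -/
theorem c_Y1 (h0 : 0 ≤ a₁) (h1 : a₁ ≤ t) (ht : t < 1) (hb0 : 0 ≤ b₁) (hq1 : b₁ ≤ q) (hq : q ≤ b₂)
    (hb : b₂ < 1) :
    (1 - b₂ ^ 2) * (1 + a₁ ^ 2 * b₁ ^ 2) / ZZ a₁ b₁ ≤ Y1 t q := by
  have hq0 := hb0.trans hq1
  obtain ⟨ht1, -⟩ := sq_range h0 h1 le_rfl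
  obtain ⟨hq1', hq2'⟩ := sq_range hb0 hq1 hq
  have hy := sq_lt_one' (h0.trans h1) ht
  have hz := sq_lt_one' hq0 (hq.trans_lt hb)
  have hz2 := sq_lt_one' (hq0.trans hq) hb
  have hZ : 0 < ZZ t q := Z_pos (sq_nonneg t) hy.le (sq_nonneg q) hz
  have hZ1 : 0 < ZZ a₁ b₁ := Z_pos (sq_nonneg a₁) (ht1.trans hy.le) (sq_nonneg b₁) (hq1'.trans_lt hz)
  unfold Y1
  rw [div_le_div_iff₀ hZ1 hZ]
  have hm : a₁ ^ 2 * b₁ ^ 2 ≤ t ^ 2 * q ^ 2 :=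
    mul_le_mul ht1 hq1' (sq_nonneg _) (sq_nonneg _)
  have hm0 : 0 ≤ a₁ ^ 2 * b₁ ^ 2 := by positivity
  unfold ZZ
  have h3 : (1 + a₁ ^ 2 * b₁ ^ 2) * (1 - t ^ 2 * q ^ 2) ≤ (1 + t ^ 2 * q ^ 2) * (1 - a₁ ^ 2 * b₁ ^ 2) := by
    nlinarith
  have h4 : 0 ≤ 1 + t ^ 2 * q ^ 2 := by positivity
  have h5 : 0 ≤ 1 - a₁ ^ 2 * b₁ ^ 2 := by unfold ZZ at hZ1; linarith
  have h6 : 1 - b₂ ^ 2 ≤ 1 - q ^ 2 := by linarith
  have h7 : 0 ≤ 1 - b₂ ^ 2 := by linarith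
  calc (1 - b₂ ^ 2) * (1 + a₁ ^ 2 * b₁ ^ 2) * (1 - t ^ 2 * q ^ 2)
      = (1 - b₂ ^ 2) * ((1 + a₁ ^ 2 * b₁ ^ 2) * (1 - t ^ 2 * q ^ 2)) := by ring
    _ ≤ (1 - b₂ ^ 2) * ((1 + t ^ 2 * q ^ 2) * (1 - a₁ ^ 2 * b₁ ^ 2)) :=
        mul_le_mul_of_nonneg_left h3 h7
    _ ≤ (1 - q ^ 2) * ((1 + t ^ 2 * q ^ 2) * (1 - a₁ ^ 2 * b₁ ^ 2)) :=
        mul_le_mul_of_nonneg_right h6 (mul_nonneg h4 h5)
    _ = _ := by ring

/-- `p0 / eps` at the corner -/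
theorem c_ratio (h0 : 0 < t) (h1 : t ≤ a₂) (ht : a₂ < 1) (hb0 : 0 ≤ b₁) (hq1 : b₁ ≤ q) (hq : q < 1) :
    (1 - a₂ ^ 2) / (a₂ ^ 2 * (1 - b₁ ^ 2)) ≤ p0 t q / eps t q := by
  have hy := sq_lt_one' h0.le (h1.trans_lt ht)
  have hy2 := sq_lt_one' (h0.le.trans h1) ht
  have hz := sq_lt_one' (hb0.trans hq1) hq
  obtain ⟨-, hty⟩ := sq_range h0.le le_rfl h1
  obtain ⟨hqz, -⟩ := sq_range hb0 hq1 le_rfl
  have hZ : 0 < ZZ t q := Z_pos (sq_nonneg t) hy.le (sq_nonneg q) hz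
  have ht2 : 0 < t ^ 2 := by positivity
  have hz1 : 0 < 1 - q ^ 2 := by linarith
  have e : p0 t q / eps t q = (1 - t ^ 2) / (t ^ 2 * (1 - q ^ 2)) := by
    unfold p0 eps
    field_simp
  rw [e]
  have hy3 : 0 < a₂ ^ 2 := by
    have : 0 < a₂ := h0.trans_le h1
    positivity
  have hz3 : 0 < 1 - b₁ ^ 2 := by linarith
  apply div_le_div₀ (by linarith) (by linarith) (by positivity)
  exact mul_le_mul hty (by linarith) hz1.le hy3.le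

end corner

/-! ### `Bplus` -/

theorem Bplus_nonneg {X s : ℝ} (hs : 0 < s) : 0 ≤ Bplus X s := by
  unfold Bplus
  split_ifs with h
  · have hX : 0 < X := hs.trans h
    have h1 := Real.one_sub_inv_le_log_of_pos (div_pos hX hs)
    have h2 : X * (1 - (X / s)⁻¹) ≤ X * log (X / s) := mul_le_mul_of_nonneg_left h1 hX.le
    have h3 : X * (1 - (X / s)⁻¹) = X - s := by field_simp
    linarith
  · exact le_rfl

theorem Bplus_lower {X X₀ s s₀ : ℝ} (hs : 0 < s) (hs₀ : s ≤ s₀) (h : s₀ < X₀) (hX : X₀ ≤ X) :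
    s₀ - X₀ + X₀ * log (X₀ / s₀) ≤ Bplus X s := by
  have hs0 : 0 < s₀ := hs.trans_le hs₀
  have hX0 : 0 < X₀ := hs0.trans h
  have hXp : 0 < X := hX0.trans_le hX
  have hlt : s < X := (hs₀.trans_lt h).trans_le hX
  unfold Bplus
  rw [if_pos hlt]
  -- in `X`
  have s1 : s₀ - X₀ + X₀ * log (X₀ / s₀) ≤ s₀ - X + X * log (X / s₀) := by
    have l0 : 0 ≤ log (X₀ / s₀) := Real.log_nonneg (by rw [le_div_iff₀ hs0]; linarith)
    have l1 := Real.one_sub_inv_le_log_of_pos (div_pos hXp hX0)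
    have l2 : X * (1 - (X / X₀)⁻¹) ≤ X * log (X / X₀) := mul_le_mul_of_nonneg_left l1 hXp.le
    have l3 : X * (1 - (X / X₀)⁻¹) = X - X₀ := by field_simp
    have l4 : log (X / s₀) = log (X / X₀) + log (X₀ / s₀) := by
      rw [← Real.log_mul (by positivity) (by positivity)]
      congr 1
      field_simp
    rw [l4]
    nlinarith [mul_nonneg (sub_nonneg.mpr hX) l0]
  -- in `s`
  have s2 : s₀ - X + X * log (X / s₀) ≤ s - X + X * log (X / s) := by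
    have l1 := Real.one_sub_inv_le_log_of_pos (div_pos hs0 hs)
    have l2 : X * (1 - (s₀ / s)⁻¹) ≤ X * log (s₀ / s) := mul_le_mul_of_nonneg_left l1 hXp.le
    have l3 : X * (1 - (s₀ / s)⁻¹) = X - X * s / s₀ := by field_simp
    have l4 : log (X / s) = log (X / s₀) + log (s₀ / s) := by
      rw [← Real.log_mul (by positivity) (by positivity)]
      congr 1
      field_simp
    rw [l4]
    have l5 : 0 ≤ (s₀ - s) * (X / s₀ - 1) := by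
      apply mul_nonneg (by linarith)
      rw [sub_nonneg, le_div_iff₀ hs0]
      linarith [h.le.trans hX]
    have l6 : (s₀ - s) * (X / s₀ - 1) = X - X * s / s₀ - s₀ + s := by
      field_simp
      ring
    nlinarith
  exact s1.trans s2


/-! ### the cell check -/

def qA (t1 q2 : ℕ) : IV := IV.sub ONE (ivsq (ivAbar (IV.pt t1) (IV.pt q2)))

def qB (t1 q2 : ℕ) : IV :=
  IV.div (IV.mul (ivsq (IV.pt q2)) (ivZZ (IV.pt t1) (IV.pt q2)))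
    (IV.sub ONE (IV.mul (ivsq (IV.pt t1)) (IV.mul (ivsq (IV.pt q2)) (ivsq (IV.pt q2)))))

def qC (t1 q2 : ℕ) : IV := IV.mul (IV.ofQ 2 5) (ivUU (IV.pt t1) (IV.pt q2))

def branchQ (t1 q2 : ℕ) : Bool :=
  (qB t1 q2).ok && (qC t1 q2).ok && Nat.ble (qB t1 q2).hi (qC t1 q2).lo

def Qhi (t1 q2 : ℕ) : ℕ :=
  Nat.add (Nat.div (Nat.mul (qA t1 q2).hi (Nat.sub (qB t1 q2).hi (qC t1 q2).lo)) SC) 1

def branchI (t1 q2 : ℕ) : Bool :=
  (ivEps (IV.pt t1) (IV.pt q2)).ok &&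
    Nat.ble (Nat.mul 7 (Nat.mul SC SC))
      (Nat.mul 12 (Nat.mul (ivEps (IV.pt t1) (IV.pt q2)).lo (ivEps (IV.pt t1) (IV.pt q2)).lo))

def rhsIV (t1 t2 q1 q2 : ℕ) : IV :=
  IV.add (IV.mul ⟨true, 0, (ivKap (IV.pt q2)).hi⟩ ⟨true, 0, Qhi t1 q2⟩)
    (IV.div (IV.mul (IV.mul (IV.mul (IV.ofQ 93 200) LIV) ⟨true, 0, (ivEps (IV.pt t2) (IV.pt q1)).hi⟩)
        (ivsq ⟨true, 0, Qhi t1 q2⟩))
      ⟨true, (ivP0 (IV.pt t2) (IV.pt q1)).lo, SC⟩)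

def baseOK (t1 t2 q1 q2 : ℕ) : Bool :=
  (qA t1 q2).ok && (qB t1 q2).ok && (qC t1 q2).ok && (ivKap (IV.pt q2)).ok
    && (ivEps (IV.pt t2) (IV.pt q1)).ok && (ivP0 (IV.pt t2) (IV.pt q1)).ok
    && (rhsIV t1 t2 q1 q2).ok && (ivN1plus (IV.pt t2) (IV.pt q1)).ok
    && (ivN1minus (IV.pt t2) (IV.pt q1)).ok

def YloIV (t1 q1 q2 : ℕ) : IV :=
  IV.div (IV.mul (IV.sub ONE (ivsq (IV.pt q2)))
      (IV.add ONE (IV.mul (ivsq (IV.pt t1)) (ivsq (IV.pt q1)))))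
    (ivZZ (IV.pt t1) (IV.pt q1))

def XloIV (t1 t2 q1 q2 : ℕ) : IV :=
  IV.add (IV.mul (IV.ofQ 3 5) (YloIV t1 q1 q2))
    (IV.mul (IV.mul (IV.ofQ 2 5) (ivP0 (IV.pt t2) (IV.pt q1))) (ivsq (YloIV t1 q1 q2)))

def ratIV (t2 q1 : ℕ) : IV :=
  IV.div (IV.sub ONE (ivsq (IV.pt t2))) (IV.mul (ivsq (IV.pt t2)) (IV.sub ONE (ivsq (IV.pt q1))))

def BlIV (s0 X0 : ℕ) : IV :=
  IV.sub (IV.add (IV.pt s0) (IV.mul (IV.pt X0) (IV.log (IV.div (IV.pt X0) (IV.pt s0))))) (IV.pt X0)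

def RtIV (t1 t2 q1 q2 : ℕ) : IV :=
  IV.mul (IV.mul (IV.ofQ 1 2) (ratIV t2 q1))
    (BlIV (ivS (IV.pt q1)).hi (XloIV t1 t2 q1 q2).lo)

def branchR (t1 t2 q1 q2 : ℕ) : Bool :=
  (ivS (IV.pt q1)).ok && (XloIV t1 t2 q1 q2).ok
    && Nat.blt (ivS (IV.pt q1)).hi (XloIV t1 t2 q1 q2).lo && (RtIV t1 t2 q1 q2).ok
    && Nat.ble (Nat.add (rhsIV t1 t2 q1 q2).hi (ivN1minus (IV.pt t2) (IV.pt q1)).hi)
        (Nat.add (ivN1plus (IV.pt t2) (IV.pt q1)).lo (RtIV t1 t2 q1 q2).lo)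

def branchN (t1 t2 q1 q2 : ℕ) : Bool :=
  Nat.ble (Nat.add (rhsIV t1 t2 q1 q2).hi (ivN1minus (IV.pt t2) (IV.pt q1)).hi)
    (ivN1plus (IV.pt t2) (IV.pt q1)).lo

def cellOK (t1 t2 q1 q2 : ℕ) : Bool :=
  Nat.blt q2 SC &&
    (branchQ t1 q2 || branchI t1 q2 ||
      (Nat.blt 0 q1 && Nat.blt t2 SC && baseOK t1 t2 q1 q2 &&
        (branchN t1 t2 q1 q2 || branchR t1 t2 q1 q2)))

/-- dyadic subdivision -/
def treeOK : ℕ → ℕ → ℕ → ℕ → ℕ → Bool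
  | 0, t1, t2, q1, q2 => cellOK t1 t2 q1 q2
  | d + 1, t1, t2, q1, q2 =>
    cellOK t1 t2 q1 q2 ||
      (treeOK d t1 (Nat.div (Nat.add t1 t2) 2) q1 (Nat.div (Nat.add q1 q2) 2)
        && treeOK d (Nat.div (Nat.add t1 t2) 2) t2 q1 (Nat.div (Nat.add q1 q2) 2)
        && treeOK d t1 (Nat.div (Nat.add t1 t2) 2) (Nat.div (Nat.add q1 q2) 2) q2
        && treeOK d (Nat.div (Nat.add t1 t2) 2) t2 (Nat.div (Nat.add q1 q2) 2) q2)

/-- consecutive pairs of a list -/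
def chainOK (P : ℕ → ℕ → Bool) : ℕ → List ℕ → Bool
  | _, [] => true
  | a, b :: l => P a b && chainOK P b l


/-! ### soundness of the cell check -/

/-- the target inequality of `E_main` -/
def EIneq (t q : ℝ) : Prop :=
  L * alR (artanh q) * QQ t q + 93 / 200 * L * eps t q * QQ t q ^ 2 / p0 t q
    ≤ N1 t q + 1 / 2 * (p0 t q / eps t q) * Bplus (Xl t q) (S (artanh q))

theorem mem_upper {x : ℝ} {hi : ℕ} (h0 : 0 ≤ x) (h : x ≤ val hi) : IV.mem x ⟨true, 0, hi⟩ := by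
  intro _
  refine ⟨?_, h⟩
  simpa [val] using h0

theorem mem_lower {x : ℝ} {lo : ℕ} (h0 : val lo ≤ x) (h : x ≤ 1) : IV.mem x ⟨true, lo, SC⟩ := by
  intro _
  refine ⟨h0, ?_⟩
  rw [show val SC = 1 from val_SC]
  exact h

theorem mem_qA {a b : ℝ} {t1 q2 : ℕ} (ha : a = val t1) (hb : b = val q2) :
    IV.mem (1 - abar a b ^ 2) (qA t1 q2) := by
  subst ha hb
  exact IV.mem_sub mem_ONE (mem_sq (mem_abar (IV.mem_pt _) (IV.mem_pt _)))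

theorem mem_qB {t1 q2 : ℕ} :
    IV.mem (val q2 ^ 2 * ZZ (val t1) (val q2) / (1 - val t1 ^ 2 * val q2 ^ 4)) (qB t1 q2) := by
  have e : val q2 ^ 4 = val q2 ^ 2 * val q2 ^ 2 := by ring
  rw [e]
  exact IV.mem_div (IV.mem_mul (mem_sq (IV.mem_pt _)) (mem_ZZ (IV.mem_pt _) (IV.mem_pt _)))
    (IV.mem_sub mem_ONE (IV.mem_mul (mem_sq (IV.mem_pt _))
      (IV.mem_mul (mem_sq (IV.mem_pt _)) (mem_sq (IV.mem_pt _)))))

theorem mem_qC {t1 q2 : ℕ} : IV.mem (2 / 5 * uu (val t1) (val q2)) (qC t1 q2) :=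
  IV.mem_mul (IV.mem_ofQ' 2 5 _ (by norm_num)) (mem_uu (IV.mem_pt _) (IV.mem_pt _))

theorem mem_Xlo {t1 t2 q1 q2 : ℕ} :
    IV.mem (3 / 5 * ((1 - val q2 ^ 2) * (1 + val t1 ^ 2 * val q1 ^ 2) / ZZ (val t1) (val q1))
      + 2 / 5 * p0 (val t2) (val q1)
        * ((1 - val q2 ^ 2) * (1 + val t1 ^ 2 * val q1 ^ 2) / ZZ (val t1) (val q1)) ^ 2)
      (XloIV t1 t2 q1 q2) := by
  have hY : IV.mem ((1 - val q2 ^ 2) * (1 + val t1 ^ 2 * val q1 ^ 2) / ZZ (val t1) (val q1))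
      (YloIV t1 q1 q2) :=
    IV.mem_div (IV.mem_mul (IV.mem_sub mem_ONE (mem_sq (IV.mem_pt _)))
      (IV.mem_add mem_ONE (IV.mem_mul (mem_sq (IV.mem_pt _)) (mem_sq (IV.mem_pt _)))))
      (mem_ZZ (IV.mem_pt _) (IV.mem_pt _))
  exact IV.mem_add (IV.mem_mul (IV.mem_ofQ' 3 5 _ (by norm_num)) hY)
    (IV.mem_mul (IV.mem_mul (IV.mem_ofQ' 2 5 _ (by norm_num)) (mem_p0 (IV.mem_pt _) (IV.mem_pt _)))
      (mem_sq hY))

theorem mem_ratIV {t2 q1 : ℕ} :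
    IV.mem ((1 - val t2 ^ 2) / (val t2 ^ 2 * (1 - val q1 ^ 2))) (ratIV t2 q1) :=
  IV.mem_div (IV.mem_sub mem_ONE (mem_sq (IV.mem_pt _)))
    (IV.mem_mul (mem_sq (IV.mem_pt _)) (IV.mem_sub mem_ONE (mem_sq (IV.mem_pt _))))

theorem mem_BlIV {s0 X0 : ℕ} :
    IV.mem (val s0 - val X0 + val X0 * log (val X0 / val s0)) (BlIV s0 X0) := by
  have e : val s0 - val X0 + val X0 * log (val X0 / val s0)
      = val s0 + val X0 * log (val X0 / val s0) - val X0 := by ring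
  rw [e]
  exact IV.mem_sub (IV.mem_add (IV.mem_pt _) (IV.mem_mul (IV.mem_pt _)
    (IV.mem_log (IV.mem_div (IV.mem_pt _) (IV.mem_pt _))))) (IV.mem_pt _)

section sound

variable {t1 t2 q1 q2 : ℕ} {t q : ℝ}

theorem branchQ_false (h : branchQ t1 q2 = true) (ht0 : 0 < t) (ht1 : t < 1) (hq0 : 0 < q)
    (hta : val t1 ≤ t) (hqb : q ≤ val q2) (hb : val q2 < 1) (hQ : 0 < QQ t q) : False := by
  unfold branchQ at h
  simp only [Bool.and_eq_true] at h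
  obtain ⟨⟨h1, h2⟩, h3⟩ := h
  have hle : (qB t1 q2).hi ≤ (qC t1 q2).lo := Nat.le_of_ble_eq_true h3
  have a1 := (mem_qB (t1 := t1) (q2 := q2) h1).2
  have a2 := (mem_qC (t1 := t1) (q2 := q2) h2).1
  have a3 := val_mono hle
  have := (c_QQ (val_nonneg t1) hta ht1 hq0 hqb hb hQ).1
  linarith

theorem branchI_false (h : branchI t1 q2 = true) (ht1 : t < 1) (hq0 : 0 < q)
    (hta : val t1 ≤ t) (hqb : q ≤ val q2) (hb : val q2 < 1)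
    (hI : 0 < Ix (abar t q) (delt t q)) : False := by
  unfold branchI at h
  simp only [Bool.and_eq_true] at h
  obtain ⟨h1, h2⟩ := h
  have a1 := (mem_eps (t := val t1) (q := val q2) (IV.mem_pt t1) (IV.mem_pt q2) h1).1
  set lo := (ivEps (IV.pt t1) (IV.pt q2)).lo with hlo
  have hle : 7 * (SC * SC) ≤ 12 * (lo * lo) := Nat.le_of_ble_eq_true h2
  have hv : (7 : ℝ) / 2 ≤ 6 * val lo ^ 2 := by
    have hSC := SC_pos
    have hR : (7 : ℝ) * ((SC : ℝ) * SC) ≤ 12 * ((lo : ℝ) * lo) := by exact_mod_cast hle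
    unfold val
    rw [div_pow, ← mul_div_assoc, le_div_iff₀ (by positivity)]
    nlinarith
  have hv2 : val lo ^ 2 ≤ eps (val t1) (val q2) ^ 2 := pow_le_pow_left₀ (val_nonneg _) a1 2
  have := c_Ix (val_nonneg t1) hta ht1 hq0.le hqb hb (by linarith)
  linarith


theorem val_sub_ge (a b : ℕ) : val a - val b ≤ val (Nat.sub a b) := by
  by_cases h : b ≤ a
  · rw [show Nat.sub a b = a - b from rfl, val_sub_of_le h]
  · have : val a ≤ val b := val_mono (by omega)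
    have h0 := val_nonneg (Nat.sub a b)
    linarith

theorem val_lt_of_lt {a b : ℕ} (h : a < b) : val a < val b := by
  unfold val
  exact div_lt_div_of_pos_right (by exact_mod_cast h) SC_pos

theorem Qhi_sound (hok1 : (qA t1 q2).ok = true) (hok2 : (qB t1 q2).ok = true)
    (hok3 : (qC t1 q2).ok = true) (ht1 : t < 1) (hq0 : 0 < q)
    (hta : val t1 ≤ t) (hqb : q ≤ val q2) (hb : val q2 < 1) (hQ : 0 < QQ t q) :
    QQ t q ≤ val (Qhi t1 q2) := by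
  have h0 := val_nonneg t1
  obtain ⟨c1, c2⟩ := c_QQ h0 hta ht1 hq0 hqb hb hQ
  have a1 := (mem_qA (a := val t1) (b := val q2) rfl rfl hok1).2
  have a2 := (mem_qB (t1 := t1) (q2 := q2) hok2).2
  have a3 := (mem_qC (t1 := t1) (q2 := q2) hok3).1
  have a4 := val_sub_ge (qB t1 q2).hi (qC t1 q2).lo
  have hA0 : 0 ≤ 1 - abar (val t1) (val q2) ^ 2 := by
    have := abar_sq_lt_one (h0.trans hta) ht1 hq0 (hqb.trans_lt hb)
    have := c_abar h0 hta ht1.le hq0.le hqb hb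
    linarith
  refine c2.trans ?_
  have := mul_le_mul a1 (show val (q2) ^ 2 * ZZ (val t1) (val q2) / (1 - val t1 ^ 2 * val q2 ^ 4)
      - 2 / 5 * uu (val t1) (val q2) ≤ val (Nat.sub (qB t1 q2).hi (qC t1 q2).lo) by linarith)
    c1.le (val_nonneg _)
  exact this.trans (val_mul_hi _ _)

theorem Kap_le {b₂ : ℝ} (h0 : 0 < q) (hq : q ≤ b₂) (hb : b₂ < 1) :
    0 ≤ L * alR (artanh q) ∧ L * alR (artanh q) ≤ L * alR (artanh b₂) := by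
  have hq1 := hq.trans_lt hb
  have t0 : 0 ≤ artanh q := Real.artanh_nonneg h0.le
  have t1 : artanh q ≤ artanh b₂ := Real.artanh_le_artanh (by linarith) hb hq
  have t2 : (0 : ℝ) ≤ artanh b₂ := t0.trans t1
  have hL := L_pos
  exact ⟨mul_nonneg hL.le (alR_nonneg t0), mul_le_mul_of_nonneg_left (alR_mono t0 t2 t1) hL.le⟩

theorem S_le {b₁ : ℝ} (h0 : 0 ≤ b₁) (hq : b₁ ≤ q) (hb : q < 1) :
    S (artanh q) ≤ S (artanh b₁) := by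
  have t0 : 0 ≤ artanh b₁ := Real.artanh_nonneg h0
  have t1 : artanh b₁ ≤ artanh q := Real.artanh_le_artanh (by linarith) hb hq
  exact S_strictAnti.antitoneOn t0 (t0.trans t1) t1

theorem p0_le_one (h0 : 0 ≤ t) (ht : t < 1) (hq0 : 0 ≤ q) (hq : q < 1) : p0 t q ≤ 1 ∧ 0 < p0 t q := by
  have hy := sq_lt_one' h0 ht
  have hz := sq_lt_one' hq0 hq
  have hZ : 0 < ZZ t q := Z_pos (sq_nonneg t) hy.le (sq_nonneg q) hz
  constructor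
  · unfold p0
    rw [div_le_one hZ]
    unfold ZZ
    nlinarith [sq_nonneg t, sq_nonneg q]
  · unfold p0
    exact div_pos (by linarith) hZ

theorem Xlo_le (ok11 : (XloIV t1 t2 q1 q2).ok = true) (hta : val t1 ≤ t) (ht1 : t < 1)
    (hb1p : 0 ≤ val q1) (hqa : val q1 ≤ q) (hqb : q ≤ val q2) (hb2 : val q2 < 1)
    (htb : t ≤ val t2) (ha2 : val t2 < 1) :
    val (XloIV t1 t2 q1 q2).lo ≤ Xl t q := by
  have hXlo := (mem_Xlo (t1 := t1) (t2 := t2) (q1 := q1) (q2 := q2) ok11).1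
  have ht0 : 0 ≤ t := (val_nonneg t1).trans hta
  have hq0 : 0 ≤ q := hb1p.trans hqa
  have hq1 : q < 1 := hqb.trans_lt hb2
  have hY := c_Y1 (val_nonneg t1) hta ht1 hb1p hqa hqb hb2
  have hb22 := sq_lt_one' (hq0.trans hqb) hb2
  have hP1 := c_p0_lo ht0 htb ha2.le hb1p hqa hq1
  obtain ⟨_, hP4⟩ := p0_le_one ht0 ht1 hq0 hq1
  have hYlo0 : 0 ≤ (1 - val q2 ^ 2) * (1 + val t1 ^ 2 * val q1 ^ 2) / ZZ (val t1) (val q1) := by
    have hZ1 : 0 < ZZ (val t1) (val q1) :=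
      Z_pos (sq_nonneg _) (sq_le_one' (val_nonneg t1) (hta.trans ht1.le)) (sq_nonneg _)
        (sq_lt_one' hb1p (hqa.trans_lt hq1))
    have : 0 ≤ 1 - val q2 ^ 2 := (sub_pos.mpr hb22).le
    positivity
  refine hXlo.trans ?_
  unfold Xl
  have h2 : ((1 - val q2 ^ 2) * (1 + val t1 ^ 2 * val q1 ^ 2) / ZZ (val t1) (val q1)) ^ 2
      ≤ Y1 t q ^ 2 := pow_le_pow_left₀ hYlo0 hY 2
  have h3 : p0 (val t2) (val q1)
        * ((1 - val q2 ^ 2) * (1 + val t1 ^ 2 * val q1 ^ 2) / ZZ (val t1) (val q1)) ^ 2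
      ≤ p0 t q * Y1 t q ^ 2 := mul_le_mul hP1 h2 (sq_nonneg _) hP4.le
  nlinarith

theorem Rt_bound {s0 X0 : ℕ} (hsX : val s0 < val X0) (hS1 : S (artanh q) ≤ val s0)
    (hXle : val X0 ≤ Xl t q)
    (hrat : (1 - val t2 ^ 2) / (val t2 ^ 2 * (1 - val q1 ^ 2)) ≤ p0 t q / eps t q)
    (hratio : 0 ≤ 1 / 2 * (p0 t q / eps t q))
    (ok : (IV.mul (IV.mul (IV.ofQ 1 2) (ratIV t2 q1)) (BlIV s0 X0)).ok = true) :
    val (IV.mul (IV.mul (IV.ofQ 1 2) (ratIV t2 q1)) (BlIV s0 X0)).lo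
      ≤ 1 / 2 * (p0 t q / eps t q) * Bplus (Xl t q) (S (artanh q)) := by
  have hBl := Bplus_lower (S_pos (artanh q)) hS1 hsX hXle
  have hs0p : 0 < val s0 := (S_pos _).trans_le hS1
  have hB₀ : 0 ≤ val s0 - val X0 + val X0 * log (val X0 / val s0) := by
    have := Bplus_nonneg (X := val X0) hs0p
    unfold Bplus at this
    rwa [if_pos hsX] at this
  have mRt : IV.mem (1 / 2 * ((1 - val t2 ^ 2) / (val t2 ^ 2 * (1 - val q1 ^ 2)))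
      * (val s0 - val X0 + val X0 * log (val X0 / val s0)))
      (IV.mul (IV.mul (IV.ofQ 1 2) (ratIV t2 q1)) (BlIV s0 X0)) :=
    IV.mem_mul (IV.mem_mul mem_half mem_ratIV) mem_BlIV
  have hRt := (mRt ok).1
  have hfin : 1 / 2 * ((1 - val t2 ^ 2) / (val t2 ^ 2 * (1 - val q1 ^ 2)))
      * (val s0 - val X0 + val X0 * log (val X0 / val s0))
      ≤ 1 / 2 * (p0 t q / eps t q) * Bplus (Xl t q) (S (artanh q)) :=
    mul_le_mul (by linarith) hBl hB₀ hratio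
  exact hRt.trans hfin

theorem main_branch (hbase : baseOK t1 t2 q1 q2 = true) (hq1p : 0 < q1) (ht2 : t2 < SC)
    (hq2 : q2 < SC) (hc : branchN t1 t2 q1 q2 = true ∨ branchR t1 t2 q1 q2 = true)
    (ht0 : 0 < t) (ht1 : t < 1) (hq0 : 0 < q) (hq1 : q < 1)
    (hta : val t1 ≤ t) (htb : t ≤ val t2) (hqa : val q1 ≤ q) (hqb : q ≤ val q2)
    (hQ : 0 < QQ t q) : EIneq t q := by
  unfold baseOK at hbase
  simp only [Bool.and_eq_true] at hbase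
  obtain ⟨⟨⟨⟨⟨⟨⟨⟨ok1, ok2⟩, ok3⟩, ok4⟩, ok5⟩, ok6⟩, ok7⟩, ok8⟩, ok9⟩ := hbase
  have hSC1 : val SC = 1 := val_SC
  have hb2 : val q2 < 1 := by rw [← hSC1]; exact val_lt_of_lt hq2
  have ha2 : val t2 < 1 := by rw [← hSC1]; exact val_lt_of_lt ht2
  have hb1p : 0 < val q1 := by
    have := val_lt_of_lt hq1p
    simpa [val] using this
  have ha2p : 0 < val t2 := ht0.trans_le htb
  have hb2p : 0 < val q2 := hq0.trans_le hqb
  -- values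
  have hQh := Qhi_sound ok1 ok2 ok3 ht1 hq0 hta hqb hb2 hQ
  obtain ⟨hK0, hK1⟩ := Kap_le (q := q) hq0 hqb hb2
  have hK2 := (mem_Kap (IV.mem_pt q2) hb2p hb2 ok4).2
  have hE0 := eps_nonneg' ht0.le ht1.le hq0.le hq1
  have hE1 := c_eps_hi ht0.le htb ha2.le hb1p.le hqa hq1
  have hE2 := (mem_eps (IV.mem_pt t2) (IV.mem_pt q1) ok5).2
  have hP1 := c_p0_lo ht0.le htb ha2.le hb1p.le hqa hq1
  have hP2 := (mem_p0 (IV.mem_pt t2) (IV.mem_pt q1) ok6).1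
  obtain ⟨hP3, hP4⟩ := p0_le_one ht0.le ht1 hq0.le hq1
  have mQ : IV.mem (QQ t q) ⟨true, 0, Qhi t1 q2⟩ := mem_upper hQ.le hQh
  have mK : IV.mem (L * alR (artanh q)) ⟨true, 0, (ivKap (IV.pt q2)).hi⟩ :=
    mem_upper hK0 (hK1.trans hK2)
  have mE : IV.mem (eps t q) ⟨true, 0, (ivEps (IV.pt t2) (IV.pt q1)).hi⟩ :=
    mem_upper hE0 (hE1.trans hE2)
  have mP : IV.mem (p0 t q) ⟨true, (ivP0 (IV.pt t2) (IV.pt q1)).lo, SC⟩ :=
    mem_lower (hP2.trans hP1) hP3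
  have mR : IV.mem (L * alR (artanh q) * QQ t q + 93 / 200 * L * eps t q * QQ t q ^ 2 / p0 t q)
      (rhsIV t1 t2 q1 q2) :=
    IV.mem_add (IV.mem_mul mK mQ)
      (IV.mem_div (IV.mem_mul (IV.mem_mul (IV.mem_mul (IV.mem_ofQ' 93 200 _ (by norm_num)) mem_LIV) mE)
        (mem_sq mQ)) mP)
  have hR := (mR ok7).2
  -- `N1`
  have hN1 : N1 (val t2) (val q1) ≤ N1 t q :=
    (N1_mono_q ha2p ha2 hb1p hqa hq1).trans (N1_anti_t ht0 htb ha2 hq0 hq1)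
  have hNe := N1_eq ha2p ha2 hb1p (hqa.trans_lt hq1)
  have hNp := (mem_N1plus (IV.mem_pt t2) (IV.mem_pt q1) ok8).1
  have hNm := (mem_N1minus (IV.mem_pt t2) (IV.mem_pt q1) ha2p.le ha2 hb1p.le (hqa.trans_lt hq1) ok9).2
  -- positivity of the last term
  have hy := sq_lt_one' ht0.le ht1
  have hz := sq_lt_one' hq0.le hq1
  have hZ : 0 < ZZ t q := Z_pos (sq_nonneg t) hy.le (sq_nonneg q) hz
  have hEp : 0 < eps t q := by
    unfold eps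
    have : 0 < 1 - q ^ 2 := by linarith
    positivity
  have hratio : 0 ≤ 1 / 2 * (p0 t q / eps t q) := by positivity
  have hB0 : 0 ≤ Bplus (Xl t q) (S (artanh q)) := Bplus_nonneg (S_pos _)
  unfold EIneq
  rcases hc with hc | hc
  · have hle : (rhsIV t1 t2 q1 q2).hi + (ivN1minus (IV.pt t2) (IV.pt q1)).hi
        ≤ (ivN1plus (IV.pt t2) (IV.pt q1)).lo := Nat.le_of_ble_eq_true hc
    have hv := val_mono hle
    rw [val_add] at hv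
    have := mul_nonneg hratio hB0
    linarith
  · unfold branchR at hc
    simp only [Bool.and_eq_true] at hc
    obtain ⟨⟨⟨⟨ok10, ok11⟩, hlt⟩, ok12⟩, hle'⟩ := hc
    have hlt' : (ivS (IV.pt q1)).hi < (XloIV t1 t2 q1 q2).lo := Nat.le_of_ble_eq_true hlt
    have hle : (rhsIV t1 t2 q1 q2).hi + (ivN1minus (IV.pt t2) (IV.pt q1)).hi
        ≤ (ivN1plus (IV.pt t2) (IV.pt q1)).lo + (RtIV t1 t2 q1 q2).lo := Nat.le_of_ble_eq_true hle'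
    have hv := val_mono hle
    rw [val_add, val_add] at hv
    have hS1 : S (artanh q) ≤ val (ivS (IV.pt q1)).hi :=
      (S_le hb1p.le hqa hq1).trans ((mem_S (IV.mem_pt q1) hb1p.le (hqa.trans_lt hq1) ok10).2)
    have hsX := val_lt_of_lt hlt'
    have hXle : val (XloIV t1 t2 q1 q2).lo ≤ Xl t q :=
      Xlo_le ok11 hta ht1 hb1p.le hqa hqb hb2 htb ha2
    have hrat := c_ratio ht0 htb ha2 hb1p.le hqa hq1
    have hfin : val (RtIV t1 t2 q1 q2).lo ≤ 1 / 2 * (p0 t q / eps t q) * Bplus (Xl t q) (S (artanh q)) :=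
      Rt_bound hsX hS1 hXle hrat hratio ok12
    clear hle hlt' hlt hle'
    linarith

theorem cellOK_sound (h : cellOK t1 t2 q1 q2 = true)
    (ht0 : 0 < t) (ht1 : t < 1) (hq0 : 0 < q) (hq1 : q < 1)
    (hta : val t1 ≤ t) (htb : t ≤ val t2) (hqa : val q1 ≤ q) (hqb : q ≤ val q2)
    (hQ : 0 < QQ t q) (hI : 0 < Ix (abar t q) (delt t q)) : EIneq t q := by
  unfold cellOK at h
  simp only [Bool.and_eq_true, Bool.or_eq_true] at h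
  obtain ⟨hq2, h⟩ := h
  have hq2' : q2 < SC := Nat.le_of_ble_eq_true hq2
  have hb2 : val q2 < 1 := by
    rw [← show val SC = 1 from val_SC]; exact val_lt_of_lt hq2'
  rcases h with (h | h) | ⟨⟨⟨h1, h2⟩, h3⟩, h4⟩
  · exact (branchQ_false h ht0 ht1 hq0 hta hqb hb2 hQ).elim
  · exact (branchI_false h ht1 hq0 hta hqb hb2 hI).elim
  · have h1' : 0 < q1 := Nat.le_of_ble_eq_true h1
    have h2' : t2 < SC := Nat.le_of_ble_eq_true h2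
    exact main_branch h3 h1' h2' hq2' h4 ht0 ht1 hq0 hq1 hta htb hqa hqb hQ

theorem treeOK_sound (d : ℕ) (t1 t2 q1 q2 : ℕ) (h : treeOK d t1 t2 q1 q2 = true)
    (ht0 : 0 < t) (ht1 : t < 1) (hq0 : 0 < q) (hq1 : q < 1)
    (hta : val t1 ≤ t) (htb : t ≤ val t2) (hqa : val q1 ≤ q) (hqb : q ≤ val q2)
    (hQ : 0 < QQ t q) (hI : 0 < Ix (abar t q) (delt t q)) : EIneq t q := by
  induction d generalizing t1 t2 q1 q2 with
  | zero => exact cellOK_sound h ht0 ht1 hq0 hq1 hta htb hqa hqb hQ hI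
  | succ d ih =>
    rw [treeOK] at h
    simp only [Bool.and_eq_true, Bool.or_eq_true] at h
    rcases h with h | ⟨⟨⟨h1, h2⟩, h3⟩, h4⟩
    · exact cellOK_sound h ht0 ht1 hq0 hq1 hta htb hqa hqb hQ hI
    · rcases le_total t (val (Nat.div (Nat.add t1 t2) 2)) with a | a <;>
        rcases le_total q (val (Nat.div (Nat.add q1 q2) 2)) with b | b
      · exact ih _ _ _ _ h1 hta a hqa b
      · exact ih _ _ _ _ h3 hta a b hqb
      · exact ih _ _ _ _ h2 a htb hqa b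
      · exact ih _ _ _ _ h4 a htb b hqb

theorem chainOK_sound {P : ℕ → ℕ → Bool} {x : ℝ} (l : List ℕ) (a b : ℕ)
    (h : chainOK P a (l ++ [b]) = true) (h0 : val a ≤ x) (h1 : x ≤ val b) :
    ∃ c d, P c d = true ∧ val c ≤ x ∧ x ≤ val d := by
  induction l generalizing a with
  | nil =>
    simp only [List.nil_append, chainOK, Bool.and_true] at h
    exact ⟨a, b, h, h0, h1⟩
  | cons e l ih =>
    simp only [List.cons_append, chainOK, Bool.and_eq_true] at h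
    rcases le_total x (val e) with hc | hc
    · exact ⟨a, e, h.1, h0, hc⟩
    · exact ih e h.2 hc

end sound

end CK322
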