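import Vale.Agent.Lib.P322.ECell

/-!
`E_main` for `q` close to `1`: analytic bounds.
-/

open Real

namespace CK322

section basics

variable {t q : ℝ}

theorem ZZ_pos (ht0 : 0 ≤ t) (ht1 : t < 1) (hq0 : 0 ≤ q) (hq1 : q < 1) : 0 < ZZ t q :=
  Z_pos (sq_nonneg t) (sq_lt_one' ht0 ht1).le (sq_nonneg q) (sq_lt_one' hq0 hq1)

theorem p0_eq (ht0 : 0 ≤ t) (ht1 : t < 1) (hq0 : 0 ≤ q) (hq1 : q < 1) : p0 t q = 1 - eps t q := by
  have hZ := ZZ_pos ht0 ht1 hq0 hq1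
  unfold p0 eps
  rw [eq_sub_iff_add_eq, ← add_div, div_eq_one_iff_eq hZ.ne']
  unfold ZZ
  ring

theorem eps_pos (ht0 : 0 < t) (ht1 : t < 1) (hq0 : 0 ≤ q) (hq1 : q < 1) : 0 < eps t q := by
  have hZ := ZZ_pos ht0.le ht1 hq0 hq1
  have hz := sq_lt_one' hq0 hq1
  unfold eps
  exact div_pos (mul_pos (by positivity) (by linarith)) hZ

theorem eps_lt_one (ht0 : 0 ≤ t) (ht1 : t < 1) (hq0 : 0 ≤ q) (hq1 : q < 1) : eps t q < 1 := by
  have := (p0_le_one ht0 ht1 hq0 hq1).2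
  rw [p0_eq ht0 ht1 hq0 hq1] at this
  linarith

theorem eps_le_uu (ht0 : 0 ≤ t) (ht1 : t < 1) (hq0 : 0 ≤ q) (hq1 : q < 1) : eps t q ≤ uu t q := by
  have hZ := ZZ_pos ht0 ht1 hq0 hq1
  have hz := sq_lt_one' hq0 hq1
  have hy := sq_lt_one' ht0 ht1
  unfold eps uu
  apply div_le_div_of_nonneg_right _ hZ.le
  nlinarith

/-- `1 + eps z` -/
theorem one_add_eps (ht0 : 0 ≤ t) (ht1 : t < 1) (hq0 : 0 ≤ q) (hq1 : q < 1) :
    1 + eps t q * q ^ 2 = (1 - t ^ 2 * q ^ 4) / ZZ t q := by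
  have hZ := ZZ_pos ht0 ht1 hq0 hq1
  unfold eps
  field_simp
  unfold ZZ
  ring

theorem QQ_eq (ht0 : 0 ≤ t) (ht1 : t < 1) (hq0 : 0 ≤ q) (hq1 : q < 1) :
    QQ t q = (1 - eps t q * uu t q) * (q ^ 2 / (1 + eps t q * q ^ 2) - 2 / 5 * uu t q) := by
  have hZ := ZZ_pos ht0 ht1 hq0 hq1
  have h2 := Z2_pos (sq_nonneg t) (sq_lt_one' ht0 ht1).le (sq_nonneg q) (sq_lt_one' hq0 hq1)
  have e4 : (q ^ 2) ^ 2 = q ^ 4 := by ring
  rw [e4] at h2
  unfold QQ
  rw [abar_sq, one_add_eps ht0 ht1 hq0 hq1]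
  congr 2
  field_simp

noncomputable def Qbar (e : ℝ) : ℝ := (1 - e) * (1 - 2 / 5 * e * (1 + e))

theorem QQ_le_Qbar (ht0 : 0 ≤ t) (ht1 : t < 1) (hq0 : 0 < q) (hq1 : q < 1) (hQ : 0 < QQ t q) :
    QQ t q ≤ Qbar (eps t q) := by
  have he0 := eps_nonneg' ht0 ht1.le hq0.le hq1
  have he1 := eps_lt_one ht0 ht1 hq0.le hq1
  have hu := eps_le_uu ht0 ht1 hq0.le hq1
  have hz := sq_lt_one' hq0.le hq1
  have hz0 : 0 ≤ q ^ 2 := sq_nonneg q
  rw [QQ_eq ht0 ht1 hq0.le hq1] at hQ ⊢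
  set e := eps t q
  set u := uu t q
  set z := q ^ 2
  have hd : 0 < 1 + e * z := by positivity
  have hA1 : 1 - e * u ≤ 1 - e ^ 2 := by nlinarith
  have hA0 : 0 < 1 - e * u := by
    have := abar_sq_lt_one ht0 ht1 hq0 hq1
    rw [abar_sq] at this
    linarith
  have hB0 : 0 < z / (1 + e * z) - 2 / 5 * u := by
    by_contra hc
    have hc' := not_lt.mp hc
    nlinarith
  have hB1 : z / (1 + e * z) ≤ 1 / (1 + e) := by
    rw [div_le_div_iff₀ hd (by linarith)]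
    nlinarith
  have hB2 : z / (1 + e * z) - 2 / 5 * u ≤ 1 / (1 + e) - 2 / 5 * e := by linarith
  have := mul_le_mul hA1 hB2 hB0.le (by nlinarith)
  refine this.trans (le_of_eq ?_)
  unfold Qbar
  have hne : (1 + e) ≠ 0 := by positivity
  field_simp
  ring

theorem Y1_eq (ht0 : 0 ≤ t) (ht1 : t < 1) (hq0 : 0 ≤ q) (hq1 : q < 1) :
    Y1 t q = 2 * eps t q * q ^ 2 + (1 - q ^ 2) := by
  have hZ := ZZ_pos ht0 ht1 hq0 hq1
  unfold Y1 eps
  field_simp
  unfold ZZ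
  ring

/-- `1/t^2 = z + nu` -/
theorem inv_t_sq (ht0 : 0 < t) (ht1 : t < 1) (hq0 : 0 ≤ q) (hq1 : q < 1) :
    1 / t ^ 2 = q ^ 2 + (1 - q ^ 2) / eps t q := by
  have hZ := ZZ_pos ht0.le ht1 hq0 hq1
  have hz := sq_lt_one' hq0 hq1
  have hk : 1 - q ^ 2 ≠ 0 := by linarith
  have e : (1 - q ^ 2) / eps t q = ZZ t q / t ^ 2 := by
    unfold eps
    field_simp
  rw [e]
  unfold ZZ
  field_simp
  ring

end basics

/-! ### `Phi` near `q = 1` -/

section phi

variable {q : ℝ}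

theorem artanh_split (h0 : 0 ≤ q) (h1 : q < 1) :
    artanh q = 1 / 2 * (-log (1 - q ^ 2)) + log (1 + q) := by
  have e1 : 1 - q ^ 2 = (1 - q) * (1 + q) := by ring
  have h2 : 1 - q ≠ 0 := by linarith
  have h3 : 1 + q ≠ 0 := by linarith
  rw [Real.artanh_eq_half_log ⟨by linarith, h1.le⟩, e1, Real.log_mul h2 h3, Real.log_div h3 h2]
  ring

theorem Phi_eq (h0 : 0 ≤ q) (h1 : q < 1) :
    Phi (artanh q) = (1 - q) * artanh q + log (2 / (1 + q)) := by
  rw [Phi_artanh h0 h1]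
  have hs := artanh_split h0 h1
  have h3 : (1 + q) ≠ 0 := by linarith
  rw [Real.log_div (by norm_num) h3]
  have hL : L = log 2 := rfl
  rw [← hL]
  linarith [hs, mul_comm (artanh q) q, show (1 - q) * artanh q = artanh q - q * artanh q by ring]

theorem Phi_le (h0 : 0 ≤ q) (h1 : q < 1) :
    Phi (artanh q) ≤ (1 - q) * (artanh q + 1 / (1 + q)) := by
  rw [Phi_eq h0 h1]
  have h3 : 0 < 1 + q := by linarith
  have hl := Real.log_le_sub_one_of_pos (show 0 < 2 / (1 + q) by positivity)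
  have e : 2 / (1 + q) - 1 = (1 - q) * (1 / (1 + q)) := by
    field_simp
    ring
  rw [e] at hl
  linarith [mul_add (1 - q) (artanh q) (1 / (1 + q))]

/-- the bound on `kappa` -/
theorem Kap_upper (h0 : 0 < q) (h1 : q < 1) (hΛ : 83 / 10 ≤ -log (1 - q ^ 2)) :
    L * alR (artanh q) ≤ 1 / 2 * (-log (1 - q ^ 2)) - 13 / 100 := by
  rw [kap_eq h0 h1]
  set Λ := -log (1 - q ^ 2) with hΛdef
  have hθ := artanh_split h0.le h1
  rw [← hΛdef] at hθ
  have h3 : 0 < 1 + q := by linarith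
  have hlog : 0 ≤ log (1 + q) := Real.log_nonneg (by linarith)
  have hθ0 : 83 / 20 ≤ artanh q := by linarith
  have hθp : 0 < artanh q := by linarith
  have hw : 0 < 1 - q := by linarith
  have hP := Phi_le h0.le h1
  have hz : 0 < 1 - q ^ 2 := by nlinarith
  have hLb := L_bounds.1
  have key : Phi (artanh q) * q / ((1 - q ^ 2) * artanh q) ≤ 1 / 2 + 1 / 16 := by
    rw [div_le_iff₀ (by positivity)]
    have e1 : 1 - q ^ 2 = (1 - q) * (1 + q) := by ring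
    rw [e1]
    have h5 : Phi (artanh q) * q ≤ (1 - q) * (artanh q + 1 / (1 + q)) * q :=
      mul_le_mul_of_nonneg_right hP h0.le
    refine h5.trans ?_
    have h6 : (artanh q + 1 / (1 + q)) * q ≤ (1 / 2 + 1 / 16) * ((1 + q) * artanh q) := by
      have e2 : (artanh q + 1 / (1 + q)) * q = artanh q * q + q / (1 + q) := by
        field_simp
      rw [e2]
      have h7 : q / (1 + q) ≤ 1 / 2 := by
        rw [div_le_iff₀ h3]; linarith
      have h8 : artanh q * q + 1 / 2 ≤ (1 / 2 + 1 / 16) * ((1 + q) * artanh q) := by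
        nlinarith
      linarith
    calc (1 - q) * (artanh q + 1 / (1 + q)) * q = (1 - q) * ((artanh q + 1 / (1 + q)) * q) := by ring
      _ ≤ (1 - q) * ((1 / 2 + 1 / 16) * ((1 + q) * artanh q)) := mul_le_mul_of_nonneg_left h6 hw.le
      _ = _ := by ring
  linarith

/-- the bound on `S` -/
theorem S_upper (h0 : 0 ≤ q) (h1 : q < 1) (hq : 1 - 1 / 2 ^ 13 ≤ q) (hΛ : 0 ≤ -log (1 - q ^ 2)) :
    S (artanh q) ≤ (1 - q ^ 2) * ((1 + 1 / 2 ^ 13) * (-log (1 - q ^ 2) + 12 / 5) / (4 * L)) := by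
  have hL := L_pos
  have hLb := L_bounds
  unfold S
  rw [div_le_iff₀ hL]
  set Λ := -log (1 - q ^ 2) with hΛdef
  have hθ := artanh_split h0 h1
  rw [← hΛdef] at hθ
  have h3 : 0 < 1 + q := by linarith
  have hw : 0 ≤ 1 - q := by linarith
  have hP := Phi_le h0 h1
  -- the log term
  have hlog : log (1 + q) ≤ L := by
    unfold L
    exact Real.log_le_log h3 (by linarith)
  have hinv : 1 / (1 + q) ≤ (1 + 1 / 2 ^ 13) / 2 := by
    rw [div_le_div_iff₀ h3 (by norm_num)]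
    norm_num at hq ⊢
    nlinarith
  have hinv0 : 0 ≤ 1 / (1 + q) := by positivity
  have e1 : (1 - q) = (1 - q ^ 2) * (1 / (1 + q)) := by
    field_simp
    ring
  have hk : 0 ≤ 1 - q ^ 2 := by nlinarith
  have h5 : artanh q + 1 / (1 + q) ≤ 1 / 2 * (Λ + 12 / 5) := by
    have : (1 + 1 / 2 ^ 13 : ℝ) / 2 ≤ 1 / 2 * (12 / 5 - 2 * L) := by
      norm_num
      linarith [hLb.2]
    linarith
  have h6 : 0 ≤ Λ + 12 / 5 := by linarith
  refine hP.trans ?_
  rw [e1]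
  have h7 : 1 / (1 + q) * (artanh q + 1 / (1 + q)) ≤ (1 + 1 / 2 ^ 13) / 2 * (1 / 2 * (Λ + 12 / 5)) := by
    apply mul_le_mul hinv h5 _ (by norm_num)
    have := Real.artanh_nonneg h0
    positivity
  calc (1 - q ^ 2) * (1 / (1 + q)) * (artanh q + 1 / (1 + q))
      = (1 - q ^ 2) * (1 / (1 + q) * (artanh q + 1 / (1 + q))) := by ring
    _ ≤ (1 - q ^ 2) * ((1 + 1 / 2 ^ 13) / 2 * (1 / 2 * (Λ + 12 / 5))) :=
        mul_le_mul_of_nonneg_left h7 hk
    _ = (1 - q ^ 2) * ((1 + 1 / 2 ^ 13) * (Λ + 12 / 5) / (4 * L)) * L := by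
        field_simp
        ring

end phi

/-! ### lower bound for the `Bplus` term -/

theorem Bplus_lower2 {X X₀ s s₀ : ℝ} (hs : 0 < s) (hs₀ : s ≤ s₀) (hX₀ : 0 < X₀) (hX : X₀ ≤ X) :
    X₀ * (log (X₀ / s₀) - 1) ≤ Bplus X s := by
  by_cases h : s₀ < X₀
  · have := Bplus_lower hs hs₀ h hX
    have hs0 : 0 < s₀ := hs.trans_le hs₀
    nlinarith
  · have h1 := Bplus_nonneg (X := X) hs
    have hs0 : 0 < s₀ := hs.trans_le hs₀
    have h2 : log (X₀ / s₀) ≤ 0 := Real.log_nonpos (by positivity)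
      (by rw [div_le_one hs0]; exact not_lt.mp h)
    have : X₀ * (log (X₀ / s₀) - 1) ≤ 0 := mul_nonpos_of_nonneg_of_nonpos hX₀.le (by linarith)
    linarith

/-- `xi` lower bound -/
noncomputable def xib (e : ℝ) : ℝ :=
  (1 - 1 / 2 ^ 12) * (3 / 5 + 4 / 5 * ((1 - e) * e) * (1 - 1 / 2 ^ 12))

section rterm

variable {t q : ℝ}

theorem Xl_ge (ht0 : 0 < t) (ht1 : t < 1) (hq0 : 0 < q) (hq1 : q < 1) (hz : 1 - 1 / 2 ^ 12 ≤ q ^ 2) :
    2 * eps t q * xib (eps t q) ≤ Xl t q := by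
  have he := eps_pos ht0 ht1 hq0.le hq1
  have he1 := eps_lt_one ht0.le ht1 hq0.le hq1
  have hz1 := sq_lt_one' hq0.le hq1
  unfold Xl
  rw [Y1_eq ht0.le ht1 hq0.le hq1, p0_eq ht0.le ht1 hq0.le hq1]
  set e := eps t q
  set z := q ^ 2
  unfold xib
  set c : ℝ := 1 - 1 / 2 ^ 12 with hc
  have hc0 : 0 < c := by rw [hc]; norm_num
  have h1 : 2 * e * c ≤ 2 * e * z + (1 - z) := by nlinarith
  have h10 : 0 ≤ 2 * e * c := by positivity
  have h2 : (2 * e * c) ^ 2 ≤ (2 * e * z + (1 - z)) ^ 2 := pow_le_pow_left₀ h10 h1 2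
  have h3 : 0 ≤ 1 - e := by linarith
  have h4 : (1 - e) * (2 * e * c) ^ 2 ≤ (1 - e) * (2 * e * z + (1 - z)) ^ 2 :=
    mul_le_mul_of_nonneg_left h2 h3
  have e1 : 2 * e * (c * (3 / 5 + 4 / 5 * ((1 - e) * e) * c))
      = 3 / 5 * (2 * e * c) + 2 / 5 * ((1 - e) * (2 * e * c) ^ 2) := by ring
  rw [e1]
  have e2 : 2 / 5 * (1 - e) * (2 * e * z + (1 - z)) ^ 2 = 2 / 5 * ((1 - e) * (2 * e * z + (1 - z)) ^ 2) := by
    ring
  rw [e2]
  exact add_le_add (mul_le_mul_of_nonneg_left h1 (by norm_num))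
    (mul_le_mul_of_nonneg_left h4 (by norm_num))

/-- lower bound of the `Bplus` term -/
theorem Rterm_lower (ht0 : 0 < t) (ht1 : t < 1) (hq0 : 0 < q) (hq1 : q < 1)
    (hq : 1 - 1 / 2 ^ 13 ≤ q) (hΛ : 83 / 10 ≤ -log (1 - q ^ 2)) :
    (1 - eps t q) * xib (eps t q)
        * (log (2 * eps t q * xib (eps t q)) + (-log (1 - q ^ 2)) - 1 / 2 ^ 13
          - log (-log (1 - q ^ 2) + 12 / 5))
      ≤ 1 / 2 * (p0 t q / eps t q) * Bplus (Xl t q) (S (artanh q)) := by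
  have he := eps_pos ht0 ht1 hq0.le hq1
  have he1 := eps_lt_one ht0.le ht1 hq0.le hq1
  have hz1 := sq_lt_one' hq0.le hq1
  have hk : 0 < 1 - q ^ 2 := by linarith
  have hzz : 1 - 1 / 2 ^ 12 ≤ q ^ 2 := by
    norm_num at hq ⊢
    nlinarith
  have hX := Xl_ge ht0 ht1 hq0 hq1 hzz
  have hS := S_upper hq0.le hq1 hq (by linarith)
  rw [p0_eq ht0.le ht1 hq0.le hq1]
  set e := eps t q
  set Λ := -log (1 - q ^ 2) with hΛdef
  set ξ := xib e with hξ
  have hξ0 : 0 < ξ := by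
    rw [hξ]; unfold xib
    have : 0 ≤ (1 - e) * e := mul_nonneg (by linarith) he.le
    have c0 : (0 : ℝ) < 1 - 1 / 2 ^ 12 := by norm_num
    positivity
  have hL := L_pos
  have hs₀ : 0 < (1 - q ^ 2) * ((1 + 1 / 2 ^ 13) * (Λ + 12 / 5) / (4 * L)) := by
    have : 0 < Λ + 12 / 5 := by linarith
    positivity
  have hB := Bplus_lower2 (S_pos (artanh q)) hS (show 0 < 2 * e * ξ by positivity) hX
  have hratio : 0 ≤ 1 / 2 * ((1 - e) / e) := by
    have : 0 ≤ 1 - e := by linarith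
    positivity
  have hmul := mul_le_mul_of_nonneg_left hB hratio
  refine le_trans ?_ hmul
  have e1 : 1 / 2 * ((1 - e) / e) * (2 * e * ξ * (log (2 * e * ξ
      / ((1 - q ^ 2) * ((1 + 1 / 2 ^ 13) * (Λ + 12 / 5) / (4 * L)))) - 1))
      = (1 - e) * ξ * (log (2 * e * ξ
      / ((1 - q ^ 2) * ((1 + 1 / 2 ^ 13) * (Λ + 12 / 5) / (4 * L)))) - 1) := by
    field_simp
  rw [e1]
  apply mul_le_mul_of_nonneg_left _ (mul_nonneg (by linarith) hξ0.le)
  -- the logarithm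
  have hΛp : 0 < Λ + 12 / 5 := by linarith
  have hδ : (0 : ℝ) < 1 + 1 / 2 ^ 13 := by norm_num
  have e2 : log (2 * e * ξ / ((1 - q ^ 2) * ((1 + 1 / 2 ^ 13) * (Λ + 12 / 5) / (4 * L))))
      = log (2 * e * ξ) + Λ - log (1 + 1 / 2 ^ 13) - log (Λ + 12 / 5) + log (4 * L) := by
    rw [Real.log_div (by positivity) (by positivity), Real.log_mul hk.ne' (by positivity),
      Real.log_div (by positivity) (by positivity), Real.log_mul hδ.ne' hΛp.ne']
    rw [hΛdef]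
    ring
  rw [e2]
  have h4L : 1 ≤ log (4 * L) := by
    rw [Real.le_log_iff_exp_le (by positivity)]
    have := Real.exp_one_lt_d9
    have := L_bounds.1
    linarith
  have hδ2 : log (1 + 1 / 2 ^ 13) ≤ 1 / 2 ^ 13 := by
    have := Real.log_le_sub_one_of_pos hδ
    linarith
  linarith

end rterm

/-! ### lower bound of `N1` -/

section n1

variable {t q : ℝ}

theorem two_artanh (ht0 : 0 < t) (ht1 : t < 1) (hq0 : 0 < q) (hq1 : q < 1) :
    2 * artanh (t * q ^ 2) = 2 * log (1 + t * q ^ 2) - 2 * log t + (-log (1 - q ^ 2))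
      + log (eps t q) - log (1 + eps t q * q ^ 2) := by
  have he := eps_pos ht0 ht1 hq0.le hq1
  have hz1 := sq_lt_one' hq0.le hq1
  have hk : 0 < 1 - q ^ 2 := by linarith
  have hZ := ZZ_pos ht0.le ht1 hq0.le hq1
  have hw0 : 0 < t * q ^ 2 := by positivity
  have hw1 : t * q ^ 2 < 1 := by nlinarith
  have hp1 : 0 < 1 + t * q ^ 2 := by linarith
  have hp2 : 0 < 1 - t * q ^ 2 := by linarith
  have hR : 0 < 1 + eps t q * q ^ 2 := by positivity
  have key : (1 + t * q ^ 2) / (1 - t * q ^ 2)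
      = (1 + t * q ^ 2) ^ 2 * eps t q / (t ^ 2 * (1 - q ^ 2) * (1 + eps t q * q ^ 2)) := by
    have h3 : t ^ 2 * (1 - q ^ 2) = eps t q * ZZ t q := by
      unfold eps; field_simp
    have h4 : ZZ t q * (1 + eps t q * q ^ 2) = (1 + t * q ^ 2) * (1 - t * q ^ 2) := by
      rw [one_add_eps ht0.le ht1 hq0.le hq1]
      field_simp
      ring
    rw [h3, mul_assoc, h4]
    field_simp
  rw [Real.artanh_eq_half_log ⟨by linarith, hw1.le⟩, key,
    Real.log_div (by positivity) (by positivity), Real.log_mul (by positivity) he.ne',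
    Real.log_mul (by positivity) hR.ne', Real.log_mul (by positivity) hk.ne',
    Real.log_pow, Real.log_pow]
  push_cast
  ring

theorem log_le_div_exp {x : ℝ} (hx : 0 < x) : log x ≤ x / exp 1 := by
  have h1 := Real.log_le_sub_one_of_pos (show 0 < x / exp 1 by positivity)
  rw [Real.log_div hx.ne' (Real.exp_pos 1).ne', Real.log_exp] at h1
  linarith

theorem N1_low (ht0 : 0 < t) (ht1 : t < 1) (hq0 : 0 < q) (hq1 : q < 1) (he77 : eps t q ≤ 77 / 100)
    (hΛ : 0 ≤ -log (1 - q ^ 2)) :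
    q ^ 2 - 2 * L - log (eps t q)
      - (1 - q ^ 2) / eps t q * ((-log (1 - q ^ 2)) / 2 + 157 / 100 + (1 - q ^ 2) / eps t q / 2)
      ≤ N1 t q := by
  have he := eps_pos ht0 ht1 hq0.le hq1
  have hz1 := sq_lt_one' hq0.le hq1
  have hk : 0 < 1 - q ^ 2 := by linarith
  have hart := two_artanh ht0 ht1 hq0 hq1
  have hinv := inv_t_sq ht0 ht1 hq0.le hq1
  rw [N1_eq ht0 ht1 hq0 hq1]
  have e3 : 2 * artanh (t * q ^ 2) / t = (1 / t) * (2 * artanh (t * q ^ 2)) := by ring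
  rw [e3, hart]
  set e := eps t q
  set z := q ^ 2
  set Λ := -log (1 - z) with hΛdef
  set ν := (1 - z) / e with hν
  set a := 1 / t with ha
  set R := log (1 + e * z) with hRdef
  have hν0 : 0 < ν := by positivity
  have hz0 : 0 < z := by positivity
  have hν1 : e * ν = 1 - z := by rw [hν]; field_simp
  have ha1 : 1 ≤ a := by
    rw [ha, le_div_iff₀ ht0]; linarith
  have ha2eq : a ^ 2 = z + ν := by
    rw [ha, ← hinv]
    field_simp
  have ha2 : a ≤ 1 + ν / 2 := by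
    by_contra hc
    have hc' : 1 + ν / 2 < a := not_le.mp hc
    nlinarith
  have hR0 : 0 < 1 + e * z := by positivity
  have hRlow : z ≤ (1 / e + 1) * R := by
    have h1 := Real.one_sub_inv_le_log_of_pos hR0
    have h2 : 0 < 1 / e + 1 := by positivity
    have h3 : (1 / e + 1) * (1 - (1 + e * z)⁻¹) ≤ (1 / e + 1) * R :=
      mul_le_mul_of_nonneg_left h1 h2.le
    have h4 : (1 / e + 1) * (1 - (1 + e * z)⁻¹) = (1 + e) * z / (1 + e * z) := by
      field_simp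
      ring
    have h5 : z ≤ (1 + e) * z / (1 + e * z) := by
      rw [le_div_iff₀ hR0]
      nlinarith [mul_pos (mul_pos he hz0) hk]
    linarith
  have hR1 : 0 ≤ R := Real.log_nonneg (by nlinarith)
  -- the term `W`
  set W := 2 * log (1 + t * z) - 2 * log t + log e with hW
  have hlogt : log (1 + t * z) ≤ L := by
    unfold L
    apply Real.log_le_log (by positivity)
    nlinarith
  have hlogy : - (2 * log t) ≤ ν := by
    have h1 : 0 < a ^ 2 := by positivity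
    have h2 := Real.log_le_sub_one_of_pos h1
    rw [ha2eq] at h2
    rw [← ha2eq, ha, Real.log_pow, Real.log_div one_ne_zero ht0.ne', Real.log_one] at h2
    rw [ha2eq] at h2
    push_cast at h2
    linarith
  have hWbar : W ≤ 2 * L + log e + ν := by
    rw [hW]; linarith
  have hbar2 : 2 * L + log e ≤ 114 / 100 := by
    have h1 : 2 * L + log e = log (4 * e) := by
      rw [Real.log_mul (by norm_num) he.ne', show (4 : ℝ) = 2 ^ 2 by norm_num, Real.log_pow]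
      unfold L
      push_cast
      ring
    rw [h1]
    have h2 := log_le_div_exp (show 0 < 4 * e by positivity)
    have h3 := Real.exp_one_gt_d9
    have h4 : 4 * e / exp 1 ≤ 114 / 100 := by
      rw [div_le_iff₀ (Real.exp_pos 1)]
      linarith
    linarith
  have haW : a * W ≤ (2 * L + log e + ν) + ν / 2 * (114 / 100 + ν) := by
    have hν2 : 0 ≤ ν / 2 * (114 / 100 + ν) := by positivity
    by_cases hW0 : 0 ≤ W
    · have h1 : a * W ≤ (1 + ν / 2) * W := mul_le_mul_of_nonneg_right ha2 hW0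
      have h2 : (1 + ν / 2) * W ≤ (1 + ν / 2) * (2 * L + log e + ν) :=
        mul_le_mul_of_nonneg_left hWbar (by positivity)
      have h3 : ν / 2 * (2 * L + log e + ν) ≤ ν / 2 * (114 / 100 + ν) :=
        mul_le_mul_of_nonneg_left (by linarith) (by positivity)
      nlinarith
    · have hW1 : W < 0 := not_le.mp hW0
      have h1 : a * W ≤ 1 * W := mul_le_mul_of_nonpos_right ha1 hW1.le
      linarith
  -- assemble
  have hΛa : Λ * (1 - a) ≥ - (Λ * (ν / 2)) := by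
    have : Λ * (a - 1) ≤ Λ * (ν / 2) := mul_le_mul_of_nonneg_left (by linarith) hΛ
    nlinarith
  have hRa : R * 1 ≤ R * a := mul_le_mul_of_nonneg_left ha1 hR1
  have e4 : Λ + R / e - a * (2 * log (1 + t * z) - 2 * log t + Λ + log e - R)
      = Λ * (1 - a) + (1 / e + 1) * R + (R * a - R * 1) - a * W := by
    rw [hW]
    field_simp
    ring
  rw [e4]
  have e5 : ν * (Λ / 2 + 157 / 100 + ν / 2) = Λ * (ν / 2) + ν + ν / 2 * (114 / 100 + ν) := by ring
  rw [e5]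
  linarith

end n1

/-! ### the one dimensional check -/

/-- the inequality on `[1/64, 77/100]` -/
def Hok (e : ℝ) : Prop :=
  2 * L + (1 / 4096 / e) * (573 / 100 + 1 / 4096 / (2 * e)) + 402 / 100 * Qbar e
      + 93 / 200 * L * e * Qbar e ^ 2 / (1 - e)
    ≤ (1 - 1 / 4096) + log (1 / e)
      + (1 - e) * xib e * ((L + 83 / 10) - (1 / 8192 + 2417 / 1000 + log (1 / (e * xib e))))

def K1IV : IV := IV.ofQ 1 4096

def Z1IV : IV := IV.sub ONE K1IV

def QbIV (E : IV) : IV :=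
  IV.mul (IV.sub ONE E) (IV.sub ONE (IV.mul (IV.mul (IV.ofQ 2 5) E) (IV.add ONE E)))

def XiIV (E : IV) : IV :=
  IV.mul Z1IV (IV.add (IV.ofQ 3 5) (IV.mul (IV.mul (IV.ofQ 4 5) (IV.mul (IV.sub ONE E) E)) Z1IV))

def HlhsIV (E : IV) : IV :=
  IV.add (IV.add (IV.add (IV.mul (IV.ofQ 2 1) LIV)
      (IV.mul (IV.div K1IV E) (IV.add (IV.ofQ 573 100) (IV.div K1IV (IV.mul (IV.ofQ 2 1) E)))))
      (IV.mul (IV.ofQ 402 100) (QbIV E)))
    (IV.div (IV.mul (IV.mul (IV.mul (IV.ofQ 93 200) LIV) E) (ivsq (QbIV E))) (IV.sub ONE E))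

def HrhsIV (E : IV) : IV :=
  IV.add (IV.add Z1IV (IV.log (IV.div ONE E)))
    (IV.mul (IV.mul (IV.sub ONE E) (XiIV E))
      (IV.sub (IV.add LIV (IV.ofQ 83 10))
        (IV.add (IV.add (IV.ofQ 1 8192) (IV.ofQ 2417 1000)) (IV.log (IV.div ONE (IV.mul E (XiIV E)))))))

def cellH (e1 e2 : ℕ) : Bool :=
  (HlhsIV ⟨true, e1, e2⟩).ok && (HrhsIV ⟨true, e1, e2⟩).ok
    && Nat.ble (HlhsIV ⟨true, e1, e2⟩).hi (HrhsIV ⟨true, e1, e2⟩).lo

def treeH : ℕ → ℕ → ℕ → Bool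
  | 0, e1, e2 => cellH e1 e2
  | d + 1, e1, e2 =>
    cellH e1 e2 || (treeH d e1 (Nat.div (Nat.add e1 e2) 2) && treeH d (Nat.div (Nat.add e1 e2) 2) e2)

theorem mem_Z1 : IV.mem (1 - 1 / 4096 : ℝ) Z1IV :=
  IV.mem_sub mem_ONE (IV.mem_ofQ' 1 4096 _ (by norm_num))

theorem mem_K1 : IV.mem (1 / 4096 : ℝ) K1IV := IV.mem_ofQ' 1 4096 _ (by norm_num)

theorem mem_Qb {e : ℝ} {E : IV} (h : IV.mem e E) : IV.mem (Qbar e) (QbIV E) :=
  IV.mem_mul (IV.mem_sub mem_ONE h) (IV.mem_sub mem_ONE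
    (IV.mem_mul (IV.mem_mul (IV.mem_ofQ' 2 5 _ (by norm_num)) h) (IV.mem_add mem_ONE h)))

theorem mem_Xi {e : ℝ} {E : IV} (h : IV.mem e E) : IV.mem (xib e) (XiIV E) := by
  have e1 : xib e = (1 - 1 / 4096) * (3 / 5 + 4 / 5 * ((1 - e) * e) * (1 - 1 / 4096)) := by
    unfold xib; norm_num
  rw [e1]
  exact IV.mem_mul mem_Z1 (IV.mem_add (IV.mem_ofQ' 3 5 _ (by norm_num))
    (IV.mem_mul (IV.mem_mul (IV.mem_ofQ' 4 5 _ (by norm_num))
      (IV.mem_mul (IV.mem_sub mem_ONE h) h)) mem_Z1))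

theorem cellH_sound {e1 e2 : ℕ} (h : cellH e1 e2 = true) {e : ℝ} (h1 : val e1 ≤ e) (h2 : e ≤ val e2) :
    Hok e := by
  unfold cellH at h
  simp only [Bool.and_eq_true] at h
  obtain ⟨⟨ok1, ok2⟩, hle⟩ := h
  have hE : IV.mem e ⟨true, e1, e2⟩ := fun _ => ⟨h1, h2⟩
  have m1 : IV.mem _ (HlhsIV ⟨true, e1, e2⟩) :=
    IV.mem_add (IV.mem_add (IV.mem_add (IV.mem_mul (IV.mem_ofQ' 2 1 2 (by norm_num)) mem_LIV)
      (IV.mem_mul (IV.mem_div mem_K1 hE) (IV.mem_add (IV.mem_ofQ' 573 100 (573 / 100) (by norm_num))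
        (IV.mem_div mem_K1 (IV.mem_mul (IV.mem_ofQ' 2 1 2 (by norm_num)) hE)))))
      (IV.mem_mul (IV.mem_ofQ' 402 100 (402 / 100) (by norm_num)) (mem_Qb hE)))
      (IV.mem_div (IV.mem_mul (IV.mem_mul (IV.mem_mul (IV.mem_ofQ' 93 200 (93 / 200) (by norm_num)) mem_LIV) hE)
        (mem_sq (mem_Qb hE))) (IV.mem_sub mem_ONE hE))
  have m2 : IV.mem _ (HrhsIV ⟨true, e1, e2⟩) :=
    IV.mem_add (IV.mem_add mem_Z1 (IV.mem_log (IV.mem_div mem_ONE hE)))
      (IV.mem_mul (IV.mem_mul (IV.mem_sub mem_ONE hE) (mem_Xi hE))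
        (IV.mem_sub (IV.mem_add mem_LIV (IV.mem_ofQ' 83 10 (83 / 10) (by norm_num)))
          (IV.mem_add (IV.mem_add (IV.mem_ofQ' 1 8192 (1 / 8192) (by norm_num))
            (IV.mem_ofQ' 2417 1000 (2417 / 1000) (by norm_num)))
            (IV.mem_log (IV.mem_div mem_ONE (IV.mem_mul hE (mem_Xi hE)))))))
  have b1 := (m1 ok1).2
  have b2 := (m2 ok2).1
  have b3 := val_mono (Nat.le_of_ble_eq_true hle)
  unfold Hok
  exact b1.trans (b3.trans b2)

theorem treeH_sound (d : ℕ) (e1 e2 : ℕ) (h : treeH d e1 e2 = true) {e : ℝ}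
    (h1 : val e1 ≤ e) (h2 : e ≤ val e2) : Hok e := by
  induction d generalizing e1 e2 with
  | zero => exact cellH_sound h h1 h2
  | succ d ih =>
    rw [treeH] at h
    simp only [Bool.and_eq_true, Bool.or_eq_true] at h
    rcases h with h | ⟨h3, h4⟩
    · exact cellH_sound h h1 h2
    · rcases le_total e (val (Nat.div (Nat.add e1 e2) 2)) with a | a
      · exact ih _ _ h3 h1 a
      · exact ih _ _ h4 a h2

end CK322
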