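import Vale.Agent.Lib.P322.ELarge

/-!
`E_main` for `q` close to `1`: the three regimes.
-/

open Real

namespace CK322

theorem treeH_root : treeH 6 288230376151711744 14203992936756354745 = true := by decide +kernel

theorem Hok_all {e : ℝ} (h1 : 1 / 64 ≤ e) (h2 : e ≤ 77 / 100) : Hok e := by
  refine treeH_sound 6 _ _ treeH_root ?_ ?_
  · unfold val SC; norm_num; linarith
  · unfold val SC; norm_num at h2 ⊢; linarith

theorem mul_log_le {x x₁ : ℝ} (h0 : 0 < x) (h : x ≤ x₁) (h1 : 1 ≤ -log x₁) :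
    x * (-log x) ≤ x₁ * (-log x₁) := by
  have hx₁ : 0 < x₁ := h0.trans_le h
  have h2 := Real.log_le_sub_one_of_pos (show 0 < x₁ / x by positivity)
  rw [Real.log_div hx₁.ne' h0.ne'] at h2
  have h3 : x * (log x₁ - log x) ≤ x * (x₁ / x - 1) := mul_le_mul_of_nonneg_left h2 h0.le
  have h4 : x * (x₁ / x - 1) = x₁ - x := by field_simp
  rw [h4] at h3
  have h5 : x * (-log x₁ - 1) ≤ x₁ * (-log x₁ - 1) :=
    mul_le_mul_of_nonneg_right h (by linarith)
  nlinarith

theorem log_107 : log (107 / 10) ≤ 2417 / 1000 := by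
  have h1 : log (107 / 10) = 3 * L + log (107 / 80) := by
    have : (107 / 10 : ℝ) = 2 ^ 3 * (107 / 80) := by norm_num
    rw [this, Real.log_mul (by norm_num) (by norm_num), Real.log_pow]
    unfold L
    push_cast
    ring
  have h2 := Real.log_le_sub_one_of_pos (show (0 : ℝ) < 107 / 80 by norm_num)
  have h3 := L_bounds.2
  rw [h1]
  norm_num at h2 h3 ⊢
  linarith

/-- tangent bound for the logarithm -/
theorem log_tangent {Λ : ℝ} (h : 83 / 10 ≤ Λ) :
    log (Λ + 12 / 5) ≤ 2417 / 1000 + (Λ - 83 / 10) * (10 / 107) := by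
  have h1 : log (Λ + 12 / 5) = log (107 / 10) + log ((Λ + 12 / 5) * (10 / 107)) := by
    rw [← Real.log_mul (by norm_num) (by nlinarith)]
    congr 1
    ring
  have h2 := Real.log_le_sub_one_of_pos (show 0 < (Λ + 12 / 5) * (10 / 107) by nlinarith)
  have h3 := log_107
  rw [h1]
  have e : (Λ + 12 / 5) * (10 / 107) - 1 = (Λ - 83 / 10) * (10 / 107) := by ring
  rw [e] at h2
  linarith

section

variable {t q : ℝ}

/-- the left side, in terms of `Qbar` -/
theorem lhs_le (ht0 : 0 < t) (ht1 : t < 1) (hq0 : 0 < q) (hq1 : q < 1)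
    (hΛ : 83 / 10 ≤ -log (1 - q ^ 2)) (hQ : 0 < QQ t q) :
    L * alR (artanh q) * QQ t q + 93 / 200 * L * eps t q * QQ t q ^ 2 / p0 t q
      ≤ (1 / 2 * (-log (1 - q ^ 2)) - 13 / 100) * Qbar (eps t q)
        + 93 / 200 * L * eps t q * Qbar (eps t q) ^ 2 / (1 - eps t q) := by
  have hK := Kap_upper hq0 hq1 hΛ
  obtain ⟨hK0, -⟩ := Kap_le (q := q) (b₂ := q) hq0 le_rfl hq1
  have hQb := QQ_le_Qbar ht0.le ht1 hq0 hq1 hQ
  have hp := p0_eq ht0.le ht1 hq0.le hq1
  have he := eps_pos ht0 ht1 hq0.le hq1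
  have he1 := eps_lt_one ht0.le ht1 hq0.le hq1
  have hL := L_pos
  rw [hp]
  have h1 := mul_le_mul hK hQb hQ.le (by linarith)
  have h2 : QQ t q ^ 2 ≤ Qbar (eps t q) ^ 2 := pow_le_pow_left₀ hQ.le hQb 2
  have h3 : 93 / 200 * L * eps t q * QQ t q ^ 2 / (1 - eps t q)
      ≤ 93 / 200 * L * eps t q * Qbar (eps t q) ^ 2 / (1 - eps t q) := by
    apply div_le_div_of_nonneg_right _ (by linarith)
    apply mul_le_mul_of_nonneg_left h2
    positivity
  linarith

theorem E_of_N1 (ht0 : 0 < t) (ht1 : t < 1) (hq0 : 0 < q) (hq1 : q < 1)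
    (hΛ : 83 / 10 ≤ -log (1 - q ^ 2)) (hQ : 0 < QQ t q)
    (h : (1 / 2 * (-log (1 - q ^ 2)) - 13 / 100) * Qbar (eps t q)
        + 93 / 200 * L * eps t q * Qbar (eps t q) ^ 2 / (1 - eps t q) ≤ N1 t q) :
    EIneq t q := by
  have h1 := lhs_le ht0 ht1 hq0 hq1 hΛ hQ
  have hp := (p0_le_one ht0.le ht1 hq0.le hq1).2
  have he := eps_pos ht0 ht1 hq0.le hq1
  have hB := Bplus_nonneg (X := Xl t q) (S_pos (artanh q))
  have : 0 ≤ 1 / 2 * (p0 t q / eps t q) * Bplus (Xl t q) (S (artanh q)) := by positivity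
  unfold EIneq
  linarith

theorem E_of_both (ht0 : 0 < t) (ht1 : t < 1) (hq0 : 0 < q) (hq1 : q < 1)
    (hq : 1 - 1 / 2 ^ 13 ≤ q)
    (hΛ : 83 / 10 ≤ -log (1 - q ^ 2)) (hQ : 0 < QQ t q) (he77 : eps t q ≤ 77 / 100)
    (h : (1 / 2 * (-log (1 - q ^ 2)) - 13 / 100) * Qbar (eps t q)
        + 93 / 200 * L * eps t q * Qbar (eps t q) ^ 2 / (1 - eps t q)
      ≤ q ^ 2 - 2 * L - log (eps t q)
        - (1 - q ^ 2) / eps t q * ((-log (1 - q ^ 2)) / 2 + 157 / 100 + (1 - q ^ 2) / eps t q / 2)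
        + (1 - eps t q) * xib (eps t q)
          * (log (2 * eps t q * xib (eps t q)) + (-log (1 - q ^ 2)) - 1 / 2 ^ 13
            - log (-log (1 - q ^ 2) + 12 / 5))) :
    EIneq t q := by
  have h1 := lhs_le ht0 ht1 hq0 hq1 hΛ hQ
  have h2 := N1_low ht0 ht1 hq0 hq1 he77 (by linarith)
  have h3 := Rterm_lower ht0 ht1 hq0 hq1 hq hΛ
  unfold EIneq
  linarith

/-- basic facts for `q` near `1` -/
theorem near_one (hq0 : 0 < q) (hq1 : q < 1) (hq : 1 - 1 / 2 ^ 13 ≤ q) :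
    1 - q ^ 2 ≤ 1 / 4096 ∧ 0 < 1 - q ^ 2 ∧ 83 / 10 ≤ -log (1 - q ^ 2)
      ∧ 1 - 1 / 4096 ≤ q ^ 2 := by
  have hz1 := sq_lt_one' hq0.le hq1
  have h1 : 1 - q ^ 2 ≤ 1 / 4096 := by
    norm_num at hq ⊢
    nlinarith
  have hk : 0 < 1 - q ^ 2 := by linarith
  refine ⟨h1, hk, ?_, by linarith⟩
  have h2 : log (1 - q ^ 2) ≤ log (1 / 4096) := Real.log_le_log hk h1
  have h3 : log (1 / 4096 : ℝ) = -(12 * L) := by
    rw [show (1 / 4096 : ℝ) = (2 ^ 12)⁻¹ by norm_num, Real.log_inv, Real.log_pow]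
    unfold L
    push_cast
    ring
  have h4 := L_bounds.1
  rw [h3] at h2
  norm_num at h4
  linarith

theorem xib_lower {e : ℝ} (h0 : 0 ≤ e) (h1 : e ≤ 1) : 5998 / 10000 ≤ xib e := by
  unfold xib
  have : 0 ≤ (1 - e) * e := mul_nonneg (by linarith) h0
  norm_num
  nlinarith

theorem Qbar_le_one {e : ℝ} (h0 : 0 ≤ e) (h1 : e ≤ 77 / 100) : 0 ≤ Qbar e ∧ Qbar e ≤ 1 := by
  unfold Qbar
  have h2 : 0 ≤ e * (1 + e) := by positivity
  have h3 : e * (1 + e) ≤ 77 / 100 * (177 / 100) := by nlinarith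
  have h4 : 2 / 5 * e * (1 + e) = 2 / 5 * (e * (1 + e)) := by ring
  rw [h4]
  constructor
  · apply mul_nonneg (by linarith)
    nlinarith
  · nlinarith

/-- regime `e ≥ 1/64` -/
theorem E_b1 (ht0 : 0 < t) (ht1 : t < 1) (hq0 : 0 < q) (hq1 : q < 1)
    (hq : 1 - 1 / 2 ^ 13 ≤ q) (hQ : 0 < QQ t q) (he77 : eps t q ≤ 77 / 100)
    (he1 : 1 / 64 ≤ eps t q) : EIneq t q := by
  obtain ⟨hk1, hk0, hΛ, hz⟩ := near_one hq0 hq1 hq
  apply E_of_both ht0 ht1 hq0 hq1 hq hΛ hQ he77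
  have hH := Hok_all he1 he77
  unfold Hok at hH
  set e := eps t q with he
  have he0 : 0 < e := by linarith
  set k := 1 - q ^ 2 with hk
  set Λ := -log k with hΛdef
  have hξ := xib_lower he0.le (by linarith)
  set ξ := xib e with hξdef
  have hξ0 : 0 < ξ := by linarith
  have hL := L_bounds
  -- the error term
  have hkΛ : k * Λ ≤ 1 / 4096 * (832 / 100) := by
    have h4096 : log (1 / 4096 : ℝ) = -(12 * L) := by
      rw [show (1 / 4096 : ℝ) = (2 ^ 12)⁻¹ by norm_num, Real.log_inv, Real.log_pow]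
      unfold L
      push_cast
      ring
    have h1 := mul_log_le (x := k) (x₁ := 1 / 4096) hk0 hk1 (by rw [h4096]; norm_num at hL ⊢; linarith)
    rw [h4096] at h1
    norm_num at hL ⊢
    nlinarith
  have herr : k / e * (Λ / 2 + 157 / 100 + k / e / 2)
      ≤ (1 / 4096 / e) * (573 / 100 + 1 / 4096 / (2 * e)) := by
    have e1 : k / e * (Λ / 2 + 157 / 100 + k / e / 2)
        = (k * Λ / 2 + 157 / 100 * k) / e + k ^ 2 / (2 * e ^ 2) := by
      field_simp
    have e2 : (1 / 4096 / e) * (573 / 100 + 1 / 4096 / (2 * e))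
        = (1 / 4096 * (832 / 100) / 2 + 157 / 100 * (1 / 4096)) / e + (1 / 4096) ^ 2 / (2 * e ^ 2) := by
      field_simp
      ring
    rw [e1, e2]
    apply add_le_add
    · apply div_le_div_of_nonneg_right _ he0.le
      linarith
    · apply div_le_div_of_nonneg_right _ (by positivity)
      exact pow_le_pow_left₀ hk0.le hk1 2
  have hlogs : log (1 / e) = -log e := by
    rw [one_div, Real.log_inv]
  have hlogx : log (1 / (e * ξ)) = -log e - log ξ := by
    rw [one_div, Real.log_inv, Real.log_mul he0.ne' hξ0.ne']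
    ring
  have hlog2 : log (2 * e * ξ) = L + log e + log ξ := by
    rw [Real.log_mul (by positivity) hξ0.ne', Real.log_mul (by norm_num) he0.ne']
    rfl
  rw [hlogs, hlogx] at hH
  rw [hlog2]
  have hT := log_tangent hΛ
  have hQb := Qbar_le_one he0.le he77
  have hP : 0 ≤ (1 - e) * ξ := mul_nonneg (by linarith) hξ0.le
  have hbr : (1 - e) * ξ * ((L + 83 / 10) - (1 / 8192 + 2417 / 1000 + (-log e - log ξ)))
        + (1 - e) * ξ * ((Λ - 83 / 10) * (1 - 10 / 107))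
      ≤ (1 - e) * ξ * (L + log e + log ξ + Λ - 1 / 2 ^ 13 - log (Λ + 12 / 5)) := by
    rw [← mul_add]
    apply mul_le_mul_of_nonneg_left _ hP
    norm_num at hT ⊢
    linarith
  have hm : 1 / 2 * (Λ - 83 / 10) * Qbar e ≤ (1 - e) * ξ * ((Λ - 83 / 10) * (1 - 10 / 107)) := by
    have h1 : Qbar e ≤ (1 - e) * 1 := by
      unfold Qbar
      apply mul_le_mul_of_nonneg_left _ (by linarith)
      have : 0 ≤ 2 / 5 * e * (1 + e) := by positivity
      linarith
    have h2 : (1 : ℝ) / 2 * ((1 - e) * 1) ≤ (1 - e) * ξ * (1 - 10 / 107) := by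
      have : (1 - e) * (1 / 2) ≤ (1 - e) * (ξ * (1 - 10 / 107)) :=
        mul_le_mul_of_nonneg_left (by norm_num at hξ ⊢; linarith) (by linarith)
      nlinarith
    have h3 : 0 ≤ Λ - 83 / 10 := by linarith
    nlinarith
  have hsplit : (1 / 2 * Λ - 13 / 100) * Qbar e
      = 402 / 100 * Qbar e + 1 / 2 * (Λ - 83 / 10) * Qbar e := by ring
  rw [hsplit]
  norm_num at hH hbr ⊢
  linarith

/-- the error term for `nu ≤ 3 √k` -/
theorem err_small {k s ν : ℝ} (hs0 : 0 < s) (hs : s ≤ 1 / 64) (hk : k = s ^ 2) (hν0 : 0 < ν)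
    (hν : ν ≤ 3 * s) : ν * (-log k / 2 + 157 / 100 + ν / 2) ≤ 27 / 100 := by
  have hL := L_bounds
  have h64 : log (1 / 64 : ℝ) = -(6 * L) := by
    rw [show (1 / 64 : ℝ) = (2 ^ 6)⁻¹ by norm_num, Real.log_inv, Real.log_pow]
    unfold L
    push_cast
    ring
  have h1 := mul_log_le hs0 hs (by rw [h64]; norm_num at hL ⊢; linarith)
  rw [h64] at h1
  have hlog : -log k = 2 * (-log s) := by
    rw [hk, Real.log_pow]
    push_cast
    ring
  have hlogs : 0 ≤ -log s := by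
    have : log s ≤ 0 := Real.log_nonpos hs0.le (by linarith)
    linarith
  rw [hlog]
  have h2 : ν * (2 * (-log s) / 2 + 157 / 100 + ν / 2) ≤ 3 * s * (2 * (-log s) / 2 + 157 / 100 + 3 * s / 2) :=
    mul_le_mul hν (by linarith) (by positivity) (by positivity)
  refine h2.trans ?_
  norm_num at hL h1
  nlinarith

theorem log_three_bounds : 1 ≤ log 3 ∧ log 3 ≤ 1104 / 1000 := by
  constructor
  · rw [Real.le_log_iff_exp_le (by norm_num)]
    have := Real.exp_one_lt_d9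
    linarith
  · have h2 := log_le_div_exp (show (0 : ℝ) < 3 by norm_num)
    have h3 := Real.exp_one_gt_d9
    have h4 : (3 : ℝ) / exp 1 ≤ 1104 / 1000 := by
      rw [div_le_iff₀ (Real.exp_pos 1)]
      norm_num at h3 ⊢
      linarith
    linarith

/-- the last term for small `e` -/
theorem last_small {e : ℝ} (h0 : 0 < e) (h1 : e ≤ 1 / 64) :
    93 / 200 * L * e * Qbar e ^ 2 / (1 - e) ≤ 6 / 1000 := by
  have hQ := Qbar_le_one h0.le (by linarith)
  have hL := L_bounds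
  have h2 : Qbar e ≤ 1 - e := by
    unfold Qbar
    have : 0 ≤ 2 / 5 * e * (1 + e) := by positivity
    have h3 : 0 ≤ 1 - e := by linarith
    nlinarith
  have h3 : 0 < 1 - e := by linarith
  rw [div_le_iff₀ h3]
  have h4 : Qbar e ^ 2 ≤ 1 * (1 - e) := by
    rw [pow_two]
    exact mul_le_mul hQ.2 h2 hQ.1 (by norm_num)
  have hL0 : 0 < L := L_pos
  have h5 : 93 / 200 * L * e * Qbar e ^ 2 ≤ 93 / 200 * L * e * (1 * (1 - e)) :=
    mul_le_mul_of_nonneg_left h4 (by positivity)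
  refine h5.trans ?_
  have h6 : 93 / 200 * L * e ≤ 6 / 1000 := by
    norm_num at hL ⊢
    nlinarith
  nlinarith

/-- regime `s/3 ≤ e ≤ 1/64` -/
theorem E_b2 (ht0 : 0 < t) (ht1 : t < 1) (hq0 : 0 < q) (hq1 : q < 1)
    (hq : 1 - 1 / 2 ^ 13 ≤ q) (hQ : 0 < QQ t q)
    (he1 : eps t q ≤ 1 / 64) (he2 : √(1 - q ^ 2) / 3 ≤ eps t q) : EIneq t q := by
  obtain ⟨hk1, hk0, hΛ, hz⟩ := near_one hq0 hq1 hq
  have he77 : eps t q ≤ 77 / 100 := by linarith
  apply E_of_both ht0 ht1 hq0 hq1 hq hΛ hQ he77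
  set e := eps t q with he
  have he0 : 0 < e := eps_pos ht0 ht1 hq0.le hq1
  set k := 1 - q ^ 2 with hk
  set s := √k with hs
  have hs0 : 0 < s := Real.sqrt_pos.mpr hk0
  have hss : s ^ 2 = k := Real.sq_sqrt hk0.le
  have hs1 : s ≤ 1 / 64 := by
    rw [hs]
    apply Real.sqrt_le_iff.mpr
    constructor
    · norm_num
    · norm_num at hk1 ⊢
      linarith
  have hν : k / e ≤ 3 * s := by
    rw [div_le_iff₀ he0, ← hss]
    nlinarith
  have herr := err_small hs0 hs1 hss.symm (show 0 < k / e by positivity) hν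
  set Λ := -log k with hΛdef
  have hξ := xib_lower he0.le (by linarith)
  set ξ := xib e with hξdef
  have hξ0 : 0 < ξ := by linarith
  have hL := L_bounds
  have hlog2 : log (2 * e * ξ) = L + log e + log ξ := by
    rw [Real.log_mul (by positivity) hξ0.ne', Real.log_mul (by norm_num) he0.ne']
    rfl
  rw [hlog2]
  have hT := log_tangent hΛ
  have hQb := Qbar_le_one he0.le he77
  have hlast := last_small he0 he1
  -- logarithms
  have h64 : log (1 / 64 : ℝ) = -(6 * L) := by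
    rw [show (1 / 64 : ℝ) = (2 ^ 6)⁻¹ by norm_num, Real.log_inv, Real.log_pow]
    unfold L
    push_cast
    ring
  have hlogeu : log e ≤ -(6 * L) := by
    rw [← h64]; exact Real.log_le_log he0 he1
  have hlogsk : log s = -(Λ / 2) := by
    have : log k = 2 * log s := by
      rw [← hss, Real.log_pow]
      push_cast
      ring
    rw [hΛdef, this]
    ring
  have hlogel : -(Λ / 2) - 1104 / 1000 ≤ log e := by
    have h1 : log (s / 3) ≤ log e := Real.log_le_log (by positivity) he2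
    rw [Real.log_div hs0.ne' (by norm_num), hlogsk] at h1
    have := log_three_bounds.2
    linarith
  have hlogξ : -(67 / 100) ≤ log ξ := by
    have h1 : log (5998 / 10000) ≤ log ξ := Real.log_le_log (by norm_num) hξ
    have h2 := Real.one_sub_inv_le_log_of_pos (show (0 : ℝ) < 5998 / 10000 by norm_num)
    norm_num at h1 h2 ⊢
    linarith
  -- the bracket is positive
  set br := L + log e + log ξ + Λ - 1 / 2 ^ 13 - log (Λ + 12 / 5) with hbr
  have hbr0 : 0 ≤ br := by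
    rw [hbr]
    norm_num at hL hT ⊢
    linarith
  have hP : (59 / 100 : ℝ) ≤ (1 - e) * ξ := by
    have h1 : (63 / 64 : ℝ) ≤ 1 - e := by linarith
    have h2 : (63 / 64 : ℝ) * (5998 / 10000) ≤ (1 - e) * ξ :=
      mul_le_mul h1 hξ (by norm_num) (by linarith)
    norm_num at h2 ⊢
    linarith
  have hPbr : 59 / 100 * br ≤ (1 - e) * ξ * br := mul_le_mul_of_nonneg_right hP hbr0
  have hLHS : (1 / 2 * Λ - 13 / 100) * Qbar e ≤ (1 / 2 * Λ - 13 / 100) * 1 :=
    mul_le_mul_of_nonneg_left hQb.2 (by linarith)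
  have hbr1 : br = L + log e + log ξ + Λ - 1 / 2 ^ 13 - log (Λ + 12 / 5) := hbr
  norm_num at hL hT hbr1 herr hlogeu hlogel hz ⊢
  nlinarith

/-- every value of `eps` in `(0,1)` is attained -/
theorem exists_t_of_eps {e₀ : ℝ} (ht0 : 0 < t) (ht1 : t < 1) (hq0 : 0 < q) (hq1 : q < 1)
    (he₀ : eps t q ≤ e₀) (he₁ : e₀ < 1) :
    ∃ t₀, 0 < t₀ ∧ t₀ < 1 ∧ t ≤ t₀ ∧ eps t₀ q = e₀ := by
  have he := eps_pos ht0 ht1 hq0.le hq1
  have hz1 := sq_lt_one' hq0.le hq1
  have hk : 0 < 1 - q ^ 2 := by linarith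
  have hz0 : 0 < q ^ 2 := by positivity
  have he0 : 0 < e₀ := he.trans_le he₀
  set k := 1 - q ^ 2 with hkdef
  set z := q ^ 2 with hzdef
  have hd : 0 < k + e₀ * z := by positivity
  set y₀ := e₀ / (k + e₀ * z) with hy
  have hy0 : 0 < y₀ := by positivity
  have hy1 : y₀ < 1 := by
    rw [hy, div_lt_one hd, hkdef]
    nlinarith
  refine ⟨√y₀, Real.sqrt_pos.mpr hy0, ?_, ?_, ?_⟩
  · rw [Real.sqrt_lt' (by norm_num)]
    simpa using hy1
  · apply Real.le_sqrt_of_sq_le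
    -- `t^2 = e / (k + e z)`
    have hinv := inv_t_sq ht0 ht1 hq0.le hq1
    rw [← hkdef, ← hzdef] at hinv
    have h1 : t ^ 2 = eps t q / (k + eps t q * z) := by
      have hne : t ^ 2 ≠ 0 := by positivity
      have h2 : 1 / t ^ 2 = (k + eps t q * z) / eps t q := by
        rw [hinv]
        field_simp
        ring
      have h3 : 0 < k + eps t q * z := by positivity
      rw [one_div, inv_eq_iff_eq_inv] at h2
      rw [h2, inv_div]
    rw [h1, hy]
    have h3 : 0 < k + eps t q * z := by positivity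
    rw [div_le_div_iff₀ h3 hd]
    nlinarith
  · unfold eps ZZ
    rw [Real.sq_sqrt hy0.le, ← hkdef, ← hzdef]
    have h5 : 1 - y₀ * z = k / (k + e₀ * z) := by
      rw [hy]
      field_simp
      ring
    rw [h5, hy]
    field_simp

/-- regime `e ≤ s/3` -/
theorem E_a (ht0 : 0 < t) (ht1 : t < 1) (hq0 : 0 < q) (hq1 : q < 1)
    (hq : 1 - 1 / 2 ^ 13 ≤ q) (hQ : 0 < QQ t q)
    (he2 : eps t q ≤ √(1 - q ^ 2) / 3) : EIneq t q := by
  obtain ⟨hk1, hk0, hΛ, hz⟩ := near_one hq0 hq1 hq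
  have he0 : 0 < eps t q := eps_pos ht0 ht1 hq0.le hq1
  set k := 1 - q ^ 2 with hk
  set s := √k with hs
  have hs0 : 0 < s := Real.sqrt_pos.mpr hk0
  have hss : s ^ 2 = k := Real.sq_sqrt hk0.le
  have hs1 : s ≤ 1 / 64 := by
    rw [hs]
    apply Real.sqrt_le_iff.mpr
    constructor
    · norm_num
    · norm_num at hk1 ⊢
      linarith
  obtain ⟨t₀, h0, h1, h2, h3⟩ := exists_t_of_eps ht0 ht1 hq0 hq1 he2 (by linarith)
  have hN1 : N1 t₀ q ≤ N1 t q := N1_anti_t ht0 h2 h1 hq0 hq1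
  have hlow := N1_low h0 h1 hq0 hq1 (by rw [h3]; linarith) (by linarith)
  rw [h3, ← hk] at hlow
  have hν : k / (s / 3) = 3 * s := by
    rw [← hss]
    field_simp
  rw [hν] at hlow
  have herr := err_small hs0 hs1 hss.symm (show 0 < 3 * s by positivity) le_rfl
  apply E_of_N1 ht0 ht1 hq0 hq1 hΛ hQ
  set e := eps t q with he
  rw [← hk]
  have he1 : e ≤ 1 / 64 := by linarith
  have hlast := last_small he0 he1
  have hQb := Qbar_le_one he0.le (by linarith)
  set Λ := -log k with hΛdef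
  have hLHS : (1 / 2 * Λ - 13 / 100) * Qbar e ≤ (1 / 2 * Λ - 13 / 100) * 1 :=
    mul_le_mul_of_nonneg_left hQb.2 (by linarith)
  have hlogsk : log s = -(Λ / 2) := by
    have : log k = 2 * log s := by
      rw [← hss, Real.log_pow]
      push_cast
      ring
    rw [hΛdef, this]
    ring
  have hlog : log (s / 3) = -(Λ / 2) - log 3 := by
    rw [Real.log_div hs0.ne' (by norm_num), hlogsk]
  rw [hlog] at hlow
  have hl3 := log_three_bounds.1
  have hL := L_bounds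
  norm_num at hL hz
  linarith

/-- the whole region `q ≥ 1 - 2^(-13)` -/
theorem E_large (ht0 : 0 < t) (ht1 : t < 1) (hq0 : 0 < q) (hq1 : q < 1)
    (hq : 1 - 1 / 2 ^ 13 ≤ q) (hQ : 0 < QQ t q) (hI : 0 < Ix (abar t q) (delt t q)) :
    EIneq t q := by
  have he77 : eps t q ≤ 77 / 100 := by
    by_contra hc
    have hc' : 77 / 100 < eps t q := not_le.mp hc
    have := c_Ix ht0.le le_rfl ht1 hq0.le le_rfl hq1 (by nlinarith)
    linarith
  by_cases h1 : 1 / 64 ≤ eps t q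
  · exact E_b1 ht0 ht1 hq0 hq1 hq hQ he77 h1
  · have h1' := (not_le.mp h1).le
    by_cases h2 : √(1 - q ^ 2) / 3 ≤ eps t q
    · exact E_b2 ht0 ht1 hq0 hq1 hq hQ h1' h2
    · exact E_a ht0 ht1 hq0 hq1 hq hQ (not_le.mp h2).le

end

end CK322
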