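import Vale.Agent.Lib.P322.ELarge2

/-!
`E_main`: the kernel check of the cells for `q ≤ 1 - 2^(-13)`, and the analytic bound beyond.
-/

open Real

namespace CK322

def tsList : List ℕ := [9223372036854775808, 13835058055282163712, 16140901064495857664, 17293822569102704640, 17870283321406128128, 18158513697557839872, 18302628885633695744, 18374686479671623680, 18410715276690587648, 18428729675200069632, 18437736874454810624, 18442240474082181120, 18444492273895866368, 18445618173802708992, 18446181123756130304, 18446462598732840960, 18446603336221196288, 18446673704965373952, 18446708889337462784, 18446726481523507200] ++ [18446744073709551616]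

def qsList : List ℕ := [9223372036854775808, 13835058055282163712, 16140901064495857664, 17293822569102704640, 17870283321406128128, 18158513697557839872, 18302628885633695744, 18374686479671623680, 18410715276690587648, 18428729675200069632, 18437736874454810624, 18442240474082181120] ++ [18444492273895866368]

/-- the check over all cells -/
def rootOK : Bool :=
  chainOK (fun q1 q2 => chainOK (fun t1 t2 => treeOK 12 t1 t2 q1 q2) 0 tsList) 0 qsList

theorem rootOK_true : rootOK = true := by decide +kernel

theorem E_small {t q : ℝ} (ht0 : 0 < t) (ht1 : t < 1) (hq0 : 0 < q) (hq1 : q < 1)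
    (hq : q ≤ 1 - 1 / 2 ^ 13) (hQ : 0 < QQ t q) (hI : 0 < Ix (abar t q) (delt t q)) :
    EIneq t q := by
  have hr := rootOK_true
  unfold rootOK qsList at hr
  obtain ⟨q1, q2, h1, h2, h3⟩ := chainOK_sound (x := q) _ 0 _ hr
    (by simpa [val] using hq0.le)
    (by unfold val SC; norm_num at hq ⊢; linarith)
  unfold tsList at h1
  obtain ⟨t1, t2, h4, h5, h6⟩ := chainOK_sound (x := t) _ 0 _ h1
    (by simpa [val] using ht0.le)
    (by unfold val SC; norm_num; linarith)
  exact treeOK_sound 12 t1 t2 q1 q2 h4 ht0 ht1 hq0 hq1 h5 h6 h2 h3 hQ hI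

theorem E_main {t q : ℝ} (ht0 : 0 < t) (ht1 : t < 1) (hq0 : 0 < q) (hq1 : q < 1)
    (hQ : 0 < QQ t q) (hI : 0 < Ix (abar t q) (delt t q)) :
    L * alR (artanh q) * QQ t q + 93 / 200 * L * eps t q * QQ t q ^ 2 / p0 t q
      ≤ N1 t q + 1 / 2 * (p0 t q / eps t q) * Bplus (Xl t q) (S (artanh q)) := by
  rcases le_total q (1 - 1 / 2 ^ 13) with h | h
  · exact E_small ht0 ht1 hq0 hq1 h hQ hI
  · exact E_large ht0 ht1 hq0 hq1 h hQ hI

end CK322
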