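import Vale.Agent.Lib.P322.Theta

open Real Set Filter Topology

namespace CK322

noncomputable section

/-! ## Module F : FMono.lean -/

private theorem nonneg_of_deriv {F G : ℝ → ℝ} (h0 : F 0 = 0)
    (hd : ∀ u, HasDerivAt F (u * G u) u) (hG : ∀ u, 0 ≤ u → 0 ≤ G u) {u : ℝ} (hu : 0 ≤ u) :
    0 ≤ F u := by
  have hmono : MonotoneOn F (Ici 0) := by
    apply monotoneOn_of_deriv_nonneg (convex_Ici 0)
    · exact fun x _ => (hd x).continuousAt.continuousWithinAt
    · exact fun x _ => (hd x).differentiableAt.differentiableWithinAt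
    · intro x hx
      rw [interior_Ici] at hx
      rw [(hd x).deriv]
      exact mul_nonneg hx.le (hG x hx.le)
  have := hmono (mem_Ici.2 le_rfl) (mem_Ici.2 hu) hu
  rwa [h0] at this

private theorem F5_nonneg {u : ℝ} (hu : 0 ≤ u) : 0 ≤ u * cosh u - sinh u :=
  sub_nonneg.2 (sinh_le_mul_cosh hu)

private theorem F4_nonneg {u : ℝ} (hu : 0 ≤ u) : 0 ≤ (3 + u ^ 2) * sinh u - 3 * u * cosh u := by
  refine nonneg_of_deriv (F := fun u => (3 + u ^ 2) * sinh u - 3 * u * cosh u)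
    (G := fun u => u * cosh u - sinh u) (by simp) ?_ (fun u hu => F5_nonneg hu) hu
  intro x
  have h1 : HasDerivAt (fun u : ℝ => 3 + u ^ 2) (2 * x) x := by
    exact ((hasDerivAt_pow 2 x).const_add 3).congr_deriv (by norm_num)
  have h2 : HasDerivAt (fun u : ℝ => 3 * u) 3 x := by
    simpa using (hasDerivAt_id' x).const_mul 3
  have := (h1.fun_mul (Real.hasDerivAt_sinh x)).fun_sub (h2.fun_mul (Real.hasDerivAt_cosh x))
  refine this.congr_deriv ?_
  ring

private theorem F3_nonneg {u : ℝ} (hu : 0 ≤ u) :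
    0 ≤ (15 * u + u ^ 3) * cosh u - (15 + 6 * u ^ 2) * sinh u := by
  refine nonneg_of_deriv (F := fun u => (15 * u + u ^ 3) * cosh u - (15 + 6 * u ^ 2) * sinh u)
    (G := fun u => (3 + u ^ 2) * sinh u - 3 * u * cosh u) (by simp) ?_
    (fun u hu => F4_nonneg hu) hu
  intro x
  have h1 : HasDerivAt (fun u : ℝ => 15 * u + u ^ 3) (15 + 3 * x ^ 2) x := by
    have := ((hasDerivAt_id' x).const_mul 15).fun_add (hasDerivAt_pow 3 x)
    exact this.congr_deriv (by norm_num)
  have h2 : HasDerivAt (fun u : ℝ => 15 + 6 * u ^ 2) (12 * x) x := by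
    have := ((hasDerivAt_pow 2 x).const_mul 6).const_add 15
    exact this.congr_deriv (by norm_num; ring)
  have := (h1.fun_mul (Real.hasDerivAt_cosh x)).fun_sub (h2.fun_mul (Real.hasDerivAt_sinh x))
  refine this.congr_deriv ?_
  ring

private theorem F2_nonneg {u : ℝ} (hu : 0 ≤ u) :
    0 ≤ (105 + 45 * u ^ 2 + u ^ 4) * sinh u - (105 * u + 10 * u ^ 3) * cosh u := by
  refine nonneg_of_deriv
    (F := fun u => (105 + 45 * u ^ 2 + u ^ 4) * sinh u - (105 * u + 10 * u ^ 3) * cosh u)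
    (G := fun u => (15 * u + u ^ 3) * cosh u - (15 + 6 * u ^ 2) * sinh u) (by simp) ?_
    (fun u hu => F3_nonneg hu) hu
  intro x
  have h1 : HasDerivAt (fun u : ℝ => 105 + 45 * u ^ 2 + u ^ 4) (90 * x + 4 * x ^ 3) x := by
    have := (((hasDerivAt_pow 2 x).const_mul 45).const_add 105).fun_add (hasDerivAt_pow 4 x)
    exact this.congr_deriv (by norm_num; ring)
  have h2 : HasDerivAt (fun u : ℝ => 105 * u + 10 * u ^ 3) (105 + 30 * x ^ 2) x := by
    have := ((hasDerivAt_id' x).const_mul 105).fun_add ((hasDerivAt_pow 3 x).const_mul 10)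
    exact this.congr_deriv (by norm_num; ring)
  have := (h1.fun_mul (Real.hasDerivAt_sinh x)).fun_sub (h2.fun_mul (Real.hasDerivAt_cosh x))
  refine this.congr_deriv ?_
  ring

private theorem F1_nonneg {u : ℝ} (hu : 0 ≤ u) :
    0 ≤ cosh u * (u * (945 + 105 * u ^ 2 + u ^ 4)) - sinh u * (945 + 420 * u ^ 2 + 15 * u ^ 4) := by
  refine nonneg_of_deriv
    (F := fun u => cosh u * (u * (945 + 105 * u ^ 2 + u ^ 4))
        - sinh u * (945 + 420 * u ^ 2 + 15 * u ^ 4))
    (G := fun u => (105 + 45 * u ^ 2 + u ^ 4) * sinh u - (105 * u + 10 * u ^ 3) * cosh u)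
    (by simp) ?_ (fun u hu => F2_nonneg hu) hu
  intro x
  have h1 : HasDerivAt (fun u : ℝ => u * (945 + 105 * u ^ 2 + u ^ 4))
      (945 + 315 * x ^ 2 + 5 * x ^ 4) x := by
    have h := (((hasDerivAt_pow 2 x).const_mul 105).const_add 945).fun_add (hasDerivAt_pow 4 x)
    have := (hasDerivAt_id' x).fun_mul h
    exact this.congr_deriv (by norm_num; ring)
  have h2 : HasDerivAt (fun u : ℝ => 945 + 420 * u ^ 2 + 15 * u ^ 4)
      (840 * x + 60 * x ^ 3) x := by
    have := (((hasDerivAt_pow 2 x).const_mul 420).const_add 945).fun_add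
      ((hasDerivAt_pow 4 x).const_mul 15)
    exact this.congr_deriv (by norm_num; ring)
  have := ((Real.hasDerivAt_cosh x).fun_mul h1).fun_sub ((Real.hasDerivAt_sinh x).fun_mul h2)
  refine this.congr_deriv ?_
  ring

/-- Pade bound for `log (1+x)`. -/
private theorem log_one_add_le {x : ℝ} (hx : 0 ≤ x) :
    log (1 + x) * (6 + 4 * x) ≤ x * (6 + x) := by
  have hmono : MonotoneOn (fun x : ℝ => x * (6 + x) / (6 + 4 * x) - log (1 + x)) (Ici 0) := by
    have hd : ∀ y : ℝ, 0 ≤ y → HasDerivAt (fun x : ℝ => x * (6 + x) / (6 + 4 * x) - log (1 + x))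
        (4 * y ^ 3 / ((6 + 4 * y) ^ 2 * (1 + y))) y := by
      intro y hy
      have h6 : (6 + 4 * y) ≠ 0 := by positivity
      have h1 : (1 + y) ≠ 0 := by positivity
      have hn : HasDerivAt (fun x : ℝ => x * (6 + x)) (6 + 2 * y) y := by
        have := (hasDerivAt_id' y).fun_mul ((hasDerivAt_id' y).const_add 6)
        exact this.congr_deriv (by ring)
      have hd' : HasDerivAt (fun x : ℝ => 6 + 4 * x) 4 y := by
        simpa using ((hasDerivAt_id' y).const_mul 4).const_add 6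
      have hl : HasDerivAt (fun x : ℝ => log (1 + x)) (1 / (1 + y)) y :=
        ((hasDerivAt_id' y).const_add 1).log h1 |>.congr_deriv (by simp)
      have := (hn.fun_div hd' h6).fun_sub hl
      refine this.congr_deriv ?_
      field_simp
      ring
    apply monotoneOn_of_deriv_nonneg (convex_Ici 0)
    · exact fun y hy => (hd y hy).continuousAt.continuousWithinAt
    · exact fun y hy => (hd y (interior_subset hy)).differentiableAt.differentiableWithinAt
    · intro y hy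
      rw [interior_Ici] at hy
      have hy' : 0 ≤ y := hy.le
      rw [(hd y hy').deriv]
      positivity
  have := hmono (mem_Ici.2 le_rfl) (mem_Ici.2 hx) hx
  simp only [mul_zero, zero_div, add_zero, log_one, sub_zero, zero_mul] at this
  have h6 : 0 < 6 + 4 * x := by positivity
  have h2 : log (1 + x) ≤ x * (6 + x) / (6 + 4 * x) := by linarith
  rwa [le_div_iff₀ h6] at h2

/-- The polynomial inequality on `[0,3]`. -/
private theorem poly_main {u : ℝ} (h0 : 0 ≤ u) (h3 : u ≤ 3) :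
    0 ≤ (7560:ℝ) + 26460 * u + 24276 * u ^ 2 + 19221 * u ^ 3 + 10682 * u ^ 4 + 8045 / 2 * u ^ 5
      + 12669 / 8 * u ^ 6 + 2029 / 6 * u ^ 7 + 2095 / 24 * u ^ 8 + 5 * u ^ 9 + 373 / 96 * u ^ 10
      - 55 / 24 * u ^ 11 + 23 / 48 * u ^ 12 - 1 / 8 * u ^ 13 := by
  have hu8 : 0 ≤ u ^ 8 := by positivity
  have h1 : u ^ 3 ≤ 9 * u := by nlinarith [mul_nonneg h0 h0, mul_nonneg h0 (sub_nonneg.2 h3)]
  have h2 : u ^ 5 ≤ 81 * u := by
    have h22 : u ^ 2 ≤ 9 := by nlinarith
    have : u ^ 4 ≤ 81 := by nlinarith [sq_nonneg u]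
    have : u * u ^ 4 ≤ u * 81 := mul_le_mul_of_nonneg_left this h0
    nlinarith
  have h4 : 0 ≤ 2095 / 24 + 5 * u - 55 / 24 * u ^ 3 - 1 / 8 * u ^ 5 := by nlinarith
  have h5 : 0 ≤ u ^ 8 * (2095 / 24 + 5 * u - 55 / 24 * u ^ 3 - 1 / 8 * u ^ 5) := mul_nonneg hu8 h4
  have e : u ^ 8 * (2095 / 24 + 5 * u - 55 / 24 * u ^ 3 - 1 / 8 * u ^ 5)
      = 2095 / 24 * u ^ 8 + 5 * u ^ 9 - 55 / 24 * u ^ 11 - 1 / 8 * u ^ 13 := by ring
  rw [e] at h5
  have : 0 ≤ (7560:ℝ) + 26460 * u + 24276 * u ^ 2 + 19221 * u ^ 3 + 10682 * u ^ 4 + 8045 / 2 * u ^ 5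
      + 12669 / 8 * u ^ 6 + 2029 / 6 * u ^ 7 + 373 / 96 * u ^ 10 + 23 / 48 * u ^ 12 := by positivity
  linarith

private theorem D_pos {u : ℝ} (hu : 0 < u) : 0 < u * cosh u - sinh u := by
  have hd : ∀ x : ℝ, HasDerivAt (fun u => u * cosh u - sinh u) (x * sinh x) x := by
    intro x
    have := ((hasDerivAt_id' x).fun_mul (Real.hasDerivAt_cosh x)).fun_sub (Real.hasDerivAt_sinh x)
    exact this.congr_deriv (by ring)
  have hmono : StrictMonoOn (fun u => u * cosh u - sinh u) (Ici 0) := by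
    apply strictMonoOn_of_deriv_pos (convex_Ici 0)
    · exact fun x _ => (hd x).continuousAt.continuousWithinAt
    · intro x hx
      rw [interior_Ici] at hx
      rw [(hd x).deriv]
      exact mul_pos hx (Real.sinh_pos_iff.2 hx)
  have := hmono (mem_Ici.2 le_rfl) (mem_Ici.2 hu.le) hu
  simpa using this

/-- rational upper bound for `ℓ` -/
private theorem ell_le {u : ℝ} (hu : 0 ≤ u) :
    let Y := exp (-u)
    let D := 1 + u + u ^ 2 / 2 + u ^ 3 / 6 + u ^ 4 / 24
    (1 + Y) * log (1 + Y) / Y ≤ (D + 1) * (6 * D + 1) / (D * (6 * D + 4)) := by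
  intro Y D
  have hY : 0 < Y := exp_pos _
  have hD : 0 < D := by positivity
  have hDe : D ≤ exp u := by
    have := Real.sum_le_exp_of_nonneg hu 5
    simp only [Finset.sum_range_succ, Finset.sum_range_zero, Nat.factorial] at this
    norm_num at this
    have e : D = 1 + u + u ^ 2 / 2 + u ^ 3 / 6 + u ^ 4 / 24 := rfl
    rw [e]
    linarith
  have hYD : Y * D ≤ 1 := by
    have h1 : Y * exp u = 1 := by
      change exp (-u) * exp u = 1
      rw [← exp_add]; simp
    calc Y * D ≤ Y * exp u := mul_le_mul_of_nonneg_left hDe hY.le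
      _ = 1 := h1
  have hlog := log_one_add_le hY.le
  have h6 : 0 < 6 + 4 * Y := by positivity
  have h1Y : 0 < 1 + Y := by positivity
  have hst1 : (1 + Y) * log (1 + Y) / Y ≤ (1 + Y) * (6 + Y) / (6 + 4 * Y) := by
    rw [div_le_div_iff₀ hY h6]
    have := mul_le_mul_of_nonneg_left hlog h1Y.le
    nlinarith
  refine hst1.trans ?_
  rw [div_le_div_iff₀ h6 (by positivity)]
  have hw : 0 ≤ 1 - Y * D := by linarith
  have hp : 0 ≤ 18 * D + 6 + 6 * Y * D + 4 * Y := by positivity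
  have := mul_nonneg hw hp
  nlinarith

private theorem tanh_half_le {v : ℝ} (hv : 0 ≤ v) :
    tanh v * (15 + 6 * v ^ 2) ≤ 15 * v + v ^ 3 := by
  have h := F3_nonneg hv
  rw [Real.tanh_eq_sinh_div_cosh]
  have hc := Real.cosh_pos v
  rw [div_mul_eq_mul_div, div_le_iff₀ hc]
  nlinarith

private theorem y_facts (θ : ℝ) :
    tanh θ = (1 - exp (-(2 * θ))) / (1 + exp (-(2 * θ))) ∧
    cosh θ ^ 2 = (1 + exp (-(2 * θ))) ^ 2 / (4 * exp (-(2 * θ))) ∧
    sinh (2 * θ) = (1 - exp (-(2 * θ)) ^ 2) / (2 * exp (-(2 * θ))) := by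
  set y := exp (-(2 * θ)) with hy
  have hypos : 0 < y := exp_pos _
  have hE : exp θ * exp θ * y = 1 := by
    rw [hy, ← exp_add, ← exp_add]
    have : θ + θ + -(2 * θ) = 0 := by ring
    rw [this, exp_zero]
  have hEm : exp (-θ) = exp θ * y := by
    rw [hy, ← exp_add]; congr 1; ring
  have hcosh : cosh θ = exp θ * (1 + y) / 2 := by
    rw [Real.cosh_eq, hEm]; ring
  have hsinh : sinh θ = exp θ * (1 - y) / 2 := by
    rw [Real.sinh_eq, hEm]; ring
  have h1y : 0 < 1 + y := by positivity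
  have hexp := exp_pos θ
  refine ⟨?_, ?_, ?_⟩
  · rw [Real.tanh_eq_sinh_div_cosh, hsinh, hcosh]
    field_simp
  · rw [hcosh]
    field_simp
    nlinarith [hE]
  · rw [Real.sinh_two_mul, hsinh, hcosh]
    field_simp
    nlinarith [hE]

/-- The key inequality in the variable `u = 2θ`. -/
private theorem star {u : ℝ} (hu : 0 < u) :
    let Y := exp (-u)
    let ℓ := (1 + Y) * log (1 + Y) / Y
    let ξ := u ^ 2 * sinh u / (u * cosh u - sinh u) - 3
    ξ * (u + ℓ) + ℓ * u * ((1 - Y) / (1 + Y)) ≤ u ^ 2 := by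
  intro Y ℓ ξ
  have hY : 0 < Y := exp_pos _
  have hY1 : Y < 1 := by
    change exp (-u) < 1
    rw [exp_lt_one_iff]; linarith
  have hD := D_pos hu
  have hlog0 : 0 < log (1 + Y) := Real.log_pos (by linarith)
  have hℓ0 : 0 ≤ ℓ := by positivity
  have hlogle : log (1 + Y) ≤ Y := by
    have := Real.log_le_sub_one_of_pos (show 0 < 1 + Y by positivity)
    linarith
  by_cases h3 : 3 ≤ u
  · have hu1 : 0 < u - 1 := by linarith
    have hℓ1 : ℓ ≤ 1 + Y := by
      change (1 + Y) * log (1 + Y) / Y ≤ 1 + Y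
      rw [div_le_iff₀ hY]
      have := mul_le_mul_of_nonneg_left hlogle (show 0 ≤ 1 + Y by positivity)
      linarith
    set ξh := (u ^ 2 - 3 * u + 3) / (u - 1) with hξh
    have hξh0 : 0 ≤ ξh := by
      apply div_nonneg _ hu1.le
      nlinarith
    have hξ : ξ ≤ ξh := by
      have hsc : sinh u ≤ cosh u := (Real.sinh_lt_cosh u).le
      have h1 : u ^ 2 * sinh u / (u * cosh u - sinh u) ≤ u ^ 2 / (u - 1) := by
        rw [div_le_div_iff₀ hD hu1]
        have : sinh u * (u - 1) ≤ u * cosh u - sinh u := by nlinarith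
        nlinarith [sq_nonneg u]
      have h2 : ξh = u ^ 2 / (u - 1) - 3 := by
        rw [hξh]; field_simp; ring
      change u ^ 2 * sinh u / (u * cosh u - sinh u) - 3 ≤ ξh
      rw [h2]; linarith
    have hup : ξ * (u + ℓ) ≤ ξh * (u + 1 + Y) := by
      calc ξ * (u + ℓ) ≤ ξh * (u + ℓ) :=
            mul_le_mul_of_nonneg_right hξ (by positivity)
        _ ≤ ξh * (u + 1 + Y) := mul_le_mul_of_nonneg_left (by linarith) hξh0
    have h1Y : 0 < 1 + Y := by positivity
    have htpos : 0 ≤ (1 - Y) / (1 + Y) := div_nonneg (by linarith) h1Y.le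
    have hup2 : ℓ * u * ((1 - Y) / (1 + Y)) ≤ u * (1 - Y) := by
      calc ℓ * u * ((1 - Y) / (1 + Y)) ≤ (1 + Y) * u * ((1 - Y) / (1 + Y)) := by
            apply mul_le_mul_of_nonneg_right _ htpos
            exact mul_le_mul_of_nonneg_right hℓ1 hu.le
        _ = u * (1 - Y) := by field_simp
    have hfin : ξh * (u + 1 + Y) + u * (1 - Y) ≤ u ^ 2 := by
      have e : ξh * (u + 1 + Y) + u * (1 - Y)
          = ((u ^ 2 - 3 * u + 3) * (u + 1 + Y) + u * (1 - Y) * (u - 1)) / (u - 1) := by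
        rw [hξh]; field_simp
      rw [e, div_le_iff₀ hu1]
      nlinarith
    linarith
  · have h3' : u ≤ 3 := (not_le.1 h3).le
    -- the Pade bound for ξ
    have hA : 0 < 315 + 14 * u ^ 2 := by positivity
    have hξ : ξ ≤ u ^ 2 * (63 + u ^ 2) / (315 + 14 * u ^ 2) := by
      change u ^ 2 * sinh u / (u * cosh u - sinh u) - 3 ≤ u ^ 2 * (63 + u ^ 2) / (315 + 14 * u ^ 2)
      have h := F1_nonneg hu.le
      rw [sub_le_iff_le_add, div_le_iff₀ hD]
      have e : (u ^ 2 * (63 + u ^ 2) / (315 + 14 * u ^ 2) + 3) * (u * cosh u - sinh u)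
          = ((945 + 105 * u ^ 2 + u ^ 4) * (u * cosh u - sinh u)) / (315 + 14 * u ^ 2) := by
        field_simp
        ring
      rw [e, le_div_iff₀ hA]
      nlinarith
    have htb : (1 - Y) / (1 + Y) ≤ u * (60 + u ^ 2) / (120 + 12 * u ^ 2) := by
      have e := (y_facts (u / 2)).1
      rw [show 2 * (u / 2) = u by ring] at e
      have h := tanh_half_le (v := u / 2) (by positivity)
      change (1 - exp (-u)) / (1 + exp (-u)) ≤ _
      rw [← e, le_div_iff₀ (by positivity)]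
      nlinarith
    have hℓ2 := ell_le hu.le
    simp only at hℓ2
    set D := 1 + u + u ^ 2 / 2 + u ^ 3 / 6 + u ^ 4 / 24 with hDdef
    have hD0 : 0 < D := by positivity
    set r := (D + 1) * (6 * D + 1) / (D * (6 * D + 4)) with hr
    have hℓr : ℓ ≤ r := hℓ2
    set a := (63 + u ^ 2) / (315 + 14 * u ^ 2) with ha
    set e := (60 + u ^ 2) / (120 + 12 * u ^ 2) with he
    have ha0 : 0 ≤ a := by positivity
    have he0 : 0 ≤ e := by positivity
    have hξa : ξ ≤ u ^ 2 * a := by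
      rw [ha, ← mul_div_assoc]; exact hξ
    have htbe : (1 - Y) / (1 + Y) ≤ u * e := by
      rw [he, ← mul_div_assoc]; exact htb
    have hmain : u * a + r * (a + e) ≤ 1 := by
      have hB : 0 < 120 + 12 * u ^ 2 := by positivity
      have hR : 0 < D * (6 * D + 4) := by positivity
      have e1 : u * a + r * (a + e)
          = (u * (63 + u ^ 2) * (120 + 12 * u ^ 2) * (D * (6 * D + 4))
              + (D + 1) * (6 * D + 1) * ((63 + u ^ 2) * (120 + 12 * u ^ 2)
                + (60 + u ^ 2) * (315 + 14 * u ^ 2)))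
            / ((315 + 14 * u ^ 2) * (120 + 12 * u ^ 2) * (D * (6 * D + 4))) := by
        rw [ha, he, hr]
        field_simp
      rw [e1, div_le_one (by positivity)]
      have hp := poly_main hu.le h3'
      have e2 : (315 + 14 * u ^ 2) * (120 + 12 * u ^ 2) * (D * (6 * D + 4))
          - (u * (63 + u ^ 2) * (120 + 12 * u ^ 2) * (D * (6 * D + 4))
              + (D + 1) * (6 * D + 1) * ((63 + u ^ 2) * (120 + 12 * u ^ 2)
                + (60 + u ^ 2) * (315 + 14 * u ^ 2)))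
          = (7560:ℝ) + 26460 * u + 24276 * u ^ 2 + 19221 * u ^ 3 + 10682 * u ^ 4 + 8045 / 2 * u ^ 5
            + 12669 / 8 * u ^ 6 + 2029 / 6 * u ^ 7 + 2095 / 24 * u ^ 8 + 5 * u ^ 9 + 373 / 96 * u ^ 10
            - 55 / 24 * u ^ 11 + 23 / 48 * u ^ 12 - 1 / 8 * u ^ 13 := by
        rw [hDdef]; ring
      linarith
    have hU : 0 ≤ u ^ 2 := by positivity
    calc ξ * (u + ℓ) + ℓ * u * ((1 - Y) / (1 + Y))
        ≤ u ^ 2 * a * (u + ℓ) + ℓ * u * (u * e) := by
          apply add_le_add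
          · exact mul_le_mul_of_nonneg_right hξa (by positivity)
          · exact mul_le_mul_of_nonneg_left htbe (by positivity)
      _ = u ^ 2 * (u * a + ℓ * (a + e)) := by ring
      _ ≤ u ^ 2 * (u * a + r * (a + e)) := by
          apply mul_le_mul_of_nonneg_left _ hU
          have : ℓ * (a + e) ≤ r * (a + e) :=
            mul_le_mul_of_nonneg_right hℓr (by positivity)
          linarith
      _ ≤ u ^ 2 * 1 := mul_le_mul_of_nonneg_left hmain hU
      _ = u ^ 2 := mul_one _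

/-- `B θ = θ cosh 2θ - sinh 2θ / 2`. -/
private def BB (θ : ℝ) : ℝ := θ * cosh (2 * θ) - sinh (2 * θ) / 2

private theorem BB_pos {θ : ℝ} (h : 0 < θ) : 0 < BB θ := by
  have := D_pos (u := 2 * θ) (by positivity)
  unfold BB
  linarith

private theorem hasDerivAt_BB (θ : ℝ) : HasDerivAt BB (2 * θ * sinh (2 * θ)) θ := by
  have h2 : HasDerivAt (fun x : ℝ => 2 * x) 2 θ := by
    simpa using (hasDerivAt_id' θ).const_mul 2
  have := ((hasDerivAt_id' θ).fun_mul h2.cosh).fun_sub (h2.sinh.div_const 2)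
  refine this.congr_deriv ?_
  ring

private theorem Phi_pos (θ : ℝ) : 0 < Phi θ := by
  have := S_pos θ
  unfold S at this
  have hL := L_pos
  by_contra hneg
  have h0 : Phi θ ≤ 0 := not_lt.1 hneg
  have : Phi θ / L ≤ 0 := div_nonpos_of_nonpos_of_nonneg h0 hL.le
  linarith

/-- The key inequality. -/
private theorem key {θ : ℝ} (hθ : 0 < θ) :
    Phi θ * (θ * sinh (2 * θ) + cosh θ ^ 2 * (2 * θ ^ 2 * sinh (2 * θ) / BB θ - 3)) ≤ 2 * θ ^ 2 := by
  have hu : 0 < 2 * θ := by positivity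
  have hst := star hu
  simp only at hst
  obtain ⟨-, hc2, hs⟩ := y_facts θ
  have hPhi := Phi_closed θ
  rw [show -2 * θ = -(2 * θ) by ring] at hPhi
  set y := exp (-(2 * θ)) with hy
  have hy0 : 0 < y := exp_pos _
  have h1y : 0 < 1 + y := by positivity
  have hB : BB θ = ((2 * θ) * cosh (2 * θ) - sinh (2 * θ)) / 2 := by
    unfold BB; ring
  have hB0 := BB_pos hθ
  have hxi : (2 * θ) ^ 2 * sinh (2 * θ) / ((2 * θ) * cosh (2 * θ) - sinh (2 * θ)) - 3
      = 2 * θ ^ 2 * sinh (2 * θ) / BB θ - 3 := by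
    have hD := D_pos hu
    rw [hB]
    field_simp
  rw [hxi] at hst
  set ξ := 2 * θ ^ 2 * sinh (2 * θ) / BB θ - 3 with hξ
  set ℓ := (1 + y) * log (1 + y) / y with hℓ
  have hlogeq : log (1 + y) = ℓ * y / (1 + y) := by
    rw [hℓ]; field_simp
  have hPhi2 : Phi θ = y * (2 * θ + ℓ) / (1 + y) := by
    rw [hPhi, hlogeq]; field_simp
  have hgoal : Phi θ * (θ * sinh (2 * θ) + cosh θ ^ 2 * ξ)
      = (2 * θ + ℓ) * ((2 * θ) * (1 - y) + (1 + y) * ξ) / 4 := by
    rw [hPhi2, hc2, hs]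
    field_simp
    ring
  rw [hgoal]
  have hst2 : (1 + y) * ξ * (2 * θ + ℓ) + ℓ * (2 * θ) * (1 - y) ≤ (2 * θ) ^ 2 * (1 + y) := by
    have := mul_le_mul_of_nonneg_right hst h1y.le
    have e : (ξ * (2 * θ + ℓ) + ℓ * (2 * θ) * ((1 - y) / (1 + y))) * (1 + y)
        = (1 + y) * ξ * (2 * θ + ℓ) + ℓ * (2 * θ) * (1 - y) := by
      field_simp
    rwa [e] at this
  nlinarith

private def NN (θ : ℝ) : ℝ := Phi θ ^ 2 * cosh θ ^ 2 * BB θ

private theorem fF_eq (θ : ℝ) : fF θ = NN θ / (L * θ ^ 3) := by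
  unfold fF NN BB; ring

private theorem hasDerivAt_fF {θ : ℝ} (hθ : 0 < θ) :
    HasDerivAt fF (((-2 * θ * Phi θ * BB θ + Phi θ ^ 2 * (sinh (2 * θ) * BB θ)
        + Phi θ ^ 2 * cosh θ ^ 2 * (2 * θ * sinh (2 * θ))) * (L * θ ^ 3)
        - NN θ * (L * (3 * θ ^ 2))) / (L * θ ^ 3) ^ 2) θ := by
  have hc := Real.cosh_pos θ
  have hPh := hasDerivAt_Phi θ
  have hP2 : HasDerivAt (fun x => Phi x ^ 2) (2 * Phi θ * (-θ / cosh θ ^ 2)) θ := by
    have := hPh.pow 2
    exact this.congr_deriv (by norm_num)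
  have hC2 : HasDerivAt (fun x => cosh x ^ 2) (2 * cosh θ * sinh θ) θ := by
    have := (Real.hasDerivAt_cosh θ).pow 2
    exact this.congr_deriv (by norm_num)
  have hN := (hP2.fun_mul hC2).fun_mul (hasDerivAt_BB θ)
  have hd : HasDerivAt (fun x : ℝ => L * x ^ 3) (L * (3 * θ ^ 2)) θ := by
    have := (hasDerivAt_pow 3 θ).const_mul L
    exact this.congr_deriv (by norm_num)
  have hne : L * θ ^ 3 ≠ 0 := (mul_pos L_pos (by positivity)).ne'
  have hfin := hN.fun_div hd hne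
  have e : fF = fun x => Phi x ^ 2 * cosh x ^ 2 * BB x / (L * x ^ 3) := by
    funext x; rw [fF_eq]; rfl
  rw [e]
  refine hfin.congr_deriv ?_
  congr 1
  congr 1
  have hs : sinh (2 * θ) = 2 * sinh θ * cosh θ := Real.sinh_two_mul θ
  rw [hs]
  field_simp

theorem fF_antitone : AntitoneOn fF (Ioi 0) := by
  apply antitoneOn_of_deriv_nonpos (convex_Ioi 0)
  · exact fun x hx => (hasDerivAt_fF hx).continuousAt.continuousWithinAt
  · intro x hx
    rw [interior_Ioi] at hx
    exact (hasDerivAt_fF hx).differentiableAt.differentiableWithinAt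
  · intro x hx
    rw [interior_Ioi] at hx
    have hx0 : 0 < x := hx
    rw [(hasDerivAt_fF hx0).deriv]
    apply div_nonpos_of_nonpos_of_nonneg _ (by positivity)
    have hL := L_pos
    have hB := BB_pos hx0
    have hP := Phi_pos x
    have hk := key hx0
    have hk2 : Phi x * (x * sinh (2 * x) * BB x + cosh x ^ 2 * (2 * x ^ 2 * sinh (2 * x) - 3 * BB x))
        ≤ 2 * x ^ 2 * BB x := by
      have := mul_le_mul_of_nonneg_right hk hB.le
      have e : Phi x * (x * sinh (2 * x) + cosh x ^ 2 * (2 * x ^ 2 * sinh (2 * x) / BB x - 3)) * BB x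
          = Phi x * (x * sinh (2 * x) * BB x + cosh x ^ 2 * (2 * x ^ 2 * sinh (2 * x) - 3 * BB x)) := by
        field_simp
      rwa [e] at this
    have hk3 := mul_le_mul_of_nonneg_left hk2 hP.le
    have hid : (-2 * x * Phi x * BB x + Phi x ^ 2 * (sinh (2 * x) * BB x)
          + Phi x ^ 2 * cosh x ^ 2 * (2 * x * sinh (2 * x))) * (L * x ^ 3)
          - NN x * (L * (3 * x ^ 2))
        = (L * x ^ 2) * (Phi x * (Phi x * (x * sinh (2 * x) * BB x
            + cosh x ^ 2 * (2 * x ^ 2 * sinh (2 * x) - 3 * BB x))) - Phi x * (2 * x ^ 2 * BB x)) := by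
      unfold NN
      ring
    rw [hid]
    apply mul_nonpos_of_nonneg_of_nonpos (by positivity)
    linarith

/-- relation `zeta' S^2 = f (-S')`. -/
theorem fF_rel {θ : ℝ} (h : 0 < θ) :
    ((θ * cosh (2*θ) - sinh (2*θ) / 2) / θ ^ 2) * S θ ^ 2 = fF θ * (θ / (L * cosh θ ^ 2)) := by
  have hL := L_pos
  have hc := Real.cosh_pos θ
  unfold S fF
  field_simp

private theorem exp_small_le {x : ℝ} (_h0 : 0 ≤ x) (h1 : x < 1) : exp x ≤ 1 / (1 - x) := by
  rw [le_div_iff₀ (by linarith)]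
  have h : 1 - x ≤ exp (-x) := Real.one_sub_le_exp_neg x
  have h2 : exp x * exp (-x) = 1 := by rw [← exp_add]; simp
  have hpos := exp_pos x
  nlinarith

private theorem BB_small {θ : ℝ} (h0 : 0 ≤ θ) (h1 : θ ≤ 1 / 25) :
    BB θ ≤ 4 / 3 * θ ^ 3 * cosh (2 / 25) := by
  set C := cosh (2 / 25) with hC
  have hCpos : 0 < C := Real.cosh_pos _
  have hd : ∀ x : ℝ, HasDerivAt (fun x => 4 / 3 * x ^ 3 * C - BB x)
      (4 * x ^ 2 * C - 2 * x * sinh (2 * x)) x := by
    intro x
    have := (((hasDerivAt_pow 3 x).const_mul (4 / 3 : ℝ)).mul_const C).fun_sub (hasDerivAt_BB x)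
    refine this.congr_deriv ?_
    push_cast
    ring
  have hmono : MonotoneOn (fun x => 4 / 3 * x ^ 3 * C - BB x) (Icc 0 (1 / 25)) := by
    apply monotoneOn_of_deriv_nonneg (convex_Icc _ _)
    · exact fun x _ => (hd x).continuousAt.continuousWithinAt
    · exact fun x _ => (hd x).differentiableAt.differentiableWithinAt
    · intro x hx
      rw [interior_Icc] at hx
      rw [(hd x).deriv]
      have hx0 : 0 < x := hx.1
      have hs := sinh_le_mul_cosh (x := 2 * x) (by positivity)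
      have hcle : cosh (2 * x) ≤ C := by
        rw [hC, Real.cosh_le_cosh, abs_of_pos (by positivity), abs_of_pos (by norm_num)]
        linarith [hx.2]
      have h3 : sinh (2 * x) ≤ 2 * x * C :=
        hs.trans (mul_le_mul_of_nonneg_left hcle (by positivity))
      have h4 := mul_le_mul_of_nonneg_left h3 (show 0 ≤ 2 * x by positivity)
      nlinarith
  have h := hmono (left_mem_Icc.2 (by norm_num)) ⟨h0, h1⟩ h0
  have hB0 : BB 0 = 0 := by simp [BB]
  simp only [hB0] at h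
  norm_num at h
  linarith

theorem fF_le {θ : ℝ} (h : 0 < θ) : fF θ ≤ 93 / 100 := by
  have hL := L_pos
  have hLb := L_bounds.2
  -- reduce to small θ
  suffices hs : ∀ x : ℝ, 0 < x → x ≤ 1 / 25 → fF x ≤ 93 / 100 by
    by_cases hc : θ ≤ 1 / 25
    · exact hs θ h hc
    · have hlt : (1 / 25 : ℝ) ≤ θ := (not_le.1 hc).le
      have := fF_antitone (a := 1 / 25) (b := θ) (by norm_num) h hlt
      exact this.trans (hs _ (by norm_num) le_rfl)
  intro x hx0 hx1
  rw [fF_eq]
  have hP0 := Phi_pos x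
  have hP1 : Phi x ≤ L := by
    have h1 : S x ≤ S 0 := S_strictAnti.antitoneOn (mem_Ici.2 le_rfl) (mem_Ici.2 hx0.le) hx0.le
    rw [S_zero] at h1
    unfold S at h1
    rwa [div_le_one hL] at h1
  have hB := BB_small hx0.le hx1
  have hB0 := BB_pos hx0
  have hc1 : cosh x ^ 2 ≤ 1.0017 := by
    have h1 : cosh x ≤ exp (x ^ 2 / 2) := Real.cosh_le_exp_half_sq x
    have h2 : exp (x ^ 2 / 2) ≤ 1 / (1 - x ^ 2 / 2) := by
      apply exp_small_le (by positivity)
      nlinarith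
    have h3 : 1 / (1 - x ^ 2 / 2) ≤ 1.000801 := by
      rw [div_le_iff₀ (by nlinarith)]
      nlinarith
    have h4 : cosh x ≤ 1.000801 := h1.trans (h2.trans h3)
    have h5 := Real.cosh_pos x
    nlinarith
  have hC : cosh (2 / 25 : ℝ) ≤ 1.00322 := by
    have h1 : cosh (2 / 25 : ℝ) ≤ exp ((2 / 25 : ℝ) ^ 2 / 2) := Real.cosh_le_exp_half_sq _
    have h2 : exp ((2 / 25 : ℝ) ^ 2 / 2) ≤ 1 / (1 - (2 / 25 : ℝ) ^ 2 / 2) :=
      exp_small_le (by positivity) (by norm_num)
    have h3 : 1 / (1 - (2 / 25 : ℝ) ^ 2 / 2) ≤ 1.00322 := by norm_num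
    exact h1.trans (h2.trans h3)
  rw [div_le_iff₀ (by positivity)]
  unfold NN
  have hx3 : 0 < x ^ 3 := by positivity
  have h1 : Phi x ^ 2 ≤ L ^ 2 := by nlinarith
  have h2 : Phi x ^ 2 * cosh x ^ 2 ≤ L ^ 2 * 1.0017 :=
    mul_le_mul h1 hc1 (by positivity) (by positivity)
  have h3 : BB x ≤ 4 / 3 * x ^ 3 * 1.00322 := by
    refine hB.trans ?_
    exact mul_le_mul_of_nonneg_left hC (by positivity)
  have h4 : Phi x ^ 2 * cosh x ^ 2 * BB x ≤ L ^ 2 * 1.0017 * (4 / 3 * x ^ 3 * 1.00322) :=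
    mul_le_mul h2 h3 hB0.le (by positivity)
  have h5 : L ^ 2 * 1.0017 * (4 / 3 * x ^ 3 * 1.00322) ≤ 93 / 100 * (L * x ^ 3) := by
    have : L * 1.0017 * (4 / 3 * 1.00322) ≤ 93 / 100 := by
      nlinarith
    have h6 := mul_le_mul_of_nonneg_right this (show 0 ≤ L * x ^ 3 by positivity)
    nlinarith
  linarith

private theorem fF_ge_large {θ : ℝ} (h : (81 : ℝ) / 100 ≤ θ) : 1 / (2 * L) ≤ fF θ := by
  have hθ : 0 < θ := by linarith
  have hL := L_pos
  rw [fF_eq, div_le_div_iff₀ (by positivity) (by positivity)]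
  obtain ⟨-, hc2, hs⟩ := y_facts θ
  have hPhi := Phi_closed θ
  rw [show -2 * θ = -(2 * θ) by ring] at hPhi
  set y := exp (-(2 * θ)) with hy
  have hy0 : 0 < y := exp_pos _
  have h1y : 0 < 1 + y := by positivity
  have hcosh2 : cosh (2 * θ) = (1 + y ^ 2) / (2 * y) := by
    rw [Real.cosh_eq, ← hy]
    have : exp (2 * θ) = 1 / y := by
      rw [hy, Real.exp_neg]; field_simp
    rw [this]
    field_simp
  have hlog : y / (1 + y) ≤ log (1 + y) := by
    have := Real.one_sub_inv_le_log_of_pos h1y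
    have e : 1 - (1 + y)⁻¹ = y / (1 + y) := by field_simp; ring
    rwa [e] at this
  have hPl : (2 * θ + 1) * y / (1 + y) ≤ Phi θ := by
    rw [hPhi]
    have e : (2 * θ + 1) * y / (1 + y) = 2 * θ * y / (1 + y) + y / (1 + y) := by ring
    rw [e]; linarith
  have hPl0 : 0 ≤ (2 * θ + 1) * y / (1 + y) := by positivity
  have hP2 : ((2 * θ + 1) * y / (1 + y)) ^ 2 ≤ Phi θ ^ 2 := by
    exact pow_le_pow_left₀ hPl0 hPl 2
  have hC0 : 0 < cosh θ ^ 2 := by positivity
  have h2 : (2 * θ + 1) ^ 2 * y / 4 ≤ Phi θ ^ 2 * cosh θ ^ 2 := by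
    have := mul_le_mul_of_nonneg_right hP2 hC0.le
    have e : ((2 * θ + 1) * y / (1 + y)) ^ 2 * cosh θ ^ 2 = (2 * θ + 1) ^ 2 * y / 4 := by
      rw [hc2]; field_simp
    rwa [e] at this
  have hB : (2 * θ - 1) / (4 * y) ≤ BB θ := by
    have e : BB θ = ((2 * θ - 1) + (2 * θ + 1) * y ^ 2) / (4 * y) := by
      unfold BB
      rw [hcosh2, hs]
      field_simp
      ring
    rw [e]
    apply div_le_div_of_nonneg_right _ (by positivity)
    have : 0 ≤ (2 * θ + 1) * y ^ 2 := by positivity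
    linarith
  have h2θ : 0 < 2 * θ - 1 := by linarith
  have hB0 : 0 ≤ (2 * θ - 1) / (4 * y) := by positivity
  have hfinal : (2 * θ + 1) ^ 2 * (2 * θ - 1) / 16 ≤ NN θ := by
    unfold NN
    have := mul_le_mul h2 hB hB0 (by positivity)
    have e : (2 * θ + 1) ^ 2 * y / 4 * ((2 * θ - 1) / (4 * y)) = (2 * θ + 1) ^ 2 * (2 * θ - 1) / 16 := by
      field_simp
      ring
    rwa [e] at this
  have hcub : θ ^ 3 ≤ (2 * θ + 1) ^ 2 * (2 * θ - 1) / 8 := by
    have h4 : 0 ≤ 4 * θ ^ 2 - 2 * θ - 1 := by nlinarith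
    nlinarith
  have hmul : 1 * (L * θ ^ 3) ≤ NN θ * (2 * L) := by
    have := mul_le_mul_of_nonneg_right hfinal (show 0 ≤ 2 * L by positivity)
    have h5 := mul_le_mul_of_nonneg_left hcub hL.le
    nlinarith
  exact hmul

theorem fF_ge {θ : ℝ} (h : 0 < θ) : 1 / (2 * L) ≤ fF θ := by
  by_cases hc : (81 : ℝ) / 100 ≤ θ
  · exact fF_ge_large hc
  · have hlt : θ ≤ 81 / 100 := (not_le.1 hc).le
    have := fF_antitone (a := θ) (b := 81 / 100) h (by norm_num) hlt
    exact (fF_ge_large le_rfl).trans this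

end
end CK322
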