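import Vale.Agent.Lib.P322.SemiCore

/-!
The mutual information `I(f(X);Y)` for a uniform input `X` on the cube and the output `Y` of `n`
independent binary symmetric channels, and the formula
`I(f(X);Y) = 1 - E_y phi (T_ρ F y)` for balanced `f`.
Bits are coded by `Bool`, `true` being `+1` and `false` being `-1`.
-/

open Real Set Filter Topology

namespace CK322

noncomputable section

/-- law of the output given the input: independent binary symmetric channels
with crossover probability `ε`. -/
def bsc {n : ℕ} (ε : ℝ) (x y : Fin n → Bool) : ℝ :=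
  ∏ i, if x i = y i then 1 - ε else ε

/-- joint law of `(f X, Y)` for `X` uniform on the cube. -/
def jointFY {n : ℕ} (f : (Fin n → Bool) → Bool) (ε : ℝ) (b : Bool) (y : Fin n → Bool) : ℝ :=
  ∑ x, if f x = b then (1 / 2 ^ n : ℝ) * bsc ε x y else 0

/-- law of `f X`. -/
def marginF {n : ℕ} (f : (Fin n → Bool) → Bool) (ε : ℝ) (b : Bool) : ℝ :=
  ∑ y, jointFY f ε b y

/-- law of `Y`. -/
def marginY {n : ℕ} (f : (Fin n → Bool) → Bool) (ε : ℝ) (y : Fin n → Bool) : ℝ :=
  ∑ b, jointFY f ε b y

/-- the mutual information `I(f(X);Y)` in bits. -/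
def mutualInfoBits {n : ℕ} (f : (Fin n → Bool) → Bool) (ε : ℝ) : ℝ :=
  ∑ b, ∑ y, jointFY f ε b y * Real.logb 2 (jointFY f ε b y / (marginF f ε b * marginY f ε y))

theorem bsc_eq_kern {n : ℕ} (ε : ℝ) (x y : Fin n → Bool) : bsc ε x y = kern (1 - 2 * ε) x y := by
  unfold bsc kern
  apply Finset.prod_congr rfl
  intro i _
  cases x i <;> cases y i <;> simp [sgn] <;> ring

/-- the signed version of `f`. -/
def signOf {n : ℕ} (f : (Fin n → Bool) → Bool) (x : Fin n → Bool) : ℝ := sgn (f x)

theorem signOf_cases {n : ℕ} (f : (Fin n → Bool) → Bool) (x : Fin n → Bool) :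
    signOf f x = 1 ∨ signOf f x = -1 := by
  unfold signOf sgn
  cases f x <;> simp

private theorem two_pow_ne (n : ℕ) : (2:ℝ) ^ n ≠ 0 := by positivity

private theorem joint_eq {n : ℕ} (f : (Fin n → Bool) → Bool) (ε : ℝ) (b : Bool) (y : Fin n → Bool) :
    jointFY f ε b y = (1 / 2 ^ n : ℝ) * ∑ x, if f x = b then kern (1 - 2 * ε) x y else 0 := by
  unfold jointFY
  rw [Finset.mul_sum]
  apply Finset.sum_congr rfl
  intro x _
  rw [bsc_eq_kern]
  split_ifs <;> simp

private theorem sum_A_add_B {n : ℕ} (f : (Fin n → Bool) → Bool) (ρ : ℝ) (y : Fin n → Bool) :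
    (∑ x, if f x = true then kern ρ x y else 0) + (∑ x, if f x = false then kern ρ x y else 0) = 1 := by
  rw [← Finset.sum_add_distrib, ← kern_sum_left ρ y]
  apply Finset.sum_congr rfl
  intro x _
  cases f x <;> simp

private theorem sum_A_sub_B {n : ℕ} (f : (Fin n → Bool) → Bool) (ρ : ℝ) (y : Fin n → Bool) :
    (∑ x, if f x = true then kern ρ x y else 0) - (∑ x, if f x = false then kern ρ x y else 0)
      = noise ρ (signOf f) y := by
  rw [← Finset.sum_sub_distrib, noise_eq]
  apply Finset.sum_congr rfl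
  intro x _
  unfold signOf sgn
  cases f x <;> simp

private theorem joint_true {n : ℕ} (f : (Fin n → Bool) → Bool) (ε : ℝ) (y : Fin n → Bool) :
    jointFY f ε true y = (1 / 2 ^ n : ℝ) * ((1 + noise (1 - 2 * ε) (signOf f) y) / 2) := by
  rw [joint_eq, ← sum_A_sub_B]
  have := sum_A_add_B f (1 - 2 * ε) y
  congr 1
  linarith

private theorem joint_false {n : ℕ} (f : (Fin n → Bool) → Bool) (ε : ℝ) (y : Fin n → Bool) :
    jointFY f ε false y = (1 / 2 ^ n : ℝ) * ((1 - noise (1 - 2 * ε) (signOf f) y) / 2) := by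
  rw [joint_eq, ← sum_A_sub_B]
  have := sum_A_add_B f (1 - 2 * ε) y
  congr 1
  linarith

private theorem marginY_eq {n : ℕ} (f : (Fin n → Bool) → Bool) (ε : ℝ) (y : Fin n → Bool) :
    marginY f ε y = 1 / 2 ^ n := by
  unfold marginY
  rw [Fintype.sum_bool, joint_true, joint_false]
  ring

private theorem marginF_eq {n : ℕ} (f : (Fin n → Bool) → Bool) (ε : ℝ)
    (hb : ∑ x, signOf f x = 0) (b : Bool) : marginF f ε b = 1 / 2 := by
  have hcount : (∑ x : Fin n → Bool, if f x = b then (1:ℝ) else 0) = 2 ^ n / 2 := by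
    have hT : (∑ x : Fin n → Bool, if f x = true then (1:ℝ) else 0)
        + (∑ x : Fin n → Bool, if f x = false then (1:ℝ) else 0) = 2 ^ n := by
      rw [← Finset.sum_add_distrib]
      have : ∀ x : Fin n → Bool, ((if f x = true then (1:ℝ) else 0) + if f x = false then (1:ℝ) else 0) = 1 := by
        intro x; cases f x <;> simp
      simp only [this]
      simp
    have hS : (∑ x : Fin n → Bool, if f x = true then (1:ℝ) else 0)
        - (∑ x : Fin n → Bool, if f x = false then (1:ℝ) else 0) = 0 := by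
      rw [← Finset.sum_sub_distrib]
      refine Eq.trans (Finset.sum_congr rfl ?_) hb
      intro x _
      unfold signOf sgn
      cases f x <;> simp
    cases b <;> linarith
  unfold marginF
  simp only [joint_eq]
  rw [← Finset.mul_sum, Finset.sum_comm]
  have : ∀ x : Fin n → Bool, (∑ y, if f x = b then kern (1 - 2 * ε) x y else 0)
      = if f x = b then (1:ℝ) else 0 := by
    intro x
    split_ifs
    · exact kern_sum_right _ x
    · simp
  simp only [this]
  rw [hcount]
  have := two_pow_ne n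
  field_simp

/-- `x log x` type identity behind `phi`. -/
private theorem half_mul_log_inv {t : ℝ} (ht : 0 ≤ t) :
    t / 2 * log (t / 2)⁻¹ = t / 2 * (L - log t) := by
  rcases ht.eq_or_lt with rfl | h
  · simp
  · rw [Real.log_inv, Real.log_div h.ne' (by norm_num)]
    unfold L
    ring

theorem phi_formula {g : ℝ} (h1 : -1 ≤ g) (h2 : g ≤ 1) :
    (1 + g) / 2 * Real.logb 2 (1 + g) + (1 - g) / 2 * Real.logb 2 (1 - g) = 1 - phi g := by
  have hL : L ≠ 0 := L_pos.ne'
  have e1 := half_mul_log_inv (t := 1 + g) (by linarith)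
  have e2 := half_mul_log_inv (t := 1 - g) (by linarith)
  unfold phi Real.binEntropy
  have e : 1 - (1 + g) / 2 = (1 - g) / 2 := by ring
  rw [e, e1, e2]
  unfold Real.logb
  change (1 + g) / 2 * (log (1 + g) / L) + (1 - g) / 2 * (log (1 - g) / L) = _
  field_simp
  ring

/-- The formula for the mutual information of a balanced `f`. -/
theorem mutualInfo_eq {n : ℕ} (f : (Fin n → Bool) → Bool) (hb : ∑ x, signOf f x = 0)
    {ε : ℝ} (h0 : 0 ≤ ε) (h1 : ε ≤ 1 / 2) :
    mutualInfoBits f ε = 1 - avg (fun y => phi (noise (1 - 2 * ε) (signOf f) y)) := by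
  have hρ0 : 0 ≤ 1 - 2 * ε := by linarith
  have hρ1 : 1 - 2 * ε ≤ 1 := by linarith
  have hp := two_pow_ne n
  unfold mutualInfoBits
  rw [Fintype.sum_bool, ← Finset.sum_add_distrib]
  have hterm : ∀ y : Fin n → Bool,
      jointFY f ε true y * Real.logb 2 (jointFY f ε true y / (marginF f ε true * marginY f ε y))
        + jointFY f ε false y * Real.logb 2 (jointFY f ε false y / (marginF f ε false * marginY f ε y))
      = (1 / 2 ^ n : ℝ) * (1 - phi (noise (1 - 2 * ε) (signOf f) y)) := by
    intro y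
    obtain ⟨hg1, hg2⟩ := noise_mem_Icc hρ0 hρ1 (signOf_cases f) y
    rw [← phi_formula hg1 hg2, marginF_eq f ε hb, marginF_eq f ε hb, marginY_eq, joint_true, joint_false]
    set g := noise (1 - 2 * ε) (signOf f) y
    have e1 : 1 / 2 ^ n * ((1 + g) / 2) / (1 / 2 * (1 / 2 ^ n)) = 1 + g := by
      field_simp
    have e2 : 1 / 2 ^ n * ((1 - g) / 2) / (1 / 2 * (1 / 2 ^ n)) = 1 - g := by
      field_simp
    rw [e1, e2]
    ring
  simp only [hterm]
  rw [← Finset.mul_sum, Finset.sum_sub_distrib]
  simp only [Finset.sum_const, Finset.card_univ, nsmul_eq_mul, mul_one, Fintype.card_pi,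
    Fintype.card_bool, Finset.prod_const, Fintype.card_fin]
  unfold avg
  simp only [Fintype.card_pi, Fintype.card_bool, Finset.prod_const, Finset.card_univ,
    Fintype.card_fin]
  push_cast
  field_simp

theorem phi_one_sub_two_mul (ε : ℝ) : phi (1 - 2 * ε) = Real.binEntropy ε / Real.log 2 := by
  unfold phi L
  congr 1
  rw [← Real.binEntropy_one_sub]
  congr 1
  ring

/-- Reduction of the balanced Courtade-Kumar inequality to the noise inequality. -/
theorem mutualInfo_le_of_noise {n : ℕ} (f : (Fin n → Bool) → Bool) (hb : ∑ x, signOf f x = 0)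
    {ε : ℝ} (h0 : 0 ≤ ε) (h1 : ε ≤ 1 / 2)
    (hn : phi (1 - 2 * ε) ≤ avg (fun y => phi (noise (1 - 2 * ε) (signOf f) y))) :
    mutualInfoBits f ε ≤ 1 - Real.binEntropy ε / Real.log 2 := by
  rw [mutualInfo_eq f hb h0 h1]
  rw [phi_one_sub_two_mul] at hn
  linarith

theorem avg_signOf {n : ℕ} (f : (Fin n → Bool) → Bool) (hb : ∑ x, signOf f x = 0) :
    avg (signOf f) = 0 := by
  unfold avg
  rw [hb, zero_div]

end

end CK322
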