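import Vale.Agent.Lib.P322.Main
import Vale.Agent.Lib.P322.MI

/-!
All Boolean functions: the formula for the mutual information, the comparison
`xf a * phi ρ ≤ E phi (T_ρ F)` and the Courtade-Kumar inequality at low noise.
-/

open Real Set Filter Topology

namespace CK322

noncomputable section

/-- values of `noise` are in the open interval when `F` is not constant and `ρ<1`; the comparison
function `(V - x phi) / H` is antitone. -/
theorem comparison_step_gen {n : ℕ} {F : (Fin n → Bool) → ℝ} {r x : ℝ} (h0 : 0 < r) (h1 : r < 1)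
    (hg : ∀ y, noise r F y ∈ Ioo (-1 : ℝ) 1)
    (hbell : hh (artanh r) * x + (zeta (artanh r) + 1) * (x * S (artanh r)
        - avg (fun y => phi (noise r F y))) ≤ Dir (noise r F)) :
    ∃ d : ℝ, HasDerivAt (fun s => (avg (fun y => phi (noise s F y)) - x * phi s)
        / (s * artanh s / L)) d r ∧ d ≤ 0 := by
  obtain ⟨dV, hdV, hdV'⟩ := avg_hasDerivAt_phi hg
  have hmem : r ∈ Ioo (-1 : ℝ) 1 := ⟨by linarith, h1⟩
  have hθ : 0 < artanh r := artanh_pos ⟨h0, h1⟩
  have hs : 0 < 1 - r ^ 2 := by nlinarith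
  have hL := L_pos
  have hphi := (hasDerivAt_phi_semi hmem).const_mul x
  have hHd : HasDerivAt (fun s => s * artanh s / L)
      ((1 * artanh r + r * (1 / (1 - r ^ 2))) / L) r :=
    ((hasDerivAt_id r).mul (hasDerivAt_artanh_semi hmem)).div_const L
  have hHpos : 0 < r * artanh r / L := by positivity
  have hder := (hdV.sub hphi).div hHd hHpos.ne'
  refine ⟨_, hder, ?_⟩
  have hdir : Dir (noise r F) = -(r * dV) := by linarith
  have hb := hbell
  rw [hdir] at hb
  have hh_eq : hh (artanh r) = r * artanh r / L := by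
    unfold hh
    rw [tanh_artanh_semi h0 h1]
    ring
  have hS : S (artanh r) = phi r := by
    rw [← phi_tanh, tanh_artanh_semi h0 h1]
  rw [hh_eq, hS, zeta_artanh_semi h0 h1] at hb
  set θ := artanh r with hθdef
  set V := avg (fun y => phi (noise r F y)) with hV
  simp only [Pi.sub_apply]
  apply div_nonpos_of_nonpos_of_nonneg _ (by positivity)
  have hmulr : r * dV + x * (r * θ / L) ≤ (r / ((1 - r ^ 2) * θ) + 1) * (V - x * phi r) := by
    nlinarith [hb]
  have key : (dV - x * (-θ / L)) * (r * θ / L) * (r * L * L) * (1 - r ^ 2)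
      ≤ (V - x * phi r) * ((1 * θ + r * (1 / (1 - r ^ 2))) / L) * (r * L * L) * (1 - r ^ 2) := by
    have e1 : (V - x * phi r) * ((1 * θ + r * (1 / (1 - r ^ 2))) / L) * (r * L * L) * (1 - r ^ 2)
        = (V - x * phi r) * (θ * (1 - r ^ 2) + r) * (r * L) := by
      field_simp
    have e2 : (dV - x * (-θ / L)) * (r * θ / L) * (r * L * L) * (1 - r ^ 2)
        = (r * dV + x * (r * θ / L)) * (r * θ) * L * (1 - r ^ 2) := by
      field_simp
      ring
    rw [e1, e2]
    have hpos : 0 ≤ (r * θ) * L * (1 - r ^ 2) := by positivity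
    have := mul_le_mul_of_nonneg_right hmulr hpos
    calc (r * dV + x * (r * θ / L)) * (r * θ) * L * (1 - r ^ 2)
        = (r * dV + x * (r * θ / L)) * ((r * θ) * L * (1 - r ^ 2)) := by ring
      _ ≤ (r / ((1 - r ^ 2) * θ) + 1) * (V - x * phi r) * ((r * θ) * L * (1 - r ^ 2)) := this
      _ = (V - x * phi r) * (θ * (1 - r ^ 2) + r) * (r * L) := by
        field_simp
        ring
  have hpos : 0 < (r * L * L) * (1 - r ^ 2) := by positivity
  have key2 : ((dV - x * (-θ / L)) * (r * θ / L)
      - (V - x * phi r) * ((1 * θ + r * (1 / (1 - r ^ 2))) / L))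
      * ((r * L * L) * (1 - r ^ 2)) ≤ 0 := by
    nlinarith [key]
  by_contra hcon
  push Not at hcon
  have := mul_pos hcon hpos
  linarith

theorem phi_zero_semi : phi 0 = 1 := by
  have : ((1 : ℝ) + 0) / 2 = 2⁻¹ := by norm_num
  unfold phi
  rw [this, binEntropy_two_inv]
  exact div_self L_pos.ne'

theorem avg_constG {n : ℕ} (c : ℝ) : avg (fun _ : Fin n → Bool => c) = c := by
  have hcard : (Fintype.card (Fin n → Bool) : ℝ) ≠ 0 := by
    exact_mod_cast (Fintype.card_pos).ne'
  unfold avg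
  simp only [Finset.sum_const, Finset.card_univ, nsmul_eq_mul]
  field_simp

/-- `noise 0 F` is the constant `avg F`. -/
theorem noise_zero {n : ℕ} (F : (Fin n → Bool) → ℝ) (y : Fin n → Bool) : noise 0 F y = avg F := by
  have hk : ∀ x : Fin n → Bool, kern (0 : ℝ) x y = (1 / 2 : ℝ) ^ n := by
    intro x
    unfold kern
    simp
  rw [noise_eq]
  simp only [hk]
  rw [← Finset.mul_sum]
  unfold avg
  simp only [Fintype.card_pi, Fintype.card_bool, Finset.prod_const, Finset.card_univ, Fintype.card_fin]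
  push_cast
  have h2 : ((2:ℝ)^n) ≠ 0 := by positivity
  rw [one_div_pow]
  field_simp

/-- The comparison theorem for every nonconstant Boolean `F`: `x(a) phi(ρ) ≤ E phi(T_ρ F)`. -/
theorem noise_xf_phi {n : ℕ} (F : (Fin n → Bool) → ℝ) (hF : ∀ x, F x = 1 ∨ F x = -1)
    {x₁ x₂ : Fin n → Bool} (hx₁ : F x₁ = 1) (hx₂ : F x₂ = -1)
    {ρ : ℝ} (h0 : 0 ≤ ρ) (h1 : ρ ≤ 1) :
    xf (avg F) * phi ρ ≤ avg (fun y => phi (noise ρ F y)) := by
  have hcard : (0 : ℝ) < Fintype.card (Fin n → Bool) := by
    exact_mod_cast Fintype.card_pos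
  have hV_nonneg : ∀ s : ℝ, 0 ≤ s → s ≤ 1 → 0 ≤ avg (fun y => phi (noise s F y)) := by
    intro s hs0 hs1
    unfold avg
    apply div_nonneg _ hcard.le
    apply Finset.sum_nonneg
    intro y _
    have := noise_mem_Icc hs0 hs1 hF y
    exact phi_nonneg this.1 this.2
  have ha0 : avg F ∈ Ioo (-1 : ℝ) 1 := by
    rw [← noise_zero F default]
    exact noise_mem_Ioo le_rfl one_pos hF hx₁ hx₂ default
  set a := avg F with ha
  have hxle : xf a ≤ phi a := xf_le_phi ⟨ha0.1.le, ha0.2.le⟩
  have hxpos : 0 < xf a := xf_pos' ha0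
  rcases eq_or_lt_of_le h0 with rfl | h0'
  · have hz : ∀ y, noise 0 F y = a := noise_zero F
    simp only [hz]
    rw [avg_constG, phi_zero_semi]
    linarith
  rcases eq_or_lt_of_le h1 with rfl | h1'
  · rw [phi_one_semi, mul_zero]
    exact hV_nonneg 1 (by norm_num) le_rfl
  set Q : ℝ → ℝ := fun s => (avg (fun y => phi (noise s F y)) - xf a * phi s) / (s * artanh s / L)
    with hQ
  have hstep : ∀ r ∈ Ioo (0 : ℝ) 1, ∃ d, HasDerivAt Q d r ∧ d ≤ 0 := by
    intro r hr
    have hg := noise_mem_Ioo hr.1.le hr.2 hF hx₁ hx₂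
    refine comparison_step_gen hr.1 hr.2 hg ?_
    have hθ : 0 ≤ artanh r := (artanh_pos ⟨hr.1, hr.2⟩).le
    have hb := bellman (noise r F) hg hθ
    rw [avg_noise] at hb
    unfold alR TT at hb
    nlinarith [hb]
  have hanti : AntitoneOn Q (Ioo (0 : ℝ) 1) := by
    apply antitoneOn_of_deriv_nonpos (convex_Ioo 0 1)
    · intro r hr
      obtain ⟨d, hd, _⟩ := hstep r hr
      exact hd.continuousAt.continuousWithinAt
    · intro r hr
      rw [interior_Ioo] at hr
      obtain ⟨d, hd, _⟩ := hstep r hr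
      exact hd.differentiableAt.differentiableWithinAt
    · intro r hr
      rw [interior_Ioo] at hr
      obtain ⟨d, hd, hd'⟩ := hstep r hr
      rw [hd.deriv]
      exact hd'
  have hL := L_pos
  have hHρ : 0 < ρ * artanh ρ / L := by
    have := artanh_pos ⟨h0', h1'⟩
    positivity
  have hlim : Tendsto (fun s => -(xf a * phi s) / (ρ * artanh ρ / L)) (𝓝[<] (1 : ℝ))
      (𝓝 (-(xf a * phi 1) / (ρ * artanh ρ / L))) := by
    have : Continuous (fun s => -(xf a * phi s) / (ρ * artanh ρ / L)) :=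
      ((phi_continuous_semi.const_mul _).neg).div_const _
    exact (this.tendsto 1).mono_left nhdsWithin_le_nhds
  have hev : ∀ᶠ s in 𝓝[<] (1 : ℝ), -(xf a * phi s) / (ρ * artanh ρ / L) ≤ Q ρ := by
    filter_upwards [Ioo_mem_nhdsLT h1'] with s hs
    have hs1 : s ∈ Ioo (0 : ℝ) 1 := ⟨h0'.trans hs.1, hs.2⟩
    have hρ1 : ρ ∈ Ioo (0 : ℝ) 1 := ⟨h0', h1'⟩
    have ha := hanti hρ1 hs1 hs.1.le
    refine le_trans ?_ ha
    have hphi : 0 ≤ xf a * phi s := mul_nonneg hxpos.le (phi_nonneg (by linarith [hs1.1]) hs1.2.le)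
    have hV := hV_nonneg s hs1.1.le hs1.2.le
    have hHs : ρ * artanh ρ / L ≤ s * artanh s / L := by
      apply div_le_div_of_nonneg_right _ hL.le
      have h2 : artanh ρ ≤ artanh s := artanh_le_artanh (by linarith) hs.2 hs.1.le
      have h3 : 0 < artanh ρ := artanh_pos hρ1
      nlinarith [hs.1]
    have hHs' : 0 < s * artanh s / L := lt_of_lt_of_le hHρ hHs
    simp only [hQ]
    calc -(xf a * phi s) / (ρ * artanh ρ / L) ≤ -(xf a * phi s) / (s * artanh s / L) := by
          rw [neg_div, neg_div]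
          exact neg_le_neg (div_le_div_of_nonneg_left hphi hHρ hHs)
      _ ≤ _ := by
          apply div_le_div_of_nonneg_right _ hHs'.le
          linarith
  have hfin := le_of_tendsto hlim hev
  rw [phi_one_semi] at hfin
  simp only [mul_zero, neg_zero, zero_div] at hfin
  simp only [hQ] at hfin
  have := (div_nonneg_iff.mp hfin).elim (fun h => h.1) (fun h => absurd h.2 (not_le.mpr hHρ))
  linarith

/-! ### mutual information for all `f` -/

private theorem two_pow_ne' (n : ℕ) : (2:ℝ) ^ n ≠ 0 := by positivity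

private theorem sum_A_add_B' {n : ℕ} (f : (Fin n → Bool) → Bool) (ρ : ℝ) (y : Fin n → Bool) :
    (∑ x, if f x = true then kern ρ x y else 0) + (∑ x, if f x = false then kern ρ x y else 0) = 1 := by
  rw [← Finset.sum_add_distrib, ← kern_sum_left ρ y]
  apply Finset.sum_congr rfl
  intro x _
  cases f x <;> simp

private theorem sum_A_sub_B' {n : ℕ} (f : (Fin n → Bool) → Bool) (ρ : ℝ) (y : Fin n → Bool) :
    (∑ x, if f x = true then kern ρ x y else 0) - (∑ x, if f x = false then kern ρ x y else 0)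
      = noise ρ (signOf f) y := by
  rw [← Finset.sum_sub_distrib, noise_eq]
  apply Finset.sum_congr rfl
  intro x _
  unfold signOf sgn
  cases f x <;> simp

private theorem joint_eq' {n : ℕ} (f : (Fin n → Bool) → Bool) (ε : ℝ) (b : Bool) (y : Fin n → Bool) :
    jointFY f ε b y = (1 / 2 ^ n : ℝ) * ∑ x, if f x = b then kern (1 - 2 * ε) x y else 0 := by
  unfold jointFY
  rw [Finset.mul_sum]
  apply Finset.sum_congr rfl
  intro x _
  rw [bsc_eq_kern]
  split_ifs <;> simp

theorem joint_true' {n : ℕ} (f : (Fin n → Bool) → Bool) (ε : ℝ) (y : Fin n → Bool) :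
    jointFY f ε true y = (1 / 2 ^ n : ℝ) * ((1 + noise (1 - 2 * ε) (signOf f) y) / 2) := by
  rw [joint_eq', ← sum_A_sub_B']
  have := sum_A_add_B' f (1 - 2 * ε) y
  congr 1
  linarith

theorem joint_false' {n : ℕ} (f : (Fin n → Bool) → Bool) (ε : ℝ) (y : Fin n → Bool) :
    jointFY f ε false y = (1 / 2 ^ n : ℝ) * ((1 - noise (1 - 2 * ε) (signOf f) y) / 2) := by
  rw [joint_eq', ← sum_A_sub_B']
  have := sum_A_add_B' f (1 - 2 * ε) y
  congr 1
  linarith

theorem marginY_eq' {n : ℕ} (f : (Fin n → Bool) → Bool) (ε : ℝ) (y : Fin n → Bool) :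
    marginY f ε y = 1 / 2 ^ n := by
  unfold marginY
  rw [Fintype.sum_bool, joint_true', joint_false']
  ring

theorem avg_noise_of_sum {n : ℕ} (ρ : ℝ) (F : (Fin n → Bool) → ℝ) :
    (∑ y, noise ρ F y) / 2 ^ n = avg F := by
  have := avg_noise ρ F
  unfold avg at this ⊢
  simp only [Fintype.card_pi, Fintype.card_bool, Finset.prod_const, Finset.card_univ,
    Fintype.card_fin] at this ⊢
  push_cast at this ⊢
  exact this

theorem sum_noise_eq {n : ℕ} (ρ : ℝ) (F : (Fin n → Bool) → ℝ) :
    ∑ y, noise ρ F y = 2 ^ n * avg F := by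
  have := avg_noise_of_sum ρ F
  have hp := two_pow_ne' n
  rw [← this]
  field_simp

theorem sum_const_cube {n : ℕ} (c : ℝ) : ∑ _y : Fin n → Bool, c = 2 ^ n * c := by
  simp only [Finset.sum_const, Finset.card_univ, nsmul_eq_mul, Fintype.card_pi,
    Fintype.card_bool, Finset.prod_const, Fintype.card_fin]
  push_cast
  ring

theorem marginF_true {n : ℕ} (f : (Fin n → Bool) → Bool) (ε : ℝ) :
    marginF f ε true = (1 + avg (signOf f)) / 2 := by
  unfold marginF
  simp only [joint_true']
  rw [← Finset.mul_sum, ← Finset.sum_div, Finset.sum_add_distrib, sum_noise_eq, sum_const_cube]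
  have := two_pow_ne' n
  field_simp

theorem marginF_false {n : ℕ} (f : (Fin n → Bool) → Bool) (ε : ℝ) :
    marginF f ε false = (1 - avg (signOf f)) / 2 := by
  unfold marginF
  simp only [joint_false']
  rw [← Finset.mul_sum, ← Finset.sum_div, Finset.sum_sub_distrib, sum_noise_eq, sum_const_cube]
  have := two_pow_ne' n
  field_simp

/-- splitting off the marginal in a term of the mutual information -/
private theorem term_split {g a : ℝ} (hg : 0 ≤ g) (ha : 0 < a) :
    g * logb 2 (g / a) = g * logb 2 g - g * logb 2 a := by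
  rcases hg.eq_or_lt with rfl | h
  · simp
  · rw [logb_div h.ne' ha.ne']; ring

/-- The mutual information of a nonconstant `f`: `I = phi(a) - E phi(T_ρ F)`. -/
theorem mutualInfo_eq_gen {n : ℕ} (f : (Fin n → Bool) → Bool)
    (ha : avg (signOf f) ∈ Ioo (-1 : ℝ) 1)
    {ε : ℝ} (h0 : 0 ≤ ε) (h1 : ε ≤ 1 / 2) :
    mutualInfoBits f ε = phi (avg (signOf f))
      - avg (fun y => phi (noise (1 - 2 * ε) (signOf f) y)) := by
  have hρ0 : 0 ≤ 1 - 2 * ε := by linarith
  have hρ1 : 1 - 2 * ε ≤ 1 := by linarith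
  have hp := two_pow_ne' n
  set a := avg (signOf f) with haa
  have ha1 : 0 < 1 + a := by linarith [ha.1]
  have ha2 : 0 < 1 - a := by linarith [ha.2]
  unfold mutualInfoBits
  rw [Fintype.sum_bool, ← Finset.sum_add_distrib]
  have hterm : ∀ y : Fin n → Bool,
      jointFY f ε true y * Real.logb 2 (jointFY f ε true y / (marginF f ε true * marginY f ε y))
        + jointFY f ε false y * Real.logb 2 (jointFY f ε false y / (marginF f ε false * marginY f ε y))
      = (1 / 2 ^ n : ℝ) * ((1 - phi (noise (1 - 2 * ε) (signOf f) y))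
          - (((1 + noise (1 - 2 * ε) (signOf f) y) / 2) * logb 2 (1 + a)
            + ((1 - noise (1 - 2 * ε) (signOf f) y) / 2) * logb 2 (1 - a))) := by
    intro y
    obtain ⟨hg1, hg2⟩ := noise_mem_Icc hρ0 hρ1 (signOf_cases f) y
    rw [← phi_formula hg1 hg2, marginF_true, marginF_false, marginY_eq', joint_true', joint_false']
    set g := noise (1 - 2 * ε) (signOf f) y
    have e1 : 1 / 2 ^ n * ((1 + g) / 2) / ((1 + a) / 2 * (1 / 2 ^ n)) = (1 + g) / (1 + a) := by
      field_simp
    have e2 : 1 / 2 ^ n * ((1 - g) / 2) / ((1 - a) / 2 * (1 / 2 ^ n)) = (1 - g) / (1 - a) := by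
      field_simp
    rw [e1, e2]
    have t1 := term_split (g := 1 + g) (a := 1 + a) (by linarith) ha1
    have t2 := term_split (g := 1 - g) (a := 1 - a) (by linarith) ha2
    have : 1 / (2:ℝ) ^ n * ((1 + g) / 2) * logb 2 ((1 + g) / (1 + a))
        = 1 / 2 ^ n / 2 * ((1 + g) * logb 2 ((1 + g) / (1 + a))) := by ring
    rw [this, t1]
    have : 1 / (2:ℝ) ^ n * ((1 - g) / 2) * logb 2 ((1 - g) / (1 - a))
        = 1 / 2 ^ n / 2 * ((1 - g) * logb 2 ((1 - g) / (1 - a))) := by ring
    rw [this, t2]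
    ring
  simp only [hterm]
  rw [← Finset.mul_sum, Finset.sum_sub_distrib, Finset.sum_add_distrib]
  -- the linear part
  have hsum : ∑ y, noise (1 - 2 * ε) (signOf f) y = 2 ^ n * a := sum_noise_eq _ _
  have hl1 : ∑ y, (1 + noise (1 - 2 * ε) (signOf f) y) / 2 * logb 2 (1 + a)
      = 2 ^ n * ((1 + a) / 2 * logb 2 (1 + a)) := by
    rw [← Finset.sum_mul, ← Finset.sum_div, Finset.sum_add_distrib, hsum, sum_const_cube]
    ring
  have hl2 : ∑ y, (1 - noise (1 - 2 * ε) (signOf f) y) / 2 * logb 2 (1 - a)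
      = 2 ^ n * ((1 - a) / 2 * logb 2 (1 - a)) := by
    rw [← Finset.sum_mul, ← Finset.sum_div, Finset.sum_sub_distrib, hsum, sum_const_cube]
    ring
  rw [hl1, hl2]
  have hform := phi_formula (g := a) ha.1.le ha.2.le
  have hv : avg (fun y => phi (noise (1 - 2 * ε) (signOf f) y))
      = (∑ y, phi (noise (1 - 2 * ε) (signOf f) y)) / 2 ^ n := by
    unfold avg
    simp only [Fintype.card_pi, Fintype.card_bool, Finset.prod_const, Finset.card_univ,
      Fintype.card_fin]
    push_cast
    rfl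
  rw [hv, Finset.sum_sub_distrib, sum_const_cube]
  set sphi := ∑ y, phi (noise (1 - 2 * ε) (signOf f) y)
  set A := (1 + a) / 2 * logb 2 (1 + a)
  set B := (1 - a) / 2 * logb 2 (1 - a)
  have e : 1 / 2 ^ n * (2 ^ n * 1 - sphi - (2 ^ n * A + 2 ^ n * B)) = 1 - sphi / 2 ^ n - (A + B) := by
    field_simp
  rw [e, hform]
  ring

/-! ### constant functions, and the final inequalities -/

theorem noise_const {n : ℕ} {c : ℝ} {F : (Fin n → Bool) → ℝ} (hc : ∀ x, F x = c) (ρ : ℝ)
    (y : Fin n → Bool) : noise ρ F y = c := by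
  rw [noise_eq]
  simp only [hc]
  rw [← Finset.sum_mul, kern_sum_left, one_mul]

/-- The upper bound `phi a ≤ 1 - a²/(2L)`. -/
theorem phi_le_one_sub {a : ℝ} (h1 : -1 < a) (h2 : a < 1) : phi a ≤ 1 - a ^ 2 / (2 * L) := by
  have hL := L_pos
  wlog ha : 0 ≤ a generalizing a
  · have := this (a := -a) (by linarith) (by linarith) (by linarith)
    rw [phi_neg] at this
    simpa using this
  obtain ⟨θ, hθ, rfl⟩ : ∃ θ, 0 ≤ θ ∧ tanh θ = a :=
    ⟨artanh a, artanh_nonneg ha, tanh_artanh ⟨h1, h2⟩⟩
  rw [phi_tanh]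
  -- `G θ = S θ + tanh θ ^ 2 / (2 L)` is antitone
  have hd : ∀ x : ℝ, HasDerivAt (fun t => S t + tanh t ^ 2 / (2 * L))
      (-x / (L * cosh x ^ 2) + (2 * tanh x * (1 / cosh x ^ 2)) / (2 * L)) x := by
    intro x
    have h := ((hasDerivAt_tanh_aux x).pow 2).div_const (2 * L)
    refine (hasDerivAt_S x).add (h.congr_deriv ?_)
    norm_num
  have hanti : AntitoneOn (fun t => S t + tanh t ^ 2 / (2 * L)) (Ici 0) := by
    apply antitoneOn_of_deriv_nonpos (convex_Ici 0)
    · exact fun x _ => (hd x).continuousAt.continuousWithinAt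
    · exact fun x _ => (hd x).differentiableAt.differentiableWithinAt
    · intro x hx
      rw [interior_Ici] at hx
      rw [(hd x).deriv]
      have hx' : (0:ℝ) < x := hx
      have hc := cosh_pos x
      have ht : tanh x ≤ x := by
        rw [Real.tanh_eq_sinh_div_cosh, div_le_iff₀ hc]
        exact sinh_le_mul_cosh hx'.le
      have e : -x / (L * cosh x ^ 2) + (2 * tanh x * (1 / cosh x ^ 2)) / (2 * L)
          = (tanh x - x) / (L * cosh x ^ 2) := by
        field_simp
        ring
      rw [e]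
      apply div_nonpos_of_nonpos_of_nonneg (by linarith) (by positivity)
  have := hanti (mem_Ici.mpr le_rfl) (mem_Ici.mpr hθ) hθ
  simp only [S_zero, tanh_zero] at this
  norm_num at this
  linarith

/-- The general bound: for every nonconstant Boolean `f`,
`I(f;Y) ≤ phi(a) - x(a) h₂(ε)` where `a` is the mean of `f`. -/
theorem mutualInfo_le_gen {n : ℕ} (f : (Fin n → Bool) → Bool)
    {x₁ x₂ : Fin n → Bool} (hx₁ : signOf f x₁ = 1) (hx₂ : signOf f x₂ = -1)
    {ε : ℝ} (h0 : 0 ≤ ε) (h1 : ε ≤ 1 / 2) :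
    mutualInfoBits f ε ≤ phi (avg (signOf f))
      - xf (avg (signOf f)) * (Real.binEntropy ε / Real.log 2) := by
  have ha0 : avg (signOf f) ∈ Ioo (-1 : ℝ) 1 := by
    rw [← noise_zero (signOf f) default]
    exact noise_mem_Ioo le_rfl one_pos (signOf_cases f) hx₁ hx₂ default
  rw [mutualInfo_eq_gen f ha0 h0 h1]
  have := noise_xf_phi (signOf f) (signOf_cases f) hx₁ hx₂ (ρ := 1 - 2 * ε) (by linarith) (by linarith)
  rw [phi_one_sub_two_mul] at this
  linarith

/-- A constant `f` carries no information. -/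
theorem mutualInfo_const {n : ℕ} (f : (Fin n → Bool) → Bool) (b : Bool) (hb : ∀ x, f x = b)
    (ε : ℝ) : mutualInfoBits f ε = 0 := by
  have hp := two_pow_ne' n
  have hs : ∀ x, signOf f x = sgn b := fun x => by unfold signOf; rw [hb]
  have hN : ∀ y, noise (1 - 2 * ε) (signOf f) y = sgn b := noise_const hs _
  have hA : avg (signOf f) = sgn b := by
    have : signOf f = fun _ => sgn b := funext hs
    rw [this, avg_constG]
  unfold mutualInfoBits
  rw [Fintype.sum_bool]
  cases b with
  | true =>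
    have hsg : sgn true = 1 := by simp [sgn]
    rw [hsg] at hN hA
    have h1 : ∀ y, jointFY f ε true y * logb 2 (jointFY f ε true y / (marginF f ε true * marginY f ε y)) = 0 := by
      intro y
      rw [marginF_true, marginY_eq', joint_true', hN, hA]
      have : 1 / (2:ℝ) ^ n * ((1 + 1) / 2) / ((1 + 1) / 2 * (1 / 2 ^ n)) = 1 := by field_simp
      rw [this, logb_one, mul_zero]
    have h2 : ∀ y, jointFY f ε false y * logb 2 (jointFY f ε false y / (marginF f ε false * marginY f ε y)) = 0 := by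
      intro y
      rw [joint_false', hN]
      norm_num
    simp [h1, h2]
  | false =>
    have hsg : sgn false = -1 := by simp [sgn]
    rw [hsg] at hN hA
    have h1 : ∀ y, jointFY f ε false y * logb 2 (jointFY f ε false y / (marginF f ε false * marginY f ε y)) = 0 := by
      intro y
      rw [marginF_false, marginY_eq', joint_false', hN, hA]
      have : 1 / (2:ℝ) ^ n * ((1 - -1) / 2) / ((1 - -1) / 2 * (1 / 2 ^ n)) = 1 := by field_simp
      rw [this, logb_one, mul_zero]
    have h2 : ∀ y, jointFY f ε true y * logb 2 (jointFY f ε true y / (marginF f ε true * marginY f ε y)) = 0 := by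
      intro y
      rw [joint_true', hN]
      norm_num
    simp [h1, h2]

/-- `1 - h₂(ε) ≥ 0`. -/
theorem one_sub_binEntropy_nonneg (ε : ℝ) : 0 ≤ 1 - Real.binEntropy ε / Real.log 2 := by
  have hL : 0 < Real.log 2 := L_pos
  have := Real.binEntropy_le_log_two (p := ε)
  have h : Real.binEntropy ε / Real.log 2 ≤ 1 := by
    rw [div_le_one hL]
    exact this
  linarith

/-- Low noise: the Courtade-Kumar inequality for all Boolean `f` when `h₂(ε) ≤ 103/200`. -/
theorem mutualInfo_le_low_noise {n : ℕ} (f : (Fin n → Bool) → Bool)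
    {ε : ℝ} (h0 : 0 ≤ ε) (h1 : ε ≤ 1 / 2) (hε : Real.binEntropy ε / Real.log 2 ≤ 103 / 200) :
    mutualInfoBits f ε ≤ 1 - Real.binEntropy ε / Real.log 2 := by
  by_cases hc : ∃ x₁ x₂, signOf f x₁ = 1 ∧ signOf f x₂ = -1
  · obtain ⟨x₁, x₂, hx₁, hx₂⟩ := hc
    have ha0 : avg (signOf f) ∈ Ioo (-1 : ℝ) 1 := by
      rw [← noise_zero (signOf f) default]
      exact noise_mem_Ioo le_rfl one_pos (signOf_cases f) hx₁ hx₂ default
    have hm := mutualInfo_le_gen f hx₁ hx₂ h0 h1
    set a := avg (signOf f)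
    have hp := phi_le_one_sub ha0.1 ha0.2
    set h := Real.binEntropy ε / Real.log 2 with hh'
    have hh0 : 0 ≤ h := by
      apply div_nonneg _ L_pos.le
      apply Real.binEntropy_nonneg h0 (by linarith)
    have hL := L_bounds
    have hx : xf a = 1 - a ^ 2 * (7 / 5 - 2 / 5 * a ^ 2) := by unfold xf; ring
    have hq : 0 ≤ a ^ 2 := sq_nonneg a
    have hkey : a ^ 2 * (7 / 5 - 2 / 5 * a ^ 2) * h ≤ a ^ 2 / (2 * L) := by
      have h1L : 1 / (2 * L) ≥ 7 / 5 * (103 / 200) := by
        rw [ge_iff_le, le_div_iff₀ (by linarith [hL.1])]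
        nlinarith [hL.2]
      have h2 : (7 / 5 - 2 / 5 * a ^ 2) * h ≤ 7 / 5 * (103 / 200) := by
        have : (7 / 5 - 2 / 5 * a ^ 2) ≤ 7 / 5 := by linarith
        have h3 : 0 ≤ 7 / 5 - 2 / 5 * a ^ 2 := by
          have : a ^ 2 ≤ 1 := by nlinarith [ha0.1, ha0.2]
          linarith
        calc (7 / 5 - 2 / 5 * a ^ 2) * h ≤ (7 / 5) * h := by
              apply mul_le_mul_of_nonneg_right this hh0
          _ ≤ 7 / 5 * (103 / 200) := by linarith
      have : a ^ 2 / (2 * L) = a ^ 2 * (1 / (2 * L)) := by ring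
      rw [this, mul_assoc]
      exact mul_le_mul_of_nonneg_left (h2.trans h1L) hq
    rw [hx] at hm
    nlinarith [hm, hp, hkey]
  · push Not at hc
    have hall : ∃ b, ∀ x, f x = b := by
      by_cases hb : ∃ x, signOf f x = 1
      · obtain ⟨x₁, hx₁⟩ := hb
        refine ⟨true, fun x => ?_⟩
        have := hc x₁ x hx₁
        have hcases := signOf_cases f x
        have h3 : signOf f x = 1 := hcases.resolve_right this
        unfold signOf sgn at h3
        cases hfx : f x
        · rw [hfx] at h3; norm_num at h3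
        · rfl
      · push Not at hb
        refine ⟨false, fun x => ?_⟩
        have h3 := hb x
        unfold signOf sgn at h3
        cases hfx : f x
        · rfl
        · rw [hfx] at h3; norm_num at h3
    obtain ⟨b, hb⟩ := hall
    rw [mutualInfo_const f b hb]
    exact one_sub_binEntropy_nonneg ε

end

end CK322
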