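import Vale.Agent.Lib.P322.Defs

/-!
Verified interval arithmetic on nonnegative fixed-point numbers (scale `2^64`), evaluated by the kernel.
-/

open Real

namespace CK322

/-- fixed point scale `2^64` -/
def SC : ℕ := 18446744073709551616

/-- intervals of nonnegative reals; `ok = false` means no information. -/
structure IV where
  ok : Bool
  lo : ℕ
  hi : ℕ

noncomputable def val (n : ℕ) : ℝ := (n : ℝ) / (SC : ℝ)

def IV.mem (x : ℝ) (I : IV) : Prop := I.ok = true → val I.lo ≤ x ∧ x ≤ val I.hi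

theorem SC_pos : (0 : ℝ) < (SC : ℝ) := by
  unfold SC; norm_num

theorem val_nonneg (n : ℕ) : 0 ≤ val n := div_nonneg (Nat.cast_nonneg _) SC_pos.le

theorem val_mono {a b : ℕ} (h : a ≤ b) : val a ≤ val b :=
  div_le_div_of_nonneg_right (by exact_mod_cast h) SC_pos.le

theorem val_SC : val SC = 1 := div_self SC_pos.ne'

theorem val_mul_SC (n : ℕ) : val n * (SC : ℝ) = n := by
  unfold val; field_simp [SC_pos.ne']

/-- exact point -/
def IV.pt (n : ℕ) : IV := ⟨true, n, n⟩

theorem IV.mem_pt (n : ℕ) : IV.mem (val n) (IV.pt n) := fun _ => ⟨le_rfl, le_rfl⟩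

/-- rational constant `a/b` -/
def IV.ofQ (a b : ℕ) : IV := ⟨Nat.blt 0 b, Nat.div (Nat.mul a SC) b, Nat.add (Nat.div (Nat.mul a SC) b) 1⟩

theorem IV.mem_ofQ (a b : ℕ) : IV.mem ((a : ℝ) / b) (IV.ofQ a b) := by
  intro h
  have hb : 0 < b := by simpa [IV.ofQ] using h
  have hb' : (0 : ℝ) < b := by exact_mod_cast hb
  have hq : ((a * SC / b : ℕ) : ℝ) ≤ (a : ℝ) * SC / b := by
    rw [le_div_iff₀ hb']
    have := Nat.div_mul_le_self (a * SC) b
    exact_mod_cast this
  have hq2 : (a : ℝ) * SC / b ≤ ((a * SC / b + 1 : ℕ) : ℝ) := by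
    rw [div_le_iff₀ hb']
    have := Nat.lt_div_mul_add (a := a * SC) hb
    have h3 : a * SC ≤ (a * SC / b + 1) * b := by nlinarith [this]
    exact_mod_cast h3
  constructor
  · show val (a * SC / b) ≤ _
    unfold val
    rw [div_le_iff₀ SC_pos]
    calc ((a * SC / b : ℕ) : ℝ) ≤ (a : ℝ) * SC / b := hq
      _ = (a : ℝ) / b * SC := by ring
  · show _ ≤ val (a * SC / b + 1)
    unfold val
    rw [le_div_iff₀ SC_pos]
    calc (a : ℝ) / b * SC = (a : ℝ) * SC / b := by ring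
      _ ≤ _ := hq2

def IV.add (I J : IV) : IV := ⟨I.ok && J.ok, Nat.add I.lo J.lo, Nat.add I.hi J.hi⟩

theorem val_add (a b : ℕ) : val (a + b) = val a + val b := by
  unfold val; push_cast; ring

theorem IV.mem_add {x y : ℝ} {I J : IV} (hx : IV.mem x I) (hy : IV.mem y J) :
    IV.mem (x + y) (IV.add I J) := by
  intro h
  have h' : I.ok = true ∧ J.ok = true := by simpa [IV.add] using h
  obtain ⟨h1, h2⟩ := hx h'.1
  obtain ⟨h3, h4⟩ := hy h'.2
  refine ⟨?_, ?_⟩
  · show val (I.lo + J.lo) ≤ _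
    rw [val_add]; linarith
  · show _ ≤ val (I.hi + J.hi)
    rw [val_add]; linarith

def IV.mul (I J : IV) : IV :=
  ⟨I.ok && J.ok, Nat.div (Nat.mul I.lo J.lo) SC, Nat.add (Nat.div (Nat.mul I.hi J.hi) SC) 1⟩

theorem val_mul_lo (a b : ℕ) : val (a * b / SC) ≤ val a * val b := by
  unfold val
  have hSC := SC_pos
  have h : ((a * b / SC : ℕ) : ℝ) * (SC : ℝ) ≤ (a : ℝ) * b := by
    have := Nat.div_mul_le_self (a * b) SC
    exact_mod_cast this
  rw [div_mul_div_comm, div_le_div_iff₀ hSC (mul_pos hSC hSC)]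
  nlinarith

theorem val_mul_hi (a b : ℕ) : val a * val b ≤ val (a * b / SC + 1) := by
  unfold val
  have hSC := SC_pos
  have h : (a : ℝ) * b ≤ ((a * b / SC + 1 : ℕ) : ℝ) * (SC : ℝ) := by
    have h0 : 0 < SC := by unfold SC; norm_num
    have := Nat.lt_div_mul_add (a := a * b) h0
    have h3 : a * b ≤ (a * b / SC + 1) * SC := by nlinarith [this]
    exact_mod_cast h3
  rw [div_mul_div_comm, div_le_div_iff₀ (mul_pos hSC hSC) hSC]
  nlinarith

theorem IV.mem_mul {x y : ℝ} {I J : IV} (hx : IV.mem x I) (hy : IV.mem y J) :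
    IV.mem (x * y) (IV.mul I J) := by
  intro h
  have h' : I.ok = true ∧ J.ok = true := by simpa [IV.mul] using h
  obtain ⟨h1, h2⟩ := hx h'.1
  obtain ⟨h3, h4⟩ := hy h'.2
  have n1 := val_nonneg I.lo
  have n3 := val_nonneg J.lo
  refine ⟨?_, ?_⟩
  · show val (I.lo * J.lo / SC) ≤ _
    refine (val_mul_lo _ _).trans ?_
    exact mul_le_mul h1 h3 n3 (n1.trans h1)
  · show _ ≤ val (I.hi * J.hi / SC + 1)
    refine le_trans ?_ (val_mul_hi _ _)
    exact mul_le_mul h2 h4 (n3.trans h3) (val_nonneg _)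

/-- subtraction, only when the difference is certainly nonnegative -/
def IV.sub (I J : IV) : IV :=
  ⟨I.ok && J.ok && Nat.ble J.hi I.lo, Nat.sub I.lo J.hi, Nat.sub I.hi J.lo⟩

theorem val_sub_of_le {a b : ℕ} (h : b ≤ a) : val (a - b) = val a - val b := by
  unfold val
  rw [Nat.cast_sub h]; ring

theorem IV.mem_sub {x y : ℝ} {I J : IV} (hx : IV.mem x I) (hy : IV.mem y J) :
    IV.mem (x - y) (IV.sub I J) := by
  intro h
  have h' : I.ok = true ∧ J.ok = true ∧ J.hi ≤ I.lo := by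
    simpa [IV.sub, and_assoc] using h
  obtain ⟨hok1, hok2, hle⟩ := h'
  obtain ⟨h1, h2⟩ := hx hok1
  obtain ⟨h3, h4⟩ := hy hok2
  refine ⟨?_, ?_⟩
  · show val (I.lo - J.hi) ≤ _
    rw [val_sub_of_le hle]; linarith
  · show _ ≤ val (I.hi - J.lo)
    by_cases hc : J.lo ≤ I.hi
    · rw [val_sub_of_le hc]; linarith
    · have : val I.hi ≤ val J.lo := val_mono (by omega)
      have h0 := val_nonneg (I.hi - J.lo)
      linarith

/-- division by a certainly positive number -/
def IV.div (I J : IV) : IV :=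
  ⟨I.ok && J.ok && Nat.blt 0 J.lo, Nat.div (Nat.mul I.lo SC) J.hi, Nat.add (Nat.div (Nat.mul I.hi SC) J.lo) 1⟩

theorem IV.mem_div {x y : ℝ} {I J : IV} (hx : IV.mem x I) (hy : IV.mem y J) :
    IV.mem (x / y) (IV.div I J) := by
  intro h
  have h' : I.ok = true ∧ J.ok = true ∧ 0 < J.lo := by
    simpa [IV.div, and_assoc] using h
  obtain ⟨hok1, hok2, hpos⟩ := h'
  obtain ⟨h1, h2⟩ := hx hok1
  obtain ⟨h3, h4⟩ := hy hok2
  have hSC := SC_pos
  have hposR : (0 : ℝ) < J.lo := by exact_mod_cast hpos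
  have hlo : 0 < val J.lo := div_pos hposR hSC
  have hy0 : 0 < y := lt_of_lt_of_le hlo h3
  have hhi : 0 < val J.hi := lt_of_lt_of_le hy0 h4
  have hx0 : 0 ≤ x := (val_nonneg _).trans h1
  have hhipos : 0 < J.hi := by
    by_contra hc
    have : J.hi = 0 := by omega
    simp [this, val] at hhi
  have hhiR : (0 : ℝ) < J.hi := by exact_mod_cast hhipos
  refine ⟨?_, ?_⟩
  · show val (I.lo * SC / J.hi) ≤ _
    have a1 : val (I.lo * SC / J.hi) ≤ val I.lo / val J.hi := by
      have : ((I.lo * SC / J.hi : ℕ) : ℝ) * J.hi ≤ (I.lo : ℝ) * SC := by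
        have := Nat.div_mul_le_self (I.lo * SC) J.hi
        exact_mod_cast this
      unfold val
      rw [div_div_div_cancel_right₀ hSC.ne', div_le_div_iff₀ hSC hhiR]
      linarith
    refine a1.trans ?_
    exact div_le_div₀ hx0 h1 hy0 h4
  · show _ ≤ val (I.hi * SC / J.lo + 1)
    have a1 : val I.hi / val J.lo ≤ val (I.hi * SC / J.lo + 1) := by
      have : (I.hi : ℝ) * SC ≤ ((I.hi * SC / J.lo + 1 : ℕ) : ℝ) * J.lo := by
        have := Nat.lt_div_mul_add (a := I.hi * SC) hpos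
        have h3' : I.hi * SC ≤ (I.hi * SC / J.lo + 1) * J.lo := by nlinarith [this]
        exact_mod_cast h3'
      unfold val
      rw [div_div_div_cancel_right₀ hSC.ne', div_le_div_iff₀ hposR hSC]
      linarith
    refine le_trans ?_ a1
    exact div_le_div₀ (val_nonneg _) h2 hlo h3

/-! ### logarithm -/

/-- the real series `2 x + 2 x^3/3 + ... + 2 x^19/19`. -/
noncomputable def serR (x : ℝ) : ℝ :=
  x * (2 + x ^ 2 * (2 / 3 + x ^ 2 * (2 / 5 + x ^ 2 * (2 / 7 + x ^ 2 * (2 / 9 + x ^ 2 * (2 / 11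
    + x ^ 2 * (2 / 13 + x ^ 2 * (2 / 15 + x ^ 2 * (2 / 17 + x ^ 2 * (2 / 19))))))))))

theorem serR_eq_sum (x : ℝ) :
    serR x = ∑ k ∈ Finset.range 10, 2 * (1 / (2 * (k : ℝ) + 1)) * x ^ (2 * k + 1) := by
  simp only [Finset.sum_range_succ, Finset.sum_range_zero, serR]
  norm_num
  ring

theorem serR_le {x : ℝ} (h0 : 0 ≤ x) (h1 : x < 1) : serR x ≤ log (1 + x) - log (1 - x) := by
  have hs := Real.hasSum_log_sub_log_of_abs_lt_one (x := x) (by rw [abs_of_nonneg h0]; exact h1)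
  rw [serR_eq_sum]
  refine sum_le_hasSum _ (fun k _ => ?_) hs
  positivity

theorem le_serR_add {x : ℝ} (h0 : 0 ≤ x) (h1 : x ≤ 1 / 3) :
    log (1 + x) - log (1 - x) ≤ serR x + 3 / 10 ^ 10 := by
  have hx1 : |x| < 1 := by rw [abs_of_nonneg h0]; linarith
  have hx2 : |(-x)| < 1 := by rw [abs_neg]; exact hx1
  have b1 := Real.abs_log_sub_add_sum_range_le hx1 20
  have b2 := Real.abs_log_sub_add_sum_range_le hx2 20
  rw [abs_neg, abs_of_nonneg h0] at b2
  rw [abs_of_nonneg h0] at b1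
  have hpow : x ^ 21 ≤ (1 / 3) ^ 21 := pow_le_pow_left₀ h0 h1 21
  have hdiv : x ^ 21 / (1 - x) ≤ (1 / 3) ^ 21 * (3 / 2) := by
    rw [div_le_iff₀ (by linarith)]
    have : (0:ℝ) < (1 / 3) ^ 21 := by positivity
    nlinarith [pow_nonneg h0 21]
  have hnum : ((1 : ℝ) / 3) ^ 21 * (3 / 2) ≤ 3 / 2 / 10 ^ 10 := by norm_num
  have e1 := (abs_le.mp b1)
  have e2 := (abs_le.mp b2)
  rw [sub_neg_eq_add] at e2
  have hsum : (∑ i ∈ Finset.range 20, x ^ (i + 1) / ((i : ℝ) + 1) + log (1 - x))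
      - (∑ i ∈ Finset.range 20, (-x) ^ (i + 1) / ((i : ℝ) + 1) + log (1 + x))
      = serR x - (log (1 + x) - log (1 - x)) := by
    simp only [Finset.sum_range_succ, Finset.sum_range_zero, serR]
    norm_num
    ring
  have : serR x - (log (1 + x) - log (1 - x)) ≥ - (2 * (x ^ 21 / (1 - x))) := by
    rw [← hsum]
    linarith [e1.1, e2.2]
  linarith


/-- `2 x + 2 x^3/3 + ... + 2 x^19/19` on intervals -/
def IV.ser (X : IV) : IV :=
  let x2 := IV.mul X X
  let p9 := IV.add (IV.ofQ 2 17) (IV.mul x2 (IV.ofQ 2 19))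
  let p8 := IV.add (IV.ofQ 2 15) (IV.mul x2 p9)
  let p7 := IV.add (IV.ofQ 2 13) (IV.mul x2 p8)
  let p6 := IV.add (IV.ofQ 2 11) (IV.mul x2 p7)
  let p5 := IV.add (IV.ofQ 2 9) (IV.mul x2 p6)
  let p4 := IV.add (IV.ofQ 2 7) (IV.mul x2 p5)
  let p3 := IV.add (IV.ofQ 2 5) (IV.mul x2 p4)
  let p2 := IV.add (IV.ofQ 2 3) (IV.mul x2 p3)
  let p1 := IV.add (IV.ofQ 2 1) (IV.mul x2 p2)
  IV.mul X p1

theorem IV.mem_ofQ' (a b : ℕ) (r : ℝ) (hr : r = (a : ℝ) / b) : IV.mem r (IV.ofQ a b) := by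
  rw [hr]; exact IV.mem_ofQ a b

theorem IV.mem_ser {x : ℝ} {X : IV} (hx : IV.mem x X) : IV.mem (serR x) (IV.ser X) := by
  have h2 : IV.mem (x ^ 2) (IV.mul X X) := by
    rw [pow_two]; exact IV.mem_mul hx hx
  unfold serR IV.ser
  refine IV.mem_mul hx ?_
  refine IV.mem_add (IV.mem_ofQ' 2 1 _ (by norm_num)) (IV.mem_mul h2 ?_)
  refine IV.mem_add (IV.mem_ofQ' 2 3 _ (by norm_num)) (IV.mem_mul h2 ?_)
  refine IV.mem_add (IV.mem_ofQ' 2 5 _ (by norm_num)) (IV.mem_mul h2 ?_)
  refine IV.mem_add (IV.mem_ofQ' 2 7 _ (by norm_num)) (IV.mem_mul h2 ?_)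
  refine IV.mem_add (IV.mem_ofQ' 2 9 _ (by norm_num)) (IV.mem_mul h2 ?_)
  refine IV.mem_add (IV.mem_ofQ' 2 11 _ (by norm_num)) (IV.mem_mul h2 ?_)
  refine IV.mem_add (IV.mem_ofQ' 2 13 _ (by norm_num)) (IV.mem_mul h2 ?_)
  refine IV.mem_add (IV.mem_ofQ' 2 15 _ (by norm_num)) (IV.mem_mul h2 ?_)
  refine IV.mem_add (IV.mem_ofQ' 2 17 _ (by norm_num)) (IV.mem_mul h2 ?_)
  exact IV.mem_ofQ' 2 19 _ (by norm_num)

/-- enclosure of `log 2` -/
def LIV : IV := ⟨true, 12786308640407511063, 12786308649630883101⟩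

theorem mem_LIV : IV.mem L LIV := by
  intro _
  have h1 := Real.log_two_gt_d9
  have h2 := Real.log_two_lt_d9
  constructor
  · show val 12786308640407511063 ≤ L
    unfold val SC L
    norm_num
    norm_num at h1
    linarith
  · show L ≤ val 12786308649630883101
    unfold val SC L
    norm_num
    norm_num at h2
    linarith

/-- enclosure of `log (n / 2^64)`, for `n ≥ 2^64`. -/
def logNat (n : ℕ) : IV :=
  let k := Nat.sub (Nat.log2 n) 64
  let m0 := Nat.div n (Nat.pow 2 k)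
  let M : IV := ⟨Nat.ble SC m0 && Nat.ble (Nat.add m0 1) (Nat.mul 2 SC), m0, Nat.add m0 1⟩
  let X := IV.div (IV.sub M (IV.pt SC)) (IV.add M (IV.pt SC))
  IV.add (IV.add (IV.ser X) ⟨true, 0, 5534023223⟩) (IV.mul ⟨true, Nat.mul k SC, Nat.mul k SC⟩ LIV)

theorem log_ratio_of_m {m : ℝ} (h1 : 1 ≤ m) :
    log (1 + (m - 1) / (m + 1)) - log (1 - (m - 1) / (m + 1)) = log m := by
  have hm : 0 < m + 1 := by linarith
  have e1 : 1 + (m - 1) / (m + 1) = 2 * m / (m + 1) := by field_simp; ring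
  have e2 : 1 - (m - 1) / (m + 1) = 2 / (m + 1) := by field_simp; ring
  rw [e1, e2, ← Real.log_div (by positivity) (by positivity)]
  congr 1
  field_simp

theorem IV.mem_logNat (n : ℕ) : IV.mem (log (val n)) (logNat n) := by
  intro hok
  set k := Nat.log2 n - 64 with hk
  set m0 := n / 2 ^ k with hm0
  set m : ℝ := val n / 2 ^ k with hm
  have hpow : (0 : ℝ) < 2 ^ k := by positivity
  have hpowN : 0 < 2 ^ k := by positivity
  have hval : val n = m * 2 ^ k := by rw [hm]; field_simp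
  -- the enclosure of `m`
  set M : IV := ⟨Nat.ble SC m0 && Nat.ble (m0 + 1) (2 * SC), m0, m0 + 1⟩ with hMdef
  have hMm : IV.mem m M := by
    intro _
    have a1 : ((m0 : ℕ) : ℝ) * 2 ^ k ≤ n := by
      have := Nat.div_mul_le_self n (2 ^ k)
      exact_mod_cast this
    have a2 : (n : ℝ) ≤ ((m0 + 1 : ℕ) : ℝ) * 2 ^ k := by
      have := Nat.lt_div_mul_add (a := n) hpowN
      have h3 : n ≤ (n / 2 ^ k + 1) * 2 ^ k := by nlinarith [this]
      exact_mod_cast h3
    have hSC := SC_pos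
    constructor
    · show val m0 ≤ m
      rw [hm]; unfold val
      rw [div_div, div_le_div_iff₀ hSC (by positivity)]
      nlinarith
    · show m ≤ val (m0 + 1)
      rw [hm]; unfold val
      rw [div_div, div_le_div_iff₀ (by positivity) hSC]
      nlinarith
  have hone : IV.mem 1 (IV.pt SC) := by
    intro _; exact ⟨le_of_eq val_SC, le_of_eq val_SC.symm⟩
  have hX := IV.mem_div (IV.mem_sub hMm hone) (IV.mem_add hMm hone)
  have hser := IV.mem_ser hX
  -- unpack ok
  have hdef : logNat n = IV.add (IV.add (IV.ser (IV.div (IV.sub M (IV.pt SC)) (IV.add M (IV.pt SC))))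
      ⟨true, 0, 5534023223⟩) (IV.mul ⟨true, Nat.mul k SC, Nat.mul k SC⟩ LIV) := rfl
  rw [hdef] at hok ⊢
  have hokser : (IV.ser (IV.div (IV.sub M (IV.pt SC)) (IV.add M (IV.pt SC)))).ok = true := by
    simp only [IV.add, IV.mul, Bool.and_eq_true] at hok
    exact hok.1.1
  -- from ok we can extract the range of m
  have hokM : M.ok = true := by
    by_contra hc
    have : (IV.ser (IV.div (IV.sub M (IV.pt SC)) (IV.add M (IV.pt SC)))).ok = false := by
      have hc' : M.ok = false := by simpa using hc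
      simp [IV.ser, IV.mul, IV.div, IV.sub, hc']
    rw [this] at hokser
    exact absurd hokser (by simp)
  have hb : SC ≤ m0 ∧ m0 + 1 ≤ 2 * SC := by
    simpa [hMdef] using hokM
  obtain ⟨hM1, hM2⟩ := hMm hokM
  have hm1 : 1 ≤ m := by
    have : val SC ≤ val m0 := val_mono hb.1
    rw [val_SC] at this
    exact this.trans hM1
  have hm2 : m ≤ 2 := by
    have : val (m0 + 1) ≤ val (2 * SC) := val_mono hb.2
    have e : val (2 * SC) = 2 := by
      unfold val; push_cast; field_simp [SC_pos.ne']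
    rw [e] at this
    exact hM2.trans this
  set x := (m - 1) / (m + 1) with hx
  have hx0 : 0 ≤ x := div_nonneg (by linarith) (by linarith)
  have hx1 : x ≤ 1 / 3 := by
    rw [hx, div_le_iff₀ (by linarith)]; linarith
  have hlog := log_ratio_of_m hm1
  rw [← hx] at hlog
  have l1 := serR_le hx0 (by linarith)
  have l2 := le_serR_add hx0 hx1
  rw [hlog] at l1 l2
  -- the error interval
  have herr : IV.mem (log m - serR x) ⟨true, 0, 5534023223⟩ := by
    intro _
    constructor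
    · show val 0 ≤ _
      simp only [val, Nat.cast_zero, zero_div]; linarith
    · show _ ≤ val 5534023223
      have : (3 : ℝ) / 10 ^ 10 ≤ val 5534023223 := by
        unfold val SC; norm_num
      linarith
  have hkk : IV.mem (k : ℝ) ⟨true, Nat.mul k SC, Nat.mul k SC⟩ := by
    intro _
    have e : val (k * SC) = k := by
      unfold val; push_cast; field_simp [SC_pos.ne']
    exact ⟨le_of_eq e, le_of_eq e.symm⟩
  have hfinal := IV.mem_add (IV.mem_add hser herr) (IV.mem_mul hkk mem_LIV)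
  have hlogeq : log (val n) = serR x + (log m - serR x) + (k : ℝ) * L := by
    have hm0' : 0 < m := by linarith
    rw [hval, Real.log_mul hm0'.ne' hpow.ne', Real.log_pow]
    unfold L
    ring
  rw [hlogeq]
  exact hfinal hok

/-- enclosure of `log x`, for `x ≥ 1`. -/
def IV.log (I : IV) : IV :=
  ⟨I.ok && Nat.ble SC I.lo && (logNat I.lo).ok && (logNat I.hi).ok, (logNat I.lo).lo, (logNat I.hi).hi⟩

theorem IV.mem_log {x : ℝ} {I : IV} (hx : IV.mem x I) : IV.mem (Real.log x) (IV.log I) := by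
  intro hok
  have h' : I.ok = true ∧ SC ≤ I.lo ∧ (logNat I.lo).ok = true ∧ (logNat I.hi).ok = true := by
    simpa [IV.log, and_assoc] using hok
  obtain ⟨h1, h2, h3, h4⟩ := h'
  obtain ⟨b1, b2⟩ := hx h1
  have hv1 : 1 ≤ val I.lo := by
    have := val_mono h2
    rwa [val_SC] at this
  have hpos : 0 < val I.lo := by linarith
  have hposx : 0 < x := by linarith
  have e1 := (IV.mem_logNat I.lo) h3
  have e2 := (IV.mem_logNat I.hi) h4
  constructor
  · exact e1.1.trans (Real.log_le_log hpos b1)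
  · exact (Real.log_le_log hposx b2).trans e2.2

end CK322
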