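import Vale.Agent.Lib.P322.PsiC

/-!
The Jensen inequality for `D1` with a variance term, and a one variable bound on `gam`.
-/

open Real Set Filter Topology

namespace CK322

noncomputable section

theorem L_phi {u : ℝ} (hu : u ∈ Ioo (-1:ℝ) 1) :
    L * phi u = L - (1 + u) / 2 * log (1 + u) - (1 - u) / 2 * log (1 - u) := by
  have hL := L_pos.ne'
  have h1 : 0 < 1 + u := by linarith [hu.1]
  have h2 : 0 < 1 - u := by linarith [hu.2]
  unfold phi
  rw [mul_div_cancel₀ _ hL]
  unfold Real.binEntropy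
  have e : 1 - (1 + u) / 2 = (1 - u) / 2 := by ring
  rw [e, Real.log_inv, Real.log_inv, Real.log_div h1.ne' (by norm_num),
    Real.log_div h2.ne' (by norm_num)]
  unfold L
  ring

/-- the divergence in closed form -/
theorem KL_eq {a u : ℝ} (ha : a ∈ Ioo (-1:ℝ) 1) (hu : u ∈ Ioo (-1:ℝ) 1) :
    L * (phi a - phi u) - artanh a * (u - a)
      = (1 + u) / 2 * log ((1 + u) / (1 + a)) + (1 - u) / 2 * log ((1 - u) / (1 - a)) := by
  have h1 : 0 < 1 + u := by linarith [hu.1]
  have h2 : 0 < 1 - u := by linarith [hu.2]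
  have h3 : 0 < 1 + a := by linarith [ha.1]
  have h4 : 0 < 1 - a := by linarith [ha.2]
  have e : artanh a = 1 / 2 * (log (1 + a) - log (1 - a)) := by
    rw [Real.artanh_eq_half_log ⟨ha.1.le, ha.2.le⟩, Real.log_div h3.ne' h4.ne']
  rw [mul_sub, L_phi ha, L_phi hu, e, Real.log_div h1.ne' h3.ne', Real.log_div h2.ne' h4.ne']
  ring

/-- nonnegativity of the divergence -/
theorem KL_nonneg {a u : ℝ} (ha : a ∈ Ioo (-1:ℝ) 1) (hu : u ∈ Ioo (-1:ℝ) 1) :
    0 ≤ L * (phi a - phi u) - artanh a * (u - a) := by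
  have h1 : 0 < 1 + u := by linarith [hu.1]
  have h2 : 0 < 1 - u := by linarith [hu.2]
  have h3 : 0 < 1 + a := by linarith [ha.1]
  have h4 : 0 < 1 - a := by linarith [ha.2]
  rw [KL_eq ha hu]
  have a1 := Real.one_sub_inv_le_log_of_pos (show 0 < (1 + u) / (1 + a) by positivity)
  have a2 := Real.one_sub_inv_le_log_of_pos (show 0 < (1 - u) / (1 - a) by positivity)
  have a3 : (1 + u) / 2 * (1 - ((1 + u) / (1 + a))⁻¹) ≤ (1 + u) / 2 * log ((1 + u) / (1 + a)) :=
    mul_le_mul_of_nonneg_left a1 (by positivity)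
  have a4 : (1 - u) / 2 * (1 - ((1 - u) / (1 - a))⁻¹) ≤ (1 - u) / 2 * log ((1 - u) / (1 - a)) :=
    mul_le_mul_of_nonneg_left a2 (by positivity)
  have e3 : (1 + u) / 2 * (1 - ((1 + u) / (1 + a))⁻¹) = (u - a) / 2 := by
    field_simp
    ring
  have e4 : (1 - u) / 2 * (1 - ((1 - u) / (1 - a))⁻¹) = (a - u) / 2 := by
    field_simp
    ring
  rw [e3] at a3
  rw [e4] at a4
  linarith

/-- `KL ≤ χ²` -/
theorem KL_le_chi2 {a u : ℝ} (ha : a ∈ Ioo (-1:ℝ) 1) (hu : u ∈ Ioo (-1:ℝ) 1) :
    L * (phi a - phi u) - artanh a * (u - a) ≤ (u - a) ^ 2 / (1 - a ^ 2) := by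
  have h1 : 0 < 1 + u := by linarith [hu.1]
  have h2 : 0 < 1 - u := by linarith [hu.2]
  have h3 : 0 < 1 + a := by linarith [ha.1]
  have h4 : 0 < 1 - a := by linarith [ha.2]
  rw [KL_eq ha hu]
  have a1 := Real.log_le_sub_one_of_pos (show 0 < (1 + u) / (1 + a) by positivity)
  have a2 := Real.log_le_sub_one_of_pos (show 0 < (1 - u) / (1 - a) by positivity)
  have a3 : (1 + u) / 2 * log ((1 + u) / (1 + a)) ≤ (1 + u) / 2 * ((1 + u) / (1 + a) - 1) :=
    mul_le_mul_of_nonneg_left a1 (by positivity)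
  have a4 : (1 - u) / 2 * log ((1 - u) / (1 - a)) ≤ (1 - u) / 2 * ((1 - u) / (1 - a) - 1) :=
    mul_le_mul_of_nonneg_left a2 (by positivity)
  have e : (1 + u) / 2 * ((1 + u) / (1 + a) - 1) + (1 - u) / 2 * ((1 - u) / (1 - a) - 1)
      = (u - a) ^ 2 / (1 - a ^ 2) := by
    have e2 : 1 - a ^ 2 = (1 + a) * (1 - a) := by ring
    rw [e2]
    field_simp
    ring
  linarith

/-- the minimum of `τ + κ / sinh τ` -/
theorem h_min {τ₀ τ : ℝ} (h₀ : 0 < τ₀) (h : 0 < τ) :
    τ₀ + sinh τ₀ ^ 2 / cosh τ₀ / sinh τ₀ ≤ τ + sinh τ₀ ^ 2 / cosh τ₀ / sinh τ := by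
  set κ := sinh τ₀ ^ 2 / cosh τ₀ with hκ
  have hs₀ : 0 < sinh τ₀ := Real.sinh_pos_iff.2 h₀
  have hc₀ := Real.cosh_pos τ₀
  have hd : ∀ x, 0 < x → HasDerivAt (fun x => x + κ / sinh x) (1 - κ * cosh x / sinh x ^ 2) x := by
    intro x hx
    have hs : sinh x ≠ 0 := (Real.sinh_pos_iff.2 hx).ne'
    have h1 := (hasDerivAt_const x κ).div (Real.hasDerivAt_sinh x) hs
    have h2 := (hasDerivAt_id x).add h1
    refine h2.congr_deriv ?_
    field_simp
    ring
  have hsign : ∀ x, 0 < x → κ * cosh x - sinh x ^ 2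
      = (cosh τ₀ - cosh x) * (cosh τ₀ * cosh x + 1) / cosh τ₀ := by
    intro x _
    have e1 := Real.sinh_sq τ₀
    have e2 := Real.sinh_sq x
    rw [hκ, e1, e2]
    field_simp
    ring
  rcases le_total τ₀ τ with hle | hle
  · have hm : MonotoneOn (fun x => x + κ / sinh x) (Ici τ₀) := by
      apply monotoneOn_of_deriv_nonneg (convex_Ici τ₀)
      · exact fun x hx => (hd x (h₀.trans_le hx)).continuousAt.continuousWithinAt
      · intro x hx
        rw [interior_Ici] at hx
        exact (hd x (h₀.trans hx)).differentiableAt.differentiableWithinAt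
      · intro x hx
        rw [interior_Ici] at hx
        have hx0 : 0 < x := h₀.trans hx
        rw [(hd x hx0).deriv]
        have hsx : 0 < sinh x := Real.sinh_pos_iff.2 hx0
        have hcc : cosh τ₀ ≤ cosh x := by
          rw [Real.cosh_le_cosh, abs_of_pos h₀, abs_of_pos hx0]
          exact (le_of_lt hx)
        have h3 := hsign x hx0
        have hcx := Real.cosh_pos x
        have h4 : κ * cosh x - sinh x ^ 2 ≤ 0 := by
          rw [h3]
          apply div_nonpos_of_nonpos_of_nonneg _ hc₀.le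
          apply mul_nonpos_of_nonpos_of_nonneg (by linarith) (by positivity)
        rw [sub_nonneg, div_le_one (by positivity)]
        linarith
    exact hm (mem_Ici.2 le_rfl) (mem_Ici.2 hle) hle
  · have hm : AntitoneOn (fun x => x + κ / sinh x) (Icc τ τ₀) := by
      apply antitoneOn_of_deriv_nonpos (convex_Icc τ τ₀)
      · exact fun x hx => (hd x (h.trans_le hx.1)).continuousAt.continuousWithinAt
      · intro x hx
        rw [interior_Icc] at hx
        exact (hd x (h.trans hx.1)).differentiableAt.differentiableWithinAt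
      · intro x hx
        rw [interior_Icc] at hx
        have hx0 : 0 < x := h.trans hx.1
        rw [(hd x hx0).deriv]
        have hsx : 0 < sinh x := Real.sinh_pos_iff.2 hx0
        have hcc : cosh x ≤ cosh τ₀ := by
          rw [Real.cosh_le_cosh, abs_of_pos h₀, abs_of_pos hx0]
          exact (le_of_lt hx.2)
        have h3 := hsign x hx0
        have hcx := Real.cosh_pos x
        have h4 : 0 ≤ κ * cosh x - sinh x ^ 2 := by
          rw [h3]
          apply div_nonneg _ hc₀.le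
          apply mul_nonneg (by linarith) (by positivity)
        rw [sub_nonpos, le_div_iff₀ (by positivity)]
        linarith
    exact hm (left_mem_Icc.2 hle) (right_mem_Icc.2 hle) hle

theorem one_sub_tanh_sq (x : ℝ) : 1 - tanh x ^ 2 = 1 / cosh x ^ 2 := by
  have hc := Real.cosh_pos x
  have h := Real.cosh_sq x
  rw [Real.tanh_eq_sinh_div_cosh]
  field_simp
  linarith

theorem tanh_sub' (x y : ℝ) : tanh x - tanh y = sinh (x - y) / (cosh x * cosh y) := by
  have hx := Real.cosh_pos x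
  have hy := Real.cosh_pos y
  rw [Real.tanh_eq_sinh_div_cosh, Real.tanh_eq_sinh_div_cosh, Real.sinh_sub]
  field_simp

theorem one_sub_tanh_mul (x y : ℝ) : 1 - tanh x * tanh y = cosh (x - y) / (cosh x * cosh y) := by
  have hx := Real.cosh_pos x
  have hy := Real.cosh_pos y
  rw [Real.tanh_eq_sinh_div_cosh, Real.tanh_eq_sinh_div_cosh, Real.cosh_sub]
  field_simp

/-- the pointwise lemma, in the hyperbolic parameters -/
theorem chi2_hyp {A B α β : ℝ} (hAB : B < A) :
    0 ≤ (tanh α - tanh β) * (α - β - (A - B) - (tanh A - tanh B) / (1 - tanh A * tanh B))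
      + ((tanh A - tanh B) / (1 - tanh A * tanh B) * (tanh A - tanh B) / 2)
        * ((1 - tanh α ^ 2) / (1 - tanh A ^ 2) + (1 - tanh β ^ 2) / (1 - tanh B ^ 2)) := by
  set τ₀ := A - B with hτ₀
  have hτ₀pos : 0 < τ₀ := by rw [hτ₀]; linarith
  have hsτ₀ : 0 < sinh τ₀ := Real.sinh_pos_iff.2 hτ₀pos
  have hcτ₀ := Real.cosh_pos τ₀
  have hcA := Real.cosh_pos A
  have hcB := Real.cosh_pos B
  have hcα := Real.cosh_pos α
  have hcβ := Real.cosh_pos β
  -- rewrite
  have e1 : tanh A - tanh B = sinh τ₀ / (cosh A * cosh B) := tanh_sub' A B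
  have e2 : (tanh A - tanh B) / (1 - tanh A * tanh B) = sinh τ₀ / cosh τ₀ := by
    rw [e1, one_sub_tanh_mul]
    field_simp
    rw [hτ₀]
  have e3 : tanh α - tanh β = sinh (α - β) / (cosh α * cosh β) := tanh_sub' α β
  rw [e2, e1, e3]
  rw [one_sub_tanh_sq α, one_sub_tanh_sq β, one_sub_tanh_sq A, one_sub_tanh_sq B]
  set τ := α - β with hτ
  have e4 : 1 / cosh α ^ 2 / (1 / cosh A ^ 2) = (cosh A / cosh α) ^ 2 := by
    field_simp
  have e5 : 1 / cosh β ^ 2 / (1 / cosh B ^ 2) = (cosh B / cosh β) ^ 2 := by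
    field_simp
  rw [e4, e5]
  have hamgm : 2 * (cosh A * cosh B / (cosh α * cosh β))
      ≤ (cosh A / cosh α) ^ 2 + (cosh B / cosh β) ^ 2 := by
    have := sq_nonneg (cosh A / cosh α - cosh B / cosh β)
    have e6 : cosh A * cosh B / (cosh α * cosh β) = cosh A / cosh α * (cosh B / cosh β) := by
      field_simp
    rw [e6]
    nlinarith
  have hcoef : 0 ≤ sinh τ₀ / cosh τ₀ * (sinh τ₀ / (cosh A * cosh B)) / 2 := by positivity
  have h1 := mul_le_mul_of_nonneg_left hamgm hcoef
  have e7 : sinh τ₀ / cosh τ₀ * (sinh τ₀ / (cosh A * cosh B)) / 2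
        * (2 * (cosh A * cosh B / (cosh α * cosh β)))
      = sinh τ₀ ^ 2 / cosh τ₀ / (cosh α * cosh β) := by
    field_simp
  rw [e7] at h1
  refine le_trans ?_ (add_le_add_right h1 _)
  -- the remaining inequality
  rcases lt_trichotomy τ 0 with hneg | hz | hpos
  · -- `τ < 0`
    have hsneg : sinh τ < 0 := Real.sinh_neg_iff.2 hneg
    have h3 : 0 ≤ sinh τ * (τ - τ₀ - sinh τ₀ / cosh τ₀) := by
      apply mul_nonneg_of_nonpos_of_nonpos hsneg.le
      have : 0 ≤ sinh τ₀ / cosh τ₀ := by positivity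
      linarith
    have h4 : sinh τ / (cosh α * cosh β) * (τ - τ₀ - sinh τ₀ / cosh τ₀)
        = sinh τ * (τ - τ₀ - sinh τ₀ / cosh τ₀) / (cosh α * cosh β) := by ring
    rw [h4]
    positivity
  · rw [hz]
    simp only [Real.sinh_zero, zero_div, zero_mul, zero_add]
    positivity
  · have hmin := h_min hτ₀pos hpos
    have hsτ : 0 < sinh τ := Real.sinh_pos_iff.2 hpos
    have e8 : sinh τ₀ ^ 2 / cosh τ₀ / sinh τ₀ = sinh τ₀ / cosh τ₀ := by
      field_simp
    rw [e8] at hmin
    have h5 : 0 ≤ sinh τ * (τ + sinh τ₀ ^ 2 / cosh τ₀ / sinh τ - (τ₀ + sinh τ₀ / cosh τ₀))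
        / (cosh α * cosh β) := by
      apply div_nonneg _ (by positivity)
      apply mul_nonneg hsτ.le (by linarith)
    refine h5.trans_eq ?_
    field_simp
    ring

/-- pointwise chi-square lemma -/
theorem chi2_pt {a b u w : ℝ} (ha : a ∈ Ioo (-1:ℝ) 1) (hb : b ∈ Ioo (-1:ℝ) 1) (hab : b < a)
    (hu : u ∈ Ioo (-1:ℝ) 1) (hw : w ∈ Ioo (-1:ℝ) 1) :
    0 ≤ (u - w) * (artanh u - artanh w - (artanh a - artanh b) - (a - b) / (1 - a * b))
      + ((a - b) / (1 - a * b) * (a - b) / 2) * ((1 - u ^ 2) / (1 - a ^ 2) + (1 - w ^ 2) / (1 - b ^ 2)) := by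
  have h := chi2_hyp (A := artanh a) (B := artanh b) (α := artanh u) (β := artanh w)
    (Real.artanh_lt_artanh hb.1 ha.2 hab)
  rwa [Real.tanh_artanh ha, Real.tanh_artanh hb, Real.tanh_artanh hu, Real.tanh_artanh hw] at h

section fam

variable {Z : Type*} [Fintype Z] [Nonempty Z]

theorem card_pos_real' : (0 : ℝ) < Fintype.card Z := by
  exact_mod_cast Fintype.card_pos

theorem avg_mono'' {f g : Z → ℝ} (h : ∀ z, f z ≤ g z) : avg f ≤ avg g := by
  unfold avg
  exact div_le_div_of_nonneg_right (Finset.sum_le_sum fun z _ => h z) card_pos_real'.le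

theorem avg_lin5 (A B C D E : ℝ) (f g h k : Z → ℝ) :
    avg (fun z => A * f z + B * g z + C * h z + D * k z + E)
      = A * avg f + B * avg g + C * avg h + D * avg k + E := by
  unfold avg
  simp only [Finset.sum_add_distrib, ← Finset.mul_sum, Finset.sum_const, Finset.card_univ,
    nsmul_eq_mul]
  have hc := card_pos_real' (Z := Z)
  field_simp

/-- the averaged bound -/
theorem D1_var_bound (u w : Z → ℝ)
    (hu : ∀ z, u z ∈ Ioo (-1:ℝ) 1) (hw : ∀ z, w z ∈ Ioo (-1:ℝ) 1) (hlt : avg w < avg u) :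
    D1 (avg u) (avg w) + (avg u - avg w) ^ 2 / (4 * (1 - avg u * avg w)) *
        ((phi (avg u) + phi (avg w)) / 2
          - (avg (fun z => phi (u z)) + avg (fun z => phi (w z))) / 2)
      ≤ avg (fun z => D1 (u z) (w z)) := by
  have ha : avg u ∈ Ioo (-1:ℝ) 1 := by
    have h := card_pos_real' (Z := Z)
    have hs : (Finset.univ : Finset Z).Nonempty := Finset.univ_nonempty
    unfold avg
    constructor
    · rw [lt_div_iff₀ h]
      have := Finset.sum_lt_sum_of_nonempty hs (fun z _ => (hu z).1)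
      simpa using this
    · rw [div_lt_iff₀ h]
      have := Finset.sum_lt_sum_of_nonempty hs (fun z _ => (hu z).2)
      simpa using this
  have hb : avg w ∈ Ioo (-1:ℝ) 1 := by
    have h := card_pos_real' (Z := Z)
    have hs : (Finset.univ : Finset Z).Nonempty := Finset.univ_nonempty
    unfold avg
    constructor
    · rw [lt_div_iff₀ h]
      have := Finset.sum_lt_sum_of_nonempty hs (fun z _ => (hw z).1)
      simpa using this
    · rw [div_lt_iff₀ h]
      have := Finset.sum_lt_sum_of_nonempty hs (fun z _ => (hw z).2)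
      simpa using this
  set a := avg u with ha'
  set b := avg w with hb'
  have hL := L_pos
  have ha2 : 0 < 1 - a ^ 2 := by nlinarith [ha.1, ha.2]
  have hb2 : 0 < 1 - b ^ 2 := by nlinarith [hb.1, hb.2]
  have hab : 0 < 1 - a * b := by nlinarith [ha.1, ha.2, hb.1, hb.2]
  set e := a - b with he
  have he0 : 0 < e := by rw [he]; linarith
  set ζ := e / (1 - a * b) with hζ
  have hζ0 : 0 < ζ := by positivity
  set τ₀ := artanh a - artanh b with hτ₀
  set ca := artanh a - 2 * a / (1 - a ^ 2) with hca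
  set cb := artanh b - 2 * b / (1 - b ^ 2) with hcb
  have hcoef : 0 ≤ ζ * e / 2 := by positivity
  -- pointwise
  have hX : ∀ {a' u' : ℝ}, a' ∈ Ioo (-1:ℝ) 1 → u' ∈ Ioo (-1:ℝ) 1 →
      (1 - u' ^ 2) / (1 - a' ^ 2)
        ≤ 1 - L * phi a' + L * phi u' + (artanh a' - 2 * a' / (1 - a' ^ 2)) * (u' - a') := by
    intro a' u' ha' hu'
    have h := KL_le_chi2 ha' hu'
    have h2 : 0 < 1 - a' ^ 2 := by nlinarith [ha'.1, ha'.2]
    have e : (1 - u' ^ 2) / (1 - a' ^ 2)
        = 1 - (u' - a') ^ 2 / (1 - a' ^ 2) - 2 * a' / (1 - a' ^ 2) * (u' - a') := by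
      field_simp
      ring
    rw [e]
    nlinarith
  have hpt : ∀ z, (τ₀ + ζ - ζ * e / 2 * ca) * u z + (-(τ₀ + ζ) - ζ * e / 2 * cb) * w z
        + (-(ζ * e / 2 * L)) * phi (u z) + (-(ζ * e / 2 * L)) * phi (w z)
        + (-(ζ * e / 2) * (2 - L * phi a - L * phi b - ca * a - cb * b))
      ≤ 4 * L * D1 (u z) (w z) := by
    intro z
    have h1 := chi2_pt ha hb hlt (hu z) (hw z)
    have h2 := hX ha (hu z)
    have h3 := hX hb (hw z)
    have h4 := mul_le_mul_of_nonneg_left (add_le_add h2 h3) hcoef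
    have e5 : 4 * L * D1 (u z) (w z) = (u z - w z) * (artanh (u z) - artanh (w z)) := by
      unfold D1
      field_simp
    rw [e5]
    have e6 : a - b = e := rfl
    rw [e6] at h1
    have e7 : e / (1 - a * b) = ζ := rfl
    rw [e7] at h1
    rw [← hτ₀] at h1
    rw [← hca] at h4
    rw [← hcb] at h4
    nlinarith
  have hav := avg_mono'' hpt
  rw [avg_lin5] at hav
  have e8 : avg (fun z => 4 * L * D1 (u z) (w z)) = 4 * L * avg (fun z => D1 (u z) (w z)) := by
    unfold avg
    rw [← Finset.mul_sum, mul_div_assoc]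
  rw [e8] at hav
  rw [← ha', ← hb'] at hav
  -- simplify
  have e9 : D1 a b = e * τ₀ / (4 * L) := by
    unfold D1
    rfl
  have e10 : e ^ 2 / (4 * (1 - a * b)) = ζ * e / 4 := by
    rw [hζ]
    field_simp
  rw [e9, e10]
  have e11 : (τ₀ + ζ - ζ * e / 2 * ca) * a + (-(τ₀ + ζ) - ζ * e / 2 * cb) * b
        + (-(ζ * e / 2 * L)) * avg (fun z => phi (u z)) + (-(ζ * e / 2 * L)) * avg (fun z => phi (w z))
        + (-(ζ * e / 2) * (2 - L * phi a - L * phi b - ca * a - cb * b))
      = e * τ₀ + ζ * e * L * ((phi a + phi b) / 2 - (avg (fun z => phi (u z)) + avg (fun z => phi (w z))) / 2) := by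
    rw [he]
    ring
  rw [e11] at hav
  have h4L : 0 < 4 * L := by positivity
  have e12 : e * τ₀ / (4 * L) + ζ * e / 4 * ((phi a + phi b) / 2 - (avg (fun z => phi (u z)) + avg (fun z => phi (w z))) / 2)
      = (e * τ₀ + ζ * e * L * ((phi a + phi b) / 2 - (avg (fun z => phi (u z)) + avg (fun z => phi (w z))) / 2)) / (4 * L) := by
    field_simp
  rw [e12, div_le_iff₀ h4L]
  linarith

end fam

/-! ### the one variable bound on `gam` -/

/-- the function `r` -/
def rF (p : ℝ) : ℝ := artanh p - p - 4 * (L - 1 / 2) * p ^ 3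

theorem hasDerivAt_artanh' {u : ℝ} (hu : u ∈ Ioo (-1 : ℝ) 1) :
    HasDerivAt artanh (1 / (1 - u ^ 2)) u := hasDerivAt_artanh_semi hu

theorem hasDerivAt_rF {p : ℝ} (hp : p ∈ Ioo (-1 : ℝ) 1) :
    HasDerivAt rF (p ^ 2 * (1 - 12 * (L - 1 / 2) * (1 - p ^ 2)) / (1 - p ^ 2)) p := by
  have h1 := hasDerivAt_artanh' hp
  have h2 : HasDerivAt (fun x : ℝ => 4 * (L - 1 / 2) * x ^ 3) (4 * (L - 1 / 2) * (3 * p ^ 2)) p := by
    have := (hasDerivAt_pow 3 p).const_mul (4 * (L - 1 / 2))
    simpa using this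
  have h3 := (h1.sub (hasDerivAt_id p)).sub h2
  refine h3.congr_deriv ?_
  have hp2 : 1 - p ^ 2 ≠ 0 := by
    have : 0 < 1 - p ^ 2 := by nlinarith [hp.1, hp.2]
    exact this.ne'
  field_simp
  ring

/-- the function `h` -/
def hF (p : ℝ) : ℝ := L * (1 - phi p) - 1 / 2 * p ^ 2 - (L - 1 / 2) * p ^ 4

theorem hasDerivAt_hF {p : ℝ} (hp : p ∈ Ioo (-1 : ℝ) 1) : HasDerivAt hF (rF p) p := by
  have h1 := hasDerivAt_phi_semi hp
  have hL := L_pos
  have h2 : HasDerivAt (fun x : ℝ => L * (1 - phi x)) (L * (-(-artanh p / L))) p :=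
    (h1.const_sub 1).const_mul L
  have h3 : HasDerivAt (fun x : ℝ => 1 / 2 * x ^ 2) (1 / 2 * (2 * p)) p := by
    have := (hasDerivAt_pow 2 p).const_mul (1 / 2 : ℝ)
    simpa using this
  have h4 : HasDerivAt (fun x : ℝ => (L - 1 / 2) * x ^ 4) ((L - 1 / 2) * (4 * p ^ 3)) p := by
    have := (hasDerivAt_pow 4 p).const_mul (L - 1 / 2)
    simpa using this
  have h5 := (h2.sub h3).sub h4
  refine h5.congr_deriv ?_
  unfold rF
  field_simp

theorem hF_continuous : Continuous hF := by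
  unfold hF
  have := phi_continuous_semi
  fun_prop

/-- `L (1 - phi q) ≤ q²/2 + (L - 1/2) q⁴` -/
theorem hF_nonpos {q : ℝ} (h0 : 0 ≤ q) (h1 : q < 1) : hF q ≤ 0 := by
  have hLb := L_bounds
  set c := 12 * (L - 1 / 2) with hc
  have hc1 : 2 < c := by rw [hc]; norm_num at hLb ⊢; linarith [hLb.1]
  set q₂ := √(1 - 1 / c) with hq₂
  have hinner : 0 < 1 - 1 / c := by
    have : 1 / c < 1 := by rw [div_lt_one (by linarith)]; linarith
    linarith
  have hq₂0 : 0 < q₂ := Real.sqrt_pos.2 hinner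
  have hq₂s : q₂ ^ 2 = 1 - 1 / c := Real.sq_sqrt hinner.le
  have hq₂1 : q₂ < 1 := by
    have : q₂ ^ 2 < 1 := by
      rw [hq₂s]
      have : 0 < 1 / c := by positivity
      linarith
    nlinarith
  have hr0 : rF 0 = 0 := by
    unfold rF
    simp
  -- `r` is antitone on `[0,q₂]`
  have hanti : AntitoneOn rF (Icc 0 q₂) := by
    apply antitoneOn_of_deriv_nonpos (convex_Icc _ _)
    · intro x hx
      exact (hasDerivAt_rF ⟨by linarith [hx.1], by linarith [hx.2]⟩).continuousAt.continuousWithinAt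
    · intro x hx
      rw [interior_Icc] at hx
      exact (hasDerivAt_rF ⟨by linarith [hx.1], by linarith [hx.2]⟩).differentiableAt.differentiableWithinAt
    · intro x hx
      rw [interior_Icc] at hx
      have hx1 : x < 1 := by linarith [hx.2]
      rw [(hasDerivAt_rF ⟨by linarith [hx.1], hx1⟩).deriv]
      have hp2 : 0 < 1 - x ^ 2 := by nlinarith [hx.1]
      apply div_nonpos_of_nonpos_of_nonneg _ hp2.le
      apply mul_nonpos_of_nonneg_of_nonpos (sq_nonneg x)
      have h3 : x ^ 2 ≤ q₂ ^ 2 := by nlinarith [hx.1, hx.2]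
      rw [hq₂s] at h3
      have h4 : 1 ≤ c * (1 - x ^ 2) := by
        have h5 : 1 / c ≤ 1 - x ^ 2 := by linarith
        have := mul_le_mul_of_nonneg_left h5 (show 0 ≤ c by linarith)
        rwa [mul_one_div_cancel (by linarith)] at this
      rw [← hc]
      linarith
  -- `r` is monotone on `[q₂,1)`
  have hmono : MonotoneOn rF (Ico q₂ 1) := by
    apply monotoneOn_of_deriv_nonneg (convex_Ico _ _)
    · intro x hx
      exact (hasDerivAt_rF ⟨by linarith [hx.1], hx.2⟩).continuousAt.continuousWithinAt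
    · intro x hx
      rw [interior_Ico] at hx
      exact (hasDerivAt_rF ⟨by linarith [hx.1], hx.2⟩).differentiableAt.differentiableWithinAt
    · intro x hx
      rw [interior_Ico] at hx
      have hx0 : 0 < x := by linarith [hx.1]
      rw [(hasDerivAt_rF ⟨by linarith, hx.2⟩).deriv]
      have hp2 : 0 < 1 - x ^ 2 := by nlinarith [hx.2]
      apply div_nonneg _ hp2.le
      apply mul_nonneg (sq_nonneg x)
      have h3 : q₂ ^ 2 ≤ x ^ 2 := by nlinarith [hx.1]
      rw [hq₂s] at h3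
      have h4 : c * (1 - x ^ 2) ≤ 1 := by
        have h5 : 1 - x ^ 2 ≤ 1 / c := by linarith
        have := mul_le_mul_of_nonneg_left h5 (show 0 ≤ c by linarith)
        rwa [mul_one_div_cancel (by linarith)] at this
      rw [← hc]
      linarith
  have hrle : ∀ p, 0 ≤ p → p ≤ q₂ → rF p ≤ 0 := by
    intro p hp0 hp
    have := hanti (left_mem_Icc.2 hq₂0.le) ⟨hp0, hp⟩ hp0
    rwa [hr0] at this
  by_cases hsign : rF q ≤ 0
  · -- `h` is antitone on `[0,q]`
    have hneg : ∀ p, 0 ≤ p → p ≤ q → rF p ≤ 0 := by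
      intro p hp0 hp
      by_cases h3 : p ≤ q₂
      · exact hrle p hp0 h3
      · have h4 : q₂ ≤ p := (not_le.1 h3).le
        have := hmono ⟨h4, by linarith⟩ ⟨h4.trans hp, h1⟩ hp
        linarith
    have hA : AntitoneOn hF (Icc 0 q) := by
      apply antitoneOn_of_deriv_nonpos (convex_Icc _ _) hF_continuous.continuousOn
      · intro x hx
        rw [interior_Icc] at hx
        exact (hasDerivAt_hF ⟨by linarith [hx.1], by linarith [hx.2]⟩).differentiableAt.differentiableWithinAt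
      · intro x hx
        rw [interior_Icc] at hx
        rw [(hasDerivAt_hF ⟨by linarith [hx.1], by linarith [hx.2]⟩).deriv]
        exact hneg x hx.1.le hx.2.le
    have := hA (left_mem_Icc.2 h0) (right_mem_Icc.2 h0) h0
    have hz : hF 0 = 0 := by
      unfold hF
      rw [phi_zero_semi]
      simp
    linarith
  · -- `h` is monotone on `[q,1]`
    have hsign' : 0 < rF q := not_le.1 hsign
    have hqq : q₂ < q := by
      by_contra h3
      have := hrle q h0 (not_lt.1 h3)
      linarith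
    have hpos : ∀ p, q ≤ p → p < 1 → 0 ≤ rF p := by
      intro p hp hp1
      have := hmono ⟨hqq.le, h1⟩ ⟨hqq.le.trans hp, hp1⟩ hp
      linarith
    have hM : MonotoneOn hF (Icc q 1) := by
      apply monotoneOn_of_deriv_nonneg (convex_Icc _ _) hF_continuous.continuousOn
      · intro x hx
        rw [interior_Icc] at hx
        exact (hasDerivAt_hF ⟨by linarith [hx.1], hx.2⟩).differentiableAt.differentiableWithinAt
      · intro x hx
        rw [interior_Icc] at hx
        rw [(hasDerivAt_hF ⟨by linarith [hx.1], hx.2⟩).deriv]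
        exact hpos x hx.1.le hx.2
    have := hM (left_mem_Icc.2 h1.le) (right_mem_Icc.2 h1.le) h1.le
    have hz : hF 1 = 0 := by
      unfold hF
      rw [phi_one_semi]
      ring
    linarith

/-- the one variable lemma -/
theorem gam_ge_S {s : ℝ} (hs : 0 < s) : 93 / 50 * (1 - S s) ≤ gam s := by
  have hLb := L_bounds
  have hL := L_pos
  have hq0 : 0 ≤ tanh s := (tanh_pos' hs).le
  have hq1 := Real.tanh_lt_one s
  have hA := hF_nonpos hq0 hq1
  unfold hF at hA
  rw [phi_tanh] at hA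
  have hY : 0 ≤ 1 - S s := by
    have := S_le_one hs.le
    linarith
  set c := cosh s with hc
  have hc1 : 1 ≤ c := Real.one_le_cosh s
  have hcp : 0 < c := by linarith
  set z := tanh s ^ 2 with hz
  have hzeq : 1 - z = 1 / c ^ 2 := one_sub_tanh_sq s
  set w := 1 - z with hw
  have hw0 : 0 < w := by rw [hzeq]; positivity
  have hwc : w * c ^ 2 = 1 := by rw [hzeq]; field_simp
  have hz0 : 0 ≤ z := sq_nonneg _
  have hz1 : z ≤ 1 := by linarith
  have hsinh : sinh s ^ 2 = c ^ 2 - 1 := Real.sinh_sq s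
  have hzc : c ^ 2 - 1 = z * c ^ 2 := by
    have : z = 1 - w := by rw [hw]; ring
    rw [this]
    nlinarith
  have hlog : log (2 * c) = L + log c := by
    unfold L
    rw [Real.log_mul (by norm_num) hcp.ne']
  have hlogc : 0 ≤ log c := Real.log_nonneg hc1
  have hlog2 : 2 * log c ≤ c ^ 2 - 1 := by
    have := Real.log_le_sub_one_of_pos (show 0 < c ^ 2 by positivity)
    rw [Real.log_pow] at this
    push_cast at this
    linarith
  have hpos : 0 < L + log c := by linarith
  unfold gam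
  rw [hsinh, hlog, le_div_iff₀ hpos]
  -- `w (L + log c) ≤ L - (L - 1/2) z`
  have h1 : w * (L + log c) ≤ L - (L - 1 / 2) * z := by
    have h2 : w * (2 * log c) ≤ w * (c ^ 2 - 1) := mul_le_mul_of_nonneg_left hlog2 hw0.le
    have h3 : w * (c ^ 2 - 1) = z := by
      rw [hzc]
      have : z * (w * c ^ 2) = z := by rw [hwc, mul_one]
      linarith
    rw [h3] at h2
    have : w = 1 - z := rfl
    nlinarith
  have h4 : L * (1 - S s) ≤ z * (1 / 2 + (L - 1 / 2) * z) := by
    have e : tanh s ^ 4 = z ^ 2 := by rw [hz]; ring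
    have e2 : 1 / 2 * tanh s ^ 2 = 1 / 2 * z := rfl
    rw [e] at hA
    nlinarith
  -- the polynomial inequality
  have hb : (L - 1 / 2) ^ 2 ≤ 4 / 100 := by
    have : L - 1 / 2 < 1 / 5 := by norm_num at hLb ⊢; linarith [hLb.2]
    have h5 : 0 < L - 1 / 2 := by norm_num at hLb ⊢; linarith [hLb.1]
    nlinarith
  have hpoly : 93 / 50 * ((1 / 2 + (L - 1 / 2) * z) * (L - (L - 1 / 2) * z)) ≤ L := by
    have e : (1 / 2 + (L - 1 / 2) * z) * (L - (L - 1 / 2) * z)
        = L / 2 + (L - 1 / 2) ^ 2 * (z * (1 - z)) := by ring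
    rw [e]
    have h5 : z * (1 - z) ≤ 1 / 4 := by nlinarith [sq_nonneg (z - 1 / 2)]
    have h6 : (L - 1 / 2) ^ 2 * (z * (1 - z)) ≤ 4 / 100 * (1 / 4) := by
      have h7 : 0 ≤ z * (1 - z) := mul_nonneg hz0 (by linarith)
      have h8 : 0 ≤ (L - 1 / 2) ^ 2 := sq_nonneg _
      nlinarith
    norm_num at hLb ⊢
    nlinarith [hLb.1]
  -- assemble: multiply by `w L`
  have hmain : 93 / 50 * (1 - S s) * (w * (L + log c)) * L ≤ z * L := by
    have h2nn : 0 ≤ L - (L - 1 / 2) * z := by
      have h5 : 0 < L - 1 / 2 := by norm_num at hLb ⊢; linarith [hLb.1]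
      nlinarith
    have a1 : (1 - S s) * (w * (L + log c)) ≤ (1 - S s) * (L - (L - 1 / 2) * z) :=
      mul_le_mul_of_nonneg_left h1 hY
    have a2 : L * (1 - S s) * (L - (L - 1 / 2) * z)
        ≤ z * (1 / 2 + (L - 1 / 2) * z) * (L - (L - 1 / 2) * z) :=
      mul_le_mul_of_nonneg_right h4 h2nn
    have a3 : z * (93 / 50 * ((1 / 2 + (L - 1 / 2) * z) * (L - (L - 1 / 2) * z))) ≤ z * L :=
      mul_le_mul_of_nonneg_left hpoly hz0
    have a4 : L * ((1 - S s) * (w * (L + log c))) ≤ L * ((1 - S s) * (L - (L - 1 / 2) * z)) :=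
      mul_le_mul_of_nonneg_left a1 hL.le
    calc 93 / 50 * (1 - S s) * (w * (L + log c)) * L
        = 93 / 50 * (L * ((1 - S s) * (w * (L + log c)))) := by ring
      _ ≤ 93 / 50 * (L * ((1 - S s) * (L - (L - 1 / 2) * z))) :=
          mul_le_mul_of_nonneg_left a4 (by norm_num)
      _ = 93 / 50 * (L * (1 - S s) * (L - (L - 1 / 2) * z)) := by ring
      _ ≤ 93 / 50 * (z * (1 / 2 + (L - 1 / 2) * z) * (L - (L - 1 / 2) * z)) :=
          mul_le_mul_of_nonneg_left a2 (by norm_num)
      _ = z * (93 / 50 * ((1 / 2 + (L - 1 / 2) * z) * (L - (L - 1 / 2) * z))) := by ring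
      _ ≤ z * L := a3
  have hmain2 : 93 / 50 * (1 - S s) * (w * (L + log c)) ≤ z :=
    le_of_mul_le_mul_right hmain hL
  -- divide by `w`
  have hfin := mul_le_mul_of_nonneg_right hmain2 (show 0 ≤ c ^ 2 by positivity)
  have e : 93 / 50 * (1 - S s) * (w * (L + log c)) * c ^ 2
      = 93 / 50 * (1 - S s) * (L + log c) * (w * c ^ 2) := by ring
  rw [e, hwc, mul_one, ← hzc] at hfin
  exact hfin

end

end CK322
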