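import Vale.Agent.Lib.P322.PsiC

/-!
Definitions shared by the one step inequality of the second Bellman function:
the numbers attached to a pair of means in the coordinates `(t,q)`, and the statement `KEYprop`.
-/

open Real Set Filter Topology

namespace CK322

noncomputable section

/-- `x' = (phi a₊ + phi a₋) / 2` -/
def xq (t q : ℝ) : ℝ := (phi (aP t q) + phi (aM t q)) / 2

/-- `I = phi ā - x'` -/
def Iq (t q : ℝ) : ℝ := phi (abar t q) - xq t q

/-- the crossing value `E = x' - p₀ S(τ)` -/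
def Eq (t q : ℝ) : ℝ := xq t q - p0 t q * S (artanh q)

/-- `J = D1 a₊ a₋` -/
def Jq (t q : ℝ) : ℝ := D1 (aP t q) (aM t q)

/-- the slope of the chi-square line, `s* = δ²/(1 - a₊ a₋) = p₀ q²/(1+q²)`. -/
def sstar (t q : ℝ) : ℝ := p0 t q * (q ^ 2 / (1 + q ^ 2))

/-- left side of the one step inequality, as a function of `D~`. -/
def Lft (t q x : ℝ) : ℝ := 2 * Iq t q + psiC (x + Iq t q) - psiC x

/-- The numerical statement behind the one step inequality: either the chi-square line alone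
is enough on all of `[0, x']`, or it is enough up to `D ≥ E`, where the tangent line of the
`M` bound at `τ` takes over. -/
def KEYprop (t q : ℝ) : Prop :=
  (∃ D, xq t q ≤ D ∧ ∀ x, 0 ≤ x → x ≤ D → Lft t q x ≤ Jq t q + sstar t q * x) ∨
  (∃ D, 0 ≤ D ∧ Eq t q ≤ D ∧ (∀ x, 0 ≤ x → x ≤ D → Lft t q x ≤ Jq t q + sstar t q * x) ∧
    Lft t q D ≤ Jq t q + gam (artanh q) * (D - Eq t q))

section ids

variable {t q : ℝ}

theorem Jq_eq (ht0 : 0 ≤ t) (ht1 : t < 1) (hq0 : 0 < q) (hq1 : q < 1) :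
    Jq t q = delt t q * artanh q / L := tq_D1 ht0 ht1 hq0 hq1

theorem Jq_sub (ht0 : 0 ≤ t) (ht1 : t < 1) (hq0 : 0 < q) (hq1 : q < 1) :
    Jq t q - 2 * Iq t q = p0 t q * rhoθ (artanh q) + LL t q / L := by
  have h := tq_identity ht0 ht1 hq0 hq1
  have hL := L_pos
  unfold Jq Iq xq
  field_simp
  linarith

/-- `hh (artanh q) = q artanh q / L` -/
theorem hh_artanh (hq0 : 0 < q) (hq1 : q < 1) : hh (artanh q) = q * artanh q / L := by
  unfold hh
  rw [Real.tanh_artanh ⟨by linarith, hq1⟩]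
  ring

theorem Jq_eq' (ht0 : 0 ≤ t) (ht1 : t < 1) (hq0 : 0 < q) (hq1 : q < 1) :
    Jq t q = p0 t q * hh (artanh q) := by
  rw [Jq_eq ht0 ht1 hq0 hq1, hh_artanh hq0 hq1]
  unfold delt
  ring

theorem Iq_eq (ht0 : 0 ≤ t) (ht1 : t < 1) (hq0 : 0 < q) (hq1 : q < 1) :
    Iq t q = p0 t q * (1 - S (artanh q)) - LL t q / (2 * L) := by
  have h1 := Jq_sub ht0 ht1 hq0 hq1
  have h2 := Jq_eq' ht0 ht1 hq0 hq1
  have hL := L_pos
  unfold rhoθ at h1
  rw [h2] at h1
  have e : LL t q / (2 * L) = LL t q / L / 2 := by field_simp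
  rw [e]
  linarith

theorem Eq_eq (ht0 : 0 ≤ t) (ht1 : t < 1) (hq0 : 0 < q) (hq1 : q < 1) :
    Eq t q = phi (abar t q) - p0 t q + LL t q / (2 * L) := by
  have h := Iq_eq ht0 ht1 hq0 hq1
  unfold Iq at h
  unfold Eq
  linarith

theorem p0_add_eps (ht0 : 0 ≤ t) (ht1 : t < 1) (hq0 : 0 < q) (hq1 : q < 1) :
    p0 t q + eps t q = 1 := by
  have hZ := ZZ_pos ht0 ht1 hq0.le hq1
  unfold p0 eps
  field_simp
  unfold ZZ
  ring

end ids

end

end CK322
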