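import Vale.Agent.Lib.P322.JV
import Vale.Agent.Lib.P322.KDefs

/-!
The one step inequality for the second Bellman inequality.
-/

open Real Set Filter Topology

namespace CK322

noncomputable section

theorem phi_le_one' {u : ℝ} (hu : u ∈ Ioo (-1:ℝ) 1) : phi u ≤ 1 := by
  have h := KL_nonneg (a := 0) ⟨by norm_num, by norm_num⟩ hu
  rw [phi_zero_semi, Real.artanh_zero] at h
  have hL := L_pos
  have : 0 ≤ L * (1 - phi u) := by linarith
  have := nonneg_of_mul_nonneg_right this hL
  linarith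

/-- `(1 - phi u) / u` is increasing -/
theorem one_sub_phi_ratio {q u : ℝ} (hq : 0 < q) (hqu : q ≤ u) (hu : u < 1) :
    (1 - phi q) * u ≤ (1 - phi u) * q := by
  have hq1 : q ∈ Ioo (-1:ℝ) 1 := ⟨by linarith, by linarith⟩
  have hu1 : u ∈ Ioo (-1:ℝ) 1 := ⟨by linarith, hu⟩
  have h1 := KL_nonneg hq1 hu1
  have h2 := KL_nonneg (u := 0) hq1 ⟨by norm_num, by norm_num⟩
  rw [phi_zero_semi] at h2
  have hL := L_pos
  -- `u * h2 + q * h1`
  have h3 : 0 ≤ L * ((1 - phi u) * q - (1 - phi q) * u) := by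
    have a1 := mul_nonneg (show 0 ≤ q by linarith) h1
    have a2 := mul_nonneg (show 0 ≤ u - q by linarith) h2
    nlinarith
  have := nonneg_of_mul_nonneg_right h3 hL
  linarith

section tq

variable {t q : ℝ}

theorem abar_eq (ht0 : 0 ≤ t) (ht1 : t < 1) (hq0 : 0 < q) (hq1 : q < 1) :
    (aP t q + aM t q) / 2 = abar t q := (tq_avg ht0 ht1 hq0 hq1).1

theorem abar_mem' (ht0 : 0 ≤ t) (ht1 : t < 1) (hq0 : 0 < q) (hq1 : q < 1) :
    abar t q ∈ Ioo (-1:ℝ) 1 := by
  obtain ⟨hP, hM, -, -⟩ := tq_mem ht0 ht1 hq0 hq1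
  rw [← abar_eq ht0 ht1 hq0 hq1]
  constructor
  · have := hP.1; have := hM.1; linarith
  · have := hP.2; have := hM.2; linarith

theorem Iq_nonneg (ht0 : 0 ≤ t) (ht1 : t < 1) (hq0 : 0 < q) (hq1 : q < 1) : 0 ≤ Iq t q := by
  obtain ⟨hP, hM, -, -⟩ := tq_mem ht0 ht1 hq0 hq1
  have hA := abar_mem' ht0 ht1 hq0 hq1
  have h1 := KL_nonneg hA hP
  have h2 := KL_nonneg hA hM
  have e := abar_eq ht0 ht1 hq0 hq1
  have hL := L_pos
  have h3 : 0 ≤ L * Iq t q := by
    unfold Iq xq
    have e2 : aP t q - abar t q + (aM t q - abar t q) = 0 := by linarith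
    have e3 : artanh (abar t q) * (aP t q - abar t q) + artanh (abar t q) * (aM t q - abar t q) = 0 := by
      rw [← mul_add, e2, mul_zero]
    nlinarith
  exact nonneg_of_mul_nonneg_right h3 hL

theorem tanh_artanh' (hq0 : 0 < q) (hq1 : q < 1) : tanh (artanh q) = q :=
  Real.tanh_artanh ⟨by linarith, hq1⟩

theorem Y_nonneg (hq0 : 0 < q) (hq1 : q < 1) : 0 ≤ 1 - S (artanh q) := by
  have := S_le_one (artanh_pos ⟨hq0, hq1⟩).le
  linarith

theorem Iq_le (ht0 : 0 ≤ t) (ht1 : t < 1) (hq0 : 0 < q) (hq1 : q < 1) :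
    Iq t q ≤ p0 t q * (1 - S (artanh q)) := by
  rw [Iq_eq ht0 ht1 hq0 hq1]
  have := LL_nonneg ht0 ht1 hq0 hq1
  have hL := L_pos
  have : 0 ≤ LL t q / (2 * L) := by positivity
  linarith

theorem Iq_lt_one (ht0 : 0 ≤ t) (ht1 : t < 1) (hq0 : 0 < q) (hq1 : q < 1) : Iq t q < 1 := by
  have h := Iq_le ht0 ht1 hq0 hq1
  obtain ⟨hp1, hp0⟩ := p0_le_one ht0 ht1 hq0.le hq1
  have hS := S_pos (artanh q)
  have hY := Y_nonneg hq0 hq1
  nlinarith

/-- `psiC` at `p0 Y` -/
theorem psiC_p0Y (ht0 : 0 ≤ t) (ht1 : t < 1) (hq0 : 0 < q) (hq1 : q < 1) :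
    psiC (p0 t q * (1 - S (artanh q))) ≤ p0 t q * rhoθ (artanh q) := by
  obtain ⟨hp1, hp0⟩ := p0_le_one ht0 ht1 hq0.le hq1
  have hS := S_pos (artanh q)
  have hY := Y_nonneg hq0 hq1
  have hlt : p0 t q * (1 - S (artanh q)) < 1 := by nlinarith
  obtain ⟨θ, h0, h1, h2, -⟩ := psiC_attain hlt
  rw [h2]
  have hτ : 0 ≤ artanh q := (artanh_pos ⟨hq0, hq1⟩).le
  have a1 := rhoθ_tangent h0 hτ
  have a2 := rhoθ_tangent h0 (le_refl (0 : ℝ))
  rw [S_zero, rhoθ_zero] at a2
  unfold tanL
  nlinarith [mul_le_mul_of_nonneg_left a1 hp0.le, mul_le_mul_of_nonneg_left a2 (show 0 ≤ 1 - p0 t q by linarith)]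

/-- `Lft` at zero is below `J` -/
theorem Lft_zero_le (ht0 : 0 ≤ t) (ht1 : t < 1) (hq0 : 0 < q) (hq1 : q < 1) :
    Lft t q 0 ≤ Jq t q := by
  have h0 := Jq_sub ht0 ht1 hq0 hq1
  have h1 := Iq_le ht0 ht1 hq0 hq1
  obtain ⟨hp1, hp0⟩ := p0_le_one ht0 ht1 hq0.le hq1
  have hS := S_pos (artanh q)
  have hY := Y_nonneg hq0 hq1
  have hlt : p0 t q * (1 - S (artanh q)) < 1 := by nlinarith
  have h2 := psiC_mono h1 hlt
  have h3 := psiC_p0Y ht0 ht1 hq0 hq1
  have hLL := LL_nonneg ht0 ht1 hq0 hq1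
  have hL := L_pos
  have h4 : 0 ≤ LL t q / L := by positivity
  unfold Lft
  rw [zero_add, psiC_zero]
  linarith

theorem sstar_eq (ht0 : 0 ≤ t) (ht1 : t < 1) (hq0 : 0 < q) (hq1 : q < 1) :
    (aP t q - aM t q) ^ 2 / (4 * (1 - aP t q * aM t q)) = sstar t q := by
  have h1 : 0 < 1 + t * q := by nlinarith
  have h2 : 0 < 1 - t * q := by nlinarith
  have hZ : 0 < ZZ t q := by
    unfold ZZ
    nlinarith
  have hZ' : ZZ t q = (1 + t * q) * (1 - t * q) := by unfold ZZ; ring
  have ht2 : 0 < 1 - t ^ 2 := by nlinarith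
  unfold aP aM sstar p0
  rw [hZ']
  have hq2 : 0 < 1 + q ^ 2 := by positivity
  have e : 1 - (t + q) / (1 + t * q) * ((t - q) / (1 - t * q))
      = (1 - t ^ 2) * (1 + q ^ 2) / ((1 + t * q) * (1 - t * q)) := by
    field_simp
    ring
  rw [e]
  have e2 : (t + q) / (1 + t * q) - (t - q) / (1 - t * q)
      = 2 * q * (1 - t ^ 2) / ((1 + t * q) * (1 - t * q)) := by
    field_simp
    ring
  rw [e2]
  field_simp
  ring

end tq

/-- `θ' ↦ θ' + L gam(θ) y(θ')` is minimal at `θ' = θ`. -/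
theorem gam_min {θ θ' : ℝ} (h : 0 < θ) (h' : 0 < θ') :
    θ + L * gam θ * (S θ / tanh θ) ≤ θ' + L * gam θ * (S θ' / tanh θ') := by
  have hL := L_pos
  have hg := gam_pos h
  set G : ℝ → ℝ := fun x => x + L * gam θ * (S x / tanh x) with hG
  have hd : ∀ x, 0 < x → HasDerivAt G (1 + L * gam θ * (-1 / (L * gam x))) x := by
    intro x hx
    exact (hasDerivAt_id x).add ((hasDerivAt_y hx).const_mul _)
  have hdv : ∀ x, 0 < x → deriv G x = 1 - gam θ / gam x := by
    intro x hx
    rw [(hd x hx).deriv]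
    have := gam_pos hx
    field_simp
    ring
  have hcont : ContinuousOn G (Ioi 0) := fun x hx =>
    (hd x hx).continuousAt.continuousWithinAt
  rcases le_total θ θ' with hle | hle
  · have hm : MonotoneOn G (Ici θ) := by
      apply monotoneOn_of_deriv_nonneg (convex_Ici θ)
      · exact hcont.mono (fun x hx => lt_of_lt_of_le h hx)
      · intro x hx
        rw [interior_Ici] at hx
        exact (hd x (lt_trans h hx)).differentiableAt.differentiableWithinAt
      · intro x hx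
        rw [interior_Ici] at hx
        have hx0 : 0 < x := lt_trans h hx
        rw [hdv x hx0]
        have hgx := gam_pos hx0
        have : gam θ ≤ gam x := gam_mono h hx0 (le_of_lt hx)
        rw [sub_nonneg, div_le_one hgx]
        exact this
    exact hm (mem_Ici.2 le_rfl) (mem_Ici.2 hle) hle
  · have hm : AntitoneOn G (Icc θ' θ) := by
      apply antitoneOn_of_deriv_nonpos (convex_Icc θ' θ)
      · exact hcont.mono (fun x hx => lt_of_lt_of_le h' hx.1)
      · intro x hx
        rw [interior_Icc] at hx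
        exact (hd x (lt_trans h' hx.1)).differentiableAt.differentiableWithinAt
      · intro x hx
        rw [interior_Icc] at hx
        have hx0 : 0 < x := lt_trans h' hx.1
        rw [hdv x hx0]
        have hgx := gam_pos hx0
        have : gam x ≤ gam θ := gam_mono hx0 h (le_of_lt hx.2)
        rw [sub_nonpos, le_div_iff₀ hgx, one_mul]
        exact this
    exact hm (left_mem_Icc.2 hle) (right_mem_Icc.2 hle) hle

/-- `y` is antitone -/
theorem y_anti : AntitoneOn (fun s => S s / tanh s) (Ioi 0) := by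
  apply antitoneOn_of_deriv_nonpos (convex_Ioi 0)
  · exact fun x hx => (hasDerivAt_y hx).continuousAt.continuousWithinAt
  · intro x hx
    rw [interior_Ioi] at hx
    exact (hasDerivAt_y hx).differentiableAt.differentiableWithinAt
  · intro x hx
    rw [interior_Ioi] at hx
    rw [(hasDerivAt_y hx).deriv]
    have := gam_pos hx
    have hL := L_pos
    apply div_nonpos_of_nonpos_of_nonneg (by norm_num) (by positivity)

/-- the slope inequality used along the `M` line -/
theorem M_slope {q δ x' I s : ℝ} (hq0 : 0 < q) (hq1 : q < 1) (hδ : 0 < δ) (hI0 : 0 ≤ I)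
    (hϖ : x' + I ≤ 1) (hIup : I * q ≤ δ * (1 - S (artanh q))) (hs0 : 0 < s) (hsq : artanh q ≤ s)
    (hx : 0 ≤ x' - δ * (S s / tanh s)) :
    dpsi (x' + I - δ * (S s / tanh s)) - dpsi (x' - δ * (S s / tanh s)) ≤ gam s := by
  have hτ₀ : tanh (artanh q) = q := tanh_artanh' hq0 hq1
  have hτs : 0 < tanh s := tanh_pos' hs0
  have hqs : q ≤ tanh s := by
    rw [← hτ₀]; exact tanh_mono' hsq
  have hSs := S_pos s
  have hw : 0 < δ * (S s / tanh s) := mul_pos hδ (y_pos hs0)
  have hslope := dpsi_diff_le_w (x := x' - δ * (S s / tanh s)) (I := I) (w := δ * (S s / tanh s))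
    hx hI0 hw (by linarith)
  have e1 : x' - δ * (S s / tanh s) + I = x' + I - δ * (S s / tanh s) := by ring
  rw [e1] at hslope
  have hY : 0 ≤ 1 - S s := by
    have := S_le_one hs0.le
    linarith
  have hIup2 : I * tanh s ≤ δ * (1 - S s) := by
    have h4 := one_sub_phi_ratio hq0 hqs (Real.tanh_lt_one s)
    rw [phi_tanh] at h4
    have h5 : phi q = S (artanh q) := by
      rw [← phi_tanh, hτ₀]
    rw [h5] at h4
    -- multiply by `q`
    have h6 : I * q * tanh s ≤ δ * (1 - S (artanh q)) * tanh s :=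
      mul_le_mul_of_nonneg_right hIup hτs.le
    have h7 : δ * ((1 - S (artanh q)) * tanh s) ≤ δ * ((1 - S s) * q) :=
      mul_le_mul_of_nonneg_left h4 hδ.le
    have h8 : q * (I * tanh s) ≤ q * (δ * (1 - S s)) := by nlinarith
    exact le_of_mul_le_mul_left h8 hq0
  have hfrac : I / (δ * (S s / tanh s) + I) ≤ 1 - S s := by
    have hd : 0 < δ * (S s / tanh s) + I := by linarith
    rw [div_le_iff₀ hd]
    have e4 : (1 - S s) * (δ * (S s / tanh s) + I)
        = ((1 - S s) * δ * S s + (1 - S s) * I * tanh s) / tanh s := by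
      field_simp
    rw [e4, le_div_iff₀ hτs]
    nlinarith [mul_le_mul_of_nonneg_right hIup2 hSs.le]
  have hgs := gam_ge_S hs0
  have := mul_le_mul_of_nonneg_left hfrac (show (0 : ℝ) ≤ 93 / 50 by norm_num)
  linarith

/-- the `M` regime -/
theorem M_regime {q δ x' I v Ds E0 : ℝ} (hq0 : 0 < q) (hq1 : q < 1) (hδ : 0 < δ)
    (hI0 : 0 ≤ I) (hϖ : x' + I ≤ 1) (hIup : I * q ≤ δ * (1 - S (artanh q))) (hv : 0 < v)
    (hE : x' - Ds ≤ δ * (S (artanh q) / q)) (hDs0 : 0 ≤ Ds) (hDs : Ds < x' - v)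
    (hM : ∀ θ, 0 < θ → δ * (S θ / tanh θ) = v → δ * θ / L ≤ E0) :
    δ * artanh q / L + gam (artanh q) * (Ds - (x' - δ * (S (artanh q) / q)))
      - (psiC (Ds + I) - psiC Ds) + (psiC (x' - v + I) - psiC (x' - v)) ≤ E0 := by
  have hL := L_pos
  have hθ₀ : 0 < artanh q := Real.artanh_pos ⟨hq0, hq1⟩
  have hτ₀ : tanh (artanh q) = q := tanh_artanh' hq0 hq1
  have hcy : ContinuousOn (fun s => δ * (S s / tanh s)) (Ioi 0) := fun s hs =>
    ((hasDerivAt_y hs).continuousAt.const_mul δ).continuousWithinAt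
  obtain ⟨T, hT1, hT2⟩ : ∃ T, artanh q ≤ T ∧ δ * (S T / q) < v := by
    have h3 : Tendsto (fun s => δ * (S s / q)) atTop (𝓝 (δ * (0 / q))) :=
      (S_tendsto.div_const q).const_mul δ
    have h4 : δ * (0 / q) < v := by simpa using hv
    have h5 := (h3.eventually (gt_mem_nhds h4)).and (eventually_ge_atTop (artanh q))
    obtain ⟨T, a, b⟩ := h5.exists
    exact ⟨T, b, a⟩
  have hTy : δ * (S T / tanh T) ≤ v := by
    have hTpos : 0 < T := hθ₀.trans_le hT1
    have h3 : q ≤ tanh T := by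
      rw [← hτ₀]; exact tanh_mono' hT1
    have h4 : S T / tanh T ≤ S T / q := div_le_div_of_nonneg_left (S_pos T).le hq0 h3
    have := mul_le_mul_of_nonneg_left h4 hδ.le
    exact (this.trans hT2.le)
  have hcyI : ContinuousOn (fun s => δ * (S s / tanh s)) (Icc (artanh q) T) :=
    hcy.mono (fun s hs => hθ₀.trans_le hs.1)
  obtain ⟨θ, hθI, hθv⟩ := intermediate_value_Icc' hT1 hcyI
    (show v ∈ Icc (δ * (S T / tanh T)) (δ * (S (artanh q) / tanh (artanh q))) from ⟨hTy, by
      rw [hτ₀]; linarith⟩)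
  have hθv' : δ * (S θ / tanh θ) = v := hθv
  have hθpos : 0 < θ := hθ₀.trans_le hθI.1
  have hcyI2 : ContinuousOn (fun s => δ * (S s / tanh s)) (Icc (artanh q) θ) :=
    hcy.mono (fun s hs => hθ₀.trans_le hs.1)
  obtain ⟨θs, hθsI, hθsv⟩ := intermediate_value_Icc' hθI.1 hcyI2
    (show x' - Ds ∈ Icc (δ * (S θ / tanh θ)) (δ * (S (artanh q) / tanh (artanh q))) from ⟨by
      rw [hθv']; linarith, by
      rw [hτ₀]; exact hE⟩)
  have hθsv' : δ * (S θs / tanh θs) = x' - Ds := hθsv
  have hθspos : 0 < θs := hθ₀.trans_le hθsI.1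
  -- the function
  set F : ℝ → ℝ := fun s => δ * s / L - (psiC (x' + I - δ * (S s / tanh s))
    - psiC (x' - δ * (S s / tanh s))) with hF
  have hypos : ∀ s, 0 < s → 0 < δ * (S s / tanh s) := fun s hs => mul_pos hδ (y_pos hs)
  have hdF : ∀ s, 0 < s → HasDerivAt F
      (δ / L - (dpsi (x' + I - δ * (S s / tanh s)) - dpsi (x' - δ * (S s / tanh s)))
        * (δ / (L * gam s))) s := by
    intro s hs
    have hw := hypos s hs
    have hg := gam_pos hs
    have hyd : HasDerivAt (fun s => δ * (S s / tanh s)) (δ * (-1 / (L * gam s))) s :=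
      (hasDerivAt_y hs).const_mul δ
    have b1 : HasDerivAt (fun s => x' + I - δ * (S s / tanh s)) (-(δ * (-1 / (L * gam s)))) s := by
      simpa using hyd.const_sub (x' + I)
    have b2 : HasDerivAt (fun s => x' - δ * (S s / tanh s)) (-(δ * (-1 / (L * gam s)))) s := by
      simpa using hyd.const_sub x'
    have hc1 : x' + I - δ * (S s / tanh s) < 1 := by linarith
    have hc2 : x' - δ * (S s / tanh s) < 1 := by linarith
    have c1 := (hasDerivAt_psiC hc1).comp s b1
    have c2 := (hasDerivAt_psiC hc2).comp s b2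
    have a3 : HasDerivAt (fun s => δ * s / L) (δ / L) s := by
      have := (hasDerivAt_id s).const_mul δ
      have := this.div_const L
      simpa using this
    have := a3.sub (c1.sub c2)
    refine this.congr_deriv ?_
    field_simp
  have hmono : MonotoneOn F (Icc θs θ) := by
    apply monotoneOn_of_deriv_nonneg (convex_Icc _ _)
    · intro s hs
      exact (hdF s (hθspos.trans_le hs.1)).continuousAt.continuousWithinAt
    · intro s hs
      rw [interior_Icc] at hs
      exact (hdF s (hθspos.trans hs.1)).differentiableAt.differentiableWithinAt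
    · intro s hs
      rw [interior_Icc] at hs
      have hs0 : 0 < s := hθspos.trans hs.1
      rw [(hdF s hs0).deriv]
      have hg := gam_pos hs0
      have hxpos : 0 ≤ x' - δ * (S s / tanh s) := by
        have := y_anti hθspos hs0 hs.1.le
        have h2 := mul_le_mul_of_nonneg_left this hδ.le
        simp only at h2
        rw [hθsv'] at h2
        linarith
      have hbound := M_slope hq0 hq1 hδ hI0 hϖ hIup hs0 (hθsI.1.trans hs.1.le) hxpos
      have e : δ / L - (dpsi (x' + I - δ * (S s / tanh s)) - dpsi (x' - δ * (S s / tanh s)))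
            * (δ / (L * gam s))
          = δ / (L * gam s) * (gam s - (dpsi (x' + I - δ * (S s / tanh s))
            - dpsi (x' - δ * (S s / tanh s)))) := by
        field_simp
      rw [e]
      apply mul_nonneg (by positivity)
      linarith
  have hFF := hmono (left_mem_Icc.2 hθsI.2) (right_mem_Icc.2 hθsI.2) hθsI.2
  have hF1 : F θs = δ * θs / L - (psiC (Ds + I) - psiC Ds) := by
    simp only [hF]
    rw [hθsv']
    have e1 : x' + I - (x' - Ds) = Ds + I := by ring
    have e2 : x' - (x' - Ds) = Ds := by ring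
    rw [e1, e2]
  have hF2 : F θ = δ * θ / L - (psiC (x' - v + I) - psiC (x' - v)) := by
    simp only [hF]
    rw [hθv']
    have e1 : x' + I - v = x' - v + I := by ring
    rw [e1]
  rw [hF1, hF2] at hFF
  have hfin := hM θ hθpos hθv'
  -- the value at `θs`
  have hmin := gam_min hθ₀ hθspos
  rw [hτ₀] at hmin
  have hg0 := gam_pos hθ₀
  have hval : δ * artanh q / L + gam (artanh q) * (Ds - (x' - δ * (S (artanh q) / q))) ≤ δ * θs / L := by
    have e1 : Ds - (x' - δ * (S (artanh q) / q)) = δ * (S (artanh q) / q) - δ * (S θs / tanh θs) := by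
      rw [hθsv']
      ring
    rw [e1]
    have h5 : δ / L * (artanh q + L * gam (artanh q) * (S (artanh q) / q))
        ≤ δ / L * (θs + L * gam (artanh q) * (S θs / tanh θs)) :=
      mul_le_mul_of_nonneg_left hmin (by positivity)
    have e2 : δ / L * (artanh q + L * gam (artanh q) * (S (artanh q) / q))
        = δ * artanh q / L + gam (artanh q) * (δ * (S (artanh q) / q)) := by
      field_simp
    have e3 : δ / L * (θs + L * gam (artanh q) * (S θs / tanh θs))
        = δ * θs / L + gam (artanh q) * (δ * (S θs / tanh θs)) := by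
      field_simp
    rw [e2, e3] at h5
    linarith
  linarith

/-- the deterministic form of the one step inequality -/
theorem K2_det {ap am v E0 : ℝ} (hap : ap ∈ Ioo (-1 : ℝ) 1) (ham : am ∈ Ioo (-1 : ℝ) 1)
    (hlt : am < ap) (hs : 0 ≤ ap + am) (hv : 0 < v) (hvx : v ≤ (phi ap + phi am) / 2)
    (hJ : D1 ap am + (ap - am) ^ 2 / (4 * (1 - ap * am)) * ((phi ap + phi am) / 2 - v) ≤ E0)
    (hM : ∀ θ, 0 < θ → (ap - am) / 2 * (S θ / tanh θ) = v → (ap - am) / 2 * θ / L ≤ E0)
    (hKEY : ∀ t q : ℝ, 0 ≤ t → t < 1 → 0 < q → q < 1 → KEYprop t q) :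
    2 * (phi ((ap + am) / 2) - (phi ap + phi am) / 2)
        + psiC (phi ((ap + am) / 2) - v) - psiC ((phi ap + phi am) / 2 - v) ≤ E0 := by
  obtain ⟨t, q, ht0, ht1, hq0, hq1, rfl, rfl⟩ := tq_exists hap ham hlt hs
  obtain ⟨h1, h2⟩ := tq_avg ht0 ht1 hq0 hq1
  rw [h2] at hM
  rw [h1]
  have hL := L_pos
  obtain ⟨hp1, hp0⟩ := p0_le_one ht0 ht1 hq0.le hq1
  rw [sstar_eq ht0 ht1 hq0 hq1] at hJ
  have hδ : 0 < delt t q := by
    unfold delt; exact mul_pos hq0 hp0
  have hI0 := Iq_nonneg ht0 ht1 hq0 hq1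
  have hϖ1 : phi (abar t q) ≤ 1 := phi_le_one' (abar_mem' ht0 ht1 hq0 hq1)
  have hxq : (phi (aP t q) + phi (aM t q)) / 2 = xq t q := rfl
  have hϖ : phi (abar t q) = xq t q + Iq t q := by
    unfold Iq; ring
  have hsnn : 0 ≤ sstar t q := by
    unfold sstar
    have : 0 < 1 + q ^ 2 := by positivity
    positivity
  rw [hxq] at hJ hvx ⊢
  have hD0 : 0 ≤ xq t q - v := by linarith
  have e0 : phi (abar t q) - v = xq t q - v + Iq t q := by rw [hϖ]; ring
  have e1 : phi (abar t q) - xq t q = Iq t q := rfl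
  rw [e0, e1]
  have hLft : 2 * Iq t q + psiC (xq t q - v + Iq t q) - psiC (xq t q - v)
      = Lft t q (xq t q - v) := rfl
  rw [hLft]
  have hJ' : Jq t q + sstar t q * (xq t q - v) ≤ E0 := hJ
  rcases hKEY t q ht0 ht1 hq0 hq1 with ⟨D, hD, hlow⟩ | ⟨D, hD0', hED, hlow, hup⟩
  · have h3 := hlow (xq t q - v) hD0 (by linarith)
    linarith
  by_cases hcase : xq t q - v ≤ D
  · have h3 := hlow (xq t q - v) hD0 hcase
    linarith
  · have hcase' : D < xq t q - v := not_le.1 hcase
    have hIup : Iq t q * q ≤ delt t q * (1 - S (artanh q)) := by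
      have h3 := Iq_le ht0 ht1 hq0 hq1
      have h4 := mul_le_mul_of_nonneg_right h3 hq0.le
      unfold delt
      nlinarith
    have hvc : delt t q * (S (artanh q) / q) = p0 t q * S (artanh q) := by
      unfold delt; field_simp
    have hEdef : Eq t q = xq t q - p0 t q * S (artanh q) := rfl
    have hM' : ∀ θ, 0 < θ → delt t q * (S θ / tanh θ) = v → delt t q * θ / L ≤ E0 := hM
    have hreg := M_regime hq0 hq1 hδ hI0 (by linarith) hIup hv
      (by rw [hvc]; rw [hEdef] at hED; linarith) hD0' hcase' hM'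
    rw [hvc, ← Jq_eq ht0 ht1 hq0 hq1, ← hEdef] at hreg
    unfold Lft at hup ⊢
    linarith

end

end CK322
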