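import Vale.Agent.Lib.P322.KSmall

/-!
The certificate check for `KEYprop` on the main range of `(t,q)`: interval enclosures on a cell,
the three forms of the inequality, and a binary tree of cells.
-/

open Real Set Filter Topology

namespace CK322

/-! ### comparisons and constants -/

def ivLe (a b : IV) : Bool := a.ok && b.ok && Nat.ble a.hi b.lo

theorem ivLe_sound {a b : IV} {x y : ℝ} (h : ivLe a b = true) (hx : IV.mem x a) (hy : IV.mem y b) :
    x ≤ y := by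
  unfold ivLe at h
  simp only [Bool.and_eq_true] at h
  obtain ⟨⟨h1, h2⟩, h3⟩ := h
  exact (hx h1).2.trans ((val_mono (Nat.le_of_ble_eq_true h3)).trans (hy h2).1)

def TWOIV : IV := IV.ofQ 2 1

theorem mem_TWO : IV.mem (2 : ℝ) TWOIV := IV.mem_ofQ' 2 1 _ (by norm_num)

def TWOL : IV := IV.mul TWOIV LIV

theorem mem_TWOL : IV.mem (2 * L) TWOL := IV.mem_mul mem_TWO mem_LIV

def HALFN : ℕ := 9223372036854775808

theorem val_HALFN : val HALFN = 1 / 2 := by
  unfold val HALFN SC; norm_num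

theorem val_lt_one {n : ℕ} (h : n < SC) : val n < 1 := by
  have := SC_pos
  unfold val
  rw [div_lt_one this]
  exact_mod_cast h

theorem val_pos_of {n : ℕ} (h : 0 < n) : 0 < val n := by
  have := SC_pos
  unfold val
  apply div_pos _ this
  exact_mod_cast h

theorem val_sub_le {a b : ℕ} {x : ℝ} (h : val a - val b ≤ x) (h0 : 0 ≤ x) : val (Nat.sub a b) ≤ x := by
  by_cases hc : b ≤ a
  · rw [show Nat.sub a b = a - b from rfl, val_sub_of_le hc]
    exact h
  · have e : Nat.sub a b = 0 := by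
      show a - b = 0
      omega
    rw [e]
    have : val 0 = 0 := by simp [val]
    rw [this]
    exact h0

/-! ### enclosures at a point -/

def Siv (q : ℕ) : IV := ivS (IV.pt q)
def Yiv (q : ℕ) : IV := IV.sub ONE (Siv q)
def Riv (q : ℕ) : IV := IV.sub (ivHH (IV.pt q)) (IV.mul TWOIV (Yiv q))
def Tiv (q : ℕ) : IV := IV.sub (ivZeta (IV.pt q)) ONE

def ivGam (Q : IV) : IV :=
  IV.div (IV.div (ivsq Q) (IV.sub ONE (ivsq Q))) (IV.add LIV (IV.mul (IV.ofQ 1 2) (ivLam Q)))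

def ivSig (Q : IV) : IV := IV.div (ivsq Q) (IV.add ONE (ivsq Q))

section points

variable {q : ℕ}

theorem mem_Siv (h0 : 0 < val q) (h1 : val q < 1) : IV.mem (S (artanh (val q))) (Siv q) :=
  mem_S (IV.mem_pt q) h0.le h1

theorem mem_Yiv (h0 : 0 < val q) (h1 : val q < 1) : IV.mem (1 - S (artanh (val q))) (Yiv q) :=
  IV.mem_sub mem_ONE (mem_Siv h0 h1)

theorem rho_eq (s : ℝ) : rhoθ s = hh s - 2 * (1 - S s) := by
  unfold rhoθ; ring

theorem mem_Riv (h0 : 0 < val q) (h1 : val q < 1) : IV.mem (rhoθ (artanh (val q))) (Riv q) := by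
  rw [rho_eq]
  exact IV.mem_sub (mem_HH (IV.mem_pt q) h0 h1) (IV.mem_mul mem_TWO (mem_Yiv h0 h1))

theorem mem_Tiv (h0 : 0 < val q) (h1 : val q < 1) : IV.mem (TT (artanh (val q))) (Tiv q) :=
  IV.mem_sub (mem_Zeta (IV.mem_pt q) h0 h1) mem_ONE

end points

theorem gam_artanh {q : ℝ} (hq0 : 0 < q) (hq1 : q < 1) :
    gam (artanh q) = q ^ 2 / (1 - q ^ 2) / (L + 1 / 2 * (-log (1 - q ^ 2))) := by
  have hmem : q ∈ Ioo (-1 : ℝ) 1 := ⟨by linarith, hq1⟩
  have hpos : 0 < 1 - q ^ 2 := by nlinarith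
  have hs : 0 < √(1 - q ^ 2) := Real.sqrt_pos.mpr hpos
  have hss : √(1 - q ^ 2) ^ 2 = 1 - q ^ 2 := Real.sq_sqrt hpos.le
  unfold gam
  rw [Real.sinh_artanh hmem, Real.cosh_artanh hmem]
  have e1 : (q / √(1 - q ^ 2)) ^ 2 = q ^ 2 / (1 - q ^ 2) := by
    rw [div_pow, hss]
  have e2 : log (2 * (1 / √(1 - q ^ 2))) = L + 1 / 2 * (-log (1 - q ^ 2)) := by
    rw [Real.log_mul (by norm_num) (by positivity), one_div, Real.log_inv, Real.log_sqrt hpos.le]
    unfold L
    ring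
  rw [e1, e2]

theorem mem_Gam {q : ℝ} {Q : IV} (hq : IV.mem q Q) (hq0 : 0 < q) (hq1 : q < 1) :
    IV.mem (gam (artanh q)) (ivGam Q) := by
  rw [gam_artanh hq0 hq1]
  exact IV.mem_div (IV.mem_div (mem_sq hq) (IV.mem_sub mem_ONE (mem_sq hq)))
    (IV.mem_add mem_LIV (IV.mem_mul mem_half (mem_Lam hq)))

theorem mem_Sig {q : ℝ} {Q : IV} (hq : IV.mem q Q) : IV.mem (q ^ 2 / (1 + q ^ 2)) (ivSig Q) :=
  IV.mem_div (mem_sq hq) (IV.mem_add mem_ONE (mem_sq hq))

/-! ### monotonicity in `q` -/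

theorem rho_mono {a q : ℝ} (h0 : 0 ≤ a) (h : a ≤ q) (h1 : q < 1) :
    rhoθ (artanh a) ≤ rhoθ (artanh q) := by
  have t0 : 0 ≤ artanh a := Real.artanh_nonneg h0
  have t1 : 0 ≤ artanh q := Real.artanh_nonneg (h0.trans h)
  have h2 := rhoθ_tangent t0 t1
  have h3 := S_anti_q h0 h h1
  have h4 : 0 ≤ TT (artanh a) := by
    have h5 := rhoθ_tangent (le_refl (0 : ℝ)) t0
    have := TT_nonneg t0
    exact this
  nlinarith [mul_nonneg h4 (sub_nonneg.2 h3)]

theorem gam_mono_q {a q : ℝ} (h0 : 0 < a) (h : a ≤ q) (h1 : q < 1) :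
    gam (artanh a) ≤ gam (artanh q) := by
  have t0 : 0 < artanh a := Real.artanh_pos ⟨h0, by linarith⟩
  have t1 : artanh a ≤ artanh q := Real.artanh_le_artanh (by linarith) h1 h
  exact gam_mono t0 (t0.trans_le t1) t1

theorem sig_mono {a q : ℝ} (h0 : 0 ≤ a) (h : a ≤ q) : a ^ 2 / (1 + a ^ 2) ≤ q ^ 2 / (1 + q ^ 2) := by
  have h2 : a ^ 2 ≤ q ^ 2 := pow_le_pow_left₀ h0 h 2
  rw [div_le_div_iff₀ (by positivity) (by positivity)]
  nlinarith

/-! ### the cap -/

/-- `q = 0.78` rounded up -/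
def qT2 : ℕ := 14388460377493450261

/-- the bound on the slope at the cap, as a natural number -/
def T0U : ℕ := (IV.ofQ 9055 10000).hi

theorem qT2_check : (ivS (IV.pt qT2)).ok = true ∧ Nat.ble (ivS (IV.pt qT2)).hi HALFN = true
    ∧ (ivZeta (IV.pt qT2)).ok = true ∧ Nat.ble (ivZeta (IV.pt qT2)).hi 35150270832453550604 = true := by
  decide +kernel

theorem T0_le_T0U : T0 ≤ val T0U := by
  obtain ⟨h1, h2, h3, h4⟩ := qT2_check
  have hq0 : 0 < val qT2 := by unfold val qT2 SC; norm_num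
  have hq1 : val qT2 < 1 := by unfold val qT2 SC; norm_num
  have hS := (mem_S (IV.mem_pt qT2) hq0.le hq1) h1
  have hZ := (mem_Zeta (IV.mem_pt qT2) hq0 hq1) h3
  have e1 : S (artanh (val qT2)) ≤ 1 / 2 := by
    have := val_mono (Nat.le_of_ble_eq_true h2)
    rw [val_HALFN] at this
    linarith [hS.2]
  have e2 : zeta (artanh (val qT2)) ≤ val 35150270832453550604 := by
    have := val_mono (Nat.le_of_ble_eq_true h4)
    linarith [hZ.2]
  have hθ : 0 ≤ artanh (val qT2) := (Real.artanh_pos ⟨hq0, hq1⟩).le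
  have h5 : T0 ≤ TTs (S (artanh (val qT2))) := TTs_anti (S_pos _) e1
  rw [TTs_S hθ] at h5
  unfold TT at h5
  have e3 : val 35150270832453550604 - 1 ≤ val T0U := by
    have := (IV.mem_ofQ 9055 10000) rfl
    have h6 : ((9055 : ℕ) : ℝ) / ((10000 : ℕ) : ℝ) = 9055 / 10000 := by norm_num
    rw [h6] at this
    have e4 : val 35150270832453550604 - 1 ≤ 9055 / 10000 := by
      unfold val SC; norm_num
    exact e4.trans this.2
  linarith

end CK322
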