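import Vale.Agent.Lib.P322.KC0

/-!
The certificate check for `KEYprop`: slope bound, forms, cells and the tree check.
-/

open Real Set Filter Topology

namespace CK322

/-! ### the slope bound -/

def K1iv (Du IU : ℕ) : IV :=
  IV.div (IV.mul (IV.ofQ 93 100) (IV.pt IU)) (IV.sub (IV.sub ONE (IV.pt Du)) (IV.pt IU))

def K2iv (IU : ℕ) : IV :=
  IV.div (IV.mul (IV.ofQ 93 50) (IV.pt IU)) (IV.add (IV.ofQ 1 2) (IV.pt IU))

def KK (Du IU : ℕ) : ℕ :=
  cond (Nat.ble (Nat.add Du IU) HALFN) (K1iv Du IU).hi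
    (cond (Nat.ble (K2iv IU).hi T0U) (K2iv IU).hi T0U)

def KKok (Du IU : ℕ) : Bool :=
  cond (Nat.ble (Nat.add Du IU) HALFN) (K1iv Du IU).ok
    (Nat.blt (Nat.add Du IU) SC && (K2iv IU).ok)

theorem mem_K1iv (Du IU : ℕ) : IV.mem (93 / 100 * val IU / (1 - val Du - val IU)) (K1iv Du IU) := by
  have e : ((93 : ℕ) : ℝ) / ((100 : ℕ) : ℝ) = 93 / 100 := by norm_num
  have := IV.mem_div (IV.mem_mul (IV.mem_ofQ 93 100) (IV.mem_pt IU))
    (IV.mem_sub (IV.mem_sub mem_ONE (IV.mem_pt Du)) (IV.mem_pt IU))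
  rw [e] at this
  exact this

theorem mem_K2iv (IU : ℕ) : IV.mem (93 / 50 * val IU / (1 / 2 + val IU)) (K2iv IU) := by
  have e : ((93 : ℕ) : ℝ) / ((50 : ℕ) : ℝ) = 93 / 50 := by norm_num
  have := IV.mem_div (IV.mem_mul (IV.mem_ofQ 93 50) (IV.mem_pt IU))
    (IV.mem_add mem_half (IV.mem_pt IU))
  rw [e] at this
  exact this

theorem KK_a {Du IU : ℕ} (h : (K1iv Du IU).ok = true) (h1 : val Du + val IU ≤ 1 / 2) {x I : ℝ} (hx0 : 0 ≤ x)
    (hx : x ≤ val Du) (hI0 : 0 ≤ I) (hI : I ≤ val IU) : supF x I ≤ val (K1iv Du IU).hi * x := by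
  have h2 := supF_le_K hx0 hI0 hx hI h1
  exact h2.trans (mul_le_mul_of_nonneg_right ((mem_K1iv Du IU) h).2 hx0)

theorem KK_b {IU : ℕ} (h2 : (K2iv IU).ok = true) {x I : ℝ} (hxI : x + I < 1) (hx0 : 0 ≤ x)
    (hI0 : 0 ≤ I) (hI : I ≤ val IU) : supF x I ≤ val (K2iv IU).hi * x := by
  have h4 := supF_le_half hx0 hI0 hxI
  have hU : 0 ≤ val IU := val_nonneg IU
  have h6 : I / (1 / 2 + I) ≤ val IU / (1 / 2 + val IU) := by
    rw [div_le_div_iff₀ (by linarith) (by linarith)]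
    nlinarith
  refine h4.trans (mul_le_mul_of_nonneg_right ?_ hx0)
  have h9 := ((mem_K2iv IU) h2).2
  have e : 93 / 50 * val IU / (1 / 2 + val IU) = 93 / 50 * (val IU / (1 / 2 + val IU)) := by ring
  rw [e] at h9
  have : 93 / 50 * (I / (1 / 2 + I)) ≤ 93 / 50 * (val IU / (1 / 2 + val IU)) :=
    mul_le_mul_of_nonneg_left h6 (by norm_num)
  linarith

theorem cond_cases {α : Type} (b : Bool) (a c : α) (P : α → Prop) (h1 : b = true → P a)
    (h2 : b = false → P c) : P (cond b a c) := by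
  cases b
  · exact h2 rfl
  · exact h1 rfl

theorem KK_sound {Du IU : ℕ} (h : KKok Du IU = true) {x I : ℝ} (hx0 : 0 ≤ x) (hx : x ≤ val Du)
    (hI0 : 0 ≤ I) (hI : I ≤ val IU) : supF x I ≤ val (KK Du IU) * x := by
  have hsum : val (Nat.add Du IU) = val Du + val IU := val_add Du IU
  unfold KK
  unfold KKok at h
  revert h
  apply cond_cases (Nat.ble (Nat.add Du IU) HALFN) (K1iv Du IU).ok (Nat.blt (Nat.add Du IU) SC && (K2iv IU).ok)
    (fun v => v = true → supF x I ≤ val (cond (Nat.ble (Nat.add Du IU) HALFN) (K1iv Du IU).hi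
      (cond (Nat.ble (K2iv IU).hi T0U) (K2iv IU).hi T0U)) * x)
  · intro hc hok
    rw [hc, cond_true]
    have h1 : val Du + val IU ≤ 1 / 2 := by
      rw [← hsum, ← val_HALFN]
      exact val_mono (Nat.le_of_ble_eq_true hc)
    exact KK_a hok h1 hx0 hx hI0 hI
  · intro hc hok
    rw [hc, cond_false]
    rw [Bool.and_eq_true] at hok
    obtain ⟨h1, h2⟩ := hok
    have h3 : val Du + val IU < 1 := by
      rw [← hsum]
      exact val_lt_one (Nat.le_of_ble_eq_true h1)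
    have hxI : x + I < 1 := by linarith
    apply cond_cases (Nat.ble (K2iv IU).hi T0U) (K2iv IU).hi T0U (fun v => supF x I ≤ val v * x)
    · intro _
      exact KK_b h2 hxI hx0 hI0 hI
    · intro _
      exact (supF_le_T0 hx0 hI0 hxI).trans (mul_le_mul_of_nonneg_right T0_le_T0U hx0)


/-! ### the real inequalities behind the forms -/

noncomputable section

section core

variable {t q : ℝ}

theorem Lft_eq (x : ℝ) : Lft t q x = Lft t q 0 + supF x (Iq t q) := by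
  unfold Lft supF
  rw [zero_add, psiC_zero]
  ring

theorem KEY_core (ht0 : 0 ≤ t) (ht1 : t < 1) (hq0 : 0 < q) (hq1 : q < 1) {D K R : ℝ}
    (hD : 0 ≤ D) (hE : Eq t q ≤ D)
    (hK : ∀ x, 0 ≤ x → x ≤ D → supF x (Iq t q) ≤ K * x)
    (hR : R ≤ Jq t q - Lft t q 0)
    (h1 : (K - sstar t q) * D ≤ R) (h2 : K * D ≤ R + gam (artanh q) * (D - Eq t q)) :
    KEYprop t q := by
  have h0 := Lft_zero_le ht0 ht1 hq0 hq1
  have hx : ∀ x, 0 ≤ x → x ≤ D → Lft t q x ≤ Jq t q + sstar t q * x := by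
    intro x hx0 hxD
    rw [Lft_eq]
    have h3 := hK x hx0 hxD
    rcases le_total (K - sstar t q) 0 with hc | hc
    · have h4 : (K - sstar t q) * x ≤ 0 := mul_nonpos_of_nonpos_of_nonneg hc hx0
      linarith
    · have h4 : (K - sstar t q) * x ≤ (K - sstar t q) * D := mul_le_mul_of_nonneg_left hxD hc
      linarith
  refine Or.inr ⟨D, hD, hE, hx, ?_⟩
  rw [Lft_eq]
  have h3 := hK D hD le_rfl
  linarith

theorem R0_eq (ht0 : 0 ≤ t) (ht1 : t < 1) (hq0 : 0 < q) (hq1 : q < 1) :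
    Jq t q - Lft t q 0 = p0 t q * rhoθ (artanh q) + LL t q / L - psiC (Iq t q) := by
  have h := Jq_sub ht0 ht1 hq0 hq1
  unfold Lft
  rw [zero_add, psiC_zero]
  linarith

theorem eps_pos' (ht0 : 0 < t) (ht1 : t < 1) (hq0 : 0 < q) (hq1 : q < 1) : 0 < eps t q := by
  have hZ : 0 < ZZ t q := Z_pos (sq_nonneg t) (sq_le_one' ht0.le ht1.le) (sq_nonneg q) (sq_lt_one' hq0.le hq1)
  unfold eps
  have : 0 < 1 - q ^ 2 := by nlinarith
  positivity

theorem LL_eq (ht0 : 0 < t) (ht1 : t < 1) (hq0 : 0 < q) (hq1 : q < 1) :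
    LL t q = eps t q * N1 t q := by
  have := (eps_pos' ht0 ht1 hq0 hq1).ne'
  unfold N1
  field_simp

theorem N1_nonneg (ht0 : 0 < t) (ht1 : t < 1) (hq0 : 0 < q) (hq1 : q < 1) : 0 ≤ N1 t q := by
  unfold N1
  exact div_nonneg (LL_nonneg ht0.le ht1 hq0 hq1) (eps_pos' ht0 ht1 hq0 hq1).le

/-- `psiC` at the point `Y` -/
theorem psiC_Y (hq0 : 0 < q) (hq1 : q < 1) : psiC (1 - S (artanh q)) ≤ rhoθ (artanh q) := by
  have h := psiC_p0Y (le_refl (0 : ℝ)) one_pos hq0 hq1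
  have e : p0 0 q = 1 := by
    unfold p0 ZZ
    simp
  rw [e, one_mul, one_mul] at h
  exact h

theorem Y_lt_one (hq0 : 0 < q) : 1 - S (artanh q) < 1 := by
  have := S_pos (artanh q)
  linarith

/-- the value of `dpsi` at `Y` -/
theorem dpsi_Y (hq0 : 0 < q) (hq1 : q < 1) (hS : 1 / 2 ≤ S (artanh q)) :
    dpsi (1 - S (artanh q)) = TT (artanh q) := by
  rw [dpsi_of_le (by linarith)]
  have e : 1 - (1 - S (artanh q)) = S (artanh q) := by ring
  rw [e]
  exact TTs_S (Real.artanh_pos ⟨hq0, hq1⟩).le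

/-- form `A` of the bound on `R₀` -/
theorem R_A (ht0 : 0 < t) (ht1 : t < 1) (hq0 : 0 < q) (hq1 : q < 1) {T : ℝ}
    (hT0 : 0 ≤ T) (hT : T ≤ dpsi (Iq t q)) :
    eps t q * ((1 + 1 / 2 * T) * (N1 t q / L + 2 * (1 - S (artanh q))) - hh (artanh q))
      ≤ Jq t q - Lft t q 0 := by
  rw [R0_eq ht0.le ht1 hq0 hq1, LL_eq ht0 ht1 hq0 hq1]
  have hL := L_pos
  have hI := Iq_eq ht0.le ht1 hq0 hq1
  rw [LL_eq ht0 ht1 hq0 hq1] at hI
  have hp := p0_add_eps ht0.le ht1 hq0 hq1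
  have hp' : p0 t q = 1 - eps t q := by linarith
  have he := eps_pos' ht0 ht1 hq0 hq1
  have hN := N1_nonneg ht0 ht1 hq0 hq1
  have hY := Y_nonneg hq0 hq1
  have hY1 := Y_lt_one (q := q) hq0
  have hI1 := Iq_lt_one ht0.le ht1 hq0 hq1
  have h1 := psiC_tangent hI1 hY1
  have h2 := psiC_Y hq0 hq1
  have hNL : 0 ≤ N1 t q / L := by positivity
  set ε := eps t q with hε
  set p := p0 t q with hpdef
  set N := N1 t q with hNdef
  set Y := 1 - S (artanh q) with hYdef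
  set I := Iq t q with hIdef
  have hgap : Y - I = ε * Y + ε * (N / L) / 2 := by
    rw [hI, hp']
    have hL' : L ≠ 0 := hL.ne'
    field_simp
    ring
  have hgap0 : 0 ≤ Y - I := by
    rw [hgap]
    positivity
  have h3 : T * (Y - I) ≤ dpsi I * (Y - I) := mul_le_mul_of_nonneg_right hT hgap0
  have hrho : rhoθ (artanh q) = hh (artanh q) - 2 * Y := rho_eq _
  have e1 : ε * N / L = ε * (N / L) := by ring
  rw [e1, hp', hrho]
  rw [hrho] at h2
  rw [hgap] at h3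
  nlinarith

end core

end

end CK322
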