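import Vale.Agent.Lib.P322.KC1

/-!
Enclosures of all the quantities on a cell.
-/

open Real Set Filter Topology

namespace CK322

/-- the natural numbers bounding the quantities on a cell -/
structure CB where
  eL : ℕ
  eU : ℕ
  pL : ℕ
  pU : ℕ
  uL : ℕ
  Y1 : ℕ
  Y2 : ℕ
  h2 : ℕ
  P1 : ℕ
  g1 : ℕ
  s1 : ℕ
  NL : ℕ
  NU : ℕ
  cc : ℕ

def mkCB (t1 t2 q1 q2 : ℕ) : CB where
  eL := (ivEps (IV.pt t1) (IV.pt q2)).lo
  eU := cond (Nat.beq t2 SC) SC (ivEps (IV.pt t2) (IV.pt q1)).hi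
  pL := cond (Nat.beq t2 SC) 0 (ivP0 (IV.pt t2) (IV.pt q1)).lo
  pU := Nat.sub SC (ivEps (IV.pt t1) (IV.pt q2)).lo
  uL := (ivUU (IV.pt t1) (IV.pt q2)).lo
  Y1 := (Yiv q1).lo
  Y2 := (Yiv q2).hi
  h2 := (ivHH (IV.pt q2)).hi
  P1 := (Riv q1).lo
  g1 := (ivGam (IV.pt q1)).lo
  s1 := (ivSig (IV.pt q1)).lo
  NL := cond (Nat.beq t2 SC) 0
    (Nat.sub (ivN1plus (IV.pt t2) (IV.pt q1)).lo (ivN1minus (IV.pt t2) (IV.pt q1)).hi)
  NU := cond (Nat.beq t1 0) (IV.sub (ivLam (IV.pt q2)) (ivsq (IV.pt q2))).hi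
    (Nat.sub (ivN1plus (IV.pt t1) (IV.pt q2)).hi (ivN1minus (IV.pt t1) (IV.pt q2)).lo)
  cc := Nat.sub SC (ivS (ivAbar (IV.pt t1) (IV.pt q2))).hi

def okCB (t1 t2 q1 q2 : ℕ) : Bool :=
  Nat.ble t2 SC && Nat.blt 0 q1 && Nat.blt q2 SC && (ivEps (IV.pt t1) (IV.pt q2)).ok
  && cond (Nat.beq t2 SC) true
    ((ivEps (IV.pt t2) (IV.pt q1)).ok && (ivP0 (IV.pt t2) (IV.pt q1)).ok
      && (ivN1plus (IV.pt t2) (IV.pt q1)).ok && (ivN1minus (IV.pt t2) (IV.pt q1)).ok)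
  && (ivUU (IV.pt t1) (IV.pt q2)).ok && (Yiv q1).ok && (Yiv q2).ok && (ivHH (IV.pt q2)).ok
  && (Riv q1).ok && (ivGam (IV.pt q1)).ok && (ivSig (IV.pt q1)).ok
  && cond (Nat.beq t1 0) (IV.sub (ivLam (IV.pt q2)) (ivsq (IV.pt q2))).ok
    ((ivN1plus (IV.pt t1) (IV.pt q2)).ok && (ivN1minus (IV.pt t1) (IV.pt q2)).ok)
  && (ivS (ivAbar (IV.pt t1) (IV.pt q2))).ok

/-- the meaning of the numbers of a cell at a point `(t,q)` -/
structure Good (b : CB) (t q : ℝ) : Prop where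
  e1 : val b.eL ≤ eps t q
  e2 : eps t q ≤ val b.eU
  p1 : val b.pL ≤ p0 t q
  p2 : p0 t q ≤ val b.pU
  u1 : val b.uL ≤ uu t q
  y1 : val b.Y1 ≤ 1 - S (artanh q)
  y2 : 1 - S (artanh q) ≤ val b.Y2
  h2 : hh (artanh q) ≤ val b.h2
  r1 : val b.P1 ≤ rhoθ (artanh q)
  g1 : val b.g1 ≤ gam (artanh q)
  s1 : val b.s1 ≤ q ^ 2 / (1 + q ^ 2)
  n1 : val b.NL ≤ N1 t q
  n2 : N1 t q ≤ val b.NU
  c1 : val b.cc ≤ 1 - phi (abar t q)

section good

variable {t1 t2 q1 q2 : ℕ} {t q : ℝ}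

theorem val_zero : val 0 = 0 := by simp [val]

theorem N1_le_NU_aux (ht0 : 0 < t) (ht1 : t < 1) (hq0 : 0 < q) (hq : q ≤ val q2) (hq2 : val q2 < 1) :
    N1 t q ≤ -log (1 - val q2 ^ 2) - val q2 ^ 2 :=
  (N1_mono_q ht0 ht1 hq0 hq hq2).trans (N1_le ht0 ht1 (hq0.trans_le hq) hq2)

theorem good_mk (hok : okCB t1 t2 q1 q2 = true) (ht0 : 0 < t) (ht1 : t < 1)
    (h1 : val t1 ≤ t) (h2 : t ≤ val t2) (h3 : val q1 ≤ q) (h4 : q ≤ val q2) :
    Good (mkCB t1 t2 q1 q2) t q := by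
  unfold okCB at hok
  simp only [Bool.and_eq_true] at hok
  obtain ⟨⟨⟨⟨⟨⟨⟨⟨⟨⟨⟨⟨⟨o1, o2⟩, o3⟩, o4⟩, o5⟩, o6⟩, oY1⟩, oY2⟩, oH⟩, oR⟩, oG⟩, oSg⟩, oN⟩, oS⟩ := hok
  have ht2le : val t2 ≤ 1 := by
    rw [← val_SC]
    exact val_mono (Nat.le_of_ble_eq_true o1)
  have hq10 : 0 < val q1 := val_pos_of (Nat.le_of_ble_eq_true o2)
  have hq21 : val q2 < 1 := val_lt_one (Nat.le_of_ble_eq_true o3)
  have hq0 : 0 < q := hq10.trans_le h3
  have hq1 : q < 1 := h4.trans_lt hq21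
  have hq20 : 0 < val q2 := hq0.trans_le h4
  have hq11 : val q1 < 1 := h3.trans_lt hq1
  have ht10 : 0 ≤ val t1 := val_nonneg t1
  have mE := (mem_eps (IV.mem_pt t1) (IV.mem_pt q2)) o4
  have hadd := p0_add_eps ht0.le ht1 hq0 hq1
  obtain ⟨hp1, hp0⟩ := p0_le_one ht0.le ht1 hq0.le hq1
  have hN0 := N1_nonneg ht0 ht1 hq0 hq1
  have hEL : val (ivEps (IV.pt t1) (IV.pt q2)).lo ≤ eps t q :=
    mE.1.trans (c_eps_lo ht10 h1 ht1.le hq0.le h4 hq21)
  have hY1 := (mem_Yiv hq10 hq11) oY1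
  have hY2 := (mem_Yiv hq20 hq21) oY2
  have hS1 := S_anti_q hq10.le h3 hq1
  have hS2 := S_anti_q hq0.le h4 hq21
  refine ⟨hEL, ?_, ?_, ?_, ?_, ?_, ?_, ?_, ?_, ?_, ?_, ?_, ?_, ?_⟩
  · -- eU
    show eps t q ≤ val (cond (Nat.beq t2 SC) SC (ivEps (IV.pt t2) (IV.pt q1)).hi)
    revert o5
    apply cond_cases (Nat.beq t2 SC) SC (ivEps (IV.pt t2) (IV.pt q1)).hi
      (fun v => cond (Nat.beq t2 SC) true
        ((ivEps (IV.pt t2) (IV.pt q1)).ok && (ivP0 (IV.pt t2) (IV.pt q1)).ok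
          && (ivN1plus (IV.pt t2) (IV.pt q1)).ok && (ivN1minus (IV.pt t2) (IV.pt q1)).ok) = true
            → eps t q ≤ val v)
    · intro _ _
      rw [val_SC]
      linarith
    · intro hc o5
      rw [hc, cond_false] at o5
      simp only [Bool.and_eq_true] at o5
      have m := (mem_eps (IV.mem_pt t2) (IV.mem_pt q1)) o5.1.1.1
      exact (c_eps_hi ht0.le h2 ht2le hq10.le h3 hq1).trans m.2
  · -- pL
    show val (cond (Nat.beq t2 SC) 0 (ivP0 (IV.pt t2) (IV.pt q1)).lo) ≤ p0 t q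
    revert o5
    apply cond_cases (Nat.beq t2 SC) 0 (ivP0 (IV.pt t2) (IV.pt q1)).lo
      (fun v => cond (Nat.beq t2 SC) true
        ((ivEps (IV.pt t2) (IV.pt q1)).ok && (ivP0 (IV.pt t2) (IV.pt q1)).ok
          && (ivN1plus (IV.pt t2) (IV.pt q1)).ok && (ivN1minus (IV.pt t2) (IV.pt q1)).ok) = true
            → val v ≤ p0 t q)
    · intro _ _
      rw [val_zero]
      exact hp0.le
    · intro hc o5
      rw [hc, cond_false] at o5
      simp only [Bool.and_eq_true] at o5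
      have m := (mem_p0 (IV.mem_pt t2) (IV.mem_pt q1)) o5.1.1.2
      exact m.1.trans (c_p0_lo ht0.le h2 ht2le hq10.le h3 hq1)
  · -- pU
    show p0 t q ≤ val (Nat.sub SC (ivEps (IV.pt t1) (IV.pt q2)).lo)
    have := val_sub_ge SC (ivEps (IV.pt t1) (IV.pt q2)).lo
    rw [val_SC] at this
    linarith
  · -- uL
    exact ((mem_uu (IV.mem_pt t1) (IV.mem_pt q2)) o6).1.trans (c_uu_lo ht10 h1 ht1.le hq0.le h4 hq21)
  · -- Y1
    exact hY1.1.trans (by linarith)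
  · -- Y2
    exact le_trans (by linarith) hY2.2
  · -- h2
    exact (hh_mono hq0 h4 hq21).trans ((mem_HH (IV.mem_pt q2) hq20 hq21) oH).2
  · -- P1
    exact ((mem_Riv hq10 hq11) oR).1.trans (rho_mono hq10.le h3 hq1)
  · -- g1
    exact ((mem_Gam (IV.mem_pt q1) hq10 hq11) oG).1.trans (gam_mono_q hq10 h3 hq1)
  · -- s1
    exact ((mem_Sig (IV.mem_pt q1)) oSg).1.trans (sig_mono hq10.le h3)
  · -- NL
    show val (cond (Nat.beq t2 SC) 0
      (Nat.sub (ivN1plus (IV.pt t2) (IV.pt q1)).lo (ivN1minus (IV.pt t2) (IV.pt q1)).hi)) ≤ N1 t q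
    revert o5
    apply cond_cases (Nat.beq t2 SC) 0
      (Nat.sub (ivN1plus (IV.pt t2) (IV.pt q1)).lo (ivN1minus (IV.pt t2) (IV.pt q1)).hi)
      (fun v => cond (Nat.beq t2 SC) true
        ((ivEps (IV.pt t2) (IV.pt q1)).ok && (ivP0 (IV.pt t2) (IV.pt q1)).ok
          && (ivN1plus (IV.pt t2) (IV.pt q1)).ok && (ivN1minus (IV.pt t2) (IV.pt q1)).ok) = true
            → val v ≤ N1 t q)
    · intro _ _
      rw [val_zero]
      exact hN0
    · intro hc o5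
      rw [hc, cond_false] at o5
      simp only [Bool.and_eq_true] at o5
      have hne : t2 ≠ SC := by
        intro h
        rw [h] at hc
        have : Nat.beq SC SC = true := Nat.beq_refl SC
        rw [this] at hc
        exact Bool.noConfusion hc
      have hlt : t2 < SC := lt_of_le_of_ne (Nat.le_of_ble_eq_true o1) hne
      have ht21 : val t2 < 1 := val_lt_one hlt
      have ht20 : 0 < val t2 := ht0.trans_le h2
      have m1 := (mem_N1plus (IV.mem_pt t2) (IV.mem_pt q1)) o5.1.2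
      have m2 := (mem_N1minus (IV.mem_pt t2) (IV.mem_pt q1) ht20.le ht21 hq10.le hq11) o5.2
      have e := N1_eq ht20 ht21 hq10 hq11
      have h5 : N1 (val t2) (val q1) ≤ N1 t q :=
        (N1_anti_t ht0 h2 ht21 hq10 hq11).trans (N1_mono_q ht0 ht1 hq10 h3 hq1)
      apply val_sub_le _ hN0
      rw [e] at h5
      linarith [m1.1, m2.2]
  · -- NU
    show N1 t q ≤ val (cond (Nat.beq t1 0) (IV.sub (ivLam (IV.pt q2)) (ivsq (IV.pt q2))).hi
      (Nat.sub (ivN1plus (IV.pt t1) (IV.pt q2)).hi (ivN1minus (IV.pt t1) (IV.pt q2)).lo))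
    revert oN
    apply cond_cases (Nat.beq t1 0) (IV.sub (ivLam (IV.pt q2)) (ivsq (IV.pt q2))).hi
      (Nat.sub (ivN1plus (IV.pt t1) (IV.pt q2)).hi (ivN1minus (IV.pt t1) (IV.pt q2)).lo)
      (fun v => cond (Nat.beq t1 0) (IV.sub (ivLam (IV.pt q2)) (ivsq (IV.pt q2))).ok
        ((ivN1plus (IV.pt t1) (IV.pt q2)).ok && (ivN1minus (IV.pt t1) (IV.pt q2)).ok) = true
          → N1 t q ≤ val v)
    · intro hc oN
      rw [hc, cond_true] at oN
      have m := (IV.mem_sub (mem_Lam (IV.mem_pt q2)) (mem_sq (IV.mem_pt q2))) oN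
      exact (N1_le_NU_aux ht0 ht1 hq0 h4 hq21).trans m.2
    · intro hc oN
      rw [hc, cond_false] at oN
      simp only [Bool.and_eq_true] at oN
      have hne : t1 ≠ 0 := by
        intro h
        rw [h] at hc
        exact Bool.noConfusion hc
      have ht1p : 0 < val t1 := val_pos_of (Nat.pos_of_ne_zero hne)
      have ht11 : val t1 < 1 := h1.trans_lt ht1
      have m1 := (mem_N1plus (IV.mem_pt t1) (IV.mem_pt q2)) oN.1
      have m2 := (mem_N1minus (IV.mem_pt t1) (IV.mem_pt q2) ht10 ht11 hq20.le hq21) oN.2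
      have e := N1_eq ht1p ht11 hq20 hq21
      have h5 : N1 t q ≤ N1 (val t1) (val q2) :=
        (N1_mono_q ht0 ht1 hq0 h4 hq21).trans (N1_anti_t ht1p h1 ht1 hq20 hq21)
      rw [e] at h5
      have h6 := val_sub_ge (ivN1plus (IV.pt t1) (IV.pt q2)).hi (ivN1minus (IV.pt t1) (IV.pt q2)).lo
      linarith [m1.2, m2.1]
  · -- cc
    show val (Nat.sub SC (ivS (ivAbar (IV.pt t1) (IV.pt q2))).hi) ≤ 1 - phi (abar t q)
    have hab0 : 0 ≤ abar (val t1) (val q2) := by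
      unfold abar
      exact mul_nonneg ht10 (uu_nonneg' ht10 (h1.trans ht1.le) hq20.le hq21)
    have ht11 : val t1 < 1 := h1.trans_lt ht1
    have hab1 : abar (val t1) (val q2) < 1 := by
      have := abar_sq_lt_one ht10 ht11 hq20 hq21
      nlinarith
    have m := (mem_S (mem_abar (IV.mem_pt t1) (IV.mem_pt q2)) hab0 hab1) oS
    have hab2 : abar (val t1) (val q2) ≤ abar t q := by
      have h6 := c_abar ht10 h1 ht1.le hq0.le h4 hq21
      have h7 : 0 ≤ abar t q := by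
        unfold abar
        exact mul_nonneg ht0.le (uu_nonneg' ht0.le ht1.le hq0.le hq1)
      exact (abs_le_of_sq_le_sq' h6 h7).2
    have hab3 : abar t q < 1 := by
      have := abar_sq_lt_one ht0.le ht1 hq0 hq1
      have h7 : 0 ≤ abar t q := hab0.trans hab2
      nlinarith
    have hphi := phi_anti hab0 hab2 hab3
    have hphi2 := phi_eq_S hab0 hab1
    have hphi3 : phi (abar t q) ≤ 1 := by
      apply phi_le_one'
      constructor
      · have h7 : 0 ≤ abar t q := hab0.trans hab2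
        linarith
      · exact hab3
    apply val_sub_le _ (by linarith)
    rw [val_SC]
    linarith [m.2]

end good

end CK322
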