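import Vale.Agent.Lib.P322.KC2

/-!
The three forms of the cell check, and the tree of cells.
-/

open Real Set Filter Topology

namespace CK322

/-! ### derived numbers -/

def IE (b : CB) : IV := ⟨true, b.eL, b.eU⟩
def IP (b : CB) : IV := ⟨true, b.pL, b.pU⟩
def IY (b : CB) : IV := ⟨true, b.Y1, b.Y2⟩
def IN (b : CB) : IV := ⟨true, b.NL, b.NU⟩

def Wv (b : CB) : IV := IV.mul (IP b) (IY b)
def Zv (b : CB) : IV := IV.div (IV.mul (IE b) (IN b)) TWOL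
def IUn (b : CB) : ℕ := Nat.sub (Wv b).hi (Zv b).lo
def ILn (b : CB) : ℕ := Nat.sub (Wv b).lo (Zv b).hi
def eAv (b : CB) : IV := IV.add ONE (IV.div (IV.pt b.NU) TWOL)
def uDv (b : CB) : IV := IV.div (IV.pt b.uL) TWOL
def e1n (b : CB) : ℕ := Nat.sub (eAv b).hi (uDv b).lo
def dvv (b : CB) : IV := IV.div (IV.pt b.cc) (IV.pt b.eU)
def e2n (b : CB) : ℕ := Nat.sub (eAv b).hi (dvv b).lo
def eMn (b : CB) : ℕ := cond (Nat.ble (e1n b) (e2n b)) (e1n b) (e2n b)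
def EUn (b : CB) : ℕ := (IV.mul (IV.pt b.eU) (IV.pt (eMn b))).hi
def okD (b : CB) : Bool := (Zv b).ok && (eAv b).ok && (uDv b).ok && (dvv b).ok

section derived

variable {b : CB} {t q : ℝ}

theorem mem_IE (hg : Good b t q) : IV.mem (eps t q) (IE b) := fun _ => ⟨hg.e1, hg.e2⟩
theorem mem_IP (hg : Good b t q) : IV.mem (p0 t q) (IP b) := fun _ => ⟨hg.p1, hg.p2⟩
theorem mem_IY (hg : Good b t q) : IV.mem (1 - S (artanh q)) (IY b) := fun _ => ⟨hg.y1, hg.y2⟩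
theorem mem_IN (hg : Good b t q) : IV.mem (N1 t q) (IN b) := fun _ => ⟨hg.n1, hg.n2⟩

theorem mem_Wv (hg : Good b t q) : IV.mem (p0 t q * (1 - S (artanh q))) (Wv b) :=
  IV.mem_mul (mem_IP hg) (mem_IY hg)

theorem mem_Zv (hg : Good b t q) : IV.mem (eps t q * N1 t q / (2 * L)) (Zv b) :=
  IV.mem_div (IV.mem_mul (mem_IE hg) (mem_IN hg)) mem_TWOL

theorem Iq_eq2 (ht0 : 0 < t) (ht1 : t < 1) (hq0 : 0 < q) (hq1 : q < 1) :
    Iq t q = p0 t q * (1 - S (artanh q)) - eps t q * N1 t q / (2 * L) := by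
  rw [Iq_eq ht0.le ht1 hq0 hq1, LL_eq ht0 ht1 hq0 hq1]

/-- bounds for `I` -/
theorem I_bounds (hg : Good b t q) (ht0 : 0 < t) (ht1 : t < 1) (hq0 : 0 < q) (hq1 : q < 1)
    (hZ : (Zv b).ok = true) : val (ILn b) ≤ Iq t q ∧ Iq t q ≤ val (IUn b) := by
  have hI := Iq_eq2 ht0 ht1 hq0 hq1
  have hI0 := Iq_nonneg ht0.le ht1 hq0 hq1
  have mW := (mem_Wv hg) rfl
  have mZ := (mem_Zv hg) hZ
  constructor
  · apply val_sub_le _ hI0
    rw [hI]
    linarith [mW.1, mZ.2]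
  · have := val_sub_ge (Wv b).hi (Zv b).lo
    show Iq t q ≤ val (Nat.sub (Wv b).hi (Zv b).lo)
    rw [hI]
    linarith [mW.2, mZ.1]

theorem Eq_eq2 (ht0 : 0 < t) (ht1 : t < 1) (hq0 : 0 < q) (hq1 : q < 1) :
    Eq t q = phi (abar t q) - 1 + eps t q * (1 + N1 t q / (2 * L)) := by
  rw [Eq_eq ht0.le ht1 hq0 hq1, LL_eq ht0 ht1 hq0 hq1]
  have hp := p0_add_eps ht0.le ht1 hq0 hq1
  have e : p0 t q = 1 - eps t q := by linarith
  rw [e]
  have hL := L_pos.ne'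
  field_simp
  ring

theorem eM_nonneg (b : CB) : 0 ≤ val (eMn b) := val_nonneg _

/-- the two bounds for `E` -/
theorem E_le1 (hg : Good b t q) (ht0 : 0 < t) (ht1 : t < 1) (hq0 : 0 < q) (hq1 : q < 1)
    (hA : (eAv b).ok = true) (hu : (uDv b).ok = true) : Eq t q ≤ eps t q * val (e1n b) := by
  have hE := Eq_eq2 ht0 ht1 hq0 hq1
  have he := eps_pos' ht0 ht1 hq0 hq1
  have hL := L_pos
  have hL2 : 0 < 2 * L := by positivity
  have mA : 1 + val b.NU / (2 * L) ≤ val (eAv b).hi :=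
    ((IV.mem_add mem_ONE (IV.mem_div (IV.mem_pt b.NU) mem_TWOL)) hA).2
  have mu : val (uDv b).lo ≤ val b.uL / (2 * L) :=
    ((IV.mem_div (IV.mem_pt b.uL) mem_TWOL) hu).1
  have hab := abar_mem' ht0.le ht1 hq0 hq1
  have hphi := phi_le_one_sub hab.1 hab.2
  rw [abar_sq] at hphi
  have h1 : N1 t q / (2 * L) ≤ val b.NU / (2 * L) :=
    div_le_div_of_nonneg_right hg.n2 hL2.le
  have h2 : val b.uL / (2 * L) ≤ uu t q / (2 * L) :=
    div_le_div_of_nonneg_right hg.u1 hL2.le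
  have h3 := val_sub_ge (eAv b).hi (uDv b).lo
  have h4 : 1 + N1 t q / (2 * L) - uu t q / (2 * L) ≤ val (e1n b) := by
    have : val (e1n b) = val (Nat.sub (eAv b).hi (uDv b).lo) := rfl
    rw [this]
    linarith
  have h5 := mul_le_mul_of_nonneg_left h4 he.le
  have e : eps t q * uu t q / (2 * L) = eps t q * (uu t q / (2 * L)) := by ring
  rw [e] at hphi
  rw [hE]
  nlinarith

theorem E_le2 (hg : Good b t q) (ht0 : 0 < t) (ht1 : t < 1) (hq0 : 0 < q) (hq1 : q < 1)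
    (hA : (eAv b).ok = true) (hd : (dvv b).ok = true) : Eq t q ≤ eps t q * val (e2n b) := by
  have hE := Eq_eq2 ht0 ht1 hq0 hq1
  have he := eps_pos' ht0 ht1 hq0 hq1
  have hL := L_pos
  have hL2 : 0 < 2 * L := by positivity
  have mA : 1 + val b.NU / (2 * L) ≤ val (eAv b).hi :=
    ((IV.mem_add mem_ONE (IV.mem_div (IV.mem_pt b.NU) mem_TWOL)) hA).2
  have md : val (dvv b).lo ≤ val b.cc / val b.eU :=
    ((IV.mem_div (IV.mem_pt b.cc) (IV.mem_pt b.eU)) hd).1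
  have h1 : N1 t q / (2 * L) ≤ val b.NU / (2 * L) :=
    div_le_div_of_nonneg_right hg.n2 hL2.le
  have h3 := val_sub_ge (eAv b).hi (dvv b).lo
  have h4 : 1 + N1 t q / (2 * L) - val (dvv b).lo ≤ val (e2n b) := by
    have : val (e2n b) = val (Nat.sub (eAv b).hi (dvv b).lo) := rfl
    rw [this]
    linarith
  have h5 := mul_le_mul_of_nonneg_left h4 he.le
  have hU : 0 < val b.eU := he.trans_le hg.e2
  have h6 : eps t q * val (dvv b).lo ≤ val b.cc := by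
    have h7 : val (dvv b).lo * val b.eU ≤ val b.cc := by
      have := mul_le_mul_of_nonneg_right md hU.le
      rwa [div_mul_cancel₀ _ hU.ne'] at this
    have h8 : eps t q * val (dvv b).lo ≤ val b.eU * val (dvv b).lo :=
      mul_le_mul_of_nonneg_right hg.e2 (val_nonneg _)
    linarith
  have hc := hg.c1
  rw [hE]
  nlinarith

theorem E_le (hg : Good b t q) (ht0 : 0 < t) (ht1 : t < 1) (hq0 : 0 < q) (hq1 : q < 1)
    (hok : okD b = true) : Eq t q ≤ eps t q * val (eMn b) := by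
  unfold okD at hok
  simp only [Bool.and_eq_true] at hok
  obtain ⟨⟨⟨_, hA⟩, hu⟩, hd⟩ := hok
  unfold eMn
  apply cond_cases (Nat.ble (e1n b) (e2n b)) (e1n b) (e2n b) (fun v => Eq t q ≤ eps t q * val v)
  · intro _
    exact E_le1 hg ht0 ht1 hq0 hq1 hA hu
  · intro _
    exact E_le2 hg ht0 ht1 hq0 hq1 hA hd

theorem E_le_U (hg : Good b t q) (ht0 : 0 < t) (ht1 : t < 1) (hq0 : 0 < q) (hq1 : q < 1)
    (hok : okD b = true) : Eq t q ≤ val (EUn b) := by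
  have h1 := E_le hg ht0 ht1 hq0 hq1 hok
  have h2 := mul_le_mul_of_nonneg_right hg.e2 (eM_nonneg b)
  have m := ((IV.mem_mul (IV.mem_pt b.eU) (IV.mem_pt (eMn b))) rfl).2
  exact h1.trans (h2.trans m)

end derived

/-! ### table entries -/

def qk (k : ℕ) : ℕ := Nat.mul k 72057594037927936

def okK (k : ℕ) : Bool := Nat.ble 1 k && Nat.ble k 255

theorem qk_range {k : ℕ} (h : okK k = true) : 0 < val (qk k) ∧ val (qk k) < 1 := by
  unfold okK at h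
  simp only [Bool.and_eq_true] at h
  have h1 := Nat.le_of_ble_eq_true h.1
  have h2 := Nat.le_of_ble_eq_true h.2
  constructor
  · apply val_pos_of
    show 0 < k * 72057594037927936
    omega
  · apply val_lt_one
    show k * 72057594037927936 < SC
    unfold SC
    omega

/-- the grid -/
def gw (n : ℕ) : ℕ := Nat.mul n 281474976710656

/-- tangent estimate of `psiC` -/
theorem psi_T {I IU Dk Dp ρk Tp : ℝ} (hI : I ≤ IU) (hIU : IU ≤ Dk) (hDk : Dk < 1)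
    (hψ : psiC Dk ≤ ρk) (hDp : Dp ≤ IU) (hTp : Tp ≤ dpsi Dp) :
    psiC I ≤ ρk - Tp * (Dk - IU) := by
  have hIU1 : IU < 1 := hIU.trans_lt hDk
  have h1 := psiC_mono hI hIU1
  have h2 := psiC_tangent hIU1 hDk
  have h3 := dpsi_mono hDp hIU1
  have h4 : Tp * (Dk - IU) ≤ dpsi IU * (Dk - IU) :=
    mul_le_mul_of_nonneg_right (hTp.trans h3) (by linarith)
  linarith

/-! ### form `A` -/

def A1iv (b : CB) (k : ℕ) : IV :=
  IV.mul (IV.add ONE (IV.mul (IV.ofQ 1 2) (Tiv (qk k))))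
    (IV.add (IV.div (IN b) LIV) (IV.mul TWOIV (IY b)))

def DuA (b : CB) (n : ℕ) : ℕ := (IV.mul (IV.pt (gw n)) (IV.pt b.eU)).hi

def KA (b : CB) (n : ℕ) : ℕ := KK (DuA b n) (IUn b)

def chkA (b : CB) (n k : ℕ) : Bool :=
  okD b && okK k && (Siv (qk k)).ok && Nat.ble HALFN (Siv (qk k)).lo && (Yiv (qk k)).ok
  && Nat.ble (Yiv (qk k)).hi (ILn b) && (A1iv b k).ok && Nat.ble (eMn b) (gw n)
  && KKok (DuA b n) (IUn b)
  && ivLe (IV.add (IV.mul (IV.pt (KA b n)) (IV.pt (gw n))) (IV.pt b.h2))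
       (IV.add (IV.pt (A1iv b k).lo) (IV.mul (IV.mul (IV.pt b.pL) (IV.pt b.s1)) (IV.pt (gw n))))
  && ivLe (IV.add (IV.add (IV.mul (IV.pt (KA b n)) (IV.pt (gw n))) (IV.pt b.h2))
        (IV.mul (IV.pt b.g1) (IV.pt (eMn b))))
       (IV.add (IV.pt (A1iv b k).lo) (IV.mul (IV.pt b.g1) (IV.pt (gw n))))

/-- algebra of form `A` -/
theorem formA_alg {ε s K w h A g g1 e E : ℝ} (hε : 0 ≤ ε) (hK1 : K * w + h ≤ A + s * w)
    (hK2 : K * w + h + g1 * e ≤ A + g1 * w) (hg1 : 0 ≤ g1) (hg : g1 ≤ g) (hew : e ≤ w)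
    (hE : E ≤ ε * e) :
    (K - s) * (ε * w) ≤ ε * (A - h) ∧ K * (ε * w) ≤ ε * (A - h) + g * (ε * w - E) := by
  constructor
  · have h1 : (K - s) * w ≤ A - h := by linarith
    have h2 := mul_le_mul_of_nonneg_left h1 hε
    calc (K - s) * (ε * w) = ε * ((K - s) * w) := by ring
      _ ≤ _ := h2
  · have h1 : K * w ≤ A - h + g1 * (w - e) := by linarith
    have h2 := mul_le_mul_of_nonneg_left h1 hε
    have h3 : g1 * (ε * (w - e)) ≤ g * (ε * w - E) := by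
      have h4 : ε * (w - e) ≤ ε * w - E := by nlinarith
      have h5 : 0 ≤ ε * (w - e) := mul_nonneg hε (by linarith)
      exact mul_le_mul hg h4 h5 (hg1.trans hg)
    calc K * (ε * w) = ε * (K * w) := by ring
      _ ≤ ε * (A - h + g1 * (w - e)) := h2
      _ = ε * (A - h) + g1 * (ε * (w - e)) := by ring
      _ ≤ _ := by linarith

theorem sound_A {b : CB} {t q : ℝ} {n k : ℕ} (hg : Good b t q) (ht0 : 0 < t) (ht1 : t < 1)
    (hq0 : 0 < q) (hq1 : q < 1) (hc : chkA b n k = true) : KEYprop t q := by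
  unfold chkA at hc
  simp only [Bool.and_eq_true] at hc
  obtain ⟨⟨⟨⟨⟨⟨⟨⟨⟨⟨hD, hK⟩, hS⟩, hSl⟩, hY⟩, hYl⟩, hA1⟩, hew⟩, hKok⟩, c1⟩, c2⟩ := hc
  obtain ⟨hk0, hk1⟩ := qk_range hK
  have hL := L_pos
  have he := eps_pos' ht0 ht1 hq0 hq1
  have hDZ : (Zv b).ok = true := by
    unfold okD at hD
    simp only [Bool.and_eq_true] at hD
    exact hD.1.1.1
  obtain ⟨hIL, hIU⟩ := I_bounds hg ht0 ht1 hq0 hq1 hDZ
  have hI0 := Iq_nonneg ht0.le ht1 hq0 hq1
  have hI1 := Iq_lt_one ht0.le ht1 hq0 hq1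
  -- the slope `T`
  set θk := artanh (val (qk k)) with hθk
  have mT := mem_Tiv hk0 hk1
  have mS := (mem_Siv hk0 hk1) hS
  have hS2 : 1 / 2 ≤ S θk := by
    rw [← val_HALFN]
    exact (val_mono (Nat.le_of_ble_eq_true hSl)).trans mS.1
  have hθ0 : 0 ≤ θk := (Real.artanh_pos ⟨hk0, hk1⟩).le
  have hT0 : 0 ≤ TT θk := TT_nonneg hθ0
  have hDk : 1 - S θk ≤ Iq t q :=
    (((mem_Yiv hk0 hk1) hY).2.trans (val_mono (Nat.le_of_ble_eq_true hYl))).trans hIL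
  have hT : TT θk ≤ dpsi (Iq t q) := by
    rw [← dpsi_Y hk0 hk1 hS2]
    exact dpsi_mono hDk hI1
  have hR := R_A ht0 ht1 hq0 hq1 hT0 hT
  -- the value `A`
  have mA : IV.mem ((1 + 1 / 2 * TT θk) * (N1 t q / L + 2 * (1 - S (artanh q)))) (A1iv b k) :=
    IV.mem_mul (IV.mem_add mem_ONE (IV.mem_mul mem_half mT))
      (IV.mem_add (IV.mem_div (mem_IN hg) mem_LIV) (IV.mem_mul mem_TWO (mem_IY hg)))
  have hAlo := (mA hA1).1
  set At := (1 + 1 / 2 * TT θk) * (N1 t q / L + 2 * (1 - S (artanh q))) with hAt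
  set w := val (gw n) with hw
  have hw0 : 0 ≤ w := val_nonneg _
  -- the two numeric inequalities
  have c1' := ivLe_sound c1
    (IV.mem_add (IV.mem_mul (IV.mem_pt (KA b n)) (IV.mem_pt (gw n))) (IV.mem_pt b.h2))
    (IV.mem_add (IV.mem_pt (A1iv b k).lo)
      (IV.mem_mul (IV.mem_mul (IV.mem_pt b.pL) (IV.mem_pt b.s1)) (IV.mem_pt (gw n))))
  have c2' := ivLe_sound c2
    (IV.mem_add (IV.mem_add (IV.mem_mul (IV.mem_pt (KA b n)) (IV.mem_pt (gw n))) (IV.mem_pt b.h2))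
      (IV.mem_mul (IV.mem_pt b.g1) (IV.mem_pt (eMn b))))
    (IV.mem_add (IV.mem_pt (A1iv b k).lo) (IV.mem_mul (IV.mem_pt b.g1) (IV.mem_pt (gw n))))
  have hew' : val (eMn b) ≤ w := val_mono (Nat.le_of_ble_eq_true hew)
  have hE := E_le hg ht0 ht1 hq0 hq1 hD
  have hg1 : 0 ≤ val b.g1 := val_nonneg _
  have hsig0 : 0 ≤ q ^ 2 / (1 + q ^ 2) := by positivity
  have hstar : val b.pL * val b.s1 ≤ sstar t q := by
    unfold sstar
    exact mul_le_mul hg.p1 hg.s1 (val_nonneg _) (p0_le_one ht0.le ht1 hq0.le hq1).2.le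
  have hws : val b.pL * val b.s1 * w ≤ sstar t q * w := mul_le_mul_of_nonneg_right hstar hw0
  obtain ⟨a1, a2⟩ := formA_alg (ε := eps t q) (s := sstar t q) (K := val (KA b n)) (w := w)
    (h := hh (artanh q)) (A := At) (g := gam (artanh q)) (g1 := val b.g1) (e := val (eMn b))
    (E := Eq t q) he.le (by linarith [hg.h2]) (by linarith [hg.h2]) hg1 hg.g1 hew' hE
  refine KEY_core ht0.le ht1 hq0 hq1 (D := eps t q * w) (K := val (KA b n)) (R := eps t q * (At - hh (artanh q)))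
    (mul_nonneg he.le hw0) ?_ ?_ hR a1 a2
  · have := mul_le_mul_of_nonneg_left hew' he.le
    linarith
  · intro x hx0 hx
    have hDu : eps t q * w ≤ val (DuA b n) := by
      have m := ((IV.mem_mul (IV.mem_pt (gw n)) (IV.mem_pt b.eU)) rfl).2
      have : eps t q * w ≤ w * val b.eU := by
        rw [mul_comm]
        exact mul_le_mul_of_nonneg_left hg.e2 hw0
      exact this.trans m
    exact KK_sound hKok hx0 (hx.trans hDu) hI0 hIU

/-! ### form `T` -/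

def Rpp (b : CB) (k kp : ℕ) : IV :=
  IV.add (IV.add (IV.mul (IV.pt b.pL) (IV.pt b.P1))
      (IV.div (IV.mul (IV.pt b.eL) (IV.pt b.NL)) LIV))
    (IV.mul (IV.pt (Tiv (qk kp)).lo) (IV.pt (Nat.sub (Yiv (qk k)).lo (IUn b))))

def KT (b : CB) (n : ℕ) : ℕ := KK (gw n) (IUn b)

def chkT (b : CB) (n k kp : ℕ) : Bool :=
  okD b && okK k && okK kp && (Siv (qk kp)).ok && Nat.ble HALFN (Siv (qk kp)).lo
  && (Yiv (qk k)).ok && (Yiv (qk kp)).ok
  && Nat.ble (Yiv (qk kp)).hi (IUn b) && Nat.ble (IUn b) (Yiv (qk k)).lo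
  && (Riv (qk k)).ok && (Tiv (qk kp)).ok
  && Nat.ble (EUn b) (gw n) && KKok (gw n) (IUn b)
  && ivLe (IV.add (IV.pt (Riv (qk k)).hi) (IV.mul (IV.pt (KT b n)) (IV.pt (gw n))))
       (IV.add (Rpp b k kp) (IV.mul (IV.mul (IV.pt b.pL) (IV.pt b.s1)) (IV.pt (gw n))))
  && ivLe (IV.add (IV.add (IV.pt (Riv (qk k)).hi) (IV.mul (IV.pt (KT b n)) (IV.pt (gw n))))
        (IV.mul (IV.pt b.g1) (IV.pt (EUn b))))
       (IV.add (Rpp b k kp) (IV.mul (IV.pt b.g1) (IV.pt (gw n))))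

theorem sound_T {b : CB} {t q : ℝ} {n k kp : ℕ} (hg : Good b t q) (ht0 : 0 < t) (ht1 : t < 1)
    (hq0 : 0 < q) (hq1 : q < 1) (hc : chkT b n k kp = true) : KEYprop t q := by
  unfold chkT at hc
  simp only [Bool.and_eq_true] at hc
  obtain ⟨⟨⟨⟨⟨⟨⟨⟨⟨⟨⟨⟨⟨⟨hD, hK⟩, hKp⟩, hS⟩, hSl⟩, hY⟩, hYp⟩, hYl⟩, hYu⟩, hRk⟩, hTp⟩, hEU⟩, hKok⟩, c1⟩, c2⟩ := hc
  obtain ⟨hk0, hk1⟩ := qk_range hK
  obtain ⟨hp0, hp1⟩ := qk_range hKp
  have hL := L_pos
  have he := eps_pos' ht0 ht1 hq0 hq1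
  have hDZ : (Zv b).ok = true := by
    unfold okD at hD
    simp only [Bool.and_eq_true] at hD
    exact hD.1.1.1
  obtain ⟨hIL, hIU⟩ := I_bounds hg ht0 ht1 hq0 hq1 hDZ
  have hI0 := Iq_nonneg ht0.le ht1 hq0 hq1
  set θk := artanh (val (qk k)) with hθk
  set θp := artanh (val (qk kp)) with hθp
  have mS := (mem_Siv hp0 hp1) hS
  have hS2 : 1 / 2 ≤ S θp := by
    rw [← val_HALFN]
    exact (val_mono (Nat.le_of_ble_eq_true hSl)).trans mS.1
  have hθ0 : 0 ≤ θp := (Real.artanh_pos ⟨hp0, hp1⟩).le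
  have hT0 : 0 ≤ TT θp := TT_nonneg hθ0
  have mYk := (mem_Yiv hk0 hk1) hY
  have mYp := (mem_Yiv hp0 hp1) hYp
  have mTp := (mem_Tiv hp0 hp1) hTp
  have mRk := (mem_Riv hk0 hk1) hRk
  have hIU1 : val (IUn b) ≤ 1 - S θk :=
    (val_mono (Nat.le_of_ble_eq_true hYu)).trans mYk.1
  have hIUp : 1 - S θp ≤ val (IUn b) :=
    mYp.2.trans (val_mono (Nat.le_of_ble_eq_true hYl))
  have hψ := psi_T hIU hIU1 (Y_lt_one hk0) (psiC_Y hk0 hk1) hIUp
    (le_of_eq (dpsi_Y hp0 hp1 hS2).symm)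
  -- numeric inequalities
  set d := val (gw n) with hd
  have hd0 : 0 ≤ d := val_nonneg _
  have mR : IV.mem (val b.pL * val b.P1 + val b.eL * val b.NL / L
      + val (Tiv (qk kp)).lo * val (Nat.sub (Yiv (qk k)).lo (IUn b))) (Rpp b k kp) :=
    IV.mem_add (IV.mem_add (IV.mem_mul (IV.mem_pt b.pL) (IV.mem_pt b.P1))
      (IV.mem_div (IV.mem_mul (IV.mem_pt b.eL) (IV.mem_pt b.NL)) mem_LIV))
      (IV.mem_mul (IV.mem_pt _) (IV.mem_pt _))
  have c1' := ivLe_sound c1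
    (IV.mem_add (IV.mem_pt (Riv (qk k)).hi) (IV.mem_mul (IV.mem_pt (KT b n)) (IV.mem_pt (gw n))))
    (IV.mem_add mR (IV.mem_mul (IV.mem_mul (IV.mem_pt b.pL) (IV.mem_pt b.s1)) (IV.mem_pt (gw n))))
  have c2' := ivLe_sound c2
    (IV.mem_add (IV.mem_add (IV.mem_pt (Riv (qk k)).hi)
      (IV.mem_mul (IV.mem_pt (KT b n)) (IV.mem_pt (gw n))))
      (IV.mem_mul (IV.mem_pt b.g1) (IV.mem_pt (EUn b))))
    (IV.mem_add mR (IV.mem_mul (IV.mem_pt b.g1) (IV.mem_pt (gw n))))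
  have hpp := p0_le_one ht0.le ht1 hq0.le hq1
  have hsig0 : 0 ≤ q ^ 2 / (1 + q ^ 2) := by positivity
  have hstar : val b.pL * val b.s1 ≤ sstar t q := by
    unfold sstar
    exact mul_le_mul hg.p1 hg.s1 (val_nonneg _) hpp.2.le
  have hws : val b.pL * val b.s1 * d ≤ sstar t q * d := mul_le_mul_of_nonneg_right hstar hd0
  have hEU' : val (EUn b) ≤ d := val_mono (Nat.le_of_ble_eq_true hEU)
  have hE := E_le_U hg ht0 ht1 hq0 hq1 hD
  have hg1 : 0 ≤ val b.g1 := val_nonneg _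
  -- the remainder
  set Rt := p0 t q * rhoθ (artanh q) + LL t q / L - (rhoθ θk - TT θp * (1 - S θk - val (IUn b))) with hRt
  have hR : Rt ≤ Jq t q - Lft t q 0 := by
    rw [R0_eq ht0.le ht1 hq0 hq1]
    linarith
  have hLLe : eps t q * N1 t q / L = LL t q / L := by
    rw [LL_eq ht0 ht1 hq0 hq1]
  have hX : val b.pL * val b.P1 + val b.eL * val b.NL / L
      + val (Tiv (qk kp)).lo * val (Nat.sub (Yiv (qk k)).lo (IUn b))
      ≤ Rt + rhoθ θk := by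
    have a1 : val b.pL * val b.P1 ≤ p0 t q * rhoθ (artanh q) :=
      mul_le_mul hg.p1 hg.r1 (val_nonneg _) hpp.2.le
    have a2 : val b.eL * val b.NL / L ≤ LL t q / L := by
      rw [← hLLe]
      apply div_le_div_of_nonneg_right _ hL.le
      exact mul_le_mul hg.e1 hg.n1 (val_nonneg _) he.le
    have a3 : val (Nat.sub (Yiv (qk k)).lo (IUn b)) ≤ 1 - S θk - val (IUn b) := by
      apply val_sub_le _ (by linarith)
      linarith [mYk.1]
    have a4 : val (Tiv (qk kp)).lo * val (Nat.sub (Yiv (qk k)).lo (IUn b))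
        ≤ TT θp * (1 - S θk - val (IUn b)) :=
      mul_le_mul mTp.1 a3 (val_nonneg _) hT0
    rw [hRt]
    linarith
  have hgd : val b.g1 * (d - val (EUn b)) ≤ gam (artanh q) * (d - Eq t q) :=
    mul_le_mul hg.g1 (by linarith) (by linarith) (hg1.trans hg.g1)
  refine KEY_core ht0.le ht1 hq0 hq1 (D := d) (K := val (KT b n)) (R := Rt) hd0 (hE.trans hEU') ?_ hR ?_ ?_
  · intro x hx0 hx
    exact KK_sound hKok hx0 hx hI0 hIU
  · have : rhoθ θk ≤ val (Riv (qk k)).hi := mRk.2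
    linarith
  · have : rhoθ θk ≤ val (Riv (qk k)).hi := mRk.2
    linarith

/-! ### form `B` -/

def KtB (b : CB) (n : ℕ) : IV :=
  IV.div (IV.mul (IV.ofQ 93 100) (IV.pt b.Y2)) (IV.sub (IV.sub ONE (IV.pt (gw n))) (IV.pt (IUn b)))

def chkB (b : CB) (n k : ℕ) : Bool :=
  okD b && okK k && (Siv (qk k)).ok && Nat.ble HALFN (Siv (qk k)).lo && (Yiv (qk k)).ok
  && Nat.ble (IUn b) (Yiv (qk k)).lo && (Tiv (qk k)).ok
  && Nat.ble (EUn b) (gw n) && Nat.ble (Nat.add (gw n) (IUn b)) HALFN && (KtB b n).ok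
  && ivLe (IV.add (IV.mul (KtB b n) (IV.pt (gw n))) (IV.mul (IV.pt b.Y2) (IV.pt (Tiv (qk k)).hi)))
      (IV.pt b.P1)

theorem sound_B {b : CB} {t q : ℝ} {n k : ℕ} (hg : Good b t q) (ht0 : 0 < t) (ht1 : t < 1)
    (hq0 : 0 < q) (hq1 : q < 1) (hc : chkB b n k = true) : KEYprop t q := by
  unfold chkB at hc
  simp only [Bool.and_eq_true] at hc
  obtain ⟨⟨⟨⟨⟨⟨⟨⟨⟨⟨hD, hK⟩, hS⟩, hSl⟩, hY⟩, hYu⟩, hT⟩, hEU⟩, hsum⟩, hKt⟩, c1⟩ := hc
  obtain ⟨hk0, hk1⟩ := qk_range hK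
  have hL := L_pos
  have he := eps_pos' ht0 ht1 hq0 hq1
  have hDZ : (Zv b).ok = true := by
    unfold okD at hD
    simp only [Bool.and_eq_true] at hD
    exact hD.1.1.1
  obtain ⟨hIL, hIU⟩ := I_bounds hg ht0 ht1 hq0 hq1 hDZ
  have hI0 := Iq_nonneg ht0.le ht1 hq0 hq1
  have hI1 := Iq_lt_one ht0.le ht1 hq0 hq1
  have hIle := Iq_le ht0.le ht1 hq0 hq1
  obtain ⟨hp1, hp0⟩ := p0_le_one ht0.le ht1 hq0.le hq1
  have hY0 := Y_nonneg hq0 hq1
  set θk := artanh (val (qk k)) with hθk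
  have mS := (mem_Siv hk0 hk1) hS
  have hS2 : 1 / 2 ≤ S θk := by
    rw [← val_HALFN]
    exact (val_mono (Nat.le_of_ble_eq_true hSl)).trans mS.1
  have hθ0 : 0 ≤ θk := (Real.artanh_pos ⟨hk0, hk1⟩).le
  have hT0 : 0 ≤ TT θk := TT_nonneg hθ0
  have mYk := (mem_Yiv hk0 hk1) hY
  have mT := (mem_Tiv hk0 hk1) hT
  have hIUk : val (IUn b) ≤ 1 - S θk :=
    (val_mono (Nat.le_of_ble_eq_true hYu)).trans mYk.1
  -- `psiC (I) ≤ I T`
  have hdp : dpsi (Iq t q) ≤ TT θk := by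
    rw [← dpsi_Y hk0 hk1 hS2]
    exact dpsi_mono (hIU.trans hIUk) (Y_lt_one hk0)
  have hψ : psiC (Iq t q) ≤ Iq t q * TT θk := by
    have h1 := psiC_tangent hI1 (show (0 : ℝ) < 1 by norm_num)
    rw [psiC_zero] at h1
    have h2 : Iq t q * dpsi (Iq t q) ≤ Iq t q * TT θk := mul_le_mul_of_nonneg_left hdp hI0
    linarith
  have hψ2 : psiC (Iq t q) ≤ p0 t q * (val b.Y2 * val (Tiv (qk k)).hi) := by
    have h2 : Iq t q * TT θk ≤ (p0 t q * val b.Y2) * val (Tiv (qk k)).hi := by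
      apply mul_le_mul _ mT.2 hT0 (by have := val_nonneg b.Y2; positivity)
      exact hIle.trans (mul_le_mul_of_nonneg_left hg.y2 hp0.le)
    calc psiC (Iq t q) ≤ _ := hψ
      _ ≤ _ := h2
      _ = _ := by ring
  have hLLn : 0 ≤ LL t q / L := div_nonneg (LL_nonneg ht0.le ht1 hq0 hq1) hL.le
  set d := val (gw n) with hd
  have hd0 : 0 ≤ d := val_nonneg _
  have hsum' : d + val (IUn b) ≤ 1 / 2 := by
    rw [← val_HALFN]
    have h1 := val_mono (Nat.le_of_ble_eq_true hsum)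
    have e : val (Nat.add (gw n) (IUn b)) = d + val (IUn b) := val_add _ _
    rw [e] at h1
    exact h1
  have hEU' : val (EUn b) ≤ d := val_mono (Nat.le_of_ble_eq_true hEU)
  have hE := E_le_U hg ht0 ht1 hq0 hq1 hD
  have hDE : 0 ≤ d - Eq t q := by linarith
  have hY2 : 0 ≤ val b.Y2 := val_nonneg _
  have mK : IV.mem (93 / 100 * val b.Y2 / (1 - d - val (IUn b))) (KtB b n) := by
    have e : ((93 : ℕ) : ℝ) / ((100 : ℕ) : ℝ) = 93 / 100 := by norm_num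
    have := IV.mem_div (IV.mem_mul (IV.mem_ofQ 93 100) (IV.mem_pt b.Y2))
      (IV.mem_sub (IV.mem_sub mem_ONE (IV.mem_pt (gw n))) (IV.mem_pt (IUn b)))
    rw [e] at this
    exact this
  have hKhi := (mK hKt).2
  set Kt := val (KtB b n).lo with hKt0
  have c1' := ivLe_sound c1
    (IV.mem_add (IV.mem_mul mK (IV.mem_pt (gw n))) (IV.mem_mul (IV.mem_pt b.Y2) (IV.mem_pt (Tiv (qk k)).hi)))
    (IV.mem_pt b.P1)
  set Kr := 93 / 100 * val b.Y2 / (1 - d - val (IUn b)) with hKr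
  have hden : 0 < 1 - d - val (IUn b) := by linarith
  have hKr0 : 0 ≤ Kr := by positivity
  have hsig0 : 0 ≤ q ^ 2 / (1 + q ^ 2) := by positivity
  have hs0 : 0 ≤ sstar t q := by
    unfold sstar
    positivity
  have hg0 := gam_nonneg' hq0 hq1
  have hR : p0 t q * (val b.P1 - val b.Y2 * val (Tiv (qk k)).hi) ≤ Jq t q - Lft t q 0 := by
    rw [R0_eq ht0.le ht1 hq0 hq1]
    have a1 : p0 t q * val b.P1 ≤ p0 t q * rhoθ (artanh q) :=
      mul_le_mul_of_nonneg_left hg.r1 hp0.le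
    linarith
  have hmain : p0 t q * Kr * d ≤ p0 t q * (val b.P1 - val b.Y2 * val (Tiv (qk k)).hi) := by
    have : Kr * d ≤ val b.P1 - val b.Y2 * val (Tiv (qk k)).hi := by linarith
    have := mul_le_mul_of_nonneg_left this hp0.le
    calc p0 t q * Kr * d = p0 t q * (Kr * d) := by ring
      _ ≤ _ := this
  refine KEY_core ht0.le ht1 hq0 hq1 (D := d) (K := p0 t q * Kr)
    (R := p0 t q * (val b.P1 - val b.Y2 * val (Tiv (qk k)).hi)) hd0 (hE.trans hEU') ?_ hR ?_ ?_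
  · intro x hx0 hx
    have h1 : x + Iq t q ≤ 1 / 2 := by linarith
    have h2 := supF_le_a hx0 hI0 h1
    refine h2.trans ?_
    have hden2 : 1 - d - val (IUn b) ≤ 1 - Iq t q - x := by linarith
    rw [div_le_iff₀ (by linarith)]
    have h3 : Iq t q ≤ p0 t q * val b.Y2 :=
      hIle.trans (mul_le_mul_of_nonneg_left hg.y2 hp0.le)
    have h4 : p0 t q * Kr * x * (1 - d - val (IUn b)) = 93 / 100 * x * (p0 t q * val b.Y2) := by
      rw [hKr]
      field_simp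
    have h5 : p0 t q * Kr * x * (1 - d - val (IUn b)) ≤ p0 t q * Kr * x * (1 - Iq t q - x) :=
      mul_le_mul_of_nonneg_left hden2 (by positivity)
    have h6 : 93 / 100 * x * Iq t q ≤ 93 / 100 * x * (p0 t q * val b.Y2) :=
      mul_le_mul_of_nonneg_left h3 (by positivity)
    linarith
  · have : 0 ≤ sstar t q * d := mul_nonneg hs0 hd0
    linarith
  · have : 0 ≤ gam (artanh q) * (d - Eq t q) := mul_nonneg hg0 hDE
    linarith

/-! ### the tree -/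

/-- certificate: a binary tree of cells, each leaf with the data of one of the forms -/
inductive CT where
  | a (n k : ℕ)
  | c (n k kp : ℕ)
  | b (n k : ℕ)
  | st (l r : CT)
  | sq (l r : CT)

def midN (a b : ℕ) : ℕ := Nat.div (Nat.add a b) 2

def chk : CT → ℕ → ℕ → ℕ → ℕ → Bool
  | .a n k, t1, t2, q1, q2 => okCB t1 t2 q1 q2 && chkA (mkCB t1 t2 q1 q2) n k
  | .c n k kp, t1, t2, q1, q2 => okCB t1 t2 q1 q2 && chkT (mkCB t1 t2 q1 q2) n k kp
  | .b n k, t1, t2, q1, q2 => okCB t1 t2 q1 q2 && chkB (mkCB t1 t2 q1 q2) n k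
  | .st l r, t1, t2, q1, q2 => chk l t1 (midN t1 t2) q1 q2 && chk r (midN t1 t2) t2 q1 q2
  | .sq l r, t1, t2, q1, q2 => chk l t1 t2 q1 (midN q1 q2) && chk r t1 t2 (midN q1 q2) q2

theorem qrange_of_ok {t1 t2 q1 q2 : ℕ} (h : okCB t1 t2 q1 q2 = true) {q : ℝ} (h3 : val q1 ≤ q)
    (h4 : q ≤ val q2) : 0 < q ∧ q < 1 := by
  unfold okCB at h
  simp only [Bool.and_eq_true] at h
  obtain ⟨⟨⟨⟨⟨⟨⟨⟨⟨⟨⟨⟨⟨o1, o2⟩, o3⟩, -⟩, -⟩, -⟩, -⟩, -⟩, -⟩, -⟩, -⟩, -⟩, -⟩, -⟩ := h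
  exact ⟨(val_pos_of (Nat.le_of_ble_eq_true o2)).trans_le h3,
    h4.trans_lt (val_lt_one (Nat.le_of_ble_eq_true o3))⟩

theorem chk_sound (c : CT) : ∀ t1 t2 q1 q2 : ℕ, chk c t1 t2 q1 q2 = true →
    ∀ t q : ℝ, 0 < t → t < 1 → val t1 ≤ t → t ≤ val t2 → val q1 ≤ q → q ≤ val q2 → KEYprop t q := by
  induction c with
  | a n k =>
    intro t1 t2 q1 q2 h t q ht0 ht1 h1 h2 h3 h4
    simp only [chk, Bool.and_eq_true] at h
    obtain ⟨hq0, hq1⟩ := qrange_of_ok h.1 h3 h4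
    exact sound_A (good_mk h.1 ht0 ht1 h1 h2 h3 h4) ht0 ht1 hq0 hq1 h.2
  | c n k kp =>
    intro t1 t2 q1 q2 h t q ht0 ht1 h1 h2 h3 h4
    simp only [chk, Bool.and_eq_true] at h
    obtain ⟨hq0, hq1⟩ := qrange_of_ok h.1 h3 h4
    exact sound_T (good_mk h.1 ht0 ht1 h1 h2 h3 h4) ht0 ht1 hq0 hq1 h.2
  | b n k =>
    intro t1 t2 q1 q2 h t q ht0 ht1 h1 h2 h3 h4
    simp only [chk, Bool.and_eq_true] at h
    obtain ⟨hq0, hq1⟩ := qrange_of_ok h.1 h3 h4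
    exact sound_B (good_mk h.1 ht0 ht1 h1 h2 h3 h4) ht0 ht1 hq0 hq1 h.2
  | st l r ihl ihr =>
    intro t1 t2 q1 q2 h t q ht0 ht1 h1 h2 h3 h4
    simp only [chk, Bool.and_eq_true] at h
    rcases le_total t (val (midN t1 t2)) with hc | hc
    · exact ihl _ _ _ _ h.1 t q ht0 ht1 h1 hc h3 h4
    · exact ihr _ _ _ _ h.2 t q ht0 ht1 hc h2 h3 h4
  | sq l r ihl ihr =>
    intro t1 t2 q1 q2 h t q ht0 ht1 h1 h2 h3 h4
    simp only [chk, Bool.and_eq_true] at h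
    rcases le_total q (val (midN q1 q2)) with hc | hc
    · exact ihl _ _ _ _ h.1 t q ht0 ht1 h1 h2 h3 hc
    · exact ihr _ _ _ _ h.2 t q ht0 ht1 h1 h2 hc h4

end CK322
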