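import Vale.Agent.Lib.P322.KFam

/-!
The interval check of `KEYprop` on a cell of the `(t,q)` square.
-/

open Real

namespace CK322

/-! ### more enclosures -/

def ivSig (Q : IV) : IV := IV.div (ivsq Q) (IV.add ONE (ivsq Q))
def ivH (Q : IV) : IV := IV.div (IV.mul Q (ivAt Q)) LIV
def ivY (Q : IV) : IV := IV.sub ONE (ivS Q)
def ivRho (Q : IV) : IV := IV.sub (ivH Q) (IV.mul (IV.ofQ 2 1) (ivY Q))
def ivTT (Q : IV) : IV := IV.sub (IV.div Q (IV.mul (IV.sub ONE (ivsq Q)) (ivAt Q))) ONE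
def ivGam (Q : IV) : IV :=
  IV.div (IV.div (ivsq Q) (IV.sub ONE (ivsq Q))) (IV.add LIV (IV.mul (IV.ofQ 1 2) (ivLam Q)))

section mem

variable {q : ℝ} {Q : IV}

theorem mem_Sig (hq : IV.mem q Q) : IV.mem (q ^ 2 / (1 + q ^ 2)) (ivSig Q) :=
  IV.mem_div (mem_sq hq) (IV.mem_add mem_ONE (mem_sq hq))

theorem mem_H (hq : IV.mem q Q) (h0 : 0 ≤ q) (h1 : q < 1) :
    IV.mem (q * artanh q / L) (ivH Q) :=
  IV.mem_div (IV.mem_mul hq (mem_At hq h0 h1)) mem_LIV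

theorem mem_Y (hq : IV.mem q Q) (h0 : 0 ≤ q) (h1 : q < 1) :
    IV.mem (1 - S (artanh q)) (ivY Q) :=
  IV.mem_sub mem_ONE (mem_S hq h0 h1)

theorem mem_two : IV.mem (2 : ℝ) (IV.ofQ 2 1) := IV.mem_ofQ' 2 1 _ (by norm_num)

theorem mem_Rho (hq : IV.mem q Q) (h0 : 0 < q) (h1 : q < 1) :
    IV.mem (rhoθ (artanh q)) (ivRho Q) := by
  have e : rhoθ (artanh q) = q * artanh q / L - 2 * (1 - S (artanh q)) := by
    unfold rhoθ
    rw [hh_artanh h0 h1]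
    ring
  rw [e]
  exact IV.mem_sub (mem_H hq h0.le h1) (IV.mem_mul mem_two (mem_Y hq h0.le h1))

theorem mem_TT (hq : IV.mem q Q) (h0 : 0 < q) (h1 : q < 1) :
    IV.mem (TT (artanh q)) (ivTT Q) := by
  unfold TT
  rw [zeta_artanh_semi h0 h1]
  exact IV.mem_sub (IV.mem_div hq (IV.mem_mul (IV.mem_sub mem_ONE (mem_sq hq)) (mem_At hq h0.le h1)))
    mem_ONE

theorem gam_artanh (h0 : 0 < q) (h1 : q < 1) :
    gam (artanh q) = (q ^ 2 / (1 - q ^ 2)) / (L + 1 / 2 * (-log (1 - q ^ 2))) := by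
  have hmem : q ∈ Set.Ioo (-1 : ℝ) 1 := ⟨by linarith, h1⟩
  have hpos : 0 < 1 - q ^ 2 := by nlinarith
  have hs : 0 < √(1 - q ^ 2) := Real.sqrt_pos.mpr hpos
  have hss : √(1 - q ^ 2) ^ 2 = 1 - q ^ 2 := Real.sq_sqrt hpos.le
  have e1 : sinh (artanh q) ^ 2 = q ^ 2 / (1 - q ^ 2) := by
    rw [Real.sinh_artanh hmem, div_pow, hss]
  have e2 : log (2 * cosh (artanh q)) = L + 1 / 2 * (-log (1 - q ^ 2)) := by
    rw [Real.cosh_artanh hmem, Real.log_mul (by norm_num) (by positivity), one_div, Real.log_inv,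
      Real.log_sqrt hpos.le]
    unfold L
    ring
  unfold gam
  rw [e1, e2]

theorem mem_Gam (hq : IV.mem q Q) (h0 : 0 < q) (h1 : q < 1) :
    IV.mem (gam (artanh q)) (ivGam Q) := by
  rw [gam_artanh h0 h1]
  exact IV.mem_div (IV.mem_div (mem_sq hq) (IV.mem_sub mem_ONE (mem_sq hq)))
    (IV.mem_add mem_LIV (IV.mem_mul mem_half (mem_Lam hq)))

end mem

/-! ### real lemmas about corners -/

section corners

variable {t q : ℝ}

theorem phi_artanh {u : ℝ} (h0 : 0 ≤ u) (h1 : u < 1) : phi u = S (artanh u) := by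
  rw [← phi_tanh, Real.tanh_artanh ⟨by linarith, h1⟩]

theorem phi_anti_c {a b : ℝ} (h0 : 0 ≤ a) (hab : a ≤ b) (h1 : b < 1) : phi b ≤ phi a := by
  rw [phi_artanh h0 (hab.trans_lt h1), phi_artanh (h0.trans hab) h1]
  exact S_le h0 hab h1

theorem abar_nonneg (ht0 : 0 ≤ t) (ht1 : t < 1) (hq0 : 0 < q) (hq1 : q < 1) : 0 ≤ abar t q := by
  unfold abar
  exact mul_nonneg ht0 (uu_nonneg' ht0 ht1.le hq0.le hq1)

theorem abar_lt_one (ht0 : 0 ≤ t) (ht1 : t < 1) (hq0 : 0 < q) (hq1 : q < 1) : abar t q < 1 := by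
  have := abar_sq_lt_one ht0 ht1 hq0 hq1
  nlinarith [abar_nonneg ht0 ht1 hq0 hq1]

theorem val_nsub_le {a b : ℕ} {x y : ℝ} (ha : val a ≤ x) (hb : y ≤ val b) (h : 0 ≤ x - y) :
    val (Nat.sub a b) ≤ x - y := by
  by_cases hc : b ≤ a
  · rw [show Nat.sub a b = a - b from rfl, val_sub_of_le hc]
    linarith
  · have : Nat.sub a b = 0 := by
      show a - b = 0
      omega
    rw [this]
    simpa [val] using h

theorem le_artanh {y : ℝ} (h0 : 0 ≤ y) (h1 : y < 1) : y ≤ artanh y := by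
  have h2 := serR_le h0 h1
  have h3 : 2 * y ≤ serR y := by
    unfold serR
    have : 0 ≤ y ^ 2 * (2 / 3 + y ^ 2 * (2 / 5 + y ^ 2 * (2 / 7 + y ^ 2 * (2 / 9 + y ^ 2 * (2 / 11
      + y ^ 2 * (2 / 13 + y ^ 2 * (2 / 15 + y ^ 2 * (2 / 17 + y ^ 2 * (2 / 19))))))))) := by
      positivity
    nlinarith
  rw [Real.artanh_eq_half_log ⟨by linarith, h1.le⟩,
    Real.log_div (by linarith) (by linarith)]
  linarith

/-- The crude bound of `N1`. -/
theorem N1_le_Lam (ht0 : 0 < t) (ht1 : t < 1) (hq0 : 0 < q) (hq1 : q < 1) :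
    N1 t q ≤ -log (1 - q ^ 2) - q ^ 2 := by
  have he := eps_pos_q ht0 ht1 hq0 hq1
  rw [N1_eq ht0 ht1 hq0 hq1]
  have h1 : log (1 + eps t q * q ^ 2) ≤ eps t q * q ^ 2 := by
    have := Real.log_le_sub_one_of_pos (show 0 < 1 + eps t q * q ^ 2 by positivity)
    linarith
  have h2 : log (1 + eps t q * q ^ 2) / eps t q ≤ q ^ 2 := by
    rw [div_le_iff₀ he]
    linarith
  have hw0 : 0 ≤ t * q ^ 2 := by positivity
  have hw1 : t * q ^ 2 < 1 := by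
    have : q ^ 2 < 1 := sq_lt_one' hq0.le hq1
    nlinarith [sq_nonneg q]
  have h3 : t * q ^ 2 ≤ artanh (t * q ^ 2) := le_artanh hw0 hw1
  have h5 : q ^ 2 ≤ artanh (t * q ^ 2) / t := by
    rw [le_div_iff₀ ht0]
    linarith
  have e : 2 * artanh (t * q ^ 2) / t = 2 * (artanh (t * q ^ 2) / t) := by ring
  rw [e]
  linarith

theorem Lam_mono {a b : ℝ} (h0 : 0 ≤ a) (hab : a ≤ b) (h1 : b < 1) :
    -log (1 - a ^ 2) - a ^ 2 ≤ -log (1 - b ^ 2) - b ^ 2 := by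
  have ha2 : a ^ 2 ≤ b ^ 2 := pow_le_pow_left₀ h0 hab 2
  have hb2 : b ^ 2 < 1 := sq_lt_one' (h0.trans hab) h1
  have hp : 0 < 1 - b ^ 2 := by linarith
  have hp2 : 0 < 1 - a ^ 2 := by linarith
  have h3 := Real.one_sub_inv_le_log_of_pos (div_pos hp2 hp)
  rw [Real.log_div hp2.ne' hp.ne', inv_div] at h3
  have h4 : 1 - (1 - b ^ 2) / (1 - a ^ 2) = (b ^ 2 - a ^ 2) / (1 - a ^ 2) := by
    field_simp
    ring
  have h5 : b ^ 2 - a ^ 2 ≤ (b ^ 2 - a ^ 2) / (1 - a ^ 2) := by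
    rw [le_div_iff₀ hp2]
    nlinarith [sq_nonneg a]
  linarith

end corners

/-! ### primary numbers of a cell -/

/-- the slope bounds at the cap, as literals -/
def T0LO : ℕ := 16695366026179685846
def T0HI : ℕ := 16696357800741438048

def HALFN : ℕ := 9223372036854775808
def F93 : IV := IV.ofQ 93 100
def TWOL : IV := IV.mul (IV.ofQ 2 1) LIV
def FOURL : IV := IV.mul (IV.ofQ 4 1) LIV

theorem mem_F93 : IV.mem (93 / 100 : ℝ) F93 := IV.mem_ofQ' 93 100 _ (by norm_num)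
theorem mem_TWOL : IV.mem (2 * L) TWOL := IV.mem_mul mem_two mem_LIV
theorem mem_FOURL : IV.mem (4 * L) FOURL :=
  IV.mem_mul (IV.mem_ofQ' 4 1 _ (by norm_num)) mem_LIV

def ivPd (D : ℕ) : IV := IV.div (IV.mul F93 (IV.pt D)) (IV.sub ONE (IV.pt D))

theorem mem_Pd (D : ℕ) : IV.mem (93 / 100 * val D / (1 - val D)) (ivPd D) :=
  IV.mem_div (IV.mem_mul mem_F93 (IV.mem_pt D)) (IV.mem_sub mem_ONE (IV.mem_pt D))

structure KP where
  eL : ℕ
  eU : ℕ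
  pL : ℕ
  uL : ℕ
  phiU : ℕ
  NL : ℕ
  NU : ℕ
  sg1 : ℕ
  sg2 : ℕ
  Y1 : ℕ
  Y2 : ℕ
  rh1 : ℕ
  rh2 : ℕ
  TT2 : ℕ
  g1 : ℕ

def kpNUiv (t1 q2 : ℕ) : IV :=
  cond (Nat.beq t1 0)
    ⟨(ivLam (IV.pt q2)).ok && (ivsq (IV.pt q2)).ok, 0,
      Nat.sub (ivLam (IV.pt q2)).hi (ivsq (IV.pt q2)).lo⟩
    ⟨(ivN1plus (IV.pt t1) (IV.pt q2)).ok && (ivN1minus (IV.pt t1) (IV.pt q2)).ok, 0,
      Nat.sub (ivN1plus (IV.pt t1) (IV.pt q2)).hi (ivN1minus (IV.pt t1) (IV.pt q2)).lo⟩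

def kpAb (t1 q2 : ℕ) : ℕ := (IV.mul (IV.pt t1) (IV.pt (ivUU (IV.pt t1) (IV.pt q2)).lo)).lo

def kp (t1 t2 q1 q2 : ℕ) : KP :=
  ⟨(ivEps (IV.pt t1) (IV.pt q2)).lo,
   (ivEps (IV.pt t2) (IV.pt q1)).hi,
   (ivP0 (IV.pt t2) (IV.pt q1)).lo,
   (ivUU (IV.pt t1) (IV.pt q2)).lo,
   (ivS (IV.pt (kpAb t1 q2))).hi,
   Nat.sub (ivN1plus (IV.pt t2) (IV.pt q1)).lo (ivN1minus (IV.pt t2) (IV.pt q1)).hi,
   (kpNUiv t1 q2).hi,
   (ivSig (IV.pt q1)).lo,
   (ivSig (IV.pt q2)).hi,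
   (ivY (IV.pt q1)).lo,
   (ivY (IV.pt q2)).hi,
   (ivRho (IV.pt q1)).lo,
   (ivRho (IV.pt q2)).hi,
   (ivTT (IV.pt q2)).hi,
   (ivGam (IV.pt q1)).lo⟩

def kpOK (t1 t2 q1 q2 : ℕ) : Bool :=
  Nat.blt 0 q1 && Nat.blt q2 SC && Nat.blt t2 SC &&
  (ivEps (IV.pt t1) (IV.pt q2)).ok && (ivEps (IV.pt t2) (IV.pt q1)).ok &&
  (ivP0 (IV.pt t2) (IV.pt q1)).ok && (ivUU (IV.pt t1) (IV.pt q2)).ok &&
  (ivS (IV.pt (kpAb t1 q2))).ok && (ivN1plus (IV.pt t2) (IV.pt q1)).ok &&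
  (ivN1minus (IV.pt t2) (IV.pt q1)).ok && (kpNUiv t1 q2).ok &&
  (ivSig (IV.pt q1)).ok && (ivSig (IV.pt q2)).ok &&
  (ivY (IV.pt q1)).ok && (ivY (IV.pt q2)).ok &&
  (ivRho (IV.pt q1)).ok && (ivRho (IV.pt q2)).ok &&
  (ivTT (IV.pt q2)).ok && (ivGam (IV.pt q1)).ok

/-- the facts about the primary numbers -/
structure KPF (t q : ℝ) (c : KP) : Prop where
  eL : val c.eL ≤ eps t q
  eU : eps t q ≤ val c.eU
  pL : val c.pL ≤ p0 t q
  uL : val c.uL ≤ uu t q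
  phiU : phi (abar t q) ≤ val c.phiU
  NL : val c.NL ≤ N1 t q
  NU : N1 t q ≤ val c.NU
  sg1 : val c.sg1 ≤ q ^ 2 / (1 + q ^ 2)
  sg2 : q ^ 2 / (1 + q ^ 2) ≤ val c.sg2
  Y1 : val c.Y1 ≤ 1 - S (artanh q)
  Y2 : 1 - S (artanh q) ≤ val c.Y2
  rh1 : val c.rh1 ≤ rhoθ (artanh q)
  rh2 : rhoθ (artanh q) ≤ val c.rh2
  TT2 : TT (artanh q) ≤ val c.TT2
  g1 : val c.g1 ≤ gam (artanh q)

section sound

variable {t q : ℝ} {t1 t2 q1 q2 : ℕ}

theorem sig_mono {a b : ℝ} (h0 : 0 ≤ a) (hab : a ≤ b) :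
    a ^ 2 / (1 + a ^ 2) ≤ b ^ 2 / (1 + b ^ 2) := by
  have h2 : a ^ 2 ≤ b ^ 2 := pow_le_pow_left₀ h0 hab 2
  rw [div_le_div_iff₀ (by positivity) (by positivity)]
  nlinarith

theorem kpNU_sound (h : (kpNUiv t1 q2).ok = true) (ht0 : 0 < t) (ht1 : t < 1) (hq0 : 0 < q)
    (hta : val t1 ≤ t) (hqb : q ≤ val q2) (hb2 : val q2 < 1) :
    N1 t q ≤ val (kpNUiv t1 q2).hi := by
  have hq1 : q < 1 := hqb.trans_lt hb2
  have hq20 : 0 < val q2 := hq0.trans_le hqb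
  by_cases h0 : t1 = 0
  · subst h0
    have e : kpNUiv 0 q2 = ⟨(ivLam (IV.pt q2)).ok && (ivsq (IV.pt q2)).ok, 0,
      Nat.sub (ivLam (IV.pt q2)).hi (ivsq (IV.pt q2)).lo⟩ := rfl
    rw [e] at h ⊢
    simp only [Bool.and_eq_true] at h
    have a1 := (mem_Lam (IV.mem_pt q2) h.1).2
    have a2 := (mem_sq (IV.mem_pt q2) h.2).1
    have a3 := val_sub_ge (ivLam (IV.pt q2)).hi (ivsq (IV.pt q2)).lo
    have a4 := N1_le_Lam ht0 ht1 hq0 hq1
    have a5 := Lam_mono hq0.le hqb hb2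
    show N1 t q ≤ val (Nat.sub (ivLam (IV.pt q2)).hi (ivsq (IV.pt q2)).lo)
    linarith
  · have e : kpNUiv t1 q2 = ⟨(ivN1plus (IV.pt t1) (IV.pt q2)).ok && (ivN1minus (IV.pt t1) (IV.pt q2)).ok, 0,
      Nat.sub (ivN1plus (IV.pt t1) (IV.pt q2)).hi (ivN1minus (IV.pt t1) (IV.pt q2)).lo⟩ := by
      unfold kpNUiv
      have : Nat.beq t1 0 = false := by
        cases t1 with
        | zero => exact absurd rfl h0
        | succ n => rfl
      rw [this]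
      rfl
    rw [e] at h ⊢
    simp only [Bool.and_eq_true] at h
    have ht1p : 0 < val t1 := by
      have : (0 : ℝ) < (t1 : ℝ) := by exact_mod_cast Nat.pos_of_ne_zero h0
      exact div_pos this SC_pos
    have a0 : val t1 < 1 := hta.trans_lt ht1
    have a1 := (mem_N1plus (IV.mem_pt t1) (IV.mem_pt q2) h.1).2
    have a2 := (mem_N1minus (IV.mem_pt t1) (IV.mem_pt q2) ht1p.le a0 hq20.le hb2 h.2).1
    have a3 := val_sub_ge (ivN1plus (IV.pt t1) (IV.pt q2)).hi (ivN1minus (IV.pt t1) (IV.pt q2)).lo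
    have a4 := N1_anti_t ht1p hta ht1 hq0 hq1
    have a5 := N1_mono_q ht1p a0 hq0 hqb hb2
    have a6 := N1_eq ht1p a0 hq20 hb2
    show N1 t q ≤ val (Nat.sub (ivN1plus (IV.pt t1) (IV.pt q2)).hi (ivN1minus (IV.pt t1) (IV.pt q2)).lo)
    linarith

theorem val_pos_of_pos {n : ℕ} (h : 0 < n) : 0 < val n := by
  have : (0 : ℝ) < (n : ℝ) := by exact_mod_cast h
  exact div_pos this SC_pos

theorem val_lt_one_of_lt {n : ℕ} (h : n < SC) : val n < 1 := by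
  rw [← show val SC = 1 from val_SC]
  exact val_lt_of_lt h

theorem kp_sound (h : kpOK t1 t2 q1 q2 = true) (ht0 : 0 < t) (ht1 : t < 1)
    (hta : val t1 ≤ t) (htb : t ≤ val t2) (hqa : val q1 ≤ q) (hqb : q ≤ val q2) :
    KPF t q (kp t1 t2 q1 q2) := by
  unfold kpOK at h
  simp only [Bool.and_eq_true] at h
  obtain ⟨⟨⟨⟨⟨⟨⟨⟨⟨⟨⟨⟨⟨⟨⟨⟨⟨⟨h1, h2⟩, h3⟩, ok1⟩, ok2⟩, ok3⟩, ok4⟩, ok5⟩, ok6⟩, ok7⟩, ok8⟩, ok9⟩,
    ok10⟩, ok11⟩, ok12⟩, ok13⟩, ok14⟩, ok15⟩, ok16⟩ := h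
  have hq1p : 0 < val q1 := val_pos_of_pos (Nat.le_of_ble_eq_true h1)
  have hb2 : val q2 < 1 := val_lt_one_of_lt (Nat.le_of_ble_eq_true h2)
  have ha2 : val t2 < 1 := val_lt_one_of_lt (Nat.le_of_ble_eq_true h3)
  have hq0 : 0 < q := hq1p.trans_le hqa
  have hq1 : q < 1 := hqb.trans_lt hb2
  have hq20 : 0 < val q2 := hq0.trans_le hqb
  have ht20 : 0 < val t2 := ht0.trans_le htb
  have ht10 := val_nonneg t1
  have ht11 : val t1 < 1 := hta.trans_lt ht1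
  have hq11 : val q1 < 1 := hqa.trans_lt hq1
  have mt1 := IV.mem_pt t1
  have mt2 := IV.mem_pt t2
  have mq1 := IV.mem_pt q1
  have mq2 := IV.mem_pt q2
  have hθ : 0 ≤ artanh q := Real.artanh_nonneg hq0.le
  have hθ1 : artanh (val q1) ≤ artanh q := Real.artanh_le_artanh (by linarith) hq1 hqa
  have hθ2 : artanh q ≤ artanh (val q2) := Real.artanh_le_artanh (by linarith) hb2 hqb
  have hθ10 : 0 < artanh (val q1) := Real.artanh_pos ⟨hq1p, hq11⟩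
  have hUL : val (ivUU (IV.pt t1) (IV.pt q2)).lo ≤ uu t q :=
    (mem_uu mt1 mq2 ok4).1.trans (c_uu_lo ht10 hta ht1.le hq0.le hqb hb2)
  have hAb : val (kpAb t1 q2) ≤ abar t q := by
    have h3 := IV.mem_mul mt1 (IV.mem_pt (ivUU (IV.pt t1) (IV.pt q2)).lo) rfl
    refine h3.1.trans ?_
    unfold abar
    exact mul_le_mul hta hUL (val_nonneg _) (ht10.trans hta)
  unfold kp
  refine ⟨?_, ?_, ?_, hUL, ?_, ?_, kpNU_sound ok8 ht0 ht1 hq0 hta hqb hb2, ?_, ?_, ?_, ?_, ?_, ?_, ?_, ?_⟩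
  · exact (mem_eps mt1 mq2 ok1).1.trans (c_eps_lo ht10 hta ht1.le hq0.le hqb hb2)
  · exact (c_eps_hi ht0.le htb ha2.le hq1p.le hqa hq1).trans (mem_eps mt2 mq1 ok2).2
  · exact (mem_p0 mt2 mq1 ok3).1.trans (c_p0_lo ht0.le htb ha2.le hq1p.le hqa hq1)
  · have a1 := abar_lt_one ht0.le ht1 hq0 hq1
    have a2 := phi_anti_c (val_nonneg _) hAb a1
    refine a2.trans ?_
    rw [phi_artanh (val_nonneg _) (hAb.trans_lt a1)]
    exact (mem_S (IV.mem_pt _) (val_nonneg _) (hAb.trans_lt a1) ok5).2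
  · have a1 := (mem_N1plus mt2 mq1 ok6).1
    have a2 := (mem_N1minus mt2 mq1 ht20.le ha2 hq1p.le hq11 ok7).2
    have a3 := N1_eq ht20 ha2 hq1p hq11
    have a4 := N1_nonneg ht20 ha2 hq1p hq11
    have a5 := val_nsub_le a1 a2 (by rw [← a3]; exact a4)
    rw [← a3] at a5
    exact a5.trans ((N1_mono_q ht20 ha2 hq1p hqa hq1).trans (N1_anti_t ht0 htb ha2 hq0 hq1))
  · exact (mem_Sig mq1 ok9).1.trans (sig_mono hq1p.le hqa)
  · exact (sig_mono hq0.le hqb).trans (mem_Sig mq2 ok10).2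
  · have a1 := (mem_Y mq1 hq1p.le hq11 ok11).1
    have := S_le hq1p.le hqa hq1
    show val (ivY (IV.pt q1)).lo ≤ _
    linarith
  · have a1 := (mem_Y mq2 hq20.le hb2 ok12).2
    have := S_le hq0.le hqb hb2
    show _ ≤ val (ivY (IV.pt q2)).hi
    linarith
  · exact (mem_Rho mq1 hq1p hq11 ok13).1.trans (rhoθ_mono hθ10.le hθ1)
  · exact (rhoθ_mono hθ hθ2).trans (mem_Rho mq2 hq20 hb2 ok14).2
  · dsimp only
    exact (TT_mono hθ hθ2).trans (mem_TT mq2 hq20 hb2 ok15).2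
  · dsimp only
    exact (mem_Gam mq1 hq1p hq11 ok16).1.trans
      (gam_mono (Set.mem_Ioi.2 hθ10) (Set.mem_Ioi.2 (hθ10.trans_le hθ1)) hθ1)

end sound

/-! ### the bounds of `T0` -/

def qcLO : ℕ := 14387353572849027072
def qcHI : ℕ := 14387538040289765376

def T0check : Bool :=
  (ivS (IV.pt qcLO)).ok && (ivS (IV.pt qcHI)).ok && (ivTT (IV.pt qcLO)).ok && (ivTT (IV.pt qcHI)).ok
    && Nat.ble HALFN (ivS (IV.pt qcLO)).lo && Nat.ble (ivS (IV.pt qcHI)).hi HALFN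
    && Nat.ble T0LO (ivTT (IV.pt qcLO)).lo && Nat.ble (ivTT (IV.pt qcHI)).hi T0HI

theorem T0check_true : T0check = true := by decide +kernel

theorem val_HALFN : val HALFN = 1 / 2 := by
  unfold val HALFN SC
  norm_num

theorem T0_bounds : val T0LO ≤ T0 ∧ T0 ≤ val T0HI := by
  have h := T0check_true
  unfold T0check at h
  simp only [Bool.and_eq_true] at h
  obtain ⟨⟨⟨⟨⟨⟨⟨h1, h2⟩, h3⟩, h4⟩, h5⟩, h6⟩, h7⟩, h8⟩ := h
  have a0 : 0 < val qcLO := val_pos_of_pos (by decide)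
  have a1 : val qcLO < 1 := val_lt_one_of_lt (by decide)
  have b0 : 0 < val qcHI := val_pos_of_pos (by decide)
  have b1 : val qcHI < 1 := val_lt_one_of_lt (by decide)
  have c1 : 1 / 2 ≤ S (artanh (val qcLO)) := by
    have := (mem_S (IV.mem_pt qcLO) a0.le a1 h1).1
    have e := val_mono (Nat.le_of_ble_eq_true h5)
    rw [val_HALFN] at e
    linarith
  have c2 : S (artanh (val qcHI)) ≤ 1 / 2 := by
    have := (mem_S (IV.mem_pt qcHI) b0.le b1 h2).2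
    have e := val_mono (Nat.le_of_ble_eq_true h6)
    rw [val_HALFN] at e
    linarith
  have d1 : artanh (val qcLO) ≤ θc := by
    by_contra hc
    have := S_strictAnti (Set.mem_Ici.2 θc_nonneg) (Set.mem_Ici.2 (Real.artanh_nonneg a0.le))
      (not_le.1 hc)
    rw [S_θc] at this
    linarith
  have d2 : θc ≤ artanh (val qcHI) := by
    by_contra hc
    have := S_strictAnti (Set.mem_Ici.2 (Real.artanh_nonneg b0.le)) (Set.mem_Ici.2 θc_nonneg)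
      (not_le.1 hc)
    rw [S_θc] at this
    linarith
  rw [T0_eq]
  constructor
  · have e := val_mono (Nat.le_of_ble_eq_true h7)
    have f := (mem_TT (IV.mem_pt qcLO) a0 a1 h3).1
    have g := TT_mono (Real.artanh_nonneg a0.le) d1
    linarith
  · have e := val_mono (Nat.le_of_ble_eq_true h8)
    have f := (mem_TT (IV.mem_pt qcHI) b0 b1 h4).2
    have g := TT_mono θc_nonneg d2
    linarith

/-! ### derived numbers -/

def nmin (a b : ℕ) : ℕ := cond (Nat.ble a b) a b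

theorem le_val_nmin {x : ℝ} {a b : ℕ} (ha : x ≤ val a) (hb : x ≤ val b) : x ≤ val (nmin a b) := by
  unfold nmin
  cases Nat.ble a b <;> simpa

namespace KP

def pU (c : KP) : ℕ := Nat.sub SC c.eL
def sL (c : KP) : ℕ := (IV.mul (IV.pt c.pL) (IV.pt c.sg1)).lo
def sU (c : KP) : ℕ := (IV.mul (IV.pt c.pU) (IV.pt c.sg2)).hi
def T2 (c : KP) : ℕ := nmin c.TT2 T0HI
def NLh (c : KP) : ℕ := (IV.div (IV.pt c.NL) TWOL).lo
def NUh (c : KP) : ℕ := (IV.div (IV.pt c.NU) TWOL).hi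
def etop (c : KP) : ℕ := Nat.sub (Nat.add SC c.NUh) (IV.div (IV.pt c.uL) TWOL).lo
def EU (c : KP) : ℕ := nmin (IV.mul (IV.pt c.eU) (IV.pt c.etop)).hi
    (Nat.sub (Nat.add c.phiU (IV.mul (IV.pt c.eU) (IV.pt c.NUh)).hi) c.pL)
def IU (c : KP) : ℕ :=
  Nat.sub (IV.mul (IV.pt c.pU) (IV.pt c.Y2)).hi (IV.mul (IV.pt c.eL) (IV.pt c.NLh)).lo
def IL (c : KP) : ℕ :=
  Nat.sub (IV.mul (IV.pt c.pL) (IV.pt c.Y1)).lo (IV.mul (IV.pt c.eU) (IV.pt c.NUh)).hi
def xU (c : KP) : ℕ := Nat.sub c.phiU c.IL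
def hvI (c : KP) : IV :=
  IV.add (IV.mul (IV.pt c.pL) (IV.pt c.rh1)) (IV.div (IV.mul (IV.pt c.eL) (IV.pt c.NL)) LIV)
def hv (c : KP) : ℕ := (hvI c).lo

end KP

theorem lo_mul (a b : ℕ) : val (IV.mul (IV.pt a) (IV.pt b)).lo ≤ val a * val b := val_mul_lo a b
theorem hi_mul (a b : ℕ) : val a * val b ≤ val (IV.mul (IV.pt a) (IV.pt b)).hi := val_mul_hi a b

theorem val_add' (a b : ℕ) : val (Nat.add a b) = val a + val b := val_add a b

section derived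

variable {t q : ℝ} {c : KP}

theorem div_TWOL_ok (n : ℕ) : (IV.div (IV.pt n) TWOL).ok = true := rfl

theorem pU_sound (hc : KPF t q c) (ht0 : 0 < t) (ht1 : t < 1) (hq0 : 0 < q) (hq1 : q < 1) :
    p0 t q ≤ val c.pU := by
  have h1 := p0_add_eps ht0.le ht1 hq0 hq1
  have h2 := val_sub_ge SC c.eL
  rw [val_SC] at h2
  have h3 := hc.eL
  show p0 t q ≤ val (Nat.sub SC c.eL)
  linarith

theorem sigma_nonneg (q : ℝ) : 0 ≤ q ^ 2 / (1 + q ^ 2) := by positivity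

theorem sL_sound (hc : KPF t q c) (ht0 : 0 < t) (ht1 : t < 1) (hq0 : 0 < q) (hq1 : q < 1) :
    val c.sL ≤ sstar t q :=
  (lo_mul _ _).trans (mul_le_mul hc.pL hc.sg1 (val_nonneg _) (p0_bounds ht0.le ht1 hq0 hq1).1.le)

theorem sU_sound (hc : KPF t q c) (ht0 : 0 < t) (ht1 : t < 1) (hq0 : 0 < q) (hq1 : q < 1) :
    sstar t q ≤ val c.sU :=
  (mul_le_mul (pU_sound hc ht0 ht1 hq0 hq1) hc.sg2 (sigma_nonneg q) (val_nonneg _)).trans (hi_mul _ _)

theorem T2_sound (hc : KPF t q c) (hq0 : 0 < q) : dpsi (1 - S (artanh q)) ≤ val c.T2 :=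
  le_val_nmin ((dpsi_le_TT (artanh_nonneg' hq0)).trans hc.TT2)
    ((dpsi_le_T0' _).trans T0_bounds.2)

theorem NLh_sound (hc : KPF t q c) : val c.NLh ≤ N1 t q / (2 * L) := by
  have h1 := (IV.mem_div (IV.mem_pt c.NL) mem_TWOL (div_TWOL_ok _)).1
  have hL := L_pos
  refine h1.trans ?_
  exact div_le_div_of_nonneg_right hc.NL (by positivity)

theorem NUh_sound (hc : KPF t q c) : N1 t q / (2 * L) ≤ val c.NUh := by
  have h1 := (IV.mem_div (IV.mem_pt c.NU) mem_TWOL (div_TWOL_ok _)).2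
  have hL := L_pos
  refine le_trans ?_ h1
  exact div_le_div_of_nonneg_right hc.NU (by positivity)

theorem etop_sound (hc : KPF t q c) :
    1 - uu t q / (2 * L) + N1 t q / (2 * L) ≤ val c.etop := by
  have h1 := (IV.mem_div (IV.mem_pt c.uL) mem_TWOL (div_TWOL_ok _)).1
  have hL := L_pos
  have h2 : val c.uL / (2 * L) ≤ uu t q / (2 * L) :=
    div_le_div_of_nonneg_right hc.uL (by positivity)
  have h3 := val_sub_ge (Nat.add SC c.NUh) (IV.div (IV.pt c.uL) TWOL).lo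
  rw [val_add', val_SC] at h3
  have h4 := NUh_sound hc
  show _ ≤ val (Nat.sub (Nat.add SC c.NUh) (IV.div (IV.pt c.uL) TWOL).lo)
  linarith

theorem N1half_nonneg (ht0 : 0 < t) (ht1 : t < 1) (hq0 : 0 < q) (hq1 : q < 1) :
    0 ≤ N1 t q / (2 * L) := by
  have hL := L_pos
  have := N1_nonneg ht0 ht1 hq0 hq1
  positivity

theorem eN_le_U (hc : KPF t q c) (ht0 : 0 < t) (ht1 : t < 1) (hq0 : 0 < q) (hq1 : q < 1) :
    eps t q * (N1 t q / (2 * L)) ≤ val (IV.mul (IV.pt c.eU) (IV.pt c.NUh)).hi :=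
  (mul_le_mul hc.eU (NUh_sound hc) (N1half_nonneg ht0 ht1 hq0 hq1) (val_nonneg _)).trans (hi_mul _ _)

theorem eN_ge_L (hc : KPF t q c) (ht0 : 0 < t) (ht1 : t < 1) (hq0 : 0 < q) (hq1 : q < 1) :
    val (IV.mul (IV.pt c.eL) (IV.pt c.NLh)).lo ≤ eps t q * (N1 t q / (2 * L)) :=
  (lo_mul _ _).trans (mul_le_mul hc.eL (NLh_sound hc) (val_nonneg _) (eps_pos_q ht0 ht1 hq0 hq1).le)

theorem LLhalf_eq (ht0 : 0 < t) (ht1 : t < 1) (hq0 : 0 < q) (hq1 : q < 1) :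
    LL t q / (2 * L) = eps t q * (N1 t q / (2 * L)) := by
  rw [LL_eq ht0 ht1 hq0 hq1]
  ring

theorem EU_sound (hc : KPF t q c) (ht0 : 0 < t) (ht1 : t < 1) (hq0 : 0 < q) (hq1 : q < 1) :
    Eq t q ≤ val c.EU := by
  have he := eps_pos_q ht0 ht1 hq0 hq1
  apply le_val_nmin
  · have h1 := E_le_eps ht0.le ht1 hq0 hq1 he.ne'
    have h2 := etop_sound hc
    have h3 : eps t q * (1 - uu t q / (2 * L) + N1 t q / (2 * L)) ≤ eps t q * val c.etop :=
      mul_le_mul_of_nonneg_left h2 he.le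
    have h4 : eps t q * val c.etop ≤ val c.eU * val c.etop :=
      mul_le_mul_of_nonneg_right hc.eU (val_nonneg _)
    have h5 := hi_mul c.eU c.etop
    linarith
  · have h1 := Eq_eq ht0.le ht1 hq0 hq1
    have h2 := val_sub_ge (Nat.add c.phiU (IV.mul (IV.pt c.eU) (IV.pt c.NUh)).hi) c.pL
    rw [val_add'] at h2
    have h3 := eN_le_U hc ht0 ht1 hq0 hq1
    rw [h1, LLhalf_eq ht0 ht1 hq0 hq1]
    have h4 := hc.phiU
    have h5 := hc.pL
    linarith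

theorem Y_nonneg_c (hq0 : 0 < q) : 0 ≤ 1 - S (artanh q) := by
  have := S_le_one (artanh_nonneg' hq0)
  linarith

theorem IU_sound (hc : KPF t q c) (ht0 : 0 < t) (ht1 : t < 1) (hq0 : 0 < q) (hq1 : q < 1) :
    Iq t q ≤ val c.IU := by
  have h1 := Iq_eq ht0.le ht1 hq0 hq1
  have h2 := val_sub_ge (IV.mul (IV.pt c.pU) (IV.pt c.Y2)).hi (IV.mul (IV.pt c.eL) (IV.pt c.NLh)).lo
  have h3 := eN_ge_L hc ht0 ht1 hq0 hq1
  have h4 : p0 t q * (1 - S (artanh q)) ≤ val (IV.mul (IV.pt c.pU) (IV.pt c.Y2)).hi :=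
    (mul_le_mul (pU_sound hc ht0 ht1 hq0 hq1) hc.Y2 (Y_nonneg_c hq0) (val_nonneg _)).trans (hi_mul _ _)
  rw [h1, LLhalf_eq ht0 ht1 hq0 hq1]
  show _ ≤ val (Nat.sub (IV.mul (IV.pt c.pU) (IV.pt c.Y2)).hi (IV.mul (IV.pt c.eL) (IV.pt c.NLh)).lo)
  linarith

theorem IL_sound (hc : KPF t q c) (ht0 : 0 < t) (ht1 : t < 1) (hq0 : 0 < q) (hq1 : q < 1) :
    val c.IL ≤ Iq t q := by
  have h1 := Iq_eq ht0.le ht1 hq0 hq1
  have h0 := Iq_nonneg_s ht0.le ht1 hq0 hq1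
  have h3 := eN_le_U hc ht0 ht1 hq0 hq1
  have h4 : val (IV.mul (IV.pt c.pL) (IV.pt c.Y1)).lo ≤ p0 t q * (1 - S (artanh q)) :=
    (lo_mul _ _).trans (mul_le_mul hc.pL hc.Y1 (val_nonneg _) (p0_bounds ht0.le ht1 hq0 hq1).1.le)
  rw [LLhalf_eq ht0 ht1 hq0 hq1] at h1
  rw [h1] at h0 ⊢
  exact val_nsub_le h4 h3 h0

theorem xU_sound (hc : KPF t q c) (ht0 : 0 < t) (ht1 : t < 1) (hq0 : 0 < q) (hq1 : q < 1) :
    xq t q ≤ val c.xU := by
  have h1 := IL_sound hc ht0 ht1 hq0 hq1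
  have h2 := hc.phiU
  have h3 := val_sub_ge c.phiU c.IL
  have e : xq t q = phi (abar t q) - Iq t q := by
    unfold Iq
    ring
  rw [e]
  show _ ≤ val (Nat.sub c.phiU c.IL)
  linarith

theorem hvI_ok (c : KP) : (KP.hvI c).ok = true := rfl

theorem hv_sound (hc : KPF t q c) (ht0 : 0 < t) (ht1 : t < 1) (hq0 : 0 < q) (hq1 : q < 1) :
    val c.hv ≤ p0 t q * rhoθ (artanh q) + LL t q / L := by
  have hL := L_pos
  have h1 := (IV.mem_add (IV.mem_mul (IV.mem_pt c.pL) (IV.mem_pt c.rh1))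
    (IV.mem_div (IV.mem_mul (IV.mem_pt c.eL) (IV.mem_pt c.NL)) mem_LIV) (hvI_ok c)).1
  refine h1.trans ?_
  have hp := p0_bounds ht0.le ht1 hq0 hq1
  have he := eps_pos_q ht0 ht1 hq0 hq1
  have h2 := mul_le_mul hc.pL hc.rh1 (val_nonneg _) hp.1.le
  have h3 := mul_le_mul hc.eL hc.NL (val_nonneg _) he.le
  have h4 : val c.eL * val c.NL / L ≤ LL t q / L := by
    rw [LL_eq ht0 ht1 hq0 hq1]
    exact div_le_div_of_nonneg_right h3 hL.le
  linarith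

end derived

/-! ### the check with a constant right end -/

def gupA (c : KP) (D : ℕ) : IV :=
  IV.add (IV.mul (IV.pt T0HI) (IV.pt c.IU))
    (IV.mul (IV.mul (IV.ofQ 1 2) (IV.pt (Nat.sub HALFN D))) (ivPd D))

def gupB (D : ℕ) : IV := IV.mul (IV.mul (IV.ofQ 1 2) (IV.pt (Nat.sub HALFN D))) (IV.pt T0LO)

def gupIV (c : KP) (D : ℕ) : IV :=
  cond (Nat.ble (Nat.add D c.IU) HALFN)
    (IV.mul (IV.mul (IV.ofQ 1 2) (IV.pt c.IU)) (IV.add (ivPd D) (ivPd (Nat.add D c.IU))))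
    ⟨(gupA c D).ok && (gupB D).ok, 0, Nat.sub (gupA c D).hi (gupB D).lo⟩

def fam2B (c : KP) (D : ℕ) : Bool :=
  Nat.ble D HALFN && (gupIV c D).ok && (ivPd D).ok &&
  Nat.ble (gupIV c D).hi (Nat.add c.hv (IV.mul (IV.pt c.sL) (IV.pt D)).lo) &&
  (Nat.ble (Nat.add D c.IU) HALFN || Nat.ble (Nat.add c.sU (ivPd D).hi) T0LO ||
    Nat.ble (gupIV c D).hi c.hv)

def fam2L (c : KP) (D : ℕ) : Bool := fam2B c D && Nat.ble c.xU D

def fam2R (c : KP) (D : ℕ) : Bool :=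
  fam2B c D && Nat.ble c.EU D && Nat.ble (gupIV c D).hi
      (Nat.add c.hv (IV.mul (IV.pt c.g1) (IV.pt (Nat.sub D c.EU))).lo)

section fam2

variable {t q : ℝ} {c : KP} {D : ℕ}

theorem dpsi_le_Pval {D : ℕ} (h : val D ≤ 1 / 2) :
    dpsi (val D) ≤ 93 / 100 * val D / (1 - val D) :=
  dpsi_le_P (val_nonneg D) h

theorem val_sub_half {D : ℕ} (h : D ≤ HALFN) : val (Nat.sub HALFN D) = 1 / 2 - val D := by
  rw [show Nat.sub HALFN D = HALFN - D from rfl, val_sub_of_le h, val_HALFN]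

theorem gup_sound (hc : KPF t q c) (ht0 : 0 < t) (ht1 : t < 1) (hq0 : 0 < q) (hq1 : q < 1)
    (hD : D ≤ HALFN) (hok : (gupIV c D).ok = true) :
    psiC (val D + Iq t q) - psiC (val D) ≤ val (gupIV c D).hi := by
  have hIU := IU_sound hc ht0 ht1 hq0 hq1
  have hD' : val D ≤ 1 / 2 := by
    rw [← val_HALFN]
    exact val_mono hD
  cases hb : Nat.ble (Nat.add D c.IU) HALFN with
  | true =>
    have e : gupIV c D = IV.mul (IV.mul (IV.ofQ 1 2) (IV.pt c.IU))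
        (IV.add (ivPd D) (ivPd (Nat.add D c.IU))) := by
      unfold gupIV
      rw [hb, cond_true]
    rw [e] at hok ⊢
    have hle : val D + val c.IU ≤ 1 / 2 := by
      rw [← val_add', ← val_HALFN]
      exact val_mono (Nat.le_of_ble_eq_true hb)
    have h1 := gup_1 (val_nonneg D) hIU (val_nonneg _) hle (dpsi_le_Pval hD')
      (show dpsi (val D + val c.IU) ≤ 93 / 100 * val (Nat.add D c.IU) / (1 - val (Nat.add D c.IU)) by
        rw [val_add']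
        exact dpsi_le_P (add_nonneg (val_nonneg _) (val_nonneg _)) hle)
    have h2 := (IV.mem_mul (IV.mem_mul mem_half (IV.mem_pt c.IU))
      (IV.mem_add (mem_Pd D) (mem_Pd (Nat.add D c.IU))) hok).2
    refine h1.trans (le_trans (le_of_eq ?_) h2)
    ring
  | false =>
    have e : gupIV c D = ⟨(gupA c D).ok && (gupB D).ok, 0, Nat.sub (gupA c D).hi (gupB D).lo⟩ := by
      unfold gupIV
      rw [hb, cond_false]
    rw [e] at hok ⊢
    simp only [Bool.and_eq_true] at hok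
    have hgt : 1 / 2 < val D + val c.IU := by
      rw [← val_add', ← val_HALFN]
      apply val_lt_of_lt
      have : ¬ (Nat.add D c.IU ≤ HALFN) := by
        intro hh
        rw [Nat.ble_eq_true_of_le hh] at hb
        exact absurd hb (by simp)
      exact not_le.1 this
    have hw : val (Nat.sub HALFN D) = 1 / 2 - val D := val_sub_half hD
    have h1 := gup_2 (val_nonneg D) hD' hIU (val_nonneg _) hgt (dpsi_le_Pval hD')
      T0_bounds.1 T0_bounds.2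
    have h2 : val T0HI * val c.IU + 1 / 2 * val (Nat.sub HALFN D) * (93 / 100 * val D / (1 - val D))
        ≤ val (gupA c D).hi := (IV.mem_add (IV.mem_mul (IV.mem_pt T0HI) (IV.mem_pt c.IU))
      (IV.mem_mul (IV.mem_mul mem_half (IV.mem_pt (Nat.sub HALFN D))) (mem_Pd D)) hok.1).2
    have h3 : val (gupB D).lo ≤ 1 / 2 * val (Nat.sub HALFN D) * val T0LO :=
      (IV.mem_mul (IV.mem_mul mem_half (IV.mem_pt (Nat.sub HALFN D))) (IV.mem_pt T0LO) hok.2).1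
    have h4 := val_sub_ge (gupA c D).hi (gupB D).lo
    rw [hw] at h2 h3
    show _ ≤ val (Nat.sub (gupA c D).hi (gupB D).lo)
    linarith only [h1, h2, h3, h4]

theorem fam2_base (hc : KPF t q c) (ht0 : 0 < t) (ht1 : t < 1) (hq0 : 0 < q) (hq1 : q < 1)
    (h : fam2B c D = true) :
    Lft t q (val D) ≤ Jq t q + (val (gupIV c D).hi - val c.hv) ∧
    Lft t q (val D) ≤ Jq t q + sstar t q * val D ∧
    (val D + Iq t q ≤ 1 / 2 ∨ sstar t q + dpsi (val D) ≤ T0 ∨ Lft t q (val D) ≤ Jq t q) := by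
  unfold fam2B at h
  simp only [Bool.and_eq_true, Bool.or_eq_true] at h
  obtain ⟨⟨⟨⟨h1, h2⟩, h3⟩, h4⟩, h5⟩ := h
  have hD : D ≤ HALFN := Nat.le_of_ble_eq_true h1
  have hD' : val D ≤ 1 / 2 := by
    rw [← val_HALFN]
    exact val_mono hD
  have hL := L_pos
  have hG := gup_sound hc ht0 ht1 hq0 hq1 hD h2
  have hv := hv_sound hc ht0 ht1 hq0 hq1
  have hLft := Lft_le_of ht0.le ht1 hq0 hq1 hG hv
  have hs := sL_sound hc ht0 ht1 hq0 hq1
  have hD0 := val_nonneg D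
  have hA : Lft t q (val D) ≤ Jq t q + sstar t q * val D := by
    have a1 := val_mono (Nat.le_of_ble_eq_true h4)
    rw [val_add'] at a1
    have a2 := lo_mul c.sL D
    have a3 : val c.sL * val D ≤ sstar t q * val D := mul_le_mul_of_nonneg_right hs hD0
    linarith only [a1, a2, a3, hLft]
  have hC : val D + Iq t q ≤ 1 / 2 ∨ sstar t q + dpsi (val D) ≤ T0 ∨ Lft t q (val D) ≤ Jq t q := by
    rcases h5 with (a | a) | a
    · left
      have a1 := val_mono (Nat.le_of_ble_eq_true a)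
      rw [val_add', val_HALFN] at a1
      have := IU_sound hc ht0 ht1 hq0 hq1
      linarith only [a1, this]
    · right; left
      have a1 := val_mono (Nat.le_of_ble_eq_true a)
      rw [val_add'] at a1
      have a2 := sU_sound hc ht0 ht1 hq0 hq1
      have a3 := dpsi_le_Pval hD'
      have a4 := (mem_Pd D h3).2
      have a5 := T0_bounds.1
      linarith only [a1, a2, a3, a4, a5]
    · right; right
      have a1 := val_mono (Nat.le_of_ble_eq_true a)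
      linarith only [a1, hLft]
  exact ⟨hLft, hA, hC⟩

theorem fam2L_sound (hc : KPF t q c) (ht0 : 0 < t) (ht1 : t < 1) (hq0 : 0 < q) (hq1 : q < 1)
    (h : fam2L c D = true) : KEYprop t q := by
  unfold fam2L at h
  simp only [Bool.and_eq_true] at h
  obtain ⟨h1, h6⟩ := h
  obtain ⟨-, hA, hC⟩ := fam2_base hc ht0 ht1 hq0 hq1 h1
  have hx : xq t q ≤ val D :=
    (xU_sound hc ht0 ht1 hq0 hq1).trans (val_mono (Nat.le_of_ble_eq_true h6))
  exact key_left ht0.le ht1 hq0 hq1 hx hA hC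

theorem fam2R_sound (hc : KPF t q c) (ht0 : 0 < t) (ht1 : t < 1) (hq0 : 0 < q) (hq1 : q < 1)
    (h : fam2R c D = true) : KEYprop t q := by
  unfold fam2R at h
  simp only [Bool.and_eq_true] at h
  obtain ⟨⟨h1, b1⟩, b2⟩ := h
  obtain ⟨hLft, hA, hC⟩ := fam2_base hc ht0 ht1 hq0 hq1 h1
  have hle : c.EU ≤ D := Nat.le_of_ble_eq_true b1
  have hE := EU_sound hc ht0 ht1 hq0 hq1
  have hEU : val c.EU ≤ val D := val_mono hle
  have hx : Eq t q ≤ val D := hE.trans hEU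
  have hB : Lft t q (val D) ≤ Jq t q + gam (artanh q) * (val D - Eq t q) := by
    have a1 := val_mono (Nat.le_of_ble_eq_true b2)
    rw [val_add'] at a1
    have a2 := lo_mul c.g1 (Nat.sub D c.EU)
    have a3 : val (Nat.sub D c.EU) = val D - val c.EU := val_sub_of_le hle
    rw [a3] at a2
    have a4 : val c.g1 * (val D - val c.EU) ≤ gam (artanh q) * (val D - Eq t q) :=
      mul_le_mul hc.g1 (by linarith only [hE]) (by linarith only [hEU]) ((val_nonneg _).trans hc.g1)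
    linarith only [a1, a2, a4, hLft]
  exact key_right ht0.le ht1 hq0 hq1 (val_nonneg D) hx hA hB hC

end fam2

/-! ### the check with a right end proportional to `eps` -/

namespace KP

def mhi (c : KP) (d : ℕ) : ℕ := Nat.sub d (Nat.add c.Y1 c.NLh)
def Uu (c : KP) (d : ℕ) : ℕ := Nat.add c.Y2 (IV.mul (IV.pt c.eU) (IV.pt (c.mhi d))).hi
def Uc (c : KP) (d : ℕ) : ℕ := nmin (c.Uu d) HALFN
def DU (c : KP) (d : ℕ) : ℕ := (IV.mul (IV.pt c.eU) (IV.pt d)).hi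
def ccI (c : KP) (d : ℕ) : IV := IV.div F93 (ivsq (IV.sub ONE (IV.pt (c.Uc d))))
def needI (c : KP) (d : ℕ) : IV :=
  IV.add (IV.add (IV.pt c.rh2) (IV.mul (IV.pt c.T2) (IV.pt (c.mhi d))))
    (IV.mul (IV.mul (IV.mul (IV.ofQ 1 2) (c.ccI d)) (IV.pt c.eU)) (ivsq (IV.pt (c.mhi d))))
def hv1I (c : KP) (d : ℕ) : IV :=
  IV.add (IV.div (IV.pt c.NL) LIV) (IV.div (IV.mul (IV.pt c.eL) (ivsq (IV.pt d))) FOURL)
def AI (c : KP) (d : ℕ) : IV := IV.add (c.hv1I d) (IV.mul (IV.pt c.sL) (IV.pt d))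
def BI (c : KP) (d : ℕ) : IV := IV.add (c.hv1I d) (IV.mul (IV.pt c.g1) (IV.pt (Nat.sub d c.etop)))

end KP

def fam1OK (c : KP) (d : ℕ) : Bool :=
  Nat.ble (Nat.add c.NUh c.Y2) d && Nat.ble c.etop d && Nat.ble (c.DU d) HALFN &&
  (c.needI d).ok && (c.AI d).ok && (c.BI d).ok &&
  Nat.ble (c.needI d).hi (c.AI d).lo && Nat.ble (c.needI d).hi (c.BI d).lo &&
  (Nat.ble (c.Uu d) HALFN ||
    ((ivPd (c.DU d)).ok && Nat.ble (Nat.add c.sU (ivPd (c.DU d)).hi) T0LO))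

section fam1

variable {t q : ℝ} {c : KP} {d : ℕ}

theorem val_nmin_le (a b : ℕ) : val (nmin a b) ≤ val b := by
  unfold nmin
  cases hb : Nat.ble a b with
  | true => exact val_mono (Nat.le_of_ble_eq_true hb)
  | false => exact le_rfl

theorem min_le_val_nmin (a b : ℕ) : min (val a) (val b) ≤ val (nmin a b) := by
  unfold nmin
  cases Nat.ble a b with
  | true => exact min_le_left _ _
  | false => exact min_le_right _ _

private theorem fam1_Qle {rho rh2 T2 mh cc e eU d L' eL N NL : ℝ} (hL : 0 < L')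
    (h1 : rho ≤ rh2) (hcc : 0 ≤ cc) (he : e ≤ eU) (hl : eL ≤ e) (hN : NL ≤ N) :
    rho + T2 * mh + 1 / 2 * cc * e * mh ^ 2 - e * d ^ 2 / (4 * L') - N / L'
      ≤ (rh2 + T2 * mh + 1 / 2 * cc * eU * mh ^ 2) - (NL / L' + eL * d ^ 2 / (4 * L')) := by
  have a2 : 1 / 2 * cc * e * mh ^ 2 ≤ 1 / 2 * cc * eU * mh ^ 2 := by
    have : e * (1 / 2 * cc * mh ^ 2) ≤ eU * (1 / 2 * cc * mh ^ 2) :=
      mul_le_mul_of_nonneg_right he (by positivity)
    nlinarith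
  have a3 : eL * d ^ 2 / (4 * L') ≤ e * d ^ 2 / (4 * L') := by
    apply div_le_div_of_nonneg_right _ (by positivity)
    exact mul_le_mul_of_nonneg_right hl (by positivity)
  have a4 : NL / L' ≤ N / L' := div_le_div_of_nonneg_right hN hL.le
  linarith

private theorem fam1_A {Lf J e Q sL s d : ℝ} (hQ : Lf ≤ J + e * Q) (he : 0 ≤ e) (hd : 0 ≤ d)
    (h1 : Q ≤ sL * d) (hs : sL ≤ s) : Lf ≤ J + s * (e * d) := by
  have a2 : e * Q ≤ e * (sL * d) := mul_le_mul_of_nonneg_left h1 he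
  have a3 : e * (sL * d) ≤ s * (e * d) := by
    have := mul_le_mul_of_nonneg_right hs (mul_nonneg he hd)
    nlinarith
  linarith

private theorem fam1_B {Lf J e Q g1 g d tp E : ℝ} (hQ : Lf ≤ J + e * Q) (he : 0 ≤ e)
    (h1 : Q ≤ g1 * (d - tp)) (h2 : tp ≤ d) (hg0 : 0 ≤ g1) (hg : g1 ≤ g) (hE : E ≤ e * tp) :
    Lf ≤ J + g * (e * d - E) := by
  have a2 : e * Q ≤ e * (g1 * (d - tp)) := mul_le_mul_of_nonneg_left h1 he
  have a3 : 0 ≤ d - tp := by linarith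
  have a4 : e * (g1 * (d - tp)) = g1 * (e * d - e * tp) := by ring
  have a5 : g1 * (e * d - e * tp) ≤ g * (e * d - E) := by
    apply mul_le_mul hg (by linarith) (by nlinarith) (hg0.trans hg)
  linarith

theorem fam1OK_sound (hc : KPF t q c) (ht0 : 0 < t) (ht1 : t < 1) (hq0 : 0 < q) (hq1 : q < 1)
    (h : fam1OK c d = true) : KEYprop t q := by
  unfold fam1OK at h
  simp only [Bool.and_eq_true, Bool.or_eq_true] at h
  obtain ⟨⟨⟨⟨⟨⟨⟨⟨h1, h2⟩, h3⟩, ok1⟩, ok2⟩, ok3⟩, h4⟩, h5⟩, h6⟩ := h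
  have hL := L_pos
  have he := eps_pos_q ht0 ht1 hq0 hq1
  have hd0 := val_nonneg d
  have hNUh := NUh_sound hc
  have hNLh := NLh_sound hc
  have hY2 := hc.Y2
  have hY1 := hc.Y1
  have hm0 : 0 ≤ val d - (1 - S (artanh q)) - N1 t q / (2 * L) := by
    have a1 := val_mono (Nat.le_of_ble_eq_true h1)
    rw [val_add'] at a1
    linarith only [a1, hY2, hNUh]
  have hmh : val d - (1 - S (artanh q)) - N1 t q / (2 * L) ≤ val (c.mhi d) := by
    have a1 := val_sub_ge d (Nat.add c.Y1 c.NLh)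
    rw [val_add'] at a1
    show _ ≤ val (Nat.sub d (Nat.add c.Y1 c.NLh))
    linarith only [a1, hY1, hNLh]
  have hUh : val (c.Uc d) ≤ 1 / 2 := by
    have := val_nmin_le (c.Uu d) HALFN
    rwa [val_HALFN] at this
  have hUu : 1 - S (artanh q) + eps t q * (val d - (1 - S (artanh q)) - N1 t q / (2 * L))
      ≤ val (c.Uu d) := by
    have a1 : val (c.Uu d) = val c.Y2 + val (IV.mul (IV.pt c.eU) (IV.pt (c.mhi d))).hi := val_add' _ _
    rw [a1]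
    have a2 := hi_mul c.eU (c.mhi d)
    have a3 : eps t q * (val d - (1 - S (artanh q)) - N1 t q / (2 * L)) ≤ val c.eU * val (c.mhi d) :=
      mul_le_mul hc.eU hmh hm0 (val_nonneg _)
    linarith only [a2, a3, hY2]
  have hUm : min (val (c.Uu d)) (1 / 2) ≤ val (c.Uc d) := by
    have := min_le_val_nmin (c.Uu d) HALFN
    rwa [val_HALFN] at this
  have hT2 := T2_sound hc hq0
  have hDU : eps t q * val d ≤ val (c.DU d) :=
    (mul_le_mul_of_nonneg_right hc.eU hd0).trans (hi_mul _ _)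
  have hDU2 : val (c.DU d) ≤ 1 / 2 := by
    rw [← val_HALFN]
    exact val_mono (Nat.le_of_ble_eq_true h3)
  have hDh : eps t q * val d ≤ 1 / 2 := hDU.trans hDU2
  have hQ := fam1_Q ht0 ht1 hq0 hq1 hm0 hmh hUh hUu hUm hT2 hd0 hDh
  have hcc0 : 0 ≤ 93 / 100 / (1 - val (c.Uc d)) ^ 2 := by
    have : 0 < 1 - val (c.Uc d) := by linarith only [hUh]
    positivity
  -- the enclosures
  have mCC : IV.mem (93 / 100 / (1 - val (c.Uc d)) ^ 2) (c.ccI d) :=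
    IV.mem_div mem_F93 (mem_sq (IV.mem_sub mem_ONE (IV.mem_pt _)))
  have mNeed : IV.mem (val c.rh2 + val c.T2 * val (c.mhi d)
      + 1 / 2 * (93 / 100 / (1 - val (c.Uc d)) ^ 2) * val c.eU * val (c.mhi d) ^ 2) (c.needI d) :=
    IV.mem_add (IV.mem_add (IV.mem_pt _) (IV.mem_mul (IV.mem_pt _) (IV.mem_pt _)))
      (IV.mem_mul (IV.mem_mul (IV.mem_mul mem_half mCC) (IV.mem_pt _)) (mem_sq (IV.mem_pt _)))
  have mHv : IV.mem (val c.NL / L + val c.eL * val d ^ 2 / (4 * L)) (c.hv1I d) :=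
    IV.mem_add (IV.mem_div (IV.mem_pt _) mem_LIV)
      (IV.mem_div (IV.mem_mul (IV.mem_pt _) (mem_sq (IV.mem_pt _))) mem_FOURL)
  have mA : IV.mem (val c.NL / L + val c.eL * val d ^ 2 / (4 * L) + val c.sL * val d) (c.AI d) :=
    IV.mem_add mHv (IV.mem_mul (IV.mem_pt _) (IV.mem_pt _))
  have mB : IV.mem (val c.NL / L + val c.eL * val d ^ 2 / (4 * L)
      + val c.g1 * val (Nat.sub d c.etop)) (c.BI d) :=
    IV.mem_add mHv (IV.mem_mul (IV.mem_pt _) (IV.mem_pt _))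
  have hNeedHi := (mNeed ok1).2
  have hALo := (mA ok2).1
  have hBLo := (mB ok3).1
  have hAB1 := val_mono (Nat.le_of_ble_eq_true h4)
  have hAB2 := val_mono (Nat.le_of_ble_eq_true h5)
  -- the upper bound of `Q`
  have hQle := fam1_Qle (rho := rhoθ (artanh q)) (T2 := val c.T2) (mh := val (c.mhi d))
    (d := val d) hL hc.rh2 hcc0 hc.eU hc.eL hc.NL
  have hs := sL_sound hc ht0 ht1 hq0 hq1
  have hA : Lft t q (eps t q * val d) ≤ Jq t q + sstar t q * (eps t q * val d) :=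
    fam1_A hQ he.le hd0 (by linarith only [hQle, hNeedHi, hALo, hAB1]) hs
  have hetop := etop_sound hc
  have hE1 : Eq t q ≤ eps t q * val c.etop := by
    have a1 := E_le_eps ht0.le ht1 hq0 hq1 he.ne'
    have a2 := mul_le_mul_of_nonneg_left hetop he.le
    linarith only [a1, a2]
  have hle : c.etop ≤ d := Nat.le_of_ble_eq_true h2
  have hle' : val c.etop ≤ val d := val_mono hle
  have hE2 : Eq t q ≤ eps t q * val d :=
    hE1.trans (mul_le_mul_of_nonneg_left hle' he.le)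
  have a0 : val (Nat.sub d c.etop) = val d - val c.etop := val_sub_of_le hle
  rw [a0] at hBLo
  have hB : Lft t q (eps t q * val d) ≤ Jq t q + gam (artanh q) * (eps t q * val d - Eq t q) :=
    fam1_B hQ he.le (by linarith only [hQle, hNeedHi, hBLo, hAB2]) hle' (val_nonneg _) hc.g1 hE1
  have hC : eps t q * val d + Iq t q ≤ 1 / 2 ∨ sstar t q + dpsi (eps t q * val d) ≤ T0
      ∨ Lft t q (eps t q * val d) ≤ Jq t q := by
    rcases h6 with a | ⟨a, b⟩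
    · left
      have hu := fam1_u (d := val d) ht0 ht1 hq0 hq1
      rw [hu]
      have a1 := val_mono (Nat.le_of_ble_eq_true a)
      rw [val_HALFN] at a1
      linarith only [a1, hUu]
    · right; left
      have a1 := val_mono (Nat.le_of_ble_eq_true b)
      rw [val_add'] at a1
      have a2 := sU_sound hc ht0 ht1 hq0 hq1
      have a3 := dpsi_mono' hDU
      have a4 := dpsi_le_Pval hDU2
      have a5 := (mem_Pd _ a).2
      have a6 := T0_bounds.1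
      linarith only [a1, a2, a3, a4, a5, a6]
  exact key_right ht0.le ht1 hq0 hq1 (mul_nonneg he.le hd0) hE2 hA hB hC

end fam1

/-! ### the cell check -/

def wEc (t1 t2 q1 q2 : ℕ) : ℕ :=
  let Tc := IV.pt (Nat.div (Nat.add t1 t2) 2)
  let Qc := IV.pt (Nat.div (Nat.add q1 q2) 2)
  Nat.sub (Nat.add (ivS (IV.pt (IV.mul Tc (IV.pt (ivUU Tc Qc).lo)).lo)).lo
      (IV.mul (IV.pt (ivEps Tc Qc).lo)
        (IV.pt (IV.div (IV.pt (Nat.sub (ivN1plus Tc Qc).lo (ivN1minus Tc Qc).lo)) TWOL).lo)).lo)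
    (ivP0 Tc Qc).lo

def wDc (t1 t2 q1 q2 : ℕ) : ℕ :=
  let Tc := IV.pt (Nat.div (Nat.add t1 t2) 2)
  let Qc := IV.pt (Nat.div (Nat.add q1 q2) 2)
  let gc := (ivGam Qc).lo
  let sc := (IV.mul (IV.pt (ivP0 Tc Qc).lo) (IV.pt (ivSig Qc).lo)).lo
  (IV.mul (IV.div (IV.pt gc) (IV.pt (Nat.sub gc sc))) (IV.pt (wEc t1 t2 q1 q2))).lo

def wd (t1 t2 q1 q2 : ℕ) : ℕ :=
  (IV.div (IV.pt (wDc t1 t2 q1 q2))
    (IV.pt (ivEps (IV.pt (Nat.div (Nat.add t1 t2) 2)) (IV.pt (Nat.div (Nat.add q1 q2) 2))).lo)).lo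

def kcell (t1 t2 q1 q2 : ℕ) : Bool :=
  kpOK t1 t2 q1 q2 &&
    (fam1OK (kp t1 t2 q1 q2) (wd t1 t2 q1 q2) ||
      fam2L (kp t1 t2 q1 q2) (kp t1 t2 q1 q2).xU ||
      fam2R (kp t1 t2 q1 q2) (Nat.mul 2 (wEc t1 t2 q1 q2)) ||
      fam2R (kp t1 t2 q1 q2) (Nat.div (Nat.mul 3 (wEc t1 t2 q1 q2)) 2) ||
      fam2R (kp t1 t2 q1 q2) (wDc t1 t2 q1 q2) ||
      fam2R (kp t1 t2 q1 q2) (kp t1 t2 q1 q2).EU)

/-- dyadic subdivision -/
def ktreeOK : ℕ → ℕ → ℕ → ℕ → ℕ → Bool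
  | 0, t1, t2, q1, q2 => kcell t1 t2 q1 q2
  | d + 1, t1, t2, q1, q2 =>
    kcell t1 t2 q1 q2 ||
      (ktreeOK d t1 (Nat.div (Nat.add t1 t2) 2) q1 (Nat.div (Nat.add q1 q2) 2)
        && ktreeOK d (Nat.div (Nat.add t1 t2) 2) t2 q1 (Nat.div (Nat.add q1 q2) 2)
        && ktreeOK d t1 (Nat.div (Nat.add t1 t2) 2) (Nat.div (Nat.add q1 q2) 2) q2
        && ktreeOK d (Nat.div (Nat.add t1 t2) 2) t2 (Nat.div (Nat.add q1 q2) 2) q2)

section tree

variable {t q : ℝ}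

theorem kcell_sound {t1 t2 q1 q2 : ℕ} (h : kcell t1 t2 q1 q2 = true) (ht0 : 0 < t) (ht1 : t < 1)
    (hta : val t1 ≤ t) (htb : t ≤ val t2) (hqa : val q1 ≤ q) (hqb : q ≤ val q2) : KEYprop t q := by
  unfold kcell at h
  simp only [Bool.and_eq_true, Bool.or_eq_true] at h
  obtain ⟨h0, h⟩ := h
  have hc := kp_sound h0 ht0 ht1 hta htb hqa hqb
  unfold kpOK at h0
  simp only [Bool.and_eq_true] at h0
  obtain ⟨⟨⟨⟨⟨⟨⟨⟨⟨⟨⟨⟨⟨⟨⟨⟨⟨⟨h1, h2⟩, -⟩, -⟩, -⟩, -⟩, -⟩, -⟩, -⟩, -⟩, -⟩, -⟩, -⟩, -⟩, -⟩, -⟩, -⟩, -⟩, -⟩ := h0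
  have hq0 : 0 < q := (val_pos_of_pos (Nat.le_of_ble_eq_true h1)).trans_le hqa
  have hq1 : q < 1 := hqb.trans_lt (val_lt_one_of_lt (Nat.le_of_ble_eq_true h2))
  rcases h with (((((a | a) | a) | a) | a) | a)
  · exact fam1OK_sound hc ht0 ht1 hq0 hq1 a
  · exact fam2L_sound hc ht0 ht1 hq0 hq1 a
  all_goals exact fam2R_sound hc ht0 ht1 hq0 hq1 a

theorem ktreeOK_sound (d : ℕ) (t1 t2 q1 q2 : ℕ) (h : ktreeOK d t1 t2 q1 q2 = true)
    (ht0 : 0 < t) (ht1 : t < 1)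
    (hta : val t1 ≤ t) (htb : t ≤ val t2) (hqa : val q1 ≤ q) (hqb : q ≤ val q2) : KEYprop t q := by
  induction d generalizing t1 t2 q1 q2 with
  | zero => exact kcell_sound h ht0 ht1 hta htb hqa hqb
  | succ d ih =>
    rw [ktreeOK] at h
    simp only [Bool.and_eq_true, Bool.or_eq_true] at h
    rcases h with h | ⟨⟨⟨h1, h2⟩, h3⟩, h4⟩
    · exact kcell_sound h ht0 ht1 hta htb hqa hqb
    · rcases le_total t (val (Nat.div (Nat.add t1 t2) 2)) with a | a <;>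
        rcases le_total q (val (Nat.div (Nat.add q1 q2) 2)) with b | b
      · exact ih _ _ _ _ h1 hta a hqa b
      · exact ih _ _ _ _ h3 hta a b hqb
      · exact ih _ _ _ _ h2 a htb hqa b
      · exact ih _ _ _ _ h4 a htb b hqb

end tree

end CK322
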