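import Vale.Agent.Lib.P322.KC3

/-!
Certificate for `KEYprop` on a range of `q`.
-/

namespace CK322

def cert0 : CT := .st (.st (.st (.st (.st (.st (.st (.sq (.sq (.sq (.sq (.a 46090 49) (.a 46359 51)) (.a 58447 52)) (.sq (.a 57524 55) (.a 56600 58))) (.sq (.sq (.a 55672 61) (.a 54737 64)) (.sq (.a 53792 67) (.a 54624 70)))) (.sq (.sq (.sq (.sq (.a 46090 49) (.a 46359 51)) (.a 58448 52)) (.sq (.a 57524 55) (.a 56600 58))) (.sq (.sq (.a 55672 61) (.a 54737 64)) (.sq (.a 53792 67) (.a 54624 70))))) (.sq (.sq (.sq (.sq (.a 46089 49) (.a 46358 51)) (.a 58446 52)) (.sq (.a 57523 55) (.a 56599 58))) (.sq (.sq (.a 55670 61) (.a 54735 64)) (.sq (.a 53790 67) (.a 54622 70))))) (.sq (.sq (.sq (.sq (.a 46086 49) (.a 46355 51)) (.a 58441 52)) (.sq (.a 57518 55) (.a 56593 58))) (.sq (.sq (.a 55665 61) (.a 54729 64)) (.sq (.a 53783 67) (.a 54615 70))))) (.sq (.sq (.sq (.sq (.a 47690 49) (.a 46341 51)) (.a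 58423 52)) (.sq (.a 57498 55) (.a 56572 58))) (.sq (.sq (.a 55642 61) (.a 54705 64)) (.sq (.a 55521 67) (.a 54588 70))))) (.sq (.sq (.sq (.c 2986 53 52) (.c 3106 56 55)) (.sq (.c 3130 59 58) (.c 3154 62 61))) (.sq (.sq (.c 3180 65 64) (.c 3206 68 67)) (.sq (.c 3439 71 70) (.st (.a 54479 69) (.a 54298 68)))))) (.sq (.st (.sq (.sq (.c 6486 52 51) (.c 6533 55 54)) (.st (.sq (.c 4252 58 57) (.c 4285 61 60)) (.sq (.c 5888 57 56) (.c 5932 60 59)))) (.sq (.st (.sq (.c 7884 50 49) (.c 7638 53 52)) (.sq (.c 9881 48 47) (.c 9945 51 50))) (.st (.sq (.c 7691 55 54) (.c 7746 58 57)) (.sq (.c 9619 54 53) (.c 9686 57 56))))) (.st (.sq (.st (.sq (.c 4318 64 63) (.c 4353 66 65)) (.sq (.c 5977 62 61) (.c 6025 65 64))) (.st (.sq (.c 4389 69 68) (.c 4426 72 71)) (.sq (.c 6074 68 67) (.c 6125 71 70)))) (.sq (.st (.sq (.c 7805 61 60) (.c 7865 64 63)) (.sq (.c 9756 59 58) (.c 9830 62 61))) (.st (.sq (.c 7928 67 66)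 (.c 7993 69 68)) (.sq (.c 9906 65 64) (.c 9985 67 66))))))) (.st (.sq (.st (.sq (.st (.sq (.st (.c 10232 47 46) (.c 10961 46 45)) (.st (.c 10293 49 48) (.c 11024 48 47))) (.st (.sq (.c 12187 45 44) (.c 12254 47 46)) (.sq (.st (.c 12038 43 42) (.c 11904 43 42)) (.st (.c 12126 46 45) (.c 11992 45 44))))) (.st (.sq (.st (.c 10357 52 51) (.c 11091 51 50)) (.st (.c 9980 55 54) (.c 11161 53 52))) (.st (.sq (.c 11778 50 49) (.c 11850 52 51)) (.sq (.c 13015 48 47) (.c 13091 51 50))))) (.st (.sq (.st (.sq (.st (.c 12322 42 41) (.c 12730 41 40)) (.st (.c 12415 45 44) (.c 12202 44 43))) (.sq (.st (.c 12486 41 40) (.c 12849 40 39)) (.st (.c 12583 43 42) (.c 12950 42 41)))) (.st (.sq (.st (.c 12512 47 46) (.c 12299 46 45)) (.st (.c 12615 49 48) (.c 12401 49 48))) (.sq (.st (.c 12685 45 44) (.c 13056 45 44)) (.st (.c 12791 48 47) (.c 12492 47 46))))) (.sq (.st (.sq (.st (.c 12518 39 38) (.c 12828 39 38)) (.st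 (.c 12618 42 41) (.c 12932 41 40))) (.sq (.st (.c 13116 38 37) (.c 12656 37 36)) (.st (.c 13224 40 39) (.c 12761 39 38)))) (.st (.sq (.st (.c 12723 44 43) (.c 13041 43 42)) (.st (.c 12833 46 45) (.c 13155 45 44))) (.sq (.st (.c 12616 42 41) (.c 12872 41 40)) (.st (.c 12728 44 43) (.c 12988 43 42))))))) (.st (.sq (.st (.sq (.st (.c 10048 57 56) (.c 11234 56 55)) (.st (.c 10118 60 59) (.c 11310 59 58))) (.st (.sq (.c 11925 55 54) (.c 12004 57 56)) (.sq (.c 13172 53 52) (.c 12639 56 55)))) (.st (.sq (.st (.c 10192 62 61) (.c 10884 61 60)) (.st (.c 10268 65 64) (.c 10964 64 63))) (.st (.sq (.c 12086 60 59) (.c 12172 62 61)) (.sq (.c 12723 58 57) (.c 12810 61 60))))) (.st (.sq (.st (.sq (.st (.c 12101 52 51) (.c 12508 51 50)) (.st (.c 12206 54 53) (.c 12619 53 52))) (.sq (.st (.c 12903 50 49) (.c 12603 49 48)) (.st (.c 13019 52 51) (.c 12718 52 51)))) (.st (.sq (.c 13972 57 56) (.c 14065 59 58)) (.sq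 (.st (.c 12467 55 54) (.c 12839 54 53)) (.st (.c 12586 57 56) (.c 12964 56 55))))) (.sq (.st (.sq (.st (.c 12949 48 47) (.c 13275 47 46)) (.st (.c 13069 51 50) (.c 12676 50 49))) (.sq (.st (.c 12846 46 45) (.c 13110 45 44)) (.st (.c 12969 48 47) (.c 13237 47 46)))) (.st (.sq (.st (.c 13195 53 52) (.c 12800 52 51)) (.st (.c 13325 55 54) (.c 12929 54 53))) (.sq (.st (.c 13097 51 50) (.c 13370 49 48)) (.st (.c 13231 53 52) (.c 13509 52 51)))))))) (.st (.sq (.st (.sq (.st (.sq (.st (.c 12877 36 35) (.c 13067 35 34)) (.st (.c 12986 38 37) (.c 12425 37 36))) (.st (.sq (.c 12465 34 33) (.c 12572 36 35)) (.sq (.c 12570 33 32) (.c 12680 35 34)))) (.st (.sq (.st (.c 13099 40 39) (.c 12536 39 38)) (.st (.c 13219 42 41) (.c 12652 41 40))) (.st (.sq (.c 12685 38 37) (.c 12804 40 39)) (.sq (.c 12795 37 36) (.c 12916 39 38))))) (.st (.sq (.st (.sq (.c 12630 32 31) (.c 11969 34 33)) (.sq (.c 11872 31 30) (.c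 11978 32 31))) (.st (.sq (.c 12079 35 34) (.c 12195 37 36)) (.sq (.c 12089 34 33) (.c 12206 36 35)))) (.sq (.st (.sq (.c 11823 29 28) (.c 11929 31 30)) (.sq (.c 11707 28 27) (.c 11813 30 29))) (.st (.sq (.c 12041 33 32) (.c 12159 34 33)) (.sq (.c 11155 31 30) (.c 11266 33 32)))))) (.st (.sq (.st (.sq (.st (.c 13345 44 43) (.c 12774 43 42)) (.st (.c 12706 46 45) (.c 12901 45 44))) (.st (.sq (.c 12929 42 41) (.c 13060 44 43)) (.sq (.c 13044 40 39) (.c 12379 42 41)))) (.st (.sq (.st (.c 12836 48 47) (.c 13035 47 46)) (.st (.c 12971 50 49) (.c 13174 49 48))) (.st (.c 13481 48 47) (.c 13602 46 45)))) (.st (.sq (.st (.sq (.c 12317 39 38) (.c 12445 41 40)) (.c 12566 39 38)) (.st (.c 13672 45 44) (.c 12856 43 42))) (.sq (.st (.c 12514 38 37) (.c 12392 36 35)) (.st (.c 12806 41 40) (.c 12684 39 38)))))) (.st (.sq (.st (.sq (.st (.sq (.c 10771 27 26) (.c 10869 28 27)) (.st (.c 9559 26 25) (.c 9373 26 25)))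 (.st (.sq (.c 10973 30 29) (.c 11083 31 30)) (.c 10875 29 28))) (.st (.sq (.st (.c 9159 25 24) (.c 8912 24 23)) (.st (.c 9360 27 26) (.c 9108 26 25))) (.sq (.st (.c 8630 23 22) (.c 7735 22 21)) (.st (.c 8212 25 24) (.c 7905 24 23))))) (.st (.sq (.st (.c 11400 34 33) (.c 11116 32 31)) (.st (.c 11671 37 36) (.c 11382 35 34))) (.st (.sq (.c 10721 30 29) (.c 10979 33 32)) (.sq (.c 10192 28 27) (.c 9718 30 29))))) (.st (.sq (.st (.sq (.st (.c 7393 20 19) (.c 7002 19 18)) (.st (.c 7555 23 22) (.c 7155 21 20))) (.st (.sq (.c 6555 18 17) (.c 6698 20 19)) (.sq (.c 6041 16 15) (.c 6171 18 17)))) (.st (.sq (.c 8838 25 24) (.c 9051 27 26)) (.st (.c 7102 24 23) (.c 6535 22 21)))) (.st (.sq (.st (.sq (.c 5444 15 14) (.c 5560 16 15)) (.st (.c 4301 14 13) (.c 3882 13 12))) (.st (.c 5877 20 19) (.c 5105 17 16))) (.st (.sq (.st (.c 3419 12 11) (.c 2901 10 9)) (.st (.c 3597 14 13) (.c 3048 12 11))) (.st (.sq (.st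 (.c 2022 8 7) (.c 1685 7 6)) (.c 2419 10 9)) (.st (.sq (.c 1310 6 5) (.c 1273 7 6)) (.st (.c 715 5 4) (.st (.c 396 4 3) (.b 250 3)))))))))))

theorem cert0_ok : chk cert0 0 SC 3602879701896396800 5332261958806667264 = true := by decide +kernel

end CK322
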