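import Vale.Agent.Lib.P322.KCert0

/-!
Certificate for `KEYprop` on a range of `q`.
-/

namespace CK322

def cert1 : CT := .st (.st (.st (.st (.st (.st (.st (.sq (.sq (.sq (.a 53678 73) (.a 52713 76)) (.sq (.a 53608 79) (.a 52630 82))) (.sq (.sq (.a 53574 85) (.a 52575 88)) (.sq (.a 53565 91) (.a 52537 94)))) (.sq (.sq (.sq (.a 53678 73) (.a 52713 76)) (.sq (.a 53608 79) (.a 52630 82))) (.sq (.sq (.a 53574 85) (.a 52574 88)) (.sq (.a 53564 91) (.a 52536 94))))) (.sq (.sq (.sq (.a 53676 73) (.a 52711 76)) (.sq (.a 53606 79) (.a 52628 82))) (.sq (.sq (.a 53571 85) (.a 52572 88)) (.sq (.a 53562 91) (.a 52534 94))))) (.sq (.sq (.sq (.a 53668 73) (.a 52704 76)) (.sq (.a 53598 79) (.a 52620 82))) (.sq (.sq (.a 53562 85) (.a 52563 88)) (.sq (.a 53552 91) (.a 52524 94))))) (.sq (.sq (.sq (.a 53640 73) (.a 54522 76)) (.sq (.a 53566 79) (.a 52587 82))) (.sq (.sq (.a 53527 85) (.a 52527 88)) (.sq (.a 53514 91)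 (.a 52485 94))))) (.sq (.sq (.sq (.st (.a 55341 72) (.a 55146 71)) (.a 56245 74)) (.sq (.a 55315 77) (.a 56272 80))) (.sq (.sq (.a 55330 83) (.a 56338 86)) (.sq (.a 55376 89) (.a 56435 92))))) (.sq (.st (.sq (.st (.sq (.c 4465 75 74) (.c 4504 78 77)) (.sq (.c 6177 74 73) (.c 6231 77 76))) (.st (.sq (.c 4544 81 80) (.c 4586 84 83)) (.sq (.c 6049 80 79) (.c 6104 83 82)))) (.sq (.st (.sq (.c 8060 72 71) (.c 8129 75 74)) (.sq (.st (.c 8465 70 69) (.c 9195 69 68)) (.st (.c 8171 73 72) (.c 9269 72 71)))) (.st (.sq (.c 8201 78 77) (.c 7950 81 80)) (.sq (.st (.c 8240 76 75) (.c 9345 74 73)) (.st (.c 8310 78 77) (.c 9424 77 76)))))) (.st (.sq (.st (.sq (.c 4628 87 86) (.a 53765 84)) (.sq (.c 6160 85 84) (.c 6218 88 87))) (.st (.sq (.a 54743 87) (.a 53735 90)) (.sq (.c 6276 91 90) (.c 6336 94 93)))) (.sq (.st (.sq (.c 8022 84 83) (.c 8097 86 85)) (.sq (.st (.c 8383 81 80) (.c 9506 80 79)) (.st (.c 8457 84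 83) (.c 9163 83 82)))) (.st (.sq (.st (.c 6736 89 88) (.c 7458 88 87)) (.st (.c 6798 92 91) (.c 7526 91 90))) (.sq (.st (.c 8534 87 86) (.c 9245 85 84)) (.st (.c 8612 90 89) (.c 9329 88 87)))))))) (.st (.sq (.st (.sq (.st (.sq (.st (.c 10347 68 67) (.c 11046 66 65)) (.st (.c 9965 70 69) (.c 11132 69 68))) (.st (.sq (.c 12261 65 64) (.c 11779 67 66)) (.sq (.c 12901 63 62) (.c 12996 66 65)))) (.st (.sq (.st (.c 10046 73 72) (.c 11220 72 71)) (.st (.c 10130 76 75) (.c 11312 74 73))) (.st (.sq (.c 11871 70 69) (.c 11966 73 72)) (.sq (.c 13095 68 67) (.c 13197 71 70))))) (.st (.sq (.st (.sq (.c 13471 61 60) (.c 13566 64 63)) (.sq (.st (.c 12710 59 58) (.c 13094 58 57)) (.c 14815 62 61))) (.st (.sq (.c 13666 66 65) (.c 13769 69 68)) (.sq (.c 14919 64 63) (.c 15028 67 66)))) (.sq (.st (.sq (.st (.c 12733 57 56) (.c 13063 56 55)) (.st (.c 12867 60 59) (.c 13202 58 57))) (.st (.sq (.c 13371 55 54) (.c 13515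 57 56)) (.c 13976 56 55))) (.st (.sq (.st (.c 13005 62 61) (.c 13346 61 60)) (.c 15490 64 63)) (.sq (.st (.c 13665 59 58) (.c 13162 58 57)) (.c 15851 62 61)))))) (.st (.sq (.st (.sq (.st (.c 10216 78 77) (.c 11407 77 76)) (.st (.c 10305 81 80) (.c 11504 80 79))) (.st (.sq (.c 12064 75 74) (.c 12165 78 77)) (.sq (.c 13302 73 72) (.c 12757 76 75)))) (.st (.sq (.st (.c 10396 84 83) (.c 11065 82 81)) (.st (.c 10489 87 86) (.c 11163 85 84))) (.st (.sq (.c 12270 80 79) (.c 12377 83 82)) (.sq (.c 12864 78 77) (.c 12975 81 80))))) (.st (.sq (.st (.sq (.c 13876 71 70) (.c 13987 74 73)) (.sq (.c 14365 69 68) (.c 14476 71 70))) (.st (.sq (.c 14102 76 75) (.c 14221 79 78)) (.sq (.c 14592 74 73) (.c 14711 76 75)))) (.sq (.st (.sq (.c 15602 67 66) (.c 15718 69 68)) (.sq (.c 15960 64 63) (.c 16074 66 65))) (.st (.sq (.c 15839 71 70) (.c 15965 74 73)) (.sq (.c 16192 69 68) (.c 16316 71 70))))))) (.st (.sq (.st (.sq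 (.st (.st (.c 14234 55 54) (.c 14456 53 52)) (.st (.c 13801 52 51) (.c 13929 50 49))) (.st (.st (.c 14580 59 58) (.c 13966 57 56)) (.st (.c 14147 56 55) (.c 14283 54 53)))) (.st (.sq (.st (.c 13157 48 47) (.c 13173 47 46)) (.st (.c 13496 52 51) (.c 13518 50 49))) (.sq (.st (.c 13126 45 44) (.c 12165 43 42)) (.st (.c 13474 48 47) (.c 12491 46 45))))) (.st (.sq (.st (.st (.c 14951 63 62) (.c 14328 62 61)) (.st (.c 14519 60 59) (.c 14665 58 57))) (.st (.sq (.c 16223 65 64) (.c 16408 68 67)) (.st (.c 14919 64 63) (.c 14162 62 61)))) (.st (.sq (.st (.c 13863 56 55) (.c 13891 54 53)) (.st (.c 14257 60 59) (.c 14293 58 57))) (.sq (.st (.c 12957 52 51) (.c 12845 50 49)) (.st (.c 13338 56 55) (.c 13229 53 52)))))) (.st (.sq (.st (.sq (.st (.c 11968 41 40) (.c 11674 38 37)) (.st (.c 12293 44 43) (.c 11994 41 40))) (.st (.sq (.c 11263 36 35) (.c 10776 38 37)) (.sq (.c 9970 33 32) (.c 10246 35 34)))) (.st (.sq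 (.st (.c 12646 47 46) (.c 12343 44 43)) (.st (.c 13029 50 49) (.c 12722 47 46))) (.st (.sq (.c 11092 41 40) (.c 11437 44 43)) (.c 11851 41 40)))) (.st (.sq (.st (.sq (.c 9285 29 28) (.c 9543 32 31)) (.st (.c 7531 28 27) (.c 6926 26 25))) (.st (.c 10257 37 36) (.c 9231 32 31))) (.st (.sq (.st (.c 6225 23 22) (.c 5401 20 19)) (.st (.c 6647 27 26) (.c 5761 23 22))) (.st (.sq (.c 4410 17 16) (.c 4695 19 18)) (.st (.c 2746 14 13) (.st (.c 1446 10 9) (.b 949 7)))))))))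

theorem cert1_ok : chk cert1 0 SC 5332261958806667264 7061644215716937728 = true := by decide +kernel

end CK322
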