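import Vale.Agent.Lib.P322.KCert9

/-!
Certificate for `KEYprop` on a range of `q`.
-/

namespace CK322

def cert10 : CT := .st (.st (.a 94581 196) (.st (.sq (.a 84049 192) (.a 76661 195)) (.st (.sq (.sq (.a 80021 189) (.a 76566 190)) (.a 79500 192)) (.sq (.st (.sq (.a 78277 187) (.a 79739 188)) (.sq (.a 77263 185) (.a 78712 186))) (.sq (.a 81252 188) (.a 77798 189)))))) (.st (.st (.st (.sq (.st (.sq (.st (.a 76144 184) (.c 10037 187 186)) (.a 77577 184)) (.sq (.st (.c 10679 186 185) (.c 11345 184 183)) (.st (.a 76326 183) (.c 10642 186 185)))) (.st (.sq (.a 79060 186) (.a 75712 187)) (.sq (.st (.a 77791 184) (.a 77109 183)) (.a 79310 185)))) (.st (.sq (.st (.sq (.c 12034 183 182) (.c 11291 185 184)) (.sq (.c 12746 182 181) (.c 11963 184 183))) (.st (.sq (.c 11273 187 186) (.a 77890 183)) (.sq (.c 11947 185 184) (.c 11157 187 186)))) (.sq (.st (.sq (.c 13481 180 179) (.c 12657 182 181)) (.sq (.c 14240 179 178) (.c 13374 181 180))) (.st (.sq (.c 12645 184 183) (.c 11812 186 185)) (.sq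 (.c 13365 182 181) (.c 12490 184 183)))))) (.st (.st (.sq (.st (.sq (.st (.c 13658 177 176) (.c 14023 176 175)) (.c 14112 179 178)) (.sq (.st (.c 14392 176 175) (.c 14767 175 174)) (.c 14873 177 176))) (.st (.sq (.c 14108 181 180) (.c 13189 183 182)) (.sq (.c 14874 179 178) (.c 13911 181 180)))) (.sq (.st (.sq (.st (.c 15146 174 173) (.c 15530 173 172)) (.c 15655 176 175)) (.sq (.st (.c 15919 172 171) (.c 16312 171 170)) (.c 16457 174 173))) (.st (.sq (.c 15663 177 176) (.c 14654 179 178)) (.sq (.c 16473 175 174) (.c 15419 177 176))))) (.st (.sq (.st (.sq (.c 17250 170 169) (.c 17279 172 171)) (.sq (.c 18081 168 167) (.c 18120 169 168))) (.st (.sq (.c 17303 173 172) (.c 16204 175 174)) (.sq (.c 18153 171 170) (.c 17008 173 172)))) (.sq (.st (.sq (.c 18927 165 164) (.c 18976 167 166)) (.sq (.c 19786 163 162) (.c 19847 165 164))) (.st (.sq (.c 19021 169 168) (.c 17829 171 170)) (.sq (.c 19904 166 165) (.c 18667 168 167))))))) (.st (.st (.st (.sq (.st (.sq (.st (.c 18718 160 159) (.c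 19113 159 158)) (.c 20729 162 161)) (.sq (.st (.c 19509 157 156) (.c 19904 156 155)) (.c 21618 159 158))) (.st (.sq (.c 20799 164 163) (.c 19517 166 165)) (.sq (.c 21703 161 160) (.c 20377 163 162)))) (.st (.sq (.st (.sq (.c 20299 154 153) (.c 20388 156 155)) (.sq (.c 20692 152 151) (.c 20789 154 153))) (.st (.c 22323 160 159) (.c 22768 158 157))) (.sq (.st (.sq (.c 21083 151 150) (.c 21187 152 151)) (.sq (.c 21447 149 148) (.c 21583 151 150))) (.sq (.c 21998 155 154) (.c 22106 156 155))))) (.st (.st (.sq (.st (.sq (.c 21787 147 146) (.c 21946 149 148)) (.sq (.c 22114 145 144) (.c 22286 147 146))) (.st (.c 22531 153 152) (.c 22932 151 150))) (.sq (.st (.sq (.c 22426 143 142) (.c 22611 145 144)) (.sq (.c 22721 141 140) (.c 22919 142 141))) (.st (.c 23326 149 148) (.c 23712 147 146)))) (.st (.sq (.st (.sq (.c 22994 138 137) (.c 23207 140 139)) (.sq (.c 23243 136 135) (.c 23471 138 137))) (.st (.c 24087 145 144) (.c 24449 142 141))) (.sq (.st (.sq (.c 23464 134 133) (.c 23706 135 134))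 (.sq (.c 23650 131 130) (.c 23908 133 132))) (.st (.c 24722 140 139) (.c 24952 137 136)))))) (.st (.st (.st (.sq (.st (.sq (.c 23797 128 127) (.c 22411 130 129)) (.sq (.c 20602 125 124) (.c 22521 127 126))) (.st (.c 25143 134 133) (.c 25287 131 130))) (.st (.sq (.st (.c 20564 124 123) (.c 20552 123 122)) (.c 25376 128 127)) (.sq (.c 21294 121 120) (.c 25399 125 124)))) (.st (.st (.sq (.c 21217 118 117) (.c 25345 121 120)) (.sq (.c 21062 114 113) (.c 21724 118 117))) (.st (.c 22203 115 114) (.c 21827 110 109)))) (.st (.st (.st (.c 21308 105 104) (.c 20616 100 99)) (.c 23607 96 95)) (.st (.c 20932 82 81) (.st (.c 12470 60 59) (.b 8879 46)))))))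

theorem cert10_ok : chk cert10 0 SC 14411518807585587200 14843864371813154816 = true := by decide +kernel

end CK322
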