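import Vale.Agent.Lib.P322.KCert10

/-!
Certificate for `KEYprop` on a range of `q`.
-/

namespace CK322

def cert11 : CT := .st (.st (.st (.st (.st (.st (.st (.sq (.a 78831 199) (.a 79320 199)) (.sq (.a 78830 199) (.a 79319 199))) (.sq (.a 78825 199) (.a 79314 199))) (.sq (.a 78806 199) (.a 79296 199))) (.sq (.a 78730 199) (.a 85560 199))) (.sq (.a 84235 199) (.a 85243 199))) (.sq (.st (.a 88602 198) (.sq (.a 82648 191) (.a 80487 194))) (.a 96366 197))) (.st (.st (.sq (.st (.sq (.sq (.a 82190 186) (.a 78761 188)) (.a 82051 189)) (.st (.sq (.sq (.a 74630 184) (.a 76146 185)) (.st (.a 79363 188) (.a 78602 187))) (.sq (.sq (.c 13480 188 187) (.c 13452 189 188)) (.st (.c 12804 193 192) (.c 13555 192 191))))) (.sq (.st (.a 80092 193) (.a 82853 187)) (.a 89495 190))) (.st (.sq (.st (.sq (.st (.c 14373 187 186) (.c 15166 185 184)) (.st (.c 14332 190 189) (.c 15136 189 188))) (.sq (.st (.c 15984 183 182) (.c 16827 181 180)) (.st (.c 14937 187 186) (.c 15739 185 184)))) (.st (.sq (.c 15260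 194 193) (.a 83171 187)) (.sq (.c 17027 191 190) (.c 15857 195 194)))) (.sq (.st (.sq (.st (.c 17692 179 178) (.c 18580 177 176)) (.st (.c 16566 183 182) (.c 17416 181 180))) (.sq (.st (.c 19489 175 174) (.c 20417 173 172)) (.st (.c 18289 179 178) (.c 19182 177 176)))) (.st (.sq (.st (.c 16550 187 186) (.c 17420 185 184)) (.c 17665 191 190)) (.sq (.st (.c 18315 183 182) (.c 19234 181 180)) (.c 19608 187 186)))))) (.st (.st (.sq (.st (.sq (.st (.sq (.c 19572 168 167) (.c 19621 170 169)) (.sq (.c 20447 165 164) (.c 20511 167 166))) (.st (.c 20093 174 173) (.c 21019 171 170))) (.st (.sq (.st (.c 21063 164 163) (.c 21496 162 161)) (.c 21955 168 167)) (.sq (.st (.c 21928 161 160) (.c 22358 159 158)) (.c 22896 165 164)))) (.st (.sq (.st (.c 20175 178 177) (.c 21135 175 174)) (.st (.c 18826 182 181) (.c 19753 180 179))) (.st (.sq (.c 22110 172 171) (.c 20698 177 176)) (.sq (.c 23094 169 168) (.c 21658 174 173))))) (.st (.sq (.st (.sq (.st (.c 22784 157 156) (.c 23205 155 154)) (.c 23834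 161 160)) (.sq (.st (.c 23620 153 152) (.c 24026 151 150)) (.c 24757 158 157))) (.st (.sq (.c 24081 166 165) (.c 22626 170 169)) (.sq (.c 25058 162 161) (.c 25338 166 165)))) (.sq (.st (.sq (.st (.c 24423 149 148) (.c 24807 146 145)) (.c 25653 153 152)) (.sq (.st (.c 25177 144 143) (.c 25512 141 140)) (.st (.c 25559 148 147) (.c 24148 145 144)))) (.st (.sq (.c 26013 158 157) (.c 26359 162 161)) (.sq (.c 26927 153 152) (.c 27345 157 156)))))) (.st (.st (.sq (.st (.sq (.st (.c 25741 138 137) (.c 25925 135 134)) (.st (.c 24479 142 141) (.c 24738 139 138))) (.st (.sq (.c 26054 132 131) (.c 24901 136 135)) (.sq (.c 24317 129 128) (.c 25004 133 132)))) (.st (.sq (.st (.c 24889 147 146) (.c 25225 144 143)) (.c 28269 152 151)) (.st (.sq (.c 25533 141 140) (.c 26010 145 144)) (.sq (.c 25706 137 136) (.c 26318 142 141))))) (.st (.sq (.st (.sq (.c 24304 125 124) (.c 25035 129 128)) (.sq (.c 24206 121 120) (.c 24980 125 124))) (.st (.sq (.c 25787 133 132) (.c 26559 138 137)) (.sq (.c 25783 130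 129) (.c 26614 134 133)))) (.sq (.st (.sq (.c 22225 117 116) (.c 24820 121 120)) (.sq (.c 21923 113 112) (.c 24533 116 115))) (.st (.sq (.c 25673 125 124) (.c 26563 130 129)) (.sq (.c 25434 121 120) (.c 26383 125 124)))))) (.st (.st (.sq (.st (.c 23045 113 112) (.c 22392 107 106)) (.st (.sq (.c 25036 115 114) (.c 26041 120 119)) (.st (.c 25175 115 114) (.c 22896 112 111)))) (.st (.sq (.c 21505 101 100) (.c 23614 109 108)) (.sq (.c 20324 94 93) (.c 22451 102 101)))) (.st (.st (.c 23471 96 95) (.c 19304 85 84)) (.st (.c 15997 73 72) (.b 11293 56)))))))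

theorem cert11_ok : chk cert11 0 SC 14843864371813154816 15708555500268290048 = true := by decide +kernel

end CK322
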