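import Vale.Agent.Lib.P322.KCert11

/-!
Certificate for `KEYprop` on a range of `q`.
-/

namespace CK322

def cert12 : CT := .st (.st (.st (.st (.st (.st (.st (.sq (.a 119137 199) (.a 144060 199)) (.sq (.a 119136 199) (.a 144060 199))) (.sq (.a 119129 199) (.a 144052 199))) (.sq (.a 119104 199) (.a 144027 199))) (.sq (.a 119006 199) (.a 143928 199))) (.sq (.a 118611 199) (.a 143530 199))) (.sq (.sq (.a 91991 199) (.a 101885 199)) (.a 151665 199))) (.st (.sq (.st (.sq (.a 98424 193) (.a 95331 199)) (.st (.sq (.sq (.a 87243 187) (.a 85827 191)) (.a 95807 193)) (.sq (.st (.sq (.c 17582 196 195) (.a 81520 187)) (.sq (.c 19573 192 191) (.c 18137 196 195))) (.sq (.c 19934 205 199) (.a 91232 190))))) (.st (.sq (.a 107735 199) (.a 124955 199)) (.st (.sq (.a 101280 199) (.a 118169 199)) (.sq (.a 103930 192) (.a 113385 199))))) (.st (.sq (.st (.sq (.st (.sq (.c 21717 187 186) (.c 21692 192 191)) (.sq (.c 24006 182 181) (.c 24079 187 186))) (.st (.sq (.c 20108 197 196) (.c 18461 201 199)) (.st (.c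 23692 198 197) (.c 24964 195 194)))) (.st (.sq (.sq (.st (.c 22798 175 174) (.c 23824 171 170)) (.c 26623 181 180)) (.sq (.c 26770 186 185) (.c 24982 191 190))) (.sq (.st (.sq (.c 24842 167 166) (.c 25111 172 171)) (.sq (.c 25835 162 161) (.c 26190 167 166))) (.sq (.c 29623 178 177) (.c 27843 184 183))))) (.st (.sq (.st (.c 22656 213 199) (.c 25561 209 199)) (.st (.a 115097 197) (.c 23323 222 199))) (.st (.sq (.st (.c 24622 204 199) (.c 26056 201 199)) (.st (.c 24367 217 199) (.c 26011 215 199))) (.sq (.sq (.c 28017 190 189) (.c 28065 197 196)) (.sq (.c 25865 204 199) (.c 25511 211 199)))))) (.st (.sq (.st (.sq (.st (.sq (.c 26779 157 156) (.c 27229 162 161)) (.sq (.c 27639 151 150) (.c 28193 156 155))) (.st (.sq (.c 27657 168 167) (.c 28046 174 173)) (.st (.c 31429 169 168) (.c 29747 166 165)))) (.st (.sq (.sq (.c 28363 144 143) (.c 29028 149 148)) (.st (.c 30188 162 161) (.c 30571 158 157))) (.sq (.sq (.st (.c 27490 135 134) (.c 27380 130 129)) (.c 29656 141 140)) (.sq (.c 30482 147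 146) (.c 31353 153 152))))) (.st (.sq (.sq (.st (.c 26270 180 179) (.c 29770 174 173)) (.c 31767 189 188)) (.sq (.c 32040 196 195) (.st (.c 26423 203 199) (.c 28329 198 197)))) (.st (.sq (.st (.c 31884 177 176) (.c 32469 173 172)) (.st (.c 33679 194 193) (.c 34583 191 190))) (.sq (.st (.c 32987 169 168) (.c 33413 164 163)) (.st (.c 35446 187 186) (.c 36242 183 182)))))) (.st (.sq (.st (.sq (.st (.sq (.c 27107 125 124) (.c 28236 130 129)) (.st (.c 27672 125 124) (.c 27276 121 120))) (.st (.sq (.c 29320 135 134) (.c 27974 142 141)) (.st (.c 30321 137 136) (.c 30217 133 132)))) (.st (.sq (.st (.c 26793 118 117) (.c 26212 114 113)) (.st (.c 29925 130 129) (.c 29420 126 125))) (.sq (.st (.c 23626 110 109) (.c 22859 106 105)) (.st (.c 28787 122 121) (.c 28003 117 116))))) (.st (.sq (.sq (.c 33113 151 150) (.c 34357 159 158)) (.sq (.c 35693 167 166) (.c 37098 177 176))) (.st (.sq (.st (.c 32714 145 144) (.c 32548 141 140)) (.st (.c 36378 165 164) (.c 36369 161 160))) (.sq (.st (.c 32299 137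 136) (.c 31951 132 131)) (.sq (.c 33976 145 144) (.c 33207 155 154)))))) (.st (.sq (.st (.sq (.c 23447 103 102) (.st (.c 27041 112 111) (.c 23950 107 106))) (.sq (.c 21190 92 91) (.c 24456 103 102))) (.st (.sq (.sq (.c 29796 119 118) (.c 31800 126 125)) (.sq (.c 33541 135 134) (.c 35670 146 145))) (.st (.sq (.st (.c 25716 113 112) (.c 24902 109 108)) (.st (.c 33538 133 132) (.c 33041 129 128))) (.sq (.st (.c 23984 105 104) (.c 22948 101 100)) (.st (.c 32210 125 124) (.c 31067 120 119)))))) (.st (.sq (.st (.c 19849 88 87) (.c 17100 78 77)) (.st (.sq (.c 22913 98 97) (.st (.c 29731 115 114) (.c 28166 109 108))) (.sq (.c 20130 88 87) (.st (.c 24377 103 102) (.c 22365 96 95))))) (.st (.sq (.c 13649 66 65) (.st (.c 21014 91 90) (.c 17794 81 80))) (.b 15214 72))))))))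

theorem cert12_ok : chk cert12 0 SC 15708555500268290048 17437937757178560512 = true := by decide +kernel

end CK322
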