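import Vale.Agent.Lib.P322.KCert1

/-!
Certificate for `KEYprop` on a range of `q`.
-/

namespace CK322

def cert2 : CT := .st (.st (.st (.st (.st (.st (.st (.sq (.sq (.sq (.a 53571 97) (.a 52506 100)) (.sq (.a 53584 103) (.a 52473 106))) (.sq (.sq (.a 53593 109) (.a 52428 112)) (.sq (.a 53588 115) (.a 54794 118)))) (.sq (.sq (.sq (.a 53571 97) (.a 52506 100)) (.sq (.a 53584 103) (.a 52473 106))) (.sq (.sq (.a 53593 109) (.a 52427 112)) (.sq (.a 53587 115) (.a 54793 118))))) (.sq (.sq (.sq (.a 53568 97) (.a 52503 100)) (.sq (.a 53581 103) (.a 52470 106))) (.sq (.sq (.a 53589 109) (.a 52424 112)) (.sq (.a 53584 115) (.a 54789 118))))) (.sq (.sq (.sq (.a 53558 97) (.a 52492 100)) (.sq (.a 53570 103) (.a 52459 106))) (.sq (.sq (.a 53578 109) (.a 54742 112)) (.sq (.a 53571 115) (.a 54777 118))))) (.sq (.sq (.sq (.a 53517 97) (.a 52451 100)) (.sq (.a 53526 103) (.a 54645 106))) (.sq (.sq (.a 53532 109) (.a 54693 112)) (.sq (.a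 53523 115) (.a 54726 118))))) (.sq (.sq (.sq (.a 55446 95) (.a 56554 98)) (.sq (.a 55529 101) (.a 56684 103))) (.sq (.sq (.a 57887 106) (.a 56818 109)) (.sq (.a 58068 112) (.a 59369 115))))) (.sq (.st (.sq (.st (.sq (.a 54761 93) (.a 53723 96)) (.sq (.st (.a 52194 92) (.c 5862 96 95)) (.st (.a 53194 95) (.c 5917 99 98)))) (.st (.sq (.a 54795 99) (.a 55912 102)) (.sq (.st (.a 52110 98) (.c 5972 102 101)) (.st (.a 53154 101) (.a 52822 99))))) (.sq (.st (.sq (.st (.c 6861 95 94) (.c 7596 94 93)) (.st (.c 6925 98 97) (.c 7667 97 96))) (.sq (.st (.c 8691 92 91) (.c 9415 91 90)) (.st (.c 8773 95 94) (.c 9502 94 93)))) (.st (.sq (.st (.c 6693 101 100) (.c 7740 99 98)) (.st (.c 6757 104 103) (.c 7813 102 101))) (.sq (.st (.c 8462 98 97) (.c 9591 96 95)) (.st (.c 8542 101 100) (.c 9682 99 98)))))) (.st (.sq (.st (.sq (.a 54836 105) (.a 56000 108)) (.sq (.st (.a 54242 104) (.a 53892 102)) (.st (.a 53116 106) (.a 55008 105)))) (.st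 (.sq (.a 57211 110) (.a 56085 113)) (.sq (.st (.a 54248 109) (.a 53878 108)) (.st (.a 55428 112) (.a 55040 111))))) (.sq (.st (.sq (.st (.c 6821 106 105) (.c 7887 105 104)) (.st (.c 6885 109 108) (.c 7962 108 107))) (.sq (.st (.c 8623 104 103) (.c 9775 102 101)) (.st (.c 8706 106 105) (.c 9868 105 104)))) (.st (.sq (.st (.c 6950 112 111) (.c 8038 111 110)) (.st (.c 7015 115 114) (.c 8114 114 113))) (.sq (.st (.c 8789 109 108) (.c 9963 108 107)) (.st (.c 8873 112 111) (.c 10059 110 109)))))))) (.st (.sq (.st (.sq (.st (.sq (.st (.c 10585 89 88) (.c 11264 88 87)) (.st (.c 10683 92 91) (.c 11367 90 89))) (.st (.sq (.c 12487 86 85) (.c 12601 88 87)) (.sq (.c 13089 84 83) (.c 13206 86 85)))) (.st (.sq (.st (.c 10783 95 94) (.c 11473 93 92)) (.st (.c 10378 98 97) (.c 11581 96 95))) (.st (.sq (.c 12717 91 90) (.c 12210 94 93)) (.sq (.c 13327 89 88) (.c 13450 91 90))))) (.st (.sq (.st (.sq (.c 14343 81 80) (.c 14469 84 83)) (.sq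 (.c 14835 79 78) (.c 14962 81 80))) (.st (.sq (.c 13851 86 85) (.c 13978 89 88)) (.sq (.c 15094 84 83) (.c 15230 86 85)))) (.sq (.st (.sq (.c 16095 76 75) (.c 15353 78 77)) (.sq (.c 16444 73 72) (.c 16577 75 74))) (.st (.sq (.c 15484 81 80) (.c 15621 83 82)) (.sq (.c 16715 78 77) (.c 16858 80 79)))))) (.st (.sq (.st (.sq (.st (.c 10477 100 99) (.c 11691 98 97)) (.st (.c 10578 103 102) (.c 11803 101 100))) (.st (.sq (.c 12326 96 95) (.c 12444 99 98)) (.sq (.c 13577 94 93) (.c 13707 97 96)))) (.st (.sq (.st (.c 10680 106 105) (.c 11918 104 103)) (.st (.c 10783 109 108) (.c 12034 107 106))) (.st (.sq (.c 12564 102 101) (.c 12687 104 103)) (.sq (.c 13839 99 98) (.c 13974 102 101))))) (.st (.sq (.st (.sq (.c 14108 91 90) (.c 14242 94 93)) (.sq (.c 15370 89 88) (.c 15514 91 90))) (.st (.sq (.c 14379 97 96) (.c 14519 99 98)) (.sq (.c 15662 94 93) (.c 15814 96 95)))) (.sq (.st (.sq (.c 15762 86 85) (.c 15907 88 87)) (.sq (.c 17006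 82 81) (.c 17159 85 84))) (.st (.sq (.c 16057 91 90) (.c 16211 93 92)) (.sq (.c 17317 87 86) (.c 17481 90 89))))))) (.st (.sq (.st (.sq (.st (.sq (.c 16599 70 69) (.c 16795 72 71)) (.st (.c 15346 68 67) (.c 14575 66 65))) (.st (.sq (.c 16937 74 73) (.c 17076 77 76)) (.st (.c 14843 73 72) (.c 15016 70 69)))) (.st (.sq (.st (.c 14681 64 63) (.c 14725 62 61)) (.st (.c 15134 68 67) (.c 14209 66 65))) (.sq (.st (.c 13749 59 58) (.c 13643 57 56)) (.st (.c 14190 63 62) (.c 14090 60 59))))) (.st (.sq (.st (.sq (.c 17221 79 78) (.c 17371 81 80)) (.st (.c 15297 77 76) (.c 15486 75 74))) (.st (.sq (.c 17527 83 82) (.c 17688 86 85)) (.st (.c 15779 82 81) (.c 15985 79 78)))) (.st (.sq (.st (.c 15618 72 71) (.c 14673 70 69)) (.st (.c 16134 77 76) (.c 15169 74 73))) (.sq (.st (.c 14664 67 66) (.c 14570 64 63)) (.st (.c 15172 71 70) (.c 15086 68 67)))))) (.st (.sq (.st (.st (.c 14193 58 57) (.c 13850 54 53)) (.st (.c 13362 51 50) (.c 11820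 47 46))) (.st (.st (.c 15259 65 64) (.c 14908 61 60)) (.st (.c 14399 57 56) (.c 12751 53 52)))) (.st (.sq (.st (.c 10992 42 41) (.c 9891 37 36)) (.st (.c 11866 48 47) (.c 10681 42 41))) (.st (.st (.c 7935 35 34) (.c 6837 30 29)) (.st (.sq (.c 4667 22 21) (.c 5055 25 24)) (.st (.c 2974 18 17) (.b 1994 13))))))))

theorem cert2_ok : chk cert2 0 SC 7061644215716937728 8791026472627208192 = true := by decide +kernel

end CK322
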