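import Vale.Agent.Lib.P322.KCert2

/-!
Certificate for `KEYprop` on a range of `q`.
-/

namespace CK322

def cert3 : CT := .st (.st (.st (.st (.st (.st (.st (.sq (.sq (.sq (.a 53557 121) (.a 54803 124)) (.sq (.a 56098 127) (.a 54774 130))) (.sq (.sq (.a 56110 133) (.a 57500 136)) (.sq (.a 56071 139) (.a 57503 142)))) (.sq (.sq (.sq (.a 53556 121) (.a 54802 124)) (.sq (.a 56098 127) (.a 54773 130))) (.sq (.sq (.a 56109 133) (.a 57499 136)) (.sq (.a 56070 139) (.a 57502 142))))) (.sq (.sq (.sq (.a 53553 121) (.a 54798 124)) (.sq (.a 56094 127) (.a 54769 130))) (.sq (.sq (.a 56105 133) (.a 57495 136)) (.sq (.a 56066 139) (.a 57498 142))))) (.sq (.sq (.sq (.a 53540 121) (.a 54785 124)) (.sq (.a 56080 127) (.a 54756 130))) (.sq (.sq (.a 56091 133) (.a 57480 136)) (.sq (.a 56052 139) (.a 57483 142))))) (.sq (.sq (.sq (.a 55977 121) (.a 54732 124)) (.sq (.a 56025 127) (.a 57369 130))) (.sq (.sq (.a 56034 133) (.a 57422 136)) (.sq (.a 58865 139) (.a 57423 142)))))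 (.sq (.sq (.sq (.a 58243 118) (.a 59592 121)) (.sq (.a 60995 124) (.a 59797 127))) (.sq (.sq (.a 61251 130) (.a 62764 133)) (.sq (.a 64339 136) (.a 63046 139))))) (.sq (.st (.sq (.st (.sq (.a 57343 116) (.a 58653 119)) (.sq (.st (.a 54245 115) (.a 56251 114)) (.st (.a 55470 118) (.a 55064 117)))) (.st (.sq (.a 57463 122) (.a 58822 125)) (.sq (.st (.a 56746 121) (.a 56322 120)) (.st (.a 58075 124) (.a 57633 122))))) (.sq (.st (.sq (.st (.c 7081 118 117) (.c 8190 117 116)) (.sq (.a 49214 114) (.a 49761 115))) (.sq (.st (.c 8957 115 114) (.c 10156 113 112)) (.st (.c 9042 118 117) (.sq (.a 47771 110) (.a 48284 111))))) (.st (.sq (.sq (.a 50319 117) (.a 50889 118)) (.sq (.a 51471 119) (.a 52065 121))) (.sq (.st (.sq (.a 46949 115) (.a 47471 116)) (.sq (.a 46428 113) (.a 46938 114))) (.st (.sq (.a 48004 118) (.a 48548 119)) (.sq (.a 47459 116) (.a 47992 117))))))) (.st (.sq (.st (.sq (.a 60237 128) (.a 61710 131)) (.sq (.st (.a 56817 127) (.a 58999 125))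 (.st (.a 58195 130) (.a 57738 128)))) (.st (.sq (.a 60434 134) (.a 61962 137)) (.sq (.st (.a 59631 133) (.a 59156 131)) (.st (.a 61129 136) (.a 60635 134))))) (.sq (.st (.sq (.sq (.a 52671 122) (.a 53290 124)) (.sq (.a 53923 125) (.a 54569 127))) (.sq (.st (.sq (.a 49104 120) (.a 49672 122)) (.sq (.a 48536 118) (.a 49092 120))) (.st (.sq (.a 50253 123) (.a 50846 125)) (.sq (.a 49660 121) (.a 50240 123))))) (.st (.sq (.sq (.a 55228 128) (.a 55902 129)) (.sq (.a 56590 131) (.a 57293 132))) (.sq (.st (.sq (.a 51452 126) (.a 52071 128)) (.sq (.a 50834 124) (.a 51440 126))) (.st (.sq (.a 52703 129) (.a 53350 130)) (.sq (.a 52060 127) (.a 52694 128))))))))) (.st (.sq (.st (.sq (.st (.sq (.st (.c 10888 111 110) (.c 12151 109 108)) (.st (.c 10994 114 113) (.sq (.a 46592 106) (.c 11011 112 111)))) (.st (.sq (.c 12812 107 106) (.c 12938 110 109)) (.sq (.c 14112 105 104) (.st (.c 12789 107 106) (.c 12684 106 105))))) (.st (.sq (.st (.c 11100 117 116) (.sq (.c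 11064 113 112) (.a 45736 110))) (.st (.sq (.a 46869 113) (.a 47388 115)) (.sq (.a 46230 111) (.a 46735 112)))) (.st (.sq (.c 13067 113 112) (.st (.c 11807 115 114) (.c 12418 114 113))) (.sq (.st (.c 12216 110 109) (.c 12808 109 108)) (.st (.c 12335 113 112) (.c 12933 111 110)))))) (.st (.sq (.st (.sq (.c 14662 102 101) (.c 14809 105 104)) (.sq (.c 15970 99 98) (.st (.c 14490 101 100) (.c 14242 100 99)))) (.st (.sq (.c 14958 107 106) (.c 15110 110 109)) (.sq (.st (.c 13796 104 103) (.c 14382 102 101)) (.st (.c 13932 107 106) (.c 14524 105 104))))) (.sq (.st (.sq (.c 16369 96 95) (.c 16532 98 97)) (.sq (.c 16641 92 91) (.c 16805 95 94))) (.st (.sq (.c 16700 101 100) (.c 16871 103 102)) (.sq (.c 16974 97 96) (.c 17148 100 99)))))) (.st (.sq (.st (.sq (.st (.sq (.a 47919 116) (.a 48461 118)) (.sq (.a 47251 114) (.a 47778 115))) (.st (.sq (.a 49016 119) (.a 49583 120)) (.sq (.a 48318 117) (.a 48870 118)))) (.st (.sq (.st (.c 11921 118 117) (.c 12539 117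 116)) (.st (.c 12036 121 120) (.c 11977 120 119))) (.sq (.st (.c 12456 115 114) (.c 13061 114 113)) (.st (.c 12578 118 117) (.c 13190 117 116))))) (.st (.sq (.st (.sq (.a 50162 122) (.a 50755 123)) (.sq (.c 11489 125 124) (.c 11542 126 125))) (.st (.sq (.a 51360 125) (.a 51980 126)) (.sq (.c 11595 127 126) (.c 11648 129 128)))) (.st (.sq (.st (.c 12151 124 123) (.c 12093 122 121)) (.st (.c 12267 127 126) (.c 12209 125 124))) (.sq (.st (.c 12702 121 120) (.c 13320 120 119)) (.st (.c 12825 124 123) (.c 13452 122 121)))))) (.st (.sq (.st (.sq (.st (.c 13674 113 112) (.c 14296 111 110)) (.st (.c 13811 115 114) (.c 13614 114 113))) (.sq (.st (.c 14072 109 108) (.c 14670 108 107)) (.st (.c 14214 112 111) (.c 14819 110 109)))) (.st (.sq (.st (.c 13948 118 117) (.c 13751 116 115)) (.st (.c 14088 121 120) (.c 13890 119 118))) (.sq (.st (.c 14358 115 114) (.c 14970 113 112)) (.st (.c 14504 117 116) (.c 15124 116 115))))) (.sq (.st (.sq (.c 17047 106 105) (.st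 (.c 15429 108 107) (.c 15051 107 106))) (.sq (.c 17327 102 101) (.c 17510 105 104))) (.st (.sq (.st (.c 15587 111 110) (.c 15225 109 108)) (.st (.c 15749 114 113) (.c 15384 112 111))) (.sq (.c 17699 107 106) (.c 17892 110 109))))))) (.st (.sq (.st (.sq (.st (.sq (.c 17856 88 87) (.c 18028 91 90)) (.st (.c 16288 86 85) (.c 16515 84 83))) (.st (.sq (.c 18207 93 92) (.c 18392 95 94)) (.st (.c 16826 91 90) (.c 17075 88 87)))) (.st (.sq (.st (.c 15606 81 80) (.c 15699 78 77)) (.st (.c 16151 85 84) (.c 16262 82 81))) (.sq (.st (.c 15715 75 74) (.c 15639 72 71)) (.st (.c 16294 79 78) (.c 15113 76 75))))) (.st (.sq (.st (.sq (.c 18583 98 97) (.c 18779 100 99)) (.st (.c 17391 96 95) (.c 17666 93 92))) (.st (.sq (.c 18982 103 102) (.c 19191 105 104)) (.st (.c 17984 100 99) (.c 18289 98 97)))) (.st (.sq (.st (.c 16728 90 89) (.c 16861 87 86)) (.st (.c 17338 95 94) (.c 17497 91 90))) (.sq (.st (.c 16913 84 83) (.c 15704 80 79)) (.st (.c 17572 88 87) (.c 16337 84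 83)))))) (.st (.sq (.st (.st (.c 16496 73 72) (.c 16144 69 68)) (.st (.c 14541 64 63) (.c 13851 59 58))) (.st (.st (.c 17931 81 80) (.c 17588 77 76)) (.st (.c 15878 72 71) (.c 15157 66 65)))) (.st (.sq (.st (.c 12907 54 53) (.c 11628 47 46)) (.st (.c 14152 60 59) (.c 12770 53 52))) (.st (.sq (.c 9880 39 38) (.c 10858 44 43)) (.st (.c 6683 32 31) (.st (.c 3621 23 22) (.b 2400 17))))))))

theorem cert3_ok : chk cert3 0 SC 8791026472627208192 10520408729537478656 = true := by decide +kernel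

end CK322
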