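import Vale.Agent.Lib.P322.M1Core
import Vale.Agent.Lib.P322.FMono

/-! Module M1 of the P322 blueprint: the main one-variable inequality. -/

open Real Set Filter Topology

namespace CK322

noncomputable section

/-- Module M1: `TT θ + fF θ * (1 - xf (tanh θ) / S θ) ≤ gam θ` for every `θ > 0`. -/
theorem M1_main {θ : ℝ} (h : 0 < θ) : TT θ + fF θ * (1 - xf (tanh θ) / S θ) ≤ gam θ :=
  M1_main_of h (fF_le h)

end

end CK322
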