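import Vale.Agent.Lib.P322.FMono

open Real Set Filter Topology

namespace CK322

noncomputable section

/-! ## Module R : RFun.lean -/

private theorem S_lt_one {θ : ℝ} (h : 0 < θ) : S θ < 1 := by
  have := S_strictAnti (mem_Ici.2 le_rfl) (mem_Ici.2 h.le) h
  rwa [S_zero] at this

theorem Sinv_spec {s : ℝ} (h0 : 0 < s) (h1 : s ≤ 1) : 0 ≤ Sinv s ∧ S (Sinv s) = s := by
  have hex : ∃ θ ∈ Ici (0:ℝ), S θ = s := by
    -- find a point where `S` is below `s`
    have hev := S_tendsto.eventually (gt_mem_nhds h0)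
    obtain ⟨b, hb⟩ := (hev.and (eventually_ge_atTop 0)).exists
    have hcont : ContinuousOn S (Icc 0 b) := S_continuous.continuousOn
    have hmem : s ∈ Icc (S b) (S 0) := by
      rw [S_zero]; exact ⟨hb.1.le, h1⟩
    obtain ⟨θ, hθ, hs⟩ := intermediate_value_Icc' hb.2 hcont hmem
    exact ⟨θ, hθ.1, hs⟩
  have hmem : Sinv s ∈ Ici (0:ℝ) := Function.invFunOn_mem hex
  exact ⟨hmem, Function.invFunOn_eq hex⟩

theorem Sinv_S {θ : ℝ} (h : 0 ≤ θ) : Sinv (S θ) = θ := by
  have hs0 := S_pos θ
  have hs1 : S θ ≤ 1 := by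
    have := S_strictAnti.antitoneOn (mem_Ici.2 le_rfl) (mem_Ici.2 h) h
    rwa [S_zero] at this
  obtain ⟨h1, h2⟩ := Sinv_spec hs0 hs1
  exact S_strictAnti.injOn (mem_Ici.2 h1) (mem_Ici.2 h) h2

theorem Sinv_pos {s : ℝ} (h0 : 0 < s) (h1 : s < 1) : 0 < Sinv s := by
  obtain ⟨h2, h3⟩ := Sinv_spec h0 h1.le
  rcases h2.lt_or_eq with h | h
  · exact h
  · rw [← h, S_zero] at h3; linarith

theorem Sinv_one : Sinv 1 = 0 := by
  have := Sinv_S (le_refl (0:ℝ))
  rwa [S_zero] at this

private theorem Sinv_anti {s₁ s₂ : ℝ} (h0 : 0 < s₁) (h12 : s₁ ≤ s₂) (h2 : s₂ ≤ 1) :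
    Sinv s₂ ≤ Sinv s₁ := by
  obtain ⟨a1, a2⟩ := Sinv_spec h0 (h12.trans h2)
  obtain ⟨b1, b2⟩ := Sinv_spec (h0.trans_le h12) h2
  by_contra hlt
  have := S_strictAnti (mem_Ici.2 a1) (mem_Ici.2 b1) (not_le.1 hlt)
  rw [a2, b2] at this
  linarith

/-- `Sinv` is continuous on `(0,1]`. -/
private theorem Sinv_continuousOn : ContinuousOn Sinv (Ioc 0 1) := by
  intro s₀ hs₀
  rw [ContinuousWithinAt, Metric.tendsto_nhdsWithin_nhds]
  intro ε hε
  obtain ⟨h0, h1⟩ := Sinv_spec hs₀.1 hs₀.2
  set θ₀ := Sinv s₀ with hθ₀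
  -- upper side
  have ha : S (θ₀ + ε) < s₀ := by
    have := S_strictAnti (mem_Ici.2 h0) (mem_Ici.2 (by linarith)) (by linarith : θ₀ < θ₀ + ε)
    rwa [h1] at this
  by_cases hc : θ₀ < ε
  · refine ⟨s₀ - S (θ₀ + ε), by linarith, ?_⟩
    intro s hs hd
    rw [Real.dist_eq] at hd ⊢
    have hd' := abs_lt.1 hd
    obtain ⟨p0, p1⟩ := Sinv_spec hs.1 hs.2
    have hup : Sinv s < θ₀ + ε := by
      by_contra hge
      have := S_strictAnti.antitoneOn (mem_Ici.2 (by linarith : (0:ℝ) ≤ θ₀ + ε)) (mem_Ici.2 p0)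
        (not_lt.1 hge)
      rw [p1] at this
      linarith
    rw [abs_lt]; constructor <;> linarith
  · have hge : ε ≤ θ₀ := not_lt.1 hc
    have hb : s₀ < S (θ₀ - ε) := by
      have := S_strictAnti (mem_Ici.2 (by linarith : (0:ℝ) ≤ θ₀ - ε)) (mem_Ici.2 h0)
        (by linarith : θ₀ - ε < θ₀)
      rwa [h1] at this
    refine ⟨min (s₀ - S (θ₀ + ε)) (S (θ₀ - ε) - s₀), lt_min (by linarith) (by linarith), ?_⟩
    intro s hs hd
    rw [Real.dist_eq] at hd ⊢
    have hd' := abs_lt.1 (hd.trans_le (min_le_left _ _))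
    have hd'' := abs_lt.1 (hd.trans_le (min_le_right _ _))
    obtain ⟨p0, p1⟩ := Sinv_spec hs.1 hs.2
    have hup : Sinv s < θ₀ + ε := by
      by_contra hge'
      have := S_strictAnti.antitoneOn (mem_Ici.2 (by linarith : (0:ℝ) ≤ θ₀ + ε)) (mem_Ici.2 p0)
        (not_lt.1 hge')
      rw [p1] at this
      linarith
    have hlo : θ₀ - ε < Sinv s := by
      by_contra hge'
      have := S_strictAnti.antitoneOn (mem_Ici.2 p0) (mem_Ici.2 (by linarith : (0:ℝ) ≤ θ₀ - ε))
        (not_lt.1 hge')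
      rw [p1] at this
      linarith
    rw [abs_lt]; constructor <;> linarith

private theorem TT_continuousOn : ContinuousOn TT (Ici 0) := by
  unfold TT
  exact zeta_continuousOn.sub continuousOn_const

/-- `TTs` through `min s 1`. -/
private theorem TTs_eq_min {s : ℝ} : TTs s = TT (Sinv (min s 1)) := by
  unfold TTs
  split_ifs with hs
  · rw [min_eq_left hs.le]
  · rw [min_eq_right (not_lt.1 hs), Sinv_one, TT_zero]

theorem TTs_continuousAt {s : ℝ} (h : 0 < s) : ContinuousAt TTs s := by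
  have hev : TTs =ᶠ[𝓝 s] fun y => TT (Sinv (min y 1)) := by
    filter_upwards [lt_mem_nhds h] with y hy
    exact TTs_eq_min
  refine ContinuousAt.congr ?_ hev.symm
  have hm : Tendsto (fun y : ℝ => min y 1) (𝓝 s) (𝓝 (min s 1)) :=
    (continuous_id.min continuous_const).continuousAt
  have hmem : min s 1 ∈ Ioc (0:ℝ) 1 := ⟨lt_min h one_pos, min_le_right _ _⟩
  have hmaps : ∀ᶠ y in 𝓝 s, min y 1 ∈ Ioc (0:ℝ) 1 := by
    filter_upwards [lt_mem_nhds h] with y hy
    exact ⟨lt_min hy one_pos, min_le_right _ _⟩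
  have t1 : Tendsto (fun y : ℝ => min y 1) (𝓝 s) (𝓝[Ioc 0 1] (min s 1)) :=
    tendsto_nhdsWithin_iff.2 ⟨hm, hmaps⟩
  have t2 : Tendsto (fun y => Sinv (min y 1)) (𝓝 s) (𝓝 (Sinv (min s 1))) :=
    (Sinv_continuousOn _ hmem).tendsto.comp t1
  have t3 : Tendsto (fun y => Sinv (min y 1)) (𝓝 s) (𝓝[Ici 0] (Sinv (min s 1))) := by
    refine tendsto_nhdsWithin_iff.2 ⟨t2, ?_⟩
    filter_upwards [hmaps] with y hy
    exact (Sinv_spec hy.1 hy.2).1
  have t4 := (TT_continuousOn _ (mem_Ici.2 (Sinv_spec hmem.1 hmem.2).1)).tendsto.comp t3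
  exact t4

/-- the core tangent inequality. -/
theorem rhoT_core {θ s : ℝ} (hθ : 0 ≤ θ) (hs : 0 < s) :
    rhoθ θ + TT θ * (S θ - s) ≤ rhoT s := by
  unfold rhoT
  split_ifs with h
  · obtain ⟨h1, h2⟩ := Sinv_spec hs h.le
    have := rhoθ_tangent hθ h1
    rwa [h2] at this
  · have h1 : 1 ≤ s := not_lt.1 h
    have h2 := rhoθ_tangent hθ (le_refl (0:ℝ))
    rw [S_zero, rhoθ_zero] at h2
    have h3 := TT_nonneg hθ
    nlinarith

theorem rhoT_nonneg {s : ℝ} (hs : 0 < s) : 0 ≤ rhoT s := by
  unfold rhoT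
  split_ifs with h
  · exact rhoθ_nonneg (Sinv_spec hs h.le).1
  · exact le_rfl

theorem TTs_nonneg {s : ℝ} (h : 0 < s) : 0 ≤ TTs s := by
  unfold TTs
  split_ifs with h1
  · exact TT_nonneg (Sinv_spec h h1.le).1
  · exact le_rfl

theorem TTs_anti {s₁ s₂ : ℝ} (h0 : 0 < s₁) (h : s₁ ≤ s₂) : TTs s₂ ≤ TTs s₁ := by
  by_cases h2 : s₂ < 1
  · have h1 : s₁ < 1 := h.trans_lt h2
    unfold TTs
    rw [if_pos h2, if_pos h1]
    have a1 := (Sinv_spec h0 h1.le).1
    have a2 := (Sinv_spec (h0.trans_le h) h2.le).1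
    have := zeta_mono (mem_Ici.2 a2) (mem_Ici.2 a1) (Sinv_anti h0 h h2.le)
    unfold TT
    linarith
  · have : TTs s₂ = 0 := by
      unfold TTs; rw [if_neg h2]
    rw [this]
    exact TTs_nonneg h0

/-- the tangent inequality for `rhoT` at any positive point. -/
theorem rhoT_tangent {s s' : ℝ} (hs : 0 < s) (hs' : 0 < s') :
    rhoT s - TTs s * (s' - s) ≤ rhoT s' := by
  by_cases h : s < 1
  · have h1 := rhoT_core (Sinv_spec hs h.le).1 hs'
    rw [(Sinv_spec hs h.le).2] at h1
    unfold TTs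
    rw [if_pos h]
    have h2 : rhoT s = rhoθ (Sinv s) := by unfold rhoT; rw [if_pos h]
    rw [h2]
    linarith
  · have h1 : TTs s = 0 := by unfold TTs; rw [if_neg h]
    have h2 : rhoT s = 0 := by unfold rhoT; rw [if_neg h]
    rw [h1, h2]
    simpa using rhoT_nonneg hs'

theorem hasDerivAt_rhoT {s : ℝ} (hs : 0 < s) : HasDerivAt rhoT (-TTs s) s := by
  rw [hasDerivAt_iff_isLittleO, Asymptotics.isLittleO_iff]
  intro c hc
  have hcont := TTs_continuousAt hs
  have hev : ∀ᶠ y in 𝓝 s, |TTs y - TTs s| < c := by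
    have := Metric.continuousAt_iff'.1 hcont c hc
    simpa [Real.dist_eq] using this
  filter_upwards [hev, lt_mem_nhds hs] with y hy hy0
  have h1 := rhoT_tangent hs hy0
  have h2 := rhoT_tangent hy0 hs
  rw [Real.norm_eq_abs, Real.norm_eq_abs, smul_eq_mul]
  have hab := abs_lt.1 hy
  rw [abs_le]
  constructor
  · -- lower bound
    rcases le_total y s with hle | hle
    · rw [abs_of_nonpos (by linarith)]
      nlinarith
    · rw [abs_of_nonneg (by linarith)]
      nlinarith
  · rcases le_total y s with hle | hle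
    · rw [abs_of_nonpos (by linarith)]
      nlinarith
    · rw [abs_of_nonneg (by linarith)]
      nlinarith

theorem RR_tangent {x v θ : ℝ} (hx : 0 < x) (hv : 0 < v) (hθ : 0 ≤ θ) :
    alR θ * x - TT θ * v ≤ RR x v := by
  have h := rhoT_core hθ (div_pos hv hx)
  have h2 := mul_le_mul_of_nonneg_left h hx.le
  unfold RR
  rw [alR_eq]
  have e : x * (rhoθ θ + TT θ * (S θ - v / x)) = (rhoθ θ + S θ * TT θ) * x - TT θ * v := by
    field_simp
    ring
  rwa [e] at h2

theorem RR_attain {x v : ℝ} (hx : 0 < x) (hv : 0 < v) :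
    ∃ θ, 0 ≤ θ ∧ RR x v = alR θ * x - TT θ * v := by
  by_cases h : v / x < 1
  · obtain ⟨h1, h2⟩ := Sinv_spec (div_pos hv hx) h.le
    refine ⟨Sinv (v / x), h1, ?_⟩
    unfold RR rhoT
    rw [if_pos h, alR_eq, h2]
    field_simp
    ring
  · refine ⟨0, le_rfl, ?_⟩
    unfold RR rhoT
    rw [if_neg h, alR_zero, TT_zero]
    simp

theorem RR_of_le {x v : ℝ} (hx : 0 < x) (hv : x ≤ v) : RR x v = 0 := by
  unfold RR rhoT
  have : ¬ v / x < 1 := by
    rw [not_lt, le_div_iff₀ hx]; linarith
  rw [if_neg this, mul_zero]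

theorem RR_nonneg {x v : ℝ} (hx : 0 < x) (hv : 0 < v) : 0 ≤ RR x v := by
  unfold RR
  exact mul_nonneg hx.le (rhoT_nonneg (div_pos hv hx))

theorem RR_homog {c x v : ℝ} (hc : 0 < c) (hx : 0 < x) : RR (c * x) (c * v) = c * RR x v := by
  unfold RR
  rw [mul_div_mul_left _ _ hc.ne', mul_assoc]

theorem RR_mono_x {x x' v : ℝ} (hx : 0 < x) (hxx' : x ≤ x') (hv : 0 < v) : RR x v ≤ RR x' v := by
  obtain ⟨θ, hθ, h⟩ := RR_attain hx hv
  have h2 := RR_tangent (hx.trans_le hxx') hv hθ
  have h3 := alR_nonneg hθ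
  rw [h]
  nlinarith

theorem RR_one_S {θ : ℝ} (h : 0 ≤ θ) : RR 1 (S θ) = rhoθ θ := by
  unfold RR rhoT
  rw [div_one, one_mul]
  split_ifs with h1
  · rw [Sinv_S h]
  · rcases h.lt_or_eq with h2 | h2
    · exact absurd (S_lt_one h2) h1
    · rw [← h2, rhoθ_zero]

theorem hasDerivAt_RR {x v : ℝ} (hx : 0 < x) (hv : 0 < v) :
    HasDerivAt (fun w => RR x w) (-TTs (v / x)) v := by
  have h1 := hasDerivAt_rhoT (div_pos hv hx)
  have h2 : HasDerivAt (fun w : ℝ => w / x) (1 / x) v := (hasDerivAt_id' v).div_const x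
  have h3 := (h1.comp v h2).const_mul x
  refine h3.congr_deriv ?_
  field_simp

/-- monotonic comparison behind `RR_taylor`. -/
private theorem alR_le_log {θ τ : ℝ} (hθ : 0 < θ) (hτ : θ ≤ τ) :
    alR τ ≤ alR θ + 93 / 100 * log (S θ / S τ) := by
  have hSpos := S_pos
  have hd : ∀ x : ℝ, 0 < x → HasDerivAt (fun τ => alR θ + 93 / 100 * (log (S θ) - log (S τ)) - alR τ)
      (93 / 100 * (x / (L * cosh x ^ 2) / S x) - S x * ((x * cosh (2 * x) - sinh (2 * x) / 2) / x ^ 2)) x := by
    intro x hx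
    have h1 : HasDerivAt (fun τ => log (S τ)) ((-x / (L * cosh x ^ 2)) / S x) x :=
      (hasDerivAt_S x).log (S_pos x).ne'
    have h2 := ((h1.const_sub (log (S θ))).const_mul (93 / 100 : ℝ)).const_add (alR θ)
    have h3 := h2.fun_sub (hasDerivAt_alR hx)
    refine h3.congr_deriv ?_
    have := L_pos
    have := S_pos x
    have := Real.cosh_pos x
    field_simp
  have hmono : MonotoneOn (fun τ => alR θ + 93 / 100 * (log (S θ) - log (S τ)) - alR τ) (Ici θ) := by
    apply monotoneOn_of_deriv_nonneg (convex_Ici θ)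
    · exact fun x hx => (hd x (hθ.trans_le hx)).continuousAt.continuousWithinAt
    · intro x hx
      rw [interior_Ici] at hx
      exact (hd x (hθ.trans hx)).differentiableAt.differentiableWithinAt
    · intro x hx
      rw [interior_Ici] at hx
      have hx0 : 0 < x := hθ.trans hx
      rw [(hd x hx0).deriv]
      have hS := S_pos x
      have hL := L_pos
      have hc := Real.cosh_pos x
      have hrel := fF_rel hx0
      have hle := fF_le hx0
      set w := x / (L * cosh x ^ 2) with hw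
      have hw0 : 0 < w := by positivity
      have e : S x * ((x * cosh (2 * x) - sinh (2 * x) / 2) / x ^ 2) = fF x * w / S x := by
        field_simp
        field_simp at hrel
        linarith
      rw [e]
      have e2 : 93 / 100 * (w / S x) - fF x * w / S x = (93 / 100 - fF x) * (w / S x) := by ring
      rw [e2]
      exact mul_nonneg (by linarith) (by positivity)
  have h := hmono (mem_Ici.2 le_rfl) (mem_Ici.2 hτ) hτ
  simp only [sub_self, mul_zero, add_zero] at h
  have hl : log (S θ / S τ) = log (S θ) - log (S τ) :=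
    Real.log_div (S_pos θ).ne' (S_pos τ).ne'
  rw [hl]
  linarith

theorem RR_taylor {θ X : ℝ} (hθ : 0 < θ) (hX : 1 ≤ X) :
    RR X (S θ) ≤ rhoθ θ + (X - 1) * alR θ + 93 / 200 * (X - 1) ^ 2 := by
  have hX0 : 0 < X := by linarith
  have hSθ := S_pos θ
  have hSθ1 := S_lt_one hθ
  have hs0 : 0 < S θ / X := div_pos hSθ hX0
  have hs1 : S θ / X < 1 := by
    rw [div_lt_one hX0]; linarith
  obtain ⟨a0, a1⟩ := Sinv_spec hs0 hs1.le
  set τ := Sinv (S θ / X) with hτ
  have hle : θ ≤ τ := by
    by_contra hlt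
    have := S_strictAnti (mem_Ici.2 a0) (mem_Ici.2 hθ.le) (not_le.1 hlt)
    rw [a1] at this
    have h3 : S θ / X ≤ S θ := div_le_self hSθ.le hX
    linarith
  have hRR : RR X (S θ) = X * rhoθ τ := by
    unfold RR rhoT
    rw [if_pos hs1]
  rw [hRR]
  have hXeq : X = S θ / S τ := by
    rw [a1]; field_simp
  -- monotone function in τ
  set Xf : ℝ → ℝ := fun t => S θ / S t with hXf
  have hdX : ∀ x : ℝ, HasDerivAt Xf (Xf x * (x / (L * cosh x ^ 2) / S x)) x := by
    intro x
    have h1 := (hasDerivAt_const x (S θ)).fun_div (hasDerivAt_S x) (S_pos x).ne'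
    refine h1.congr_deriv ?_
    have := L_pos
    have := S_pos x
    have := Real.cosh_pos x
    simp only [hXf]
    field_simp
    ring
  have hd : ∀ x : ℝ, 0 < x → HasDerivAt
      (fun t => rhoθ θ + (Xf t - 1) * alR θ + 93 / 200 * (Xf t - 1) ^ 2 - Xf t * rhoθ t)
      (Xf x * (x / (L * cosh x ^ 2) / S x) * (alR θ + 93 / 100 * (Xf x - 1) - alR x)) x := by
    intro x hx
    have h1 := hdX x
    have h2 := (h1.sub_const 1).mul_const (alR θ)
    have h3 := ((h1.sub_const 1).pow 2).const_mul (93 / 200 : ℝ)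
    have h4 := h1.fun_mul (hasDerivAt_rhoθ hx)
    have h5 := ((h2.const_add (rhoθ θ)).fun_add h3).fun_sub h4
    refine h5.congr_deriv ?_
    rw [alR_eq x]
    have := L_pos
    have := S_pos x
    have := Real.cosh_pos x
    simp only [Nat.cast_ofNat, Nat.add_one_sub_one, pow_one]
    field_simp
    ring
  have hmono : MonotoneOn
      (fun t => rhoθ θ + (Xf t - 1) * alR θ + 93 / 200 * (Xf t - 1) ^ 2 - Xf t * rhoθ t) (Ici θ) := by
    apply monotoneOn_of_deriv_nonneg (convex_Ici θ)
    · exact fun x hx => (hd x (hθ.trans_le hx)).continuousAt.continuousWithinAt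
    · intro x hx
      rw [interior_Ici] at hx
      exact (hd x (hθ.trans hx)).differentiableAt.differentiableWithinAt
    · intro x hx
      rw [interior_Ici] at hx
      have hx0 : 0 < x := hθ.trans hx
      rw [(hd x hx0).deriv]
      have hS := S_pos x
      have hL := L_pos
      have hc := Real.cosh_pos x
      have hXpos : 0 < Xf x := div_pos hSθ hS
      have hbound := alR_le_log hθ hx.le
      have hlog : log (S θ / S x) ≤ S θ / S x - 1 :=
        Real.log_le_sub_one_of_pos (div_pos hSθ hS)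
      have hnn : 0 ≤ alR θ + 93 / 100 * (Xf x - 1) - alR x := by
        simp only [hXf]
        linarith
      exact mul_nonneg (by positivity) hnn
  have h := hmono (mem_Ici.2 le_rfl) (mem_Ici.2 hle) hle
  have hX1 : Xf θ = 1 := by
    simp only [hXf]; exact div_self hSθ.ne'
  have hXτ : Xf τ = X := hXeq.symm
  simp only [hX1, hXτ] at h
  norm_num at h
  linarith

/-- lower bound for `TT`. -/
private theorem TT_lower {θ : ℝ} (hθ : 0 ≤ θ) : (1 / (2 * L)) * (1 / S θ - 1) ≤ TT θ := by
  have hd : ∀ x : ℝ, 0 < x → HasDerivAt (fun t => TT t - (1 / (2 * L)) * (1 / S t - 1))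
      ((x * cosh (2 * x) - sinh (2 * x) / 2) / x ^ 2
        - (1 / (2 * L)) * (x / (L * cosh x ^ 2) / S x ^ 2)) x := by
    intro x hx
    have h1 : HasDerivAt TT ((x * cosh (2 * x) - sinh (2 * x) / 2) / x ^ 2) x := by
      unfold TT
      exact (hasDerivAt_zeta hx).sub_const 1
    have h2 := (hasDerivAt_const x (1:ℝ)).fun_div (hasDerivAt_S x) (S_pos x).ne'
    have h3 := ((h2.sub_const 1).const_mul (1 / (2 * L)))
    have h4 := h1.fun_sub h3
    refine h4.congr_deriv ?_
    have := L_pos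
    have := S_pos x
    have := Real.cosh_pos x
    field_simp
    ring
  have hcontS : ContinuousOn (fun t => 1 / S t - 1) (Ici 0) := by
    apply ContinuousOn.sub _ continuousOn_const
    exact (continuousOn_const.div S_continuous.continuousOn (fun x _ => (S_pos x).ne'))
  have hmono : MonotoneOn (fun t => TT t - (1 / (2 * L)) * (1 / S t - 1)) (Ici 0) := by
    apply monotoneOn_of_deriv_nonneg (convex_Ici 0)
    · exact TT_continuousOn.sub (continuousOn_const.mul hcontS)
    · intro x hx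
      rw [interior_Ici] at hx
      exact (hd x hx).differentiableAt.differentiableWithinAt
    · intro x hx
      rw [interior_Ici] at hx
      have hx0 : 0 < x := hx
      rw [(hd x hx0).deriv]
      have hS := S_pos x
      have hL := L_pos
      have hc := Real.cosh_pos x
      have hrel := fF_rel hx0
      have hge := fF_ge hx0
      set w := x / (L * cosh x ^ 2) with hw
      have hw0 : 0 < w := by positivity
      have e : (x * cosh (2 * x) - sinh (2 * x) / 2) / x ^ 2 = fF x * w / S x ^ 2 := by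
        field_simp
        field_simp at hrel
        linarith
      rw [e]
      have e2 : fF x * w / S x ^ 2 - 1 / (2 * L) * (w / S x ^ 2)
          = (fF x - 1 / (2 * L)) * (w / S x ^ 2) := by ring
      rw [e2]
      exact mul_nonneg (by linarith) (by positivity)
  have h := hmono (mem_Ici.2 le_rfl) (mem_Ici.2 hθ) hθ
  simp only [S_zero, TT_zero, div_one, sub_self, mul_zero, sub_zero] at h
  linarith

private theorem rho_lower {θ : ℝ} (hθ : 0 ≤ θ) :
    (1 / (2 * L)) * (S θ - 1 - log (S θ)) ≤ rhoθ θ := by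
  have hd : ∀ x : ℝ, 0 < x → HasDerivAt (fun t => rhoθ t - (1 / (2 * L)) * (S t - 1 - log (S t)))
      ((x / (L * cosh x ^ 2)) * (TT x - (1 / (2 * L)) * (1 / S x - 1))) x := by
    intro x hx
    have h1 := (((hasDerivAt_S x).sub_const 1).fun_sub ((hasDerivAt_S x).log (S_pos x).ne')).const_mul
      (1 / (2 * L))
    have h2 := (hasDerivAt_rhoθ hx).fun_sub h1
    refine h2.congr_deriv ?_
    have := L_pos
    have := S_pos x
    have := Real.cosh_pos x
    field_simp
    ring
  have hcontρ : ContinuousOn rhoθ (Ici 0) := by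
    have h1 : Continuous hh := continuous_iff_continuousAt.2 (fun x => (hasDerivAt_hh x).continuousAt)
    have : rhoθ = fun t => hh t - 2 + 2 * S t := rfl
    rw [this]
    exact ((h1.sub continuous_const).add (continuous_const.mul S_continuous)).continuousOn
  have hmono : MonotoneOn (fun t => rhoθ t - (1 / (2 * L)) * (S t - 1 - log (S t))) (Ici 0) := by
    apply monotoneOn_of_deriv_nonneg (convex_Ici 0)
    · apply hcontρ.sub
      apply continuousOn_const.mul
      apply (S_continuous.continuousOn.sub continuousOn_const).sub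
      exact S_continuous.continuousOn.log (fun x _ => (S_pos x).ne')
    · intro x hx
      rw [interior_Ici] at hx
      exact (hd x hx).differentiableAt.differentiableWithinAt
    · intro x hx
      rw [interior_Ici] at hx
      have hx0 : 0 < x := hx
      rw [(hd x hx0).deriv]
      have hL := L_pos
      have hc := Real.cosh_pos x
      have := TT_lower hx0.le
      exact mul_nonneg (by positivity) (by linarith)
  have h := hmono (mem_Ici.2 le_rfl) (mem_Ici.2 hθ) hθ
  simp only [S_zero, rhoθ_zero, log_one, sub_self, mul_zero, sub_zero] at h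
  linarith

theorem RR_lower {x v : ℝ} (hv : 0 < v) (hvx : v < x) :
    (1 / (2 * L)) * (v - x + x * log (x / v)) ≤ RR x v := by
  have hx : 0 < x := hv.trans hvx
  have hs0 : 0 < v / x := div_pos hv hx
  have hs1 : v / x < 1 := by rwa [div_lt_one hx]
  obtain ⟨a0, a1⟩ := Sinv_spec hs0 hs1.le
  have hRR : RR x v = x * rhoθ (Sinv (v / x)) := by
    unfold RR rhoT
    rw [if_pos hs1]
  rw [hRR]
  have h := rho_lower a0
  rw [a1] at h
  have h2 := mul_le_mul_of_nonneg_left h hx.le
  have hlog : log (x / v) = - log (v / x) := by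
    rw [← Real.log_inv, inv_div]
  rw [hlog]
  have e : x * ((1 / (2 * L)) * (v / x - 1 - log (v / x)))
      = (1 / (2 * L)) * (v - x + x * -log (v / x)) := by
    field_simp
    ring
  rwa [e] at h2

/-! ### the function `ω(w) = TTs (1/w)` -/

def om (w : ℝ) : ℝ := TTs (1 / w)

theorem om_of_le {w : ℝ} (h0 : 0 < w) (h1 : w ≤ 1) : om w = 0 := by
  unfold om TTs
  have : ¬ 1 / w < 1 := by
    rw [not_lt, le_div_iff₀ h0]; linarith
  rw [if_neg this]

theorem om_mono {w₁ w₂ : ℝ} (h0 : 0 < w₁) (h : w₁ ≤ w₂) : om w₁ ≤ om w₂ := by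
  unfold om
  have h2 : 0 < w₂ := h0.trans_le h
  apply TTs_anti (by positivity)
  exact one_div_le_one_div_of_le h0 h

theorem om_continuousAt {w : ℝ} (h0 : 0 < w) : ContinuousAt om w := by
  have h1 : ContinuousAt (fun y : ℝ => 1 / y) w :=
    continuousAt_const.div continuousAt_id h0.ne'
  exact ContinuousAt.comp (f := fun y : ℝ => 1 / y) (g := TTs) (TTs_continuousAt (by positivity)) h1

theorem hasDerivAt_om {w : ℝ} (h : 1 < w) : HasDerivAt om (fF (Sinv (1 / w))) w := by
  have hw0 : 0 < w := by linarith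
  set s := 1 / w with hs
  have hs0 : 0 < s := by positivity
  have hs1 : s < 1 := by
    rw [hs, div_lt_one hw0]; exact h
  obtain ⟨a0, a1⟩ := Sinv_spec hs0 hs1.le
  have hθ := Sinv_pos hs0 hs1
  set θ := Sinv s with hθdef
  have hcont : ContinuousAt Sinv s :=
    Sinv_continuousOn.continuousAt (Ioc_mem_nhds hs0 hs1)
  have hL := L_pos
  have hc := Real.cosh_pos θ
  have hne : -θ / (L * cosh θ ^ 2) ≠ 0 := by
    apply div_ne_zero (by linarith) (by positivity)
  have hSinv : HasDerivAt Sinv (-θ / (L * cosh θ ^ 2))⁻¹ s := by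
    apply HasDerivAt.of_local_left_inverse hcont (hasDerivAt_S θ) hne
    filter_upwards [Ioc_mem_nhds hs0 hs1] with y hy
    exact (Sinv_spec hy.1 hy.2).2
  have hTT : HasDerivAt TT ((θ * cosh (2 * θ) - sinh (2 * θ) / 2) / θ ^ 2) θ := by
    unfold TT
    exact (hasDerivAt_zeta hθ).sub_const 1
  have hcomp1 : HasDerivAt (fun y => TT (Sinv y))
      ((θ * cosh (2 * θ) - sinh (2 * θ) / 2) / θ ^ 2 * (-θ / (L * cosh θ ^ 2))⁻¹) s :=
    HasDerivAt.comp (h₂ := TT) (h := Sinv) s hTT hSinv
  have hinv : HasDerivAt (fun y : ℝ => 1 / y) (-1 / w ^ 2) w := by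
    have := (hasDerivAt_const w (1:ℝ)).fun_div (hasDerivAt_id' w) hw0.ne'
    refine this.congr_deriv ?_
    simp
  have hcomp2 : HasDerivAt (fun y => TT (Sinv (1 / y)))
      ((θ * cosh (2 * θ) - sinh (2 * θ) / 2) / θ ^ 2 * (-θ / (L * cosh θ ^ 2))⁻¹ * (-1 / w ^ 2)) w :=
    HasDerivAt.comp (h₂ := fun y => TT (Sinv y)) (h := fun y : ℝ => 1 / y) w hcomp1 hinv
  have hev : om =ᶠ[𝓝 w] fun y => TT (Sinv (1 / y)) := by
    filter_upwards [lt_mem_nhds h] with y hy
    unfold om TTs
    have : 1 / y < 1 := by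
      rw [div_lt_one (by linarith)]; exact hy
    rw [if_pos this]
  have hfin := hcomp2.congr_of_eventuallyEq hev
  refine hfin.congr_deriv ?_
  have hrel := fF_rel hθ
  rw [a1] at hrel
  have hsw : s * w = 1 := by rw [hs]; field_simp
  have hw2 : 1 / w ^ 2 = s ^ 2 := by rw [hs]; field_simp
  have e1 : (-1 / w ^ 2) = - s ^ 2 := by
    rw [neg_div, hw2]
  rw [e1]
  field_simp
  field_simp at hrel
  linarith

private theorem fF_om_anti {w w' : ℝ} (h1 : 1 < w) (h2 : w ≤ w') :
    fF (Sinv (1 / w')) ≤ fF (Sinv (1 / w)) := by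
  have hw0 : 0 < w := by linarith
  have hw'0 : 0 < w' := by linarith
  have hs1 : 1 / w < 1 := by rw [div_lt_one hw0]; exact h1
  have hs'1 : 1 / w' < 1 := by rw [div_lt_one hw'0]; linarith
  have h3 : 1 / w' ≤ 1 / w := one_div_le_one_div_of_le hw0 h2
  have h4 := Sinv_anti (show 0 < 1 / w' by positivity) h3 hs1.le
  exact fF_antitone (Sinv_pos (by positivity) hs1) (Sinv_pos (by positivity) hs'1) h4

private theorem om_incr {a h : ℝ} (ha : 1 ≤ a) (hh : 0 ≤ h) : om (a + h) - om a ≤ om (1 + h) := by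
  have hone : om 1 = 0 := om_of_le one_pos le_rfl
  have hd : ∀ x : ℝ, 1 < x → HasDerivAt (fun w => om (w + h) - om w)
      (fF (Sinv (1 / (x + h))) - fF (Sinv (1 / x))) x := by
    intro x hx
    have h1 := (hasDerivAt_om (w := x + h) (by linarith))
    have h2 : HasDerivAt (fun w => om (w + h)) (fF (Sinv (1 / (x + h)))) x := by
      have := h1.comp_add_const x h
      exact this
    exact h2.fun_sub (hasDerivAt_om hx)
  have hanti : AntitoneOn (fun w => om (w + h) - om w) (Ici 1) := by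
    apply antitoneOn_of_deriv_nonpos (convex_Ici 1)
    · intro x hx
      have hx1 : (1:ℝ) ≤ x := hx
      apply ContinuousAt.continuousWithinAt
      apply ContinuousAt.sub
      · have h1 : ContinuousAt om (x + h) := om_continuousAt (by linarith)
        exact ContinuousAt.comp (f := fun w => w + h) (g := om) h1 (by fun_prop)
      · exact om_continuousAt (by linarith)
    · intro x hx
      rw [interior_Ici] at hx
      exact (hd x hx).differentiableAt.differentiableWithinAt
    · intro x hx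
      rw [interior_Ici] at hx
      rw [(hd x hx).deriv]
      have := fF_om_anti (w := x) (w' := x + h) hx (by linarith)
      linarith
  have := hanti (mem_Ici.2 le_rfl) (mem_Ici.2 ha) ha
  simp only [hone, sub_zero] at this
  exact this

private theorem om_upper {θ b : ℝ} (hθ : 0 < θ) (hb : 1 / S θ ≤ b) :
    om b ≤ TT θ + fF θ * (b - 1 / S θ) := by
  have hS := S_pos θ
  have hS1 := S_lt_one hθ
  have h1S : 1 < 1 / S θ := by
    rw [lt_div_iff₀ hS]; linarith
  have hd : ∀ x : ℝ, 1 < x → HasDerivAt (fun w => om w - fF θ * w)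
      (fF (Sinv (1 / x)) - fF θ) x := by
    intro x hx
    have := (hasDerivAt_om hx).fun_sub ((hasDerivAt_id' x).const_mul (fF θ))
    exact this.congr_deriv (by ring)
  have hanti : AntitoneOn (fun w => om w - fF θ * w) (Ici (1 / S θ)) := by
    apply antitoneOn_of_deriv_nonpos (convex_Ici _)
    · intro x hx
      have hx1 : 1 / S θ ≤ x := hx
      apply ContinuousAt.continuousWithinAt
      apply ContinuousAt.sub (om_continuousAt (by linarith))
      fun_prop
    · intro x hx
      rw [interior_Ici] at hx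
      exact (hd x (h1S.trans hx)).differentiableAt.differentiableWithinAt
    · intro x hx
      rw [interior_Ici] at hx
      have hx1 : 1 / S θ < x := hx
      have hx2 : 1 < x := h1S.trans hx1
      rw [(hd x hx2).deriv]
      have h3 := fF_om_anti (w := 1 / S θ) (w' := x) h1S hx1.le
      have h4 : Sinv (1 / (1 / S θ)) = θ := by
        rw [one_div_one_div]; exact Sinv_S hθ.le
      rw [h4] at h3
      linarith
  have h := hanti (mem_Ici.2 le_rfl) (mem_Ici.2 hb) hb
  simp only at h
  have hom : om (1 / S θ) = TT θ := by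
    unfold om TTs
    rw [one_div_one_div, if_pos hS1, Sinv_S hθ.le]
  rw [hom] at h
  nlinarith

theorem omega_bound {x x' v θ : ℝ} (hx' : 0 < x') (hxx' : x' < x) (hv : 0 < v) (hθ : 0 < θ)
    (hSx : xf (tanh θ) ≤ S θ)
    (hT : (x - x') / v ≤ (1 - xf (tanh θ)) / S θ) :
    TTs (v / x) - TTs (v / x') ≤ TT θ + fF θ * (1 - xf (tanh θ) / S θ) := by
  have hx : 0 < x := hx'.trans hxx'
  have hS := S_pos θ
  set t := (1 - xf (tanh θ)) / S θ with ht
  set w1 := x / v with hw1
  set w2 := x' / v with hw2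
  have hw20 : 0 < w2 := by positivity
  have hw10 : 0 < w1 := by positivity
  have hom1 : TTs (v / x) = om w1 := by
    unfold om; rw [hw1, one_div_div]
  have hom2 : TTs (v / x') = om w2 := by
    unfold om; rw [hw2, one_div_div]
  rw [hom1, hom2]
  have hd : w1 - w2 = (x - x') / v := by
    rw [hw1, hw2]; ring
  have hd0 : 0 ≤ w1 - w2 := by
    rw [hd]; exact div_nonneg (by linarith) hv.le
  have hb : 1 / S θ ≤ 1 + t := by
    have e : 1 + t - 1 / S θ = 1 - xf (tanh θ) / S θ := by
      rw [ht]; field_simp; ring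
    have : 0 ≤ 1 - xf (tanh θ) / S θ := by
      rw [sub_nonneg, div_le_one hS]; exact hSx
    linarith
  have hup := om_upper hθ hb
  have hstep : om w1 - om w2 ≤ om (1 + t) := by
    by_cases h1 : 1 ≤ w2
    · have h2 := om_incr h1 hd0
      have e : w2 + (w1 - w2) = w1 := by ring
      rw [e] at h2
      have h3 : om (1 + (w1 - w2)) ≤ om (1 + t) :=
        om_mono (by linarith) (by rw [hd] at *; linarith)
      linarith
    · have h2 : om w2 = 0 := om_of_le hw20 (not_le.1 h1).le
      rw [h2, sub_zero]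
      apply om_mono hw10
      have : w1 - w2 ≤ t := by rw [hd]; exact hT
      linarith [(not_le.1 h1)]
  have e : 1 + t - 1 / S θ = 1 - xf (tanh θ) / S θ := by
    rw [ht]; field_simp; ring
  rw [e] at hup
  linarith

end
end CK322
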