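import Vale.Agent.Lib.P322.EMain
import Vale.Agent.Lib.P322.RFun
import Vale.Agent.Lib.P322.M1

/-!
The one step inequality: `c3`, `K_det`, `K_tan`.
-/

open Real Set Filter Topology

namespace CK322

theorem xf_pos' {a : ℝ} (h : a ∈ Ioo (-1 : ℝ) 1) : 0 < xf a := by
  unfold xf
  have h1 : a ^ 2 < 1 := by
    have := h.1; have := h.2; nlinarith
  have h2 : 0 ≤ a ^ 2 := sq_nonneg a
  apply mul_pos <;> nlinarith

section c3

variable {t q : ℝ}

theorem Xl_pos (ht0 : 0 ≤ t) (ht1 : t < 1) (hq0 : 0 < q) (hq1 : q < 1) : 0 < Xl t q := by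
  have hZ := ZZ_pos ht0 ht1 hq0.le hq1
  have hz := sq_lt_one' hq0.le hq1
  have hp := (p0_le_one ht0 ht1 hq0.le hq1).2
  have hY : 0 < Y1 t q := by
    unfold Y1
    exact div_pos (mul_pos (by linarith) (by positivity)) hZ
  unfold Xl
  positivity

theorem RR_Bplus {X s : ℝ} (hX : 0 < X) (hs : 0 < s) : 1 / (2 * L) * Bplus X s ≤ RR X s := by
  unfold Bplus
  split_ifs with h
  · have := RR_lower hs h
    convert this using 2
  · simpa using RR_nonneg hX hs

theorem c3 (ht0 : 0 ≤ t) (ht1 : t < 1) (hq0 : 0 < q) (hq1 : q < 1)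
    (hx : (xf (aP t q) + xf (aM t q)) / 2 < xf (abar t q)) :
    RR (xf (abar t q)) (p0 t q * S (artanh q))
        - RR ((xf (aP t q) + xf (aM t q)) / 2) (p0 t q * S (artanh q))
      ≤ D1 (aP t q) (aM t q) - 2 * (phi (abar t q) - (phi (aP t q) + phi (aM t q)) / 2) := by
  obtain ⟨hP, hM, hlt, hs⟩ := tq_mem ht0 ht1 hq0 hq1
  obtain ⟨h1, h2⟩ := tq_avg ht0 ht1 hq0 hq1
  have hid := tq_identity ht0 ht1 hq0 hq1
  have hLL := LL_nonneg ht0 ht1 hq0 hq1
  have hsub := x_sub_p0 ht0 ht1 hq0 hq1
  have hL := L_pos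
  have hθ : 0 < artanh q := Real.artanh_pos ⟨hq0, hq1⟩
  have hp : 0 < p0 t q := (p0_le_one ht0 ht1 hq0.le hq1).2
  have hS : 0 < S (artanh q) := S_pos _
  have hv : 0 < p0 t q * S (artanh q) := mul_pos hp hS
  have hxp : 0 < (xf (aP t q) + xf (aM t q)) / 2 := by
    have := xf_pos' hP; have := xf_pos' hM; linarith
  have hxa : 0 < xf (abar t q) := hxp.trans hx
  -- rewrite `D1 - 2 I`
  set D := D1 (aP t q) (aM t q) - 2 * (phi (abar t q) - (phi (aP t q) + phi (aM t q)) / 2) with hD
  have hDeq : D = LL t q / L + p0 t q * rhoθ (artanh q) := by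
    rw [eq_comm] at hid
    field_simp
    linarith
  have hR1 : RR (p0 t q) (p0 t q * S (artanh q)) = p0 t q * rhoθ (artanh q) := by
    have := RR_homog (c := p0 t q) (x := 1) (v := S (artanh q)) hp one_pos
    rw [mul_one, RR_one_S hθ.le] at this
    exact this
  have he0 := eps_nonneg' ht0 ht1.le hq0.le hq1
  by_cases hc : eps t q * QQ t q ≤ 0
  · have hle : xf (abar t q) ≤ p0 t q := by linarith
    have a1 := RR_mono_x hxa hle hv
    have a2 := RR_nonneg hxp hv
    rw [hR1] at a1
    have a3 : 0 ≤ LL t q / L := by positivity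
    linarith
  · have hc' : 0 < eps t q * QQ t q := not_le.mp hc
    have heps : 0 < eps t q := by
      rcases he0.lt_or_eq with h | h
      · exact h
      · rw [← h, zero_mul] at hc'; exact absurd hc' (lt_irrefl _)
    have hQ : 0 < QQ t q := by
      by_contra hn
      have := mul_nonpos_of_nonneg_of_nonpos he0 (not_lt.mp hn)
      linarith
    have htp : 0 < t := by
      rcases ht0.lt_or_eq with h | h
      · exact h
      · rw [← h] at heps
        unfold eps at heps
        simp at heps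
    -- `hI`
    have hI : 0 < Ix (abar t q) (delt t q) := by
      have e1 : abar t q + delt t q = aP t q := by rw [← h1, ← h2]; ring
      have e2 : abar t q - delt t q = aM t q := by rw [← h1, ← h2]; ring
      rw [← Ix_eq, e1, e2]
      linarith
    have hE := E_main htp ht1 hq0 hq1 hQ hI
    -- the first term
    set X := xf (abar t q) / p0 t q with hX
    have hxX : xf (abar t q) = p0 t q * X := by rw [hX]; field_simp
    have hX1 : X - 1 = eps t q * QQ t q / p0 t q := by
      rw [hX]; field_simp; linarith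
    have hX1' : 1 ≤ X := by
      have : 0 ≤ eps t q * QQ t q / p0 t q := by positivity
      linarith
    have hXp : 0 < X := by linarith
    have hT := RR_taylor hθ hX1'
    have hA : RR (xf (abar t q)) (p0 t q * S (artanh q)) = p0 t q * RR X (S (artanh q)) := by
      rw [hxX]; exact RR_homog hp hXp
    -- the second term
    have hXl := Xl_pos ht0 ht1 hq0 hq1
    have hlow := xprime_lower ht0 ht1 hq0 hq1
    have hB := RR_mono_x (mul_pos hp hXl) hlow hv
    rw [RR_homog hp hXl] at hB
    have hB2 := RR_Bplus hXl hS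
    -- assemble
    have hN : LL t q = eps t q * N1 t q := by
      unfold N1; field_simp
    have step : eps t q * QQ t q * alR (artanh q) + 93 / 200 * (eps t q * QQ t q) ^ 2 / p0 t q
        ≤ LL t q / L + p0 t q * (1 / (2 * L) * Bplus (Xl t q) (S (artanh q))) := by
      have h3 := mul_le_mul_of_nonneg_left hE (show 0 ≤ eps t q / L by positivity)
      have e3 : eps t q / L * (L * alR (artanh q) * QQ t q
            + 93 / 200 * L * eps t q * QQ t q ^ 2 / p0 t q)
          = eps t q * QQ t q * alR (artanh q) + 93 / 200 * (eps t q * QQ t q) ^ 2 / p0 t q := by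
        field_simp
      have e4 : eps t q / L * (N1 t q + 1 / 2 * (p0 t q / eps t q) * Bplus (Xl t q) (S (artanh q)))
          = LL t q / L + p0 t q * (1 / (2 * L) * Bplus (Xl t q) (S (artanh q))) := by
        rw [hN]
        field_simp
      rwa [e3, e4] at h3
    have hp1 : p0 t q * RR X (S (artanh q)) ≤ p0 t q * (rhoθ (artanh q)
        + (X - 1) * alR (artanh q) + 93 / 200 * (X - 1) ^ 2) :=
      mul_le_mul_of_nonneg_left hT hp.le
    have e5 : p0 t q * (rhoθ (artanh q) + (X - 1) * alR (artanh q) + 93 / 200 * (X - 1) ^ 2)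
        = p0 t q * rhoθ (artanh q) + eps t q * QQ t q * alR (artanh q)
          + 93 / 200 * (eps t q * QQ t q) ^ 2 / p0 t q := by
      rw [hX1]
      field_simp
    have hp2 : p0 t q * (1 / (2 * L) * Bplus (Xl t q) (S (artanh q))) ≤ p0 t q * RR (Xl t q) (S (artanh q)) :=
      mul_le_mul_of_nonneg_left hB2 hp.le
    rw [hA, hDeq]
    linarith

end c3

/-! ### the deterministic inequality -/

section det

/-- the function `y` is positive and continuous on `(0,∞)` -/
theorem y_pos {θ : ℝ} (h : 0 < θ) : 0 < S θ / tanh θ := by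
  have h1 : 0 < tanh θ := by
    rw [Real.tanh_eq_sinh_div_cosh]
    exact div_pos (Real.sinh_pos_iff.mpr h) (Real.cosh_pos θ)
  exact div_pos (S_pos θ) h1

theorem tanh_pos' {θ : ℝ} (h : 0 < θ) : 0 < tanh θ := by
  rw [Real.tanh_eq_sinh_div_cosh]
  exact div_pos (Real.sinh_pos_iff.mpr h) (Real.cosh_pos θ)

theorem tanh_mono' {a b : ℝ} (h : a ≤ b) : tanh a ≤ tanh b := by
  apply (Real.artanh_le_artanh_iff ⟨Real.neg_one_lt_tanh a, Real.tanh_lt_one a⟩
    ⟨Real.neg_one_lt_tanh b, Real.tanh_lt_one b⟩).mp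
  rwa [Real.artanh_tanh, Real.artanh_tanh]

/-- the hypothesis of `omega_bound` -/
theorem Mtilde {x x' δ s : ℝ} (hx' : 0 < x') (hxx' : x' < x) (hδ : 0 < δ) (hs : 0 < s)
    (hδτ : δ ≤ tanh s) (hI : x - x' ≤ δ ^ 2 * (7 / 5 - 2 / 5 * δ ^ 2)) :
    TTs (δ * (S s / tanh s) / x) - TTs (δ * (S s / tanh s) / x') ≤ gam s := by
  have hτ := tanh_pos' hs
  have hτ1 : tanh s < 1 := Real.tanh_lt_one s
  have hS := S_pos s
  have hw : 0 < δ * (S s / tanh s) := mul_pos hδ (div_pos hS hτ)
  have hSx : xf (tanh s) ≤ S s := by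
    have := xf_le_phi (a := tanh s) ⟨(Real.neg_one_lt_tanh s).le, hτ1.le⟩
    rwa [phi_tanh] at this
  have hT : (x - x') / (δ * (S s / tanh s)) ≤ (1 - xf (tanh s)) / S s := by
    have e1 : (x - x') / (δ * (S s / tanh s)) = (x - x') / δ * tanh s / S s := by
      field_simp
    rw [e1]
    apply div_le_div_of_nonneg_right _ hS.le
    have e2 : 1 - xf (tanh s) = tanh s * (tanh s * (7 / 5 - 2 / 5 * tanh s ^ 2)) := by
      unfold xf; ring
    rw [e2, mul_comm ((x - x') / δ)]
    apply mul_le_mul_of_nonneg_left _ hτ.le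
    rw [div_le_iff₀ hδ]
    have h3 : δ * (7 / 5 - 2 / 5 * δ ^ 2) ≤ tanh s * (7 / 5 - 2 / 5 * tanh s ^ 2) := by
      have e3 : tanh s * (7 / 5 - 2 / 5 * tanh s ^ 2) - δ * (7 / 5 - 2 / 5 * δ ^ 2)
          = (tanh s - δ) * (7 / 5 - 2 / 5 * (tanh s ^ 2 + tanh s * δ + δ ^ 2)) := by ring
      have h4 : 0 ≤ (tanh s - δ) * (7 / 5 - 2 / 5 * (tanh s ^ 2 + tanh s * δ + δ ^ 2)) := by
        apply mul_nonneg (by linarith)
        have h5 : δ < 1 := hδτ.trans_lt hτ1
        nlinarith
      linarith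
    calc x - x' ≤ δ ^ 2 * (7 / 5 - 2 / 5 * δ ^ 2) := hI
      _ = δ * (7 / 5 - 2 / 5 * δ ^ 2) * δ := by ring
      _ ≤ _ := mul_le_mul_of_nonneg_right h3 hδ.le
  have hO := omega_bound hx' hxx' hw hs hSx hT
  exact hO.trans (M1_main hs)

/-- `Ω` is antitone in `v` -/
theorem Omega_anti {x x' v₁ v₂ : ℝ} (hx' : 0 < x') (hxx' : x' ≤ x) (h1 : 0 < v₁) (h12 : v₁ ≤ v₂) :
    RR x v₂ - RR x' v₂ ≤ RR x v₁ - RR x' v₁ := by
  have hx : 0 < x := hx'.trans_le hxx'
  have hd : ∀ w, 0 < w → HasDerivAt (fun w => RR x w - RR x' w)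
      (-TTs (w / x) - -TTs (w / x')) w := fun w hw =>
    (hasDerivAt_RR hx hw).sub (hasDerivAt_RR hx' hw)
  have hanti : AntitoneOn (fun w => RR x w - RR x' w) (Icc v₁ v₂) := by
    apply antitoneOn_of_deriv_nonpos (convex_Icc v₁ v₂)
    · intro w hw
      exact (hd w (h1.trans_le hw.1)).continuousAt.continuousWithinAt
    · intro w hw
      rw [interior_Icc] at hw
      exact (hd w (h1.trans hw.1)).differentiableAt.differentiableWithinAt
    · intro w hw
      rw [interior_Icc] at hw
      have hw0 : 0 < w := h1.trans hw.1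
      rw [(hd w hw0).deriv]
      have h3 : w / x ≤ w / x' := div_le_div_of_nonneg_left hw0.le hx' hxx'
      have := TTs_anti (div_pos hw0 hx) h3
      linarith
  exact hanti (left_mem_Icc.mpr h12) (right_mem_Icc.mpr h12) h12

theorem K_det {ap am v E0 : ℝ} (hap : ap ∈ Ioo (-1 : ℝ) 1) (ham : am ∈ Ioo (-1 : ℝ) 1)
    (hlt : am < ap) (hs : 0 ≤ ap + am) (hv : 0 < v) (hJ : D1 ap am ≤ E0)
    (hM : ∀ θ, 0 < θ → (ap - am) / 2 * (S θ / tanh θ) = v → (ap - am) / 2 * θ / L ≤ E0) :
    2 * (phi ((ap + am) / 2) - (phi ap + phi am) / 2)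
        + RR (xf ((ap + am) / 2)) v - RR ((xf ap + xf am) / 2) v ≤ E0 := by
  obtain ⟨t, q, ht0, ht1, hq0, hq1, rfl, rfl⟩ := tq_exists hap ham hlt hs
  obtain ⟨h1, h2⟩ := tq_avg ht0 ht1 hq0 hq1
  rw [h2] at hM
  rw [h1]
  have hL := L_pos
  have hid := tq_identity ht0 ht1 hq0 hq1
  have hLL := LL_nonneg ht0 ht1 hq0 hq1
  have hθ₀ : 0 < artanh q := Real.artanh_pos ⟨hq0, hq1⟩
  have hτ₀ : tanh (artanh q) = q := Real.tanh_artanh ⟨by linarith, hq1⟩
  have hrho := rhoθ_nonneg hθ₀.le
  obtain ⟨hp0, hp1⟩ := And.symm (p0_le_one ht0 ht1 hq0.le hq1)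
  have hxp : 0 < (xf (aP t q) + xf (aM t q)) / 2 := by
    have := xf_pos' hap; have := xf_pos' ham; linarith
  set δ := delt t q with hδdef
  have hδ : 0 < δ := by
    rw [hδdef]; unfold delt; exact mul_pos hq0 hp0
  have hδq : δ ≤ q := by
    rw [hδdef]; unfold delt; nlinarith
  set I2 := 2 * (phi (abar t q) - (phi (aP t q) + phi (aM t q)) / 2) with hI2
  have hD : D1 (aP t q) (aM t q) = δ * artanh q / L := tq_D1 ht0 ht1 hq0 hq1
  have hDI : I2 ≤ D1 (aP t q) (aM t q) := by
    have h3 : 0 ≤ L * (D1 (aP t q) (aM t q) - I2) := by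
      rw [hid]; positivity
    have := (mul_nonneg_iff_of_pos_left hL).mp h3
    linarith
  set x := xf (abar t q) with hxdef
  set x' := (xf (aP t q) + xf (aM t q)) / 2 with hx'def
  by_cases hc : x ≤ x'
  · have hxpos : 0 < x := by
      have habar : abar t q ∈ Ioo (-1 : ℝ) 1 := by
        rw [← h1]
        constructor
        · have := hap.1; have := ham.1; linarith
        · have := hap.2; have := ham.2; linarith
      exact xf_pos' habar
    have := RR_mono_x hxpos hc hv
    linarith
  have hxx' : x' < x := not_le.mp hc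
  -- the hypothesis on `x - x'`
  have hIx : x - x' ≤ δ ^ 2 * (7 / 5 - 2 / 5 * δ ^ 2) := by
    have e1 : abar t q + δ = aP t q := by rw [← h1, ← h2]; ring
    have e2 : abar t q - δ = aM t q := by rw [← h1, ← h2]; ring
    have h3 := Ix_eq (abar t q) δ
    rw [e1, e2] at h3
    rw [hxdef, hx'def, h3]
    unfold Ix
    have : 0 ≤ δ ^ 2 * (abar t q) ^ 2 := by positivity
    nlinarith
  -- `v_c`
  have hvc : δ * (S (artanh q) / tanh (artanh q)) = p0 t q * S (artanh q) := by
    rw [hτ₀, hδdef]; unfold delt; field_simp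
  have hc3 := c3 ht0 ht1 hq0 hq1 hxx'
  have hSθ₀ := S_pos (artanh q)
  have hvcpos : 0 < p0 t q * S (artanh q) := mul_pos hp0 hSθ₀
  by_cases hvv : p0 t q * S (artanh q) ≤ v
  · have := Omega_anti hxp hxx'.le hvcpos hvv
    linarith
  have hvv' : v < p0 t q * S (artanh q) := not_le.mp hvv
  -- find `θ`
  set y : ℝ → ℝ := fun s => S s / tanh s with hy
  have hcy : ContinuousOn (fun s => δ * y s) (Ioi 0) := fun s hs =>
    ((hasDerivAt_y hs).continuousAt.const_mul δ).continuousWithinAt
  obtain ⟨T, hT1, hT2⟩ : ∃ T, artanh q ≤ T ∧ δ * (S T / q) < v := by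
    have h3 : Tendsto (fun s => δ * (S s / q)) atTop (𝓝 (δ * (0 / q))) :=
      (S_tendsto.div_const q).const_mul δ
    have h4 : δ * (0 / q) < v := by simpa using hv
    have h5 := (h3.eventually (gt_mem_nhds h4)).and (eventually_ge_atTop (artanh q))
    obtain ⟨T, a, b⟩ := h5.exists
    exact ⟨T, b, a⟩
  have hTy : δ * y T ≤ v := by
    have hTpos : 0 < T := hθ₀.trans_le hT1
    have h3 : q ≤ tanh T := by
      rw [← hτ₀]; exact tanh_mono' hT1
    have h4 : S T / tanh T ≤ S T / q := div_le_div_of_nonneg_left (S_pos T).le hq0 h3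
    have := mul_le_mul_of_nonneg_left h4 hδ.le
    exact (this.trans hT2.le)
  have hcyI : ContinuousOn (fun s => δ * y s) (Icc (artanh q) T) :=
    hcy.mono (fun s hs => hθ₀.trans_le hs.1)
  obtain ⟨θ, hθI, hθv⟩ := intermediate_value_Icc' hT1 hcyI
    (show v ∈ Icc (δ * y T) (δ * y (artanh q)) from ⟨hTy, by
      show v ≤ δ * (S (artanh q) / tanh (artanh q))
      rw [hvc]; exact hvv'.le⟩)
  have hθv' : δ * (S θ / tanh θ) = v := hθv
  have hθpos : 0 < θ := hθ₀.trans_le hθI.1
  -- monotonicity of `F`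
  set F : ℝ → ℝ := fun s => δ * s / L - (RR x (δ * y s) - RR x' (δ * y s)) with hF
  have hxpos : 0 < x := hxp.trans hxx'
  have hdF : ∀ s, 0 < s → HasDerivAt F
      (δ / L - ((-TTs (δ * y s / x)) * (δ * (-1 / (L * gam s)))
        - (-TTs (δ * y s / x')) * (δ * (-1 / (L * gam s))))) s := by
    intro s hs
    have hw : 0 < δ * y s := mul_pos hδ (y_pos hs)
    have hyd : HasDerivAt (fun s => δ * y s) (δ * (-1 / (L * gam s))) s :=
      (hasDerivAt_y hs).const_mul δ
    have a1 := (hasDerivAt_RR hxpos hw).comp s hyd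
    have a2 := (hasDerivAt_RR hxp hw).comp s hyd
    have a3 : HasDerivAt (fun s => δ * s / L) (δ / L) s := by
      have := (hasDerivAt_id s).const_mul δ
      have := this.div_const L
      simpa using this
    exact a3.sub (a1.sub a2)
  have hmono : MonotoneOn F (Icc (artanh q) θ) := by
    apply monotoneOn_of_deriv_nonneg (convex_Icc _ _)
    · intro s hs
      exact (hdF s (hθ₀.trans_le hs.1)).continuousAt.continuousWithinAt
    · intro s hs
      rw [interior_Icc] at hs
      exact (hdF s (hθ₀.trans hs.1)).differentiableAt.differentiableWithinAt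
    · intro s hs
      rw [interior_Icc] at hs
      have hs0 : 0 < s := hθ₀.trans hs.1
      rw [(hdF s hs0).deriv]
      have hg := gam_pos hs0
      have hδτ : δ ≤ tanh s := by
        have : q ≤ tanh s := by
          rw [← hτ₀]; exact tanh_mono' hs.1.le
        linarith
      have hMt := Mtilde hxp hxx' hδ hs0 hδτ hIx
      have e : δ / L - ((-TTs (δ * y s / x)) * (δ * (-1 / (L * gam s)))
            - (-TTs (δ * y s / x')) * (δ * (-1 / (L * gam s))))
          = δ / (L * gam s) * (gam s - (TTs (δ * y s / x) - TTs (δ * y s / x'))) := by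
        field_simp
      rw [e]
      apply mul_nonneg (by positivity)
      have : TTs (δ * y s / x) - TTs (δ * y s / x') ≤ gam s := hMt
      linarith
  have hFF := hmono (left_mem_Icc.mpr hθI.1) (right_mem_Icc.mpr hθI.1) hθI.1
  have hF1 : F (artanh q) = δ * artanh q / L
      - (RR x (p0 t q * S (artanh q)) - RR x' (p0 t q * S (artanh q))) := by
    show δ * artanh q / L - (RR x (δ * (S (artanh q) / tanh (artanh q)))
      - RR x' (δ * (S (artanh q) / tanh (artanh q)))) = _
    rw [hvc]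
  have hF2 : F θ = δ * θ / L - (RR x v - RR x' v) := by
    show δ * θ / L - (RR x (δ * (S θ / tanh θ)) - RR x' (δ * (S θ / tanh θ))) = _
    rw [hθv']
  rw [hF1, hF2] at hFF
  have hfin := hM θ hθpos hθv'
  linarith

end det

/-! ### the one step inequality for families -/

section fam

variable {Z : Type*} [Fintype Z] [Nonempty Z]

theorem card_pos_real : (0 : ℝ) < Fintype.card Z := by
  exact_mod_cast Fintype.card_pos

theorem avg_mono' {f g : Z → ℝ} (h : ∀ z, f z ≤ g z) : avg f ≤ avg g := by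
  unfold avg
  exact div_le_div_of_nonneg_right (Finset.sum_le_sum fun z _ => h z) card_pos_real.le

theorem avg_const' (c : ℝ) : avg (fun _ : Z => c) = c := by
  unfold avg
  have h := card_pos_real (Z := Z)
  simp only [Finset.sum_const, Finset.card_univ, nsmul_eq_mul]
  field_simp

omit [Nonempty Z] in
theorem avg_lin (A B C D : ℝ) (f g h k : Z → ℝ) :
    avg (fun z => A * f z + B * g z + C * h z + D * k z)
      = A * avg f + B * avg g + C * avg h + D * avg k := by
  unfold avg
  simp only [Finset.sum_add_distrib, ← Finset.mul_sum]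
  ring

theorem avg_mem' {u : Z → ℝ} (hu : ∀ z, u z ∈ Ioo (-1 : ℝ) 1) : avg u ∈ Ioo (-1 : ℝ) 1 := by
  have h := card_pos_real (Z := Z)
  have hs : (Finset.univ : Finset Z).Nonempty := Finset.univ_nonempty
  unfold avg
  constructor
  · rw [lt_div_iff₀ h]
    have := Finset.sum_lt_sum_of_nonempty hs (fun z _ => (hu z).1)
    simpa using this
  · rw [div_lt_iff₀ h]
    have := Finset.sum_lt_sum_of_nonempty hs (fun z _ => (hu z).2)
    simpa using this

theorem avg_pos' {f : Z → ℝ} (hf : ∀ z, 0 < f z) : 0 < avg f := by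
  have h := card_pos_real (Z := Z)
  unfold avg
  exact div_pos (Finset.sum_pos (fun z _ => hf z) Finset.univ_nonempty) h

theorem phi_pos {u : ℝ} (hu : u ∈ Ioo (-1 : ℝ) 1) : 0 < phi u := by
  have := S_pos (artanh u)
  rwa [← phi_tanh, Real.tanh_artanh hu] at this

/-- the core case of the one step inequality -/
theorem K_core (u w : Z → ℝ) (hu : ∀ z, u z ∈ Ioo (-1 : ℝ) 1) (hw : ∀ z, w z ∈ Ioo (-1 : ℝ) 1)
    (hlt : avg w < avg u) (hs : 0 ≤ avg u + avg w) :
    2 * (phi ((avg u + avg w) / 2) - (phi (avg u) + phi (avg w)) / 2)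
        + RR (xf ((avg u + avg w) / 2)) ((avg (fun z => phi (u z)) + avg (fun z => phi (w z))) / 2)
        - RR ((xf (avg u) + xf (avg w)) / 2)
            ((avg (fun z => phi (u z)) + avg (fun z => phi (w z))) / 2)
      ≤ avg (fun z => D1 (u z) (w z)) := by
  have hL := L_pos
  have hv : 0 < (avg (fun z => phi (u z)) + avg (fun z => phi (w z))) / 2 := by
    have h1 : 0 < avg (fun z => phi (u z)) := avg_pos' fun z => phi_pos (hu z)
    have h2 : 0 < avg (fun z => phi (w z)) := avg_pos' fun z => phi_pos (hw z)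
    linarith
  apply K_det (avg_mem' hu) (avg_mem' hw) hlt hs hv (D1_jensen u w hu hw)
  intro θ hθ hy
  have hg := gam_pos hθ
  have hpt : ∀ z, (θ / (2 * L) + gam θ / 2 * (S θ / tanh θ)) * u z
        + (-(θ / (2 * L) + gam θ / 2 * (S θ / tanh θ))) * w z
        + (-(gam θ / 2)) * phi (u z) + (-(gam θ / 2)) * phi (w z)
      ≤ D1 (u z) (w z) := by
    intro z
    have := M_pt hθ (hu z) (hw z)
    calc _ = (u z - w z) * θ / (2 * L)
            + gam θ / 2 * ((u z - w z) * (S θ / tanh θ) - (phi (u z) + phi (w z))) := by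
          field_simp
          ring
      _ ≤ _ := this
  have havg := avg_mono' hpt
  rw [avg_lin] at havg
  refine le_trans (le_of_eq ?_) havg
  have e : avg (fun z => phi (u z)) + avg (fun z => phi (w z))
      = (avg u - avg w) * (S θ / tanh θ) := by
    linarith
  have e' : (-(gam θ / 2)) * avg (fun z => phi (u z)) + (-(gam θ / 2)) * avg (fun z => phi (w z))
      = -(gam θ / 2) * ((avg u - avg w) * (S θ / tanh θ)) := by
    rw [← e]; ring
  have : (θ / (2 * L) + gam θ / 2 * (S θ / tanh θ)) * avg u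
        + (-(θ / (2 * L) + gam θ / 2 * (S θ / tanh θ))) * avg w
        + (-(gam θ / 2)) * avg (fun z => phi (u z)) + (-(gam θ / 2)) * avg (fun z => phi (w z))
      = (avg u - avg w) * (θ / (2 * L)) := by
    linear_combination e'
  rw [this]
  field_simp

omit [Nonempty Z] in
theorem avg_neg' (f : Z → ℝ) : avg (fun z => - f z) = - avg f := by
  unfold avg
  simp only [Finset.sum_neg_distrib]
  ring

theorem xf_neg (a : ℝ) : xf (-a) = xf a := by
  unfold xf; ring

theorem artanh_neg_eq {x : ℝ} (hx : x ∈ Ioo (-1 : ℝ) 1) : artanh (-x) = -artanh x := by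
  have := Real.artanh_tanh (-artanh x)
  rw [Real.tanh_neg, Real.tanh_artanh hx] at this
  exact this

theorem D1_neg {u w : ℝ} (hu : u ∈ Ioo (-1 : ℝ) 1) (hw : w ∈ Ioo (-1 : ℝ) 1) :
    D1 (-w) (-u) = D1 u w := by
  unfold D1
  rw [artanh_neg_eq hu, artanh_neg_eq hw]
  ring

theorem neg_mem' {u : ℝ} (hu : u ∈ Ioo (-1 : ℝ) 1) : -u ∈ Ioo (-1 : ℝ) 1 :=
  ⟨by have := hu.2; linarith, by have := hu.1; linarith⟩

/-- the core case with the sign condition removed -/
theorem K_core2 (u w : Z → ℝ) (hu : ∀ z, u z ∈ Ioo (-1 : ℝ) 1) (hw : ∀ z, w z ∈ Ioo (-1 : ℝ) 1)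
    (hlt : avg w < avg u) :
    2 * (phi ((avg u + avg w) / 2) - (phi (avg u) + phi (avg w)) / 2)
        + RR (xf ((avg u + avg w) / 2)) ((avg (fun z => phi (u z)) + avg (fun z => phi (w z))) / 2)
        - RR ((xf (avg u) + xf (avg w)) / 2)
            ((avg (fun z => phi (u z)) + avg (fun z => phi (w z))) / 2)
      ≤ avg (fun z => D1 (u z) (w z)) := by
  by_cases hs : 0 ≤ avg u + avg w
  · exact K_core u w hu hw hlt hs
  · have hs' : avg u + avg w < 0 := not_le.mp hs
    have h := K_core (fun z => - w z) (fun z => - u z)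
      (fun z => neg_mem' (hw z)) (fun z => neg_mem' (hu z))
      (by rw [avg_neg', avg_neg']; linarith) (by rw [avg_neg', avg_neg']; linarith)
    rw [avg_neg', avg_neg'] at h
    have e1 : (-avg w + -avg u) / 2 = -((avg u + avg w) / 2) := by ring
    rw [e1, phi_neg, phi_neg, phi_neg, xf_neg, xf_neg, xf_neg] at h
    simp only [phi_neg] at h
    have e2 : (fun z => D1 (- w z) (- u z)) = (fun z => D1 (u z) (w z)) := by
      funext z
      exact D1_neg (hu z) (hw z)
    rw [e2] at h
    have e3 : (phi (avg u) + phi (avg w)) = (phi (avg w) + phi (avg u)) := add_comm _ _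
    have e4 : (xf (avg u) + xf (avg w)) = (xf (avg w) + xf (avg u)) := add_comm _ _
    have e5 : avg (fun z => phi (u z)) + avg (fun z => phi (w z))
        = avg (fun z => phi (w z)) + avg (fun z => phi (u z)) := add_comm _ _
    rw [e3, e4, e5]
    exact h

/-- the one step inequality in perspective form -/
theorem K_all (u w : Z → ℝ) (hu : ∀ z, u z ∈ Ioo (-1 : ℝ) 1) (hw : ∀ z, w z ∈ Ioo (-1 : ℝ) 1) :
    2 * (phi ((avg u + avg w) / 2) - (phi (avg u) + phi (avg w)) / 2)
        + RR (xf ((avg u + avg w) / 2)) ((avg (fun z => phi (u z)) + avg (fun z => phi (w z))) / 2)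
        - RR ((xf (avg u) + xf (avg w)) / 2)
            ((avg (fun z => phi (u z)) + avg (fun z => phi (w z))) / 2)
      ≤ avg (fun z => D1 (u z) (w z)) := by
  rcases lt_trichotomy (avg w) (avg u) with h | h | h
  · exact K_core2 u w hu hw h
  · rw [h]
    have e1 : (avg u + avg u) / 2 = avg u := by ring
    have e2 : (xf (avg u) + xf (avg u)) / 2 = xf (avg u) := by ring
    have e3 : (phi (avg u) + phi (avg u)) / 2 = phi (avg u) := by ring
    rw [e1, e2, e3]
    have : 0 ≤ avg (fun z => D1 (u z) (w z)) := by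
      have := avg_mono' (f := fun _ : Z => (0 : ℝ)) (g := fun z => D1 (u z) (w z))
        (fun z => D1_nonneg (hu z) (hw z))
      rwa [avg_const'] at this
    linarith
  · have h2 := K_core2 w u hw hu h
    have e2 : (fun z => D1 (w z) (u z)) = (fun z => D1 (u z) (w z)) := by
      funext z
      exact D1_symm _ _
    rw [e2] at h2
    have e3 : (phi (avg u) + phi (avg w)) = (phi (avg w) + phi (avg u)) := add_comm _ _
    have e4 : (xf (avg u) + xf (avg w)) = (xf (avg w) + xf (avg u)) := add_comm _ _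
    have e5 : avg (fun z => phi (u z)) + avg (fun z => phi (w z))
        = avg (fun z => phi (w z)) + avg (fun z => phi (u z)) := add_comm _ _
    have e6 : avg u + avg w = avg w + avg u := add_comm _ _
    rw [e3, e4, e5, e6]
    exact h2

theorem K_tan (u w : Z → ℝ)
    (hu : ∀ z, u z ∈ Ioo (-1:ℝ) 1) (hw : ∀ z, w z ∈ Ioo (-1:ℝ) 1) {θ : ℝ} (hθ : 0 ≤ θ) :
    ∃ θ', 0 ≤ θ' ∧
      2 * (phi ((avg u + avg w) / 2) - (phi (avg u) + phi (avg w)) / 2)
        + alR θ * xf ((avg u + avg w) / 2) - TT θ * ((avg (fun z => phi (u z)) + avg (fun z => phi (w z))) / 2)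
      ≤ avg (fun z => D1 (u z) (w z))
        + alR θ' * ((xf (avg u) + xf (avg w)) / 2)
        - TT θ' * ((avg (fun z => phi (u z)) + avg (fun z => phi (w z))) / 2) := by
  have hv : 0 < (avg (fun z => phi (u z)) + avg (fun z => phi (w z))) / 2 := by
    have h1 : 0 < avg (fun z => phi (u z)) := avg_pos' fun z => phi_pos (hu z)
    have h2 : 0 < avg (fun z => phi (w z)) := avg_pos' fun z => phi_pos (hw z)
    linarith
  have hau := avg_mem' hu
  have haw := avg_mem' hw
  have hxp : 0 < (xf (avg u) + xf (avg w)) / 2 := by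
    have := xf_pos' hau; have := xf_pos' haw; linarith
  have hx : 0 < xf ((avg u + avg w) / 2) := by
    apply xf_pos'
    constructor
    · have := hau.1; have := haw.1; linarith
    · have := hau.2; have := haw.2; linarith
  obtain ⟨θ', hθ', hatt⟩ := RR_attain hxp hv
  refine ⟨θ', hθ', ?_⟩
  have h1 := RR_tangent hx hv hθ
  have h2 := K_all u w hu hw
  linarith

end fam

end CK322
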