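import Vale.Agent.Lib.P322.KCert12


/-!
The statement `KEYprop` for all `(t,q)`.
-/

open Real Set Filter Topology

namespace CK322

/-- the main range of `q` -/
theorem KEY_main {t q : ℝ} (ht0 : 0 < t) (ht1 : t < 1) (hq : 1 / 5 ≤ q) (hq1 : q ≤ 121 / 128) :
    KEYprop t q := by
  have ht00 : val 0 ≤ t := by rw [val_zero]; exact ht0.le
  have ht11 : t ≤ val SC := by rw [val_SC]; exact ht1.le
  have h0 : val 3602879701896396800 ≤ q := by
    have : val 3602879701896396800 = 3602879701896396800 / 18446744073709551616 := by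
      unfold val SC; norm_num
    rw [this]; norm_num at hq ⊢; linarith
  rcases le_total q (val 5332261958806667264) with hc0 | hc0
  · exact chk_sound cert0 _ _ _ _ cert0_ok t q ht0 ht1 ht00 ht11 h0 hc0
  rcases le_total q (val 7061644215716937728) with hc1 | hc1
  · exact chk_sound cert1 _ _ _ _ cert1_ok t q ht0 ht1 ht00 ht11 hc0 hc1
  rcases le_total q (val 8791026472627208192) with hc2 | hc2
  · exact chk_sound cert2 _ _ _ _ cert2_ok t q ht0 ht1 ht00 ht11 hc1 hc2
  rcases le_total q (val 10520408729537478656) with hc3 | hc3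
  · exact chk_sound cert3 _ _ _ _ cert3_ok t q ht0 ht1 ht00 ht11 hc2 hc3
  rcases le_total q (val 12249790986447749120) with hc4 | hc4
  · exact chk_sound cert4 _ _ _ _ cert4_ok t q ht0 ht1 ht00 ht11 hc3 hc4
  rcases le_total q (val 13114482114902884352) with hc5 | hc5
  · exact chk_sound cert5 _ _ _ _ cert5_ok t q ht0 ht1 ht00 ht11 hc4 hc5
  rcases le_total q (val 13546827679130451968) with hc6 | hc6
  · exact chk_sound cert6 _ _ _ _ cert6_ok t q ht0 ht1 ht00 ht11 hc5 hc6
  rcases le_total q (val 13763000461244235776) with hc7 | hc7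
  · exact chk_sound cert7 _ _ _ _ cert7_ok t q ht0 ht1 ht00 ht11 hc6 hc7
  rcases le_total q (val 13979173243358019584) with hc8 | hc8
  · exact chk_sound cert8 _ _ _ _ cert8_ok t q ht0 ht1 ht00 ht11 hc7 hc8
  rcases le_total q (val 14411518807585587200) with hc9 | hc9
  · exact chk_sound cert9 _ _ _ _ cert9_ok t q ht0 ht1 ht00 ht11 hc8 hc9
  rcases le_total q (val 14843864371813154816) with hc10 | hc10
  · exact chk_sound cert10 _ _ _ _ cert10_ok t q ht0 ht1 ht00 ht11 hc9 hc10
  rcases le_total q (val 15708555500268290048) with hc11 | hc11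
  · exact chk_sound cert11 _ _ _ _ cert11_ok t q ht0 ht1 ht00 ht11 hc10 hc11
  exact chk_sound cert12 _ _ _ _ cert12_ok t q ht0 ht1 ht00 ht11 hc11 (by
    have : val 17437937757178560512 = 17437937757178560512 / 18446744073709551616 := by
      unfold val SC; norm_num
    rw [this]; norm_num at hq1 ⊢; linarith)

theorem KEY_all {t q : ℝ} (ht0 : 0 ≤ t) (ht1 : t < 1) (hq0 : 0 < q) (hq1 : q < 1) : KEYprop t q := by
  rcases ht0.eq_or_lt with rfl | htp
  · exact KEY_zero hq0 hq1
  rcases le_total q (1 / 5) with h | h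
  · exact KEY_small htp ht1 hq0 h
  rcases le_total q (121 / 128) with h2 | h2
  · exact KEY_main htp ht1 h h2
  · exact KEY_top htp.le ht1 h2 hq1

end CK322
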