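import Vale.Agent.Lib.P322.K2

/-!
The statement `KEYprop` at the ends of the range: `t = 0`, and `q` close to `1`.
-/

open Real Set Filter Topology

namespace CK322

noncomputable section

theorem Eq_zero' {q : ℝ} (hq0 : 0 < q) (hq1 : q < 1) : Eq 0 q = 0 := by
  unfold Eq xq p0 aP aM ZZ
  have e1 : (0 + q) / (1 + 0 * q) = q := by simp
  have e2 : (0 - q) / (1 - 0 * q) = -q := by simp
  rw [e1, e2, phi_neg, ← phi_tanh, tanh_artanh' hq0 hq1]
  simp

/-- the case `t = 0` -/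
theorem KEY_zero {q : ℝ} (hq0 : 0 < q) (hq1 : q < 1) : KEYprop 0 q := by
  have h := Lft_zero_le (le_refl (0 : ℝ)) one_pos hq0 hq1
  refine Or.inr ⟨0, le_rfl, (Eq_zero' hq0 hq1).le, ?_, ?_⟩
  · intro x h3 h4
    have : x = 0 := le_antisymm h4 h3
    rw [this]
    simpa using h
  · rw [Eq_zero' hq0 hq1]
    simpa using h

/-- `psiC` is globally Lipschitz -/
theorem psiC_sub_le_gen {D D' : ℝ} (h : D ≤ D') : psiC D' - psiC D ≤ T0 * (D' - D) := by
  by_cases h1 : D' < 1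
  · exact psiC_sub_le h h1
  have h1' : 1 ≤ D' := not_lt.1 h1
  rw [psiC_of_gt (by linarith)]
  by_cases h2 : 1 / 2 < D
  · rw [psiC_of_gt h2]
    linarith
  · have h2' : D ≤ 1 / 2 := not_lt.1 h2
    have h3 := psiC_sub_le h2' (show (1 / 2 : ℝ) < 1 by norm_num)
    rw [psiC_of_le le_rfl] at h3
    norm_num at h3 ⊢
    linarith

/-! ### the slope at the cap -/

/-- `zeta (artanh q)` -/
def ivZeta (Q : IV) : IV := IV.div Q (IV.mul (IV.sub ONE (ivsq Q)) (ivAt Q))

theorem mem_Zeta {q : ℝ} {Q : IV} (hq : IV.mem q Q) (h0 : 0 < q) (h1 : q < 1) :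
    IV.mem (zeta (artanh q)) (ivZeta Q) := by
  rw [zeta_artanh_semi h0 h1]
  exact IV.mem_div hq (IV.mem_mul (IV.mem_sub mem_ONE (mem_sq hq)) (mem_At hq h0.le h1))

/-- `q₂ = 25/32` -/
def qT : ℕ := 14411518807585587200

theorem qT_check : (ivS (IV.pt qT)).ok = true ∧ Nat.ble (ivS (IV.pt qT)).hi 9223372036854775808 = true
    ∧ (ivZeta (IV.pt qT)).ok = true ∧ Nat.ble (ivZeta (IV.pt qT)).hi 35417748621522339102 = true := by
  decide +kernel

theorem T0_le : T0 ≤ 23 / 25 := by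
  obtain ⟨h1, h2, h3, h4⟩ := qT_check
  have hq : val qT = 25 / 32 := by
    unfold val qT SC; norm_num
  have hq0 : 0 < val qT := by rw [hq]; norm_num
  have hq1 : val qT < 1 := by rw [hq]; norm_num
  have hS := (mem_S (IV.mem_pt qT) hq0.le hq1) h1
  have hZ := (mem_Zeta (IV.mem_pt qT) hq0 hq1) h3
  have e1 : S (artanh (val qT)) ≤ 1 / 2 := by
    have := val_mono (Nat.le_of_ble_eq_true h2)
    have e : val 9223372036854775808 = 1 / 2 := by
      unfold val SC; norm_num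
    rw [e] at this
    linarith [hS.2]
  have e2 : zeta (artanh (val qT)) ≤ 48 / 25 := by
    have := val_mono (Nat.le_of_ble_eq_true h4)
    have e : val 35417748621522339102 ≤ 48 / 25 := by
      unfold val SC; norm_num
    linarith [hZ.2]
  have hθ : 0 ≤ artanh (val qT) := (Real.artanh_pos ⟨hq0, hq1⟩).le
  have h5 : T0 ≤ TTs (S (artanh (val qT))) := TTs_anti (S_pos _) e1
  rw [TTs_S hθ] at h5
  unfold TT at h5
  linarith

/-! ### `q` close to `1` -/

def ivHH (Q : IV) : IV := IV.div (IV.mul Q (ivAt Q)) LIV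

theorem mem_HH {q : ℝ} {Q : IV} (hq : IV.mem q Q) (h0 : 0 < q) (h1 : q < 1) :
    IV.mem (hh (artanh q)) (ivHH Q) := by
  rw [hh_artanh h0 h1]
  exact IV.mem_div (IV.mem_mul hq (mem_At hq h0.le h1)) mem_LIV

/-- the check for a cell `[a, b]` in `q`: `2.92 * (1 - S(b)) ≤ hh(a)` -/
def topOK (a b : ℕ) : Bool :=
  (ivS (IV.pt b)).ok && (ivHH (IV.pt a)).ok &&
    Nat.ble (IV.mul (IV.ofQ 73 25) (IV.sub ONE (ivS (IV.pt b)))).hi (ivHH (IV.pt a)).lo
    && (IV.sub ONE (ivS (IV.pt b))).ok && (IV.mul (IV.ofQ 73 25) (IV.sub ONE (ivS (IV.pt b)))).ok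

theorem hh_mono {a q : ℝ} (h0 : 0 < a) (h : a ≤ q) (h1 : q < 1) :
    hh (artanh a) ≤ hh (artanh q) := by
  rw [hh_artanh h0 (h.trans_lt h1), hh_artanh (h0.trans_le h) h1]
  have hL := L_pos
  apply div_le_div_of_nonneg_right _ hL.le
  have h2 := Real.artanh_le_artanh (by linarith) h1 h
  have h3 := Real.artanh_nonneg h0.le
  nlinarith

theorem S_anti_q {q b : ℝ} (h0 : 0 ≤ q) (h : q ≤ b) (h1 : b < 1) :
    S (artanh b) ≤ S (artanh q) := by
  have t0 : 0 ≤ artanh q := Real.artanh_nonneg h0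
  have t1 : artanh q ≤ artanh b := Real.artanh_le_artanh (by linarith) h1 h
  exact S_strictAnti.antitoneOn t0 (t0.trans t1) t1

theorem top_cell {a b : ℕ} (hok : topOK a b = true) {q : ℝ} (ha0 : 0 < val a) (ha : val a ≤ q)
    (hb : q ≤ val b) (hb1 : val b < 1) :
    T0 * (1 - S (artanh q)) ≤ rhoθ (artanh q) := by
  unfold topOK at hok
  simp only [Bool.and_eq_true] at hok
  obtain ⟨⟨⟨⟨h1, h2⟩, h3⟩, h4⟩, h5⟩ := hok
  have hq0 : 0 < q := ha0.trans_le ha
  have hq1 : q < 1 := hb.trans_lt hb1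
  have hb0 : 0 ≤ val b := val_nonneg b
  have hS := (mem_S (IV.mem_pt b) hb0 hb1)
  have hH := (mem_HH (IV.mem_pt a) ha0 (ha.trans_lt hq1)) h2
  have hY := (IV.mem_sub mem_ONE hS) h4
  have hM := (IV.mem_mul (IV.mem_ofQ 73 25) (IV.mem_sub mem_ONE hS)) h5
  have h6 := val_mono (Nat.le_of_ble_eq_true h3)
  have e1 : (((73 : ℕ) : ℝ) / ((25 : ℕ) : ℝ)) * (1 - S (artanh (val b))) ≤ hh (artanh (val a)) :=
    hM.2.trans (h6.trans hH.1)
  have h7 := hh_mono ha0 ha hq1
  have h8 := S_anti_q hq0.le hb hb1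
  have h9 := T0_le
  have hY0 := Y_nonneg hq0 hq1
  have hT := T0_nonneg
  unfold rhoθ
  push_cast at e1
  have h10 : T0 * (1 - S (artanh q)) ≤ 23 / 25 * (1 - S (artanh q)) :=
    mul_le_mul_of_nonneg_right h9 hY0
  have h11 : 73 / 25 * (1 - S (artanh q)) ≤ 73 / 25 * (1 - S (artanh (val b))) := by
    linarith
  linarith

def tq1 : ℕ := 17437937757178560512
def tq2 : ℕ := 17528009749725970432
def tq3 : ℕ := 17708153734820790272
def tq4 : ℕ := 18086456103519911936

theorem top_checks : topOK tq1 tq2 = true ∧ topOK tq2 tq3 = true ∧ topOK tq3 tq4 = true := by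
  decide +kernel

theorem top_last : (ivHH (IV.pt tq4)).ok = true ∧ Nat.ble 53864492695231890719 (ivHH (IV.pt tq4)).lo = true := by
  decide +kernel

/-- the inequality `P ≥ T0 Y` for `q ≥ 121/128`. -/
theorem top_numeric {q : ℝ} (hq : 121 / 128 ≤ q) (hq1 : q < 1) :
    T0 * (1 - S (artanh q)) ≤ rhoθ (artanh q) := by
  obtain ⟨c1, c2, c3⟩ := top_checks
  have v1 : val tq1 = 121 / 128 := by unfold val tq1 SC; norm_num
  have v2 : val tq2 = 973 / 1024 := by unfold val tq2 SC; norm_num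
  have v3 : val tq3 = 983 / 1024 := by unfold val tq3 SC; norm_num
  have v4 : val tq4 = 1004 / 1024 := by unfold val tq4 SC; norm_num
  rcases le_total q (973 / 1024) with h | h
  · exact top_cell c1 (by rw [v1]; norm_num) (by rw [v1]; exact hq) (by rw [v2]; exact h) (by rw [v2]; norm_num)
  rcases le_total q (983 / 1024) with h2 | h2
  · exact top_cell c2 (by rw [v2]; norm_num) (by rw [v2]; exact h) (by rw [v3]; exact h2) (by rw [v3]; norm_num)
  rcases le_total q (1004 / 1024) with h3 | h3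
  · exact top_cell c3 (by rw [v3]; norm_num) (by rw [v3]; exact h2) (by rw [v4]; exact h3) (by rw [v4]; norm_num)
  -- the last cell
  obtain ⟨l1, l2⟩ := top_last
  have ha0 : 0 < val tq4 := by rw [v4]; norm_num
  have ha : val tq4 ≤ q := by rw [v4]; exact h3
  have hq0 : 0 < q := ha0.trans_le ha
  have hH := (mem_HH (IV.mem_pt tq4) ha0 (ha.trans_lt hq1)) l1
  have h6 := val_mono (Nat.le_of_ble_eq_true l2)
  have e : (73 : ℝ) / 25 ≤ val 53864492695231890719 := by
    unfold val SC; norm_num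
  have h7 := hh_mono ha0 ha hq1
  have hY0 := Y_nonneg hq0 hq1
  have hS := S_pos (artanh q)
  have h9 := T0_le
  unfold rhoθ
  have h10 : T0 * (1 - S (artanh q)) ≤ 23 / 25 * (1 - S (artanh q)) :=
    mul_le_mul_of_nonneg_right h9 hY0
  have h11 : (73 : ℝ) / 25 ≤ hh (artanh q) := by linarith [hH.1]
  nlinarith

/-- `q` close to `1` -/
theorem KEY_top {t q : ℝ} (ht0 : 0 ≤ t) (ht1 : t < 1) (hq : 121 / 128 ≤ q) (hq1 : q < 1) :
    KEYprop t q := by
  have hq0 : 0 < q := by linarith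
  refine Or.inl ⟨xq t q, le_rfl, fun x hx0 _ => ?_⟩
  have hI0 := Iq_nonneg ht0 ht1 hq0 hq1
  have h1 := psiC_sub_le_gen (show x ≤ x + Iq t q by linarith)
  have e : x + Iq t q - x = Iq t q := by ring
  rw [e] at h1
  have h2 := Jq_sub ht0 ht1 hq0 hq1
  have h3 := Iq_le ht0 ht1 hq0 hq1
  have h4 := top_numeric hq hq1
  obtain ⟨hp1, hp0⟩ := p0_le_one ht0 ht1 hq0.le hq1
  have h5 : T0 * Iq t q ≤ T0 * (p0 t q * (1 - S (artanh q))) :=
    mul_le_mul_of_nonneg_left h3 T0_nonneg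
  have h6 := mul_le_mul_of_nonneg_left h4 hp0.le
  have hLL := LL_nonneg ht0 ht1 hq0 hq1
  have hL := L_pos
  have h7 : 0 ≤ LL t q / L := by positivity
  have hs : 0 ≤ sstar t q * x := by
    apply mul_nonneg _ hx0
    unfold sstar
    have : 0 < 1 + q ^ 2 := by positivity
    positivity
  unfold Lft
  nlinarith

end

end CK322
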