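import Vale.Agent.Lib.P322.KShape
import Vale.Agent.Lib.P322.ECell

/-!
Two real variable criteria for `KEYprop`.
-/

open Real Set Filter Topology

namespace CK322

noncomputable section

variable {t q : ℝ}

theorem key_left {D : ℝ} (ht0 : 0 ≤ t) (ht1 : t < 1) (hq0 : 0 < q) (hq1 : q < 1)
    (hx : xq t q ≤ D) (hA : Lft t q D ≤ Jq t q + sstar t q * D)
    (hC : D + Iq t q ≤ 1 / 2 ∨ sstar t q + dpsi D ≤ T0 ∨ Lft t q D ≤ Jq t q) : KEYprop t q :=
  Or.inl ⟨D, hx, all_x ht0 ht1 hq0 hq1 hA hC⟩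

theorem key_right {D : ℝ} (ht0 : 0 ≤ t) (ht1 : t < 1) (hq0 : 0 < q) (hq1 : q < 1)
    (hD : 0 ≤ D) (hE : Eq t q ≤ D) (hA : Lft t q D ≤ Jq t q + sstar t q * D)
    (hB : Lft t q D ≤ Jq t q + gam (artanh q) * (D - Eq t q))
    (hC : D + Iq t q ≤ 1 / 2 ∨ sstar t q + dpsi D ≤ T0 ∨ Lft t q D ≤ Jq t q) : KEYprop t q :=
  Or.inr ⟨D, hD, hE, all_x ht0 ht1 hq0 hq1 hA hC, hB⟩

/-- the basic form of the inequality at `D` -/
theorem Lft_le_of {D G h : ℝ} (ht0 : 0 ≤ t) (ht1 : t < 1) (hq0 : 0 < q) (hq1 : q < 1)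
    (hG : psiC (D + Iq t q) - psiC D ≤ G)
    (hh : h ≤ p0 t q * rhoθ (artanh q) + LL t q / L) :
    Lft t q D ≤ Jq t q + (G - h) := by
  have := Jq_sub ht0 ht1 hq0 hq1
  unfold Lft
  linarith

/-- first bound of the increment -/
theorem gup_1 {D I IU PD PU : ℝ} (hD0 : 0 ≤ D) (hI : I ≤ IU) (hIU0 : 0 ≤ IU) (h : D + IU ≤ 1 / 2)
    (hPD : dpsi D ≤ PD) (hPU : dpsi (D + IU) ≤ PU) :
    psiC (D + I) - psiC D ≤ IU * (PD + PU) / 2 := by
  have h1 : psiC (D + I) ≤ psiC (D + IU) := psiC_mono' (by linarith)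
  have h2 := psi_trap hD0 (show D ≤ D + IU by linarith) h
  have e : D + IU - D = IU := by ring
  rw [e] at h2
  have h3 : IU * (dpsi D + dpsi (D + IU)) / 2 ≤ IU * (PD + PU) / 2 := by
    have := mul_le_mul_of_nonneg_left (add_le_add hPD hPU) hIU0
    linarith
  linarith

/-- second bound of the increment -/
theorem gup_2 {D I IU PD lo hi : ℝ} (hD0 : 0 ≤ D) (hD : D ≤ 1 / 2) (hI : I ≤ IU) (hIU0 : 0 ≤ IU)
    (h : 1 / 2 < D + IU) (hPD : dpsi D ≤ PD) (hlo : lo ≤ T0) (hhi : T0 ≤ hi) :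
    psiC (D + I) - psiC D ≤ hi * IU + 1 / 2 * (1 / 2 - D) * PD - 1 / 2 * (1 / 2 - D) * lo := by
  have h1 : psiC (D + I) ≤ psiC (D + IU) := psiC_mono' (by linarith)
  have h2 := psi_trap hD0 hD (le_refl (1 / 2 : ℝ))
  rw [dpsi_of_ge (le_refl (1 / 2 : ℝ))] at h2
  have h3 : psiC (D + IU) = psiC (1 / 2) + T0 * (D + IU - 1 / 2) := by
    rw [psiC_of_gt h, psiC_half, rhoT_half]
  have hw : 0 ≤ 1 / 2 - D := by linarith
  have a1 := mul_le_mul_of_nonneg_right hhi hIU0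
  have a2 := mul_le_mul_of_nonneg_left hPD hw
  have a3 := mul_le_mul_of_nonneg_left hlo hw
  nlinarith

/-- the excess `E` in terms of `eps` -/
theorem E_le_eps (ht0 : 0 ≤ t) (ht1 : t < 1) (hq0 : 0 < q) (hq1 : q < 1) (he : eps t q ≠ 0) :
    Eq t q ≤ eps t q * (1 - uu t q / (2 * L) + N1 t q / (2 * L)) := by
  have hL := L_pos
  have hq2 := abar_sq_lt_one ht0 ht1 hq0 hq1
  have h1 : |abar t q| < 1 := by
    rw [← sq_lt_one_iff_abs_lt_one]
    exact hq2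
  have hab := abs_lt.1 h1
  have h2 := phi_le_one_sub hab.1 hab.2
  rw [abar_sq] at h2
  rw [Eq_eq ht0 ht1 hq0 hq1]
  have hp := p0_add_eps ht0 ht1 hq0 hq1
  have hN : LL t q = eps t q * N1 t q := by
    unfold N1
    field_simp
  rw [hN]
  have e1 : eps t q * uu t q / (2 * L) = eps t q * (uu t q / (2 * L)) := by ring
  have e2 : eps t q * N1 t q / (2 * L) = eps t q * (N1 t q / (2 * L)) := by ring
  rw [e1] at h2
  rw [e2]
  have : p0 t q = 1 - eps t q := by linarith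
  rw [this]
  nlinarith

theorem eps_pos_q (ht0 : 0 < t) (ht1 : t < 1) (hq0 : 0 < q) (hq1 : q < 1) : 0 < eps t q := by
  have hy := sq_lt_one' ht0.le ht1
  have hz := sq_lt_one' hq0.le hq1
  have hZ : 0 < ZZ t q := Z_pos (sq_nonneg t) hy.le (sq_nonneg q) hz
  unfold eps
  have : 0 < 1 - q ^ 2 := by linarith
  positivity

theorem N1_nonneg (ht0 : 0 < t) (ht1 : t < 1) (hq0 : 0 < q) (hq1 : q < 1) : 0 ≤ N1 t q := by
  unfold N1
  exact div_nonneg (LL_nonneg ht0.le ht1 hq0 hq1) (eps_pos_q ht0 ht1 hq0 hq1).le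

theorem LL_eq (ht0 : 0 < t) (ht1 : t < 1) (hq0 : 0 < q) (hq1 : q < 1) :
    LL t q = eps t q * N1 t q := by
  have := eps_pos_q ht0 ht1 hq0 hq1
  unfold N1
  field_simp

theorem fam1_u {d : ℝ} (ht0 : 0 < t) (ht1 : t < 1) (hq0 : 0 < q) (hq1 : q < 1) :
    eps t q * d + Iq t q = 1 - S (artanh q)
      + eps t q * (d - (1 - S (artanh q)) - N1 t q / (2 * L)) := by
  have hL := L_pos
  have hp : p0 t q = 1 - eps t q := by
    have := p0_add_eps ht0.le ht1 hq0 hq1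
    linarith
  rw [Iq_eq ht0.le ht1 hq0 hq1, hp, LL_eq ht0 ht1 hq0 hq1]
  field_simp
  ring

/-- The exact form of the second family: `D = eps d`. -/
theorem fam1_Q {d mh U Uu T2 : ℝ} (ht0 : 0 < t) (ht1 : t < 1) (hq0 : 0 < q) (hq1 : q < 1)
    (hm0 : 0 ≤ d - (1 - S (artanh q)) - N1 t q / (2 * L))
    (hmh : d - (1 - S (artanh q)) - N1 t q / (2 * L) ≤ mh)
    (hUh : U ≤ 1 / 2)
    (hUu : 1 - S (artanh q) + eps t q * (d - (1 - S (artanh q)) - N1 t q / (2 * L)) ≤ Uu)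
    (hU : min Uu (1 / 2) ≤ U)
    (hT2 : dpsi (1 - S (artanh q)) ≤ T2)
    (hd0 : 0 ≤ d) (hDh : eps t q * d ≤ 1 / 2) :
    Lft t q (eps t q * d) ≤ Jq t q + eps t q * (rhoθ (artanh q) + T2 * mh
      + 1 / 2 * (93 / 100 / (1 - U) ^ 2) * eps t q * mh ^ 2
      - eps t q * d ^ 2 / (4 * L) - N1 t q / L) := by
  have hL := L_pos
  have he := eps_pos_q ht0 ht1 hq0 hq1
  have hθ := artanh_nonneg' hq0
  have hS := S_le_one hθ
  set Y := 1 - S (artanh q) with hY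
  have hY0 : 0 ≤ Y := by rw [hY]; linarith
  set e := eps t q with hedef
  set N := N1 t q with hN
  set m := d - Y - N / (2 * L) with hm
  set c := 93 / 100 / (1 - U) ^ 2 with hc
  have hc0 : 0 ≤ c := by
    have : 0 < 1 - U := by linarith
    positivity
  have hp : p0 t q = 1 - e := by
    have := p0_add_eps ht0.le ht1 hq0 hq1
    rw [hedef]
    linarith
  have hLLe : LL t q = e * N := LL_eq ht0 ht1 hq0 hq1
  have hI : Iq t q = (1 - e) * Y - e * N / (2 * L) := by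
    rw [Iq_eq ht0.le ht1 hq0 hq1, hp, hLLe]
  have hu : e * d + Iq t q = Y + e * m := by
    rw [hI, hm]
    field_simp
    ring
  have hem0 : 0 ≤ e * m := mul_nonneg he.le hm0
  have hlip : ∀ x, Y ≤ x → x ≤ Y + e * m → dpsi x - dpsi Y ≤ c * (x - Y) := by
    intro x hx hxu
    apply dpsi_lip hY0 hx hUh
    exact (min_le_min_right _ (hxu.trans hUu)).trans hU
  have htay := psi_taylor (show Y ≤ Y + e * m by linarith) hlip
  have e1 : Y + e * m - Y = e * m := by ring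
  rw [e1] at htay
  have hρ := psiC_le_rho hθ
  rw [← hY] at hρ
  have hT20 : 0 ≤ T2 := (dpsi_nonneg' _).trans hT2
  have h1 : dpsi Y * (e * m) ≤ T2 * (e * mh) := by
    have a1 : e * m ≤ e * mh := mul_le_mul_of_nonneg_left hmh he.le
    exact mul_le_mul hT2 a1 hem0 hT20
  have h2 : c / 2 * (e * m) ^ 2 ≤ c / 2 * (e * mh) ^ 2 := by
    have a1 : e * m ≤ e * mh := mul_le_mul_of_nonneg_left hmh he.le
    have a2 := pow_le_pow_left₀ hem0 a1 2
    exact mul_le_mul_of_nonneg_left a2 (by positivity)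
  have h3 := psiC_ge (mul_nonneg he.le hd0) hDh
  have hJ := Jq_sub ht0.le ht1 hq0 hq1
  rw [hp, hLLe] at hJ
  unfold Lft
  rw [hu]
  have e2 : e * (rhoθ (artanh q) + T2 * mh + 1 / 2 * c * e * mh ^ 2 - e * d ^ 2 / (4 * L) - N / L)
      = e * rhoθ (artanh q) + T2 * (e * mh) + c / 2 * (e * mh) ^ 2 - (e * d) ^ 2 / (4 * L)
        - e * N / L := by
    field_simp
  rw [e2]
  have e3 : (1 - e) * rhoθ (artanh q) = rhoθ (artanh q) - e * rhoθ (artanh q) := by ring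
  rw [e3] at hJ
  linarith

end

end CK322
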