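import Vale.Agent.Lib.P322.KZoneT

/-!
The grid of the cell check of `KEYprop`.
-/

namespace CK322

def tsListK : List ℕ := [2305843009213693952, 4611686018427387904, 6917529027641081856, 9223372036854775808, 11529215046068469760, 13835058055282163712, 16140901064495857664, 17293822569102704640, 17870283321406128128, 18158513697557839872, 18302628885633695744, 18374686479671623680, 18410715276690587648, 18428729675200069632, 18437736874454810624]

/-- all cells of one strip of `q` -/
def stripOK (q1 q2 : ℕ) : Bool :=
  chainOK (fun t1 t2 => ktreeOK 5 t1 t2 q1 q2) 0 (tsListK ++ [t4K])

def qA3 : ℕ := 7126496050351072870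
def qA7 : ℕ := 11709359031163289599

end CK322
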