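import Vale.Agent.Lib.P322.KGrid

namespace CK322

theorem grid1 : chainOK stripOK qLoK ([4835064559944964505, 5980780305148018687] ++ [qA3]) = true := by decide +kernel

end CK322
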