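import Vale.Agent.Lib.P322.KGrid

namespace CK322

theorem grid2 : chainOK stripOK qA3 ([8272211795554127052, 9417927540757181235, 10563643285960235417] ++ [qA7]) = true := by decide +kernel

end CK322
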