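import Vale.Agent.Lib.P322.KGrid

namespace CK322

theorem grid3 : chainOK stripOK qA7 ([12855074776366343782, 14000790521569397964, 15146506266772452147, 16292222011975506329] ++ [qHiK]) = true := by decide +kernel

end CK322
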