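import Vale.Agent.Lib.P322.PsiCvx

/-!
The shape of the one step inequality: from its two ends to all of `[0,D]`.
-/

open Real Set Filter Topology

namespace CK322

noncomputable section

section shape

variable {I J s D : ℝ}

private theorem hasDerivAt_G (I s x : ℝ) :
    HasDerivAt (fun x => psiC (x + I) - psiC x - s * x) (dpsi (x + I) - dpsi x - s) x := by
  have a1 : HasDerivAt (fun y => psiC (y + I)) (dpsi (x + I)) x :=
    (hasDerivAt_psiC' (x + I)).comp_add_const x I
  have a2 := hasDerivAt_psiC' x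
  have a3 : HasDerivAt (fun y => s * y) s x := by
    simpa using (hasDerivAt_id x).const_mul s
  exact (a1.fun_sub a2).fun_sub a3

private theorem convex_G (hI : 0 ≤ I) {b : ℝ} (hb : b + I ≤ 1 / 2) (s : ℝ) :
    ConvexOn ℝ (Icc 0 b) (fun x => psiC (x + I) - psiC x - s * x) := by
  apply MonotoneOn.convexOn_of_deriv (convex_Icc _ _)
  · exact fun x _ => (hasDerivAt_G I s x).continuousAt.continuousWithinAt
  · exact fun x _ => (hasDerivAt_G I s x).differentiableAt.differentiableWithinAt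
  · intro x hx y hy hxy
    rw [interior_Icc] at hx hy
    rw [(hasDerivAt_G I s x).deriv, (hasDerivAt_G I s y).deriv]
    have := dpsi_incr hx.1.le hxy hI (show y + I ≤ 1 / 2 by linarith [hy.2])
    linarith

/-- on the part where `dpsi` is not capped the maximum is at an end -/
private theorem shape_conc (hI : 0 ≤ I) {b K : ℝ} (hb : b + I ≤ 1 / 2)
    (hA : psiC I ≤ K) (hB : psiC (b + I) - psiC b - s * b ≤ K) {x : ℝ} (hx : 0 ≤ x) (hxb : x ≤ b) :
    psiC (x + I) - psiC x - s * x ≤ K := by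
  have h := (convex_G hI hb s).le_max_of_mem_Icc (x := 0) (y := b) (z := x)
    ⟨le_rfl, hx.trans hxb⟩ ⟨hx.trans hxb, le_rfl⟩ ⟨hx, hxb⟩
  simp only [zero_add, psiC_zero, sub_zero, mul_zero] at h
  exact h.trans (max_le hA hB)

/-- on the capped part the function is monotone if the slope condition holds -/
private theorem shape_mono (hC : s + dpsi D ≤ T0) {a : ℝ} (ha : 1 / 2 ≤ a + I) {x : ℝ} (hax : a ≤ x)
    (hxD : x ≤ D) :
    psiC (x + I) - psiC x - s * x ≤ psiC (D + I) - psiC D - s * D := by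
  have hm : MonotoneOn (fun x => psiC (x + I) - psiC x - s * x) (Icc a D) := by
    apply monotoneOn_of_deriv_nonneg (convex_Icc _ _)
    · exact fun x _ => (hasDerivAt_G I s x).continuousAt.continuousWithinAt
    · exact fun x _ => (hasDerivAt_G I s x).differentiableAt.differentiableWithinAt
    · intro y hy
      rw [interior_Icc] at hy
      rw [(hasDerivAt_G I s y).deriv, dpsi_of_ge (show 1 / 2 ≤ y + I by linarith [hy.1])]
      have := dpsi_mono' hy.2.le
      linarith
  exact hm ⟨hax, hxD⟩ ⟨hax.trans hxD, le_rfl⟩ hxD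

theorem shape_main (hI : 0 ≤ I) (hR : psiC I ≤ J) (hD : psiC (D + I) - psiC D - s * D ≤ J)
    (hC : D + I ≤ 1 / 2 ∨ s + dpsi D ≤ T0) {x : ℝ} (hx : 0 ≤ x) (hxD : x ≤ D) :
    psiC (x + I) - psiC x - s * x ≤ J := by
  rcases hC with hC | hC
  · exact shape_conc hI hC hR hD hx hxD
  · by_cases h : 1 / 2 ≤ x + I
    · exact (shape_mono hC h le_rfl hxD).trans hD
    · have h' : x + I < 1 / 2 := not_le.1 h
      by_cases h2 : D + I ≤ 1 / 2
      · exact shape_conc hI h2 hR hD hx hxD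
      · have h2' : 1 / 2 < D + I := not_le.1 h2
        have hb : (1 / 2 - I) + I = 1 / 2 := by ring
        have hbD : (1 / 2 - I) ≤ D := by linarith
        have h3 := shape_mono (I := I) (a := 1 / 2 - I) (x := 1 / 2 - I) hC (by rw [hb]) le_rfl hbD
        exact shape_conc hI hb.le hR (h3.trans hD) hx (by linarith)

/-- monotonicity of the increment -/
theorem incr_mono (hI : 0 ≤ I) {x y : ℝ} (hxy : x ≤ y) :
    psiC (x + I) - psiC x ≤ psiC (y + I) - psiC y := by
  have hm : MonotoneOn (fun x => psiC (x + I) - psiC x - 0 * x) (Icc x y) := by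
    apply monotoneOn_of_deriv_nonneg (convex_Icc _ _)
    · exact fun x _ => (hasDerivAt_G I 0 x).continuousAt.continuousWithinAt
    · exact fun x _ => (hasDerivAt_G I 0 x).differentiableAt.differentiableWithinAt
    · intro z _
      rw [(hasDerivAt_G I 0 z).deriv]
      have := dpsi_mono' (show z ≤ z + I by linarith)
      linarith
  have := hm (left_mem_Icc.2 hxy) (right_mem_Icc.2 hxy) hxy
  simpa using this

end shape

/-! ### the numbers of a pair of means -/

section key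

variable {t q : ℝ}

theorem Iq_nonneg_s (ht0 : 0 ≤ t) (ht1 : t < 1) (hq0 : 0 < q) (hq1 : q < 1) : 0 ≤ Iq t q := by
  obtain ⟨ha, hb, -, -⟩ := tq_mem ht0 ht1 hq0 hq1
  obtain ⟨hav, -⟩ := tq_avg ht0 ht1 hq0 hq1
  have hc := Real.strictConcave_binEntropy.concaveOn
  have hm1 : (1 + aP t q) / 2 ∈ Icc (0 : ℝ) 1 := ⟨by linarith [ha.1], by linarith [ha.2]⟩
  have hm2 : (1 + aM t q) / 2 ∈ Icc (0 : ℝ) 1 := ⟨by linarith [hb.1], by linarith [hb.2]⟩
  have h := hc.2 hm1 hm2 (show (0 : ℝ) ≤ 1 / 2 by norm_num) (show (0 : ℝ) ≤ 1 / 2 by norm_num)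
    (by norm_num)
  simp only [smul_eq_mul] at h
  have e : 1 / 2 * ((1 + aP t q) / 2) + 1 / 2 * ((1 + aM t q) / 2) = (1 + abar t q) / 2 := by
    rw [← hav]
    ring
  rw [e] at h
  unfold Iq xq phi
  have hL := L_pos
  have e2 : binEntropy ((1 + abar t q) / 2) / L
      - (binEntropy ((1 + aP t q) / 2) / L + binEntropy ((1 + aM t q) / 2) / L) / 2
      = (binEntropy ((1 + abar t q) / 2)
        - (1 / 2 * binEntropy ((1 + aP t q) / 2) + 1 / 2 * binEntropy ((1 + aM t q) / 2))) / L := by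
    field_simp
  rw [e2]
  apply div_nonneg _ hL.le
  linarith

theorem p0_bounds (ht0 : 0 ≤ t) (ht1 : t < 1) (hq0 : 0 < q) (hq1 : q < 1) :
    0 < p0 t q ∧ p0 t q ≤ 1 := by
  have := p0_le_one ht0 ht1 hq0.le hq1
  exact ⟨this.2, this.1⟩

theorem artanh_nonneg' (hq0 : 0 < q) : 0 ≤ artanh q := Real.artanh_nonneg hq0.le

/-- the value at the left end -/
theorem R0_le (ht0 : 0 ≤ t) (ht1 : t < 1) (hq0 : 0 < q) (hq1 : q < 1) :
    psiC (Iq t q) ≤ Jq t q - 2 * Iq t q := by
  have hLL := LL_nonneg ht0 ht1 hq0 hq1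
  have hL := L_pos
  obtain ⟨hp0, hp1⟩ := p0_bounds ht0 ht1 hq0 hq1
  have h1 : Iq t q ≤ p0 t q * (1 - S (artanh q)) := by
    rw [Iq_eq ht0 ht1 hq0 hq1]
    have : 0 ≤ LL t q / (2 * L) := by positivity
    linarith
  have h2 := psiC_mono' h1
  have h3 := psiC_mul_le (Y := 1 - S (artanh q)) hp0.le hp1
  have h4 := psiC_le_rho (artanh_nonneg' hq0)
  have h5 := mul_le_mul_of_nonneg_left h4 hp0.le
  rw [Jq_sub ht0 ht1 hq0 hq1]
  have : 0 ≤ LL t q / L := by positivity
  linarith

theorem sstar_nonneg (ht0 : 0 ≤ t) (ht1 : t < 1) (hq0 : 0 < q) (hq1 : q < 1) : 0 ≤ sstar t q := by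
  have := (p0_bounds ht0 ht1 hq0 hq1).1
  unfold sstar
  positivity

/-- from the right end of the interval to all of it -/
theorem all_x {D : ℝ} (ht0 : 0 ≤ t) (ht1 : t < 1) (hq0 : 0 < q) (hq1 : q < 1)
    (hA : Lft t q D ≤ Jq t q + sstar t q * D)
    (hC : D + Iq t q ≤ 1 / 2 ∨ sstar t q + dpsi D ≤ T0 ∨ Lft t q D ≤ Jq t q) :
    ∀ x, 0 ≤ x → x ≤ D → Lft t q x ≤ Jq t q + sstar t q * x := by
  intro x hx hxD
  have hI := Iq_nonneg_s ht0 ht1 hq0 hq1
  have hs := sstar_nonneg ht0 ht1 hq0 hq1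
  unfold Lft at hA hC ⊢
  rcases hC with hC | hC | hC
  · have := shape_main (s := sstar t q) (J := Jq t q - 2 * Iq t q) hI (R0_le ht0 ht1 hq0 hq1)
      (by linarith) (Or.inl hC) hx hxD
    linarith
  · have := shape_main (s := sstar t q) (J := Jq t q - 2 * Iq t q) hI (R0_le ht0 ht1 hq0 hq1)
      (by linarith) (Or.inr hC) hx hxD
    linarith
  · have h1 := incr_mono hI hxD
    have h2 : 0 ≤ sstar t q * x := mul_nonneg hs hx
    linarith

end key

end

end CK322
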