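import Vale.Agent.Lib.P322.Bellman2
import Vale.Agent.Lib.P322.KEnds

/-!
The statement `KEYprop` for small `q`.
-/

open Real Set Filter Topology

namespace CK322

noncomputable section

theorem artanh_ge {y : ℝ} (h0 : 0 ≤ y) (h1 : y < 1) : y ≤ artanh y := by
  have hd : ∀ x : ℝ, 0 ≤ x → x < 1 → HasDerivAt (fun x => artanh x - x) (1 / (1 - x ^ 2) - 1) x := by
    intro x hx0 hx1
    exact (hasDerivAt_artanh_semi ⟨by linarith, hx1⟩).sub (hasDerivAt_id x)
  have hm : MonotoneOn (fun x => artanh x - x) (Ico 0 1) := by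
    apply monotoneOn_of_deriv_nonneg (convex_Ico 0 1)
    · intro x hx
      exact (hd x hx.1 hx.2).continuousAt.continuousWithinAt
    · intro x hx
      rw [interior_Ico] at hx
      exact (hd x hx.1.le hx.2).differentiableAt.differentiableWithinAt
    · intro x hx
      rw [interior_Ico] at hx
      rw [(hd x hx.1.le hx.2).deriv]
      have h2 : 0 < 1 - x ^ 2 := by nlinarith [hx.1, hx.2]
      have h3 : 1 ≤ 1 / (1 - x ^ 2) := by
        rw [le_div_iff₀ h2]
        nlinarith [sq_nonneg x]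
      linarith
  have := hm (left_mem_Ico.2 one_pos) ⟨h0, h1⟩ h0
  simp only [Real.artanh_zero, sub_zero] at this
  linarith

section

variable {t q : ℝ}

theorem N1_le (ht0 : 0 < t) (ht1 : t < 1) (hq0 : 0 < q) (hq1 : q < 1) :
    N1 t q ≤ -log (1 - q ^ 2) - q ^ 2 := by
  rw [N1_eq ht0 ht1 hq0 hq1]
  have hz : 0 < 1 - q ^ 2 := by nlinarith
  have hZ : 0 < ZZ t q := by
    unfold ZZ
    nlinarith [sq_nonneg t, sq_nonneg q, sq_nonneg (t * q), mul_pos ht0 hq0, mul_pos (sub_pos.2 ht1) hq0]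
  have he : 0 < eps t q := by
    unfold eps
    positivity
  have h1 : log (1 + eps t q * q ^ 2) / eps t q ≤ q ^ 2 := by
    rw [div_le_iff₀ he]
    have := Real.log_le_sub_one_of_pos (show 0 < 1 + eps t q * q ^ 2 by positivity)
    linarith
  have hy0 : 0 ≤ t * q ^ 2 := by positivity
  have hy1 : t * q ^ 2 < 1 := by
    have : q ^ 2 < 1 := by nlinarith
    nlinarith [sq_nonneg q]
  have h2 := artanh_ge hy0 hy1
  have h3 : 2 * q ^ 2 ≤ 2 * artanh (t * q ^ 2) / t := by
    rw [le_div_iff₀ ht0]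
    nlinarith
  linarith

theorem N1_small (ht0 : 0 < t) (ht1 : t < 1) (hq0 : 0 < q) (hq : q ≤ 1 / 5) : N1 t q ≤ 1 / 600 := by
  have hq1 : q < 1 := by linarith
  refine (N1_le ht0 ht1 hq0 hq1).trans ?_
  have hz0 : 0 ≤ q ^ 2 := sq_nonneg q
  have hz1 : q ^ 2 ≤ 1 / 25 := by nlinarith
  have h1 : 0 < 1 - q ^ 2 := by linarith
  have h2 := Real.log_le_sub_one_of_pos (show 0 < (1 - q ^ 2)⁻¹ by positivity)
  rw [Real.log_inv] at h2
  have h3 : (1 - q ^ 2)⁻¹ - 1 - q ^ 2 ≤ 1 / 600 := by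
    have e : (1 - q ^ 2)⁻¹ - 1 - q ^ 2 = (q ^ 2) ^ 2 / (1 - q ^ 2) := by
      field_simp
      ring
    rw [e, div_le_iff₀ h1]
    nlinarith
  linarith

theorem eps_le_sq (ht0 : 0 ≤ t) (ht1 : t < 1) (hq0 : 0 ≤ q) (hq1 : q < 1) : eps t q ≤ t ^ 2 := by
  have hZ := Z_pos (sq_nonneg t) (sq_le_one' ht0 ht1.le) (sq_nonneg q) (sq_lt_one' hq0 hq1)
  unfold eps ZZ
  rw [div_le_iff₀ hZ]
  have h1 : t ^ 2 ≤ 1 := sq_le_one' ht0 ht1.le
  have h2 : 0 ≤ q ^ 2 := sq_nonneg q
  nlinarith [mul_nonneg (sq_nonneg t) (mul_nonneg h2 (sub_nonneg.2 h1))]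

end

/-- `σ ≤ L gam` -/
theorem sig_le_gam {q : ℝ} (hq0 : 0 < q) (hq1 : q < 1) : q ^ 2 / (1 + q ^ 2) ≤ L * gam (artanh q) := by
  have hLb := L_bounds
  have hL := L_pos
  have hmem : q ∈ Ioo (-1 : ℝ) 1 := ⟨by linarith, hq1⟩
  set s := artanh q with hs
  have hq : tanh s = q := Real.tanh_artanh hmem
  set c := cosh s with hc
  have hc1 : 1 ≤ c := Real.one_le_cosh s
  have hcp : 0 < c := by linarith
  have hz1 : q ^ 2 < 1 := by nlinarith
  have hzeq : 1 - q ^ 2 = 1 / c ^ 2 := by
    rw [← hq]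
    exact one_sub_tanh_sq s
  have hwc : (1 - q ^ 2) * c ^ 2 = 1 := by rw [hzeq]; field_simp
  have hsinh : sinh s ^ 2 = c ^ 2 - 1 := Real.sinh_sq s
  have hzc : c ^ 2 - 1 = q ^ 2 * c ^ 2 := by nlinarith
  have hlog : log (2 * c) = L + log c := by
    unfold L
    rw [Real.log_mul (by norm_num) hcp.ne']
  have hlogc : 0 ≤ log c := Real.log_nonneg hc1
  have hlog2 : 2 * log c ≤ c ^ 2 - 1 := by
    have := Real.log_le_sub_one_of_pos (show 0 < c ^ 2 by positivity)
    rw [Real.log_pow] at this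
    push_cast at this
    linarith
  have hpos : 0 < L + log c := by linarith
  unfold gam
  rw [hsinh, hlog]
  have hL2 : 1 / 2 ≤ L := by norm_num at hLb ⊢; linarith [hLb.1]
  have h1 : L + log c ≤ L * c ^ 2 := by
    have hc2 : 1 ≤ c ^ 2 := by nlinarith
    nlinarith
  rw [← mul_div_assoc, le_div_iff₀ hpos, div_mul_eq_mul_div, div_le_iff₀ (by positivity)]
  have hq2 : 0 ≤ q ^ 2 := sq_nonneg q
  have h2 : q ^ 2 * (L + log c) ≤ q ^ 2 * (L * c ^ 2) := mul_le_mul_of_nonneg_left h1 hq2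
  have h3 : L * (c ^ 2 - 1) * (1 + q ^ 2) = q ^ 2 * (L * c ^ 2) * (1 + q ^ 2) := by
    rw [hzc]; ring
  rw [h3]
  have h4 : 0 ≤ q ^ 2 * (L * c ^ 2) * q ^ 2 := by positivity
  nlinarith

theorem gam_nonneg' {q : ℝ} (hq0 : 0 < q) (hq1 : q < 1) : 0 ≤ gam (artanh q) :=
  (gam_pos (Real.artanh_pos ⟨hq0, hq1⟩)).le

/-- `.93 Y ≤ .71 σ` for small `q` -/
theorem Y_le_sig {q : ℝ} (hq0 : 0 < q) (hq : q ≤ 1 / 5) :
    93 / 100 * (1 - S (artanh q)) ≤ 71 / 100 * (q ^ 2 / (1 + q ^ 2)) := by
  have hLb := L_bounds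
  have hL := L_pos
  have hq1 : q < 1 := by linarith
  have h := hF_nonpos hq0.le hq1
  unfold hF at h
  rw [phi_eq_S hq0.le hq1] at h
  have hz0 : 0 < q ^ 2 := by positivity
  have hz1 : q ^ 2 ≤ 1 / 25 := by nlinarith
  have e4 : q ^ 4 = q ^ 2 * q ^ 2 := by ring
  set z := q ^ 2 with hz
  rw [e4] at h
  have hL1 : 0 < L - 1 / 2 := by norm_num at hLb ⊢; linarith [hLb.1]
  have hY : L * (1 - S (artanh q)) ≤ z * (1 / 2 + (L - 1 / 2) * z) := by nlinarith
  have hnum : 93 / 100 * ((1 / 2 + (L - 1 / 2) * z) * (1 + z)) ≤ 71 / 100 * L := by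
    have h1 : (L - 1 / 2) * z ≤ (L - 1 / 2) * (1 / 25) := mul_le_mul_of_nonneg_left hz1 hL1.le
    have h2 : (1 / 2 + (L - 1 / 2) * z) * (1 + z) ≤ (1 / 2 + (L - 1 / 2) * (1 / 25)) * (1 + 1 / 25) := by
      apply mul_le_mul (by linarith) (by linarith) (by linarith) (by nlinarith)
    norm_num at hLb
    nlinarith [hLb.1, hLb.2]
  rw [← mul_div_assoc, le_div_iff₀ (by positivity)]
  have h3 : 93 / 100 * (1 - S (artanh q)) * (1 + z) * L ≤ 71 / 100 * z * L := by
    have h4 := mul_le_mul_of_nonneg_right hY (show 0 ≤ 93 / 100 * (1 + z) by positivity)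
    have h5 := mul_le_mul_of_nonneg_left hnum hz0.le
    nlinarith
  exact le_of_mul_le_mul_right h3 hL

/-- the small `q` case, core -/
theorem KEY_S_core {t q d : ℝ} (ht0 : 0 ≤ t) (ht1 : t < 1) (hq0 : 0 < q) (hq : q ≤ 1 / 5)
    (hd0 : 0 ≤ d) (hE : Eq t q ≤ d * (1 - L * p0 t q))
    (hsum : d + p0 t q * (1 - S (artanh q)) ≤ 29 / 100) : KEYprop t q := by
  have hq1 : q < 1 := by linarith
  have hL := L_pos
  have hI0 := Iq_nonneg ht0 ht1 hq0 hq1
  have hIle := Iq_le ht0 ht1 hq0 hq1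
  obtain ⟨hp1, hp0⟩ := p0_le_one ht0 ht1 hq0.le hq1
  have hYs := Y_le_sig hq0 hq
  have hLft0 := Lft_zero_le ht0 ht1 hq0 hq1
  have hsig0 : 0 ≤ q ^ 2 / (1 + q ^ 2) := by positivity
  have hstar : sstar t q = p0 t q * (q ^ 2 / (1 + q ^ 2)) := rfl
  have hLx : ∀ x, 0 ≤ x → x ≤ d → Lft t q x ≤ Jq t q + sstar t q * x := by
    intro x hx0 hxd
    have h1 := supF_le_a hx0 hI0 (by linarith)
    have h2 : Lft t q x = Lft t q 0 + supF x (Iq t q) := by
      unfold Lft supF
      rw [zero_add, psiC_zero]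
      ring
    rw [h2]
    have h3 : 93 / 100 * x * Iq t q / (1 - Iq t q - x) ≤ sstar t q * x := by
      have hden : 71 / 100 ≤ 1 - Iq t q - x := by linarith
      rw [div_le_iff₀ (by linarith)]
      have hsx : 0 ≤ sstar t q * x := by
        rw [hstar]; positivity
      have h4 : sstar t q * x * (71 / 100) ≤ sstar t q * x * (1 - Iq t q - x) :=
        mul_le_mul_of_nonneg_left hden hsx
      have h5 : 93 / 100 * x * Iq t q ≤ 93 / 100 * x * (p0 t q * (1 - S (artanh q))) :=
        mul_le_mul_of_nonneg_left hIle (by positivity)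
      have h6 := mul_le_mul_of_nonneg_left hYs (show 0 ≤ p0 t q * x by positivity)
      rw [hstar] at h4 ⊢
      nlinarith
    linarith
  refine Or.inr ⟨d, hd0, ?_, hLx, ?_⟩
  · have : L * p0 t q ≥ 0 := by positivity
    nlinarith
  · have h1 := hLx d hd0 le_rfl
    have hsg := sig_le_gam hq0 hq1
    have hg := gam_nonneg' hq0 hq1
    have h2 : sstar t q * d ≤ gam (artanh q) * (d - Eq t q) := by
      have h3 : L * p0 t q * d ≤ d - Eq t q := by nlinarith
      have h4 := mul_le_mul_of_nonneg_left h3 hg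
      have h5 := mul_le_mul_of_nonneg_right hsg (show 0 ≤ p0 t q * d by positivity)
      rw [hstar]
      nlinarith
    linarith

/-- `1/5` rounded up -/
def q5 : ℕ := 3689348814741910324

def smallL (t1 t2 : ℕ) : IV :=
  IV.add (ivS (ivAbar (IV.pt t1) (IV.pt q5))) (IV.mul (ivsq (IV.pt t2)) (IV.ofQ 501 500))

def smallR (t1 : ℕ) : IV :=
  IV.add ONE (IV.mul (IV.ofQ 13 50)
    (IV.sub ONE (IV.mul LIV (IV.sub ONE (ivEps (IV.pt t1) (IV.pt q5))))))

/-- the cell check for small `q` -/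
def smallOK (t1 t2 : ℕ) : Bool :=
  (smallL t1 t2).ok && (smallR t1).ok && Nat.ble (smallL t1 t2).hi (smallR t1).lo

def smallList : List ℕ := [288230376151711744, 576460752303423488, 864691128455135232, 1152921504606846976, 1441151880758558720, 1729382256910270464, 2017612633061982208, 2305843009213693952, 2594073385365405696, 2882303761517117440, 3170534137668829184, 3458764513820540928, 3746994889972252672, 4035225266123964416, 4323455642275676160, 4611686018427387904, 4899916394579099648, 5188146770730811392, 5476377146882523136, 5764607523034234880, 6052837899185946624, 6341068275337658368, 6629298651489370112, 6917529027641081856, 7205759403792793600, 7493989779944505344, 7782220156096217088, 8070450532247928832, 8358680908399640576, 8646911284551352320, 8935141660703064064, 9223372036854775808, 9511602413006487552, 9799832789158199296, 10088063165309911040, 10376293541461622784, 10664523917613334528, 10952754293765046272, 11240984669916758016, 11529215046068469760,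 11817445422220181504, 12105675798371893248, 12393906174523604992, 12682136550675316736, 12970366926827028480, 13258597302978740224, 13546827679130451968, 13835058055282163712, 14123288431433875456, 14411518807585587200, 14699749183737298944, 14987979559889010688, 15276209936040722432, 15564440312192434176, 15852670688344145920, 16140901064495857664, 16429131440647569408, 16717361816799281152, 17005592192950992896, 17293822569102704640, 17582052945254416384, 17870283321406128128, 18158513697557839872]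

theorem small_root : chainOK smallOK 0 (smallList ++ [SC]) = true := by decide +kernel

theorem small_Y : (ivS (IV.pt q5)).ok = true ∧ Nat.ble 17893341751498265068 (ivS (IV.pt q5)).lo = true := by
  decide +kernel

theorem KEY_small {t q : ℝ} (ht0 : 0 < t) (ht1 : t < 1) (hq0 : 0 < q) (hq : q ≤ 1 / 5) :
    KEYprop t q := by
  have hq1 : q < 1 := by linarith
  have hv5 : (1 : ℝ) / 5 ≤ val q5 := by unfold val q5 SC; norm_num
  have hv51 : val q5 < 1 := by unfold val q5 SC; norm_num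
  have hqv : q ≤ val q5 := hq.trans hv5
  obtain ⟨t1, t2, hok, h1, h2⟩ := chainOK_sound (x := t) smallList 0 SC small_root
    (by simpa [val] using ht0.le) (by rw [val_SC]; exact ht1.le)
  unfold smallOK at hok
  simp only [Bool.and_eq_true] at hok
  obtain ⟨⟨hL, hR⟩, hle⟩ := hok
  have hLb := L_bounds
  have hL0 := L_pos
  have ht10 : 0 ≤ val t1 := val_nonneg t1
  have ht11 : val t1 < 1 := h1.trans_lt ht1
  -- the left side
  have hab0 : 0 ≤ abar (val t1) (val q5) := by
    unfold abar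
    exact mul_nonneg ht10 (uu_nonneg' ht10 ht11.le (val_nonneg _) hv51)
  have hab1 : abar (val t1) (val q5) < 1 := by
    have := abar_sq_lt_one ht10 ht11 (by linarith [hv5] : (0 : ℝ) < val q5) hv51
    nlinarith
  have m1 := (mem_S (mem_abar (IV.mem_pt t1) (IV.mem_pt q5)) hab0 hab1)
  have m2 := IV.mem_mul (mem_sq (IV.mem_pt t2)) (IV.mem_ofQ 501 500)
  have mL := (IV.mem_add m1 m2) hL
  -- the right side
  have m3 := IV.mem_sub mem_ONE (IV.mem_mul mem_LIV (IV.mem_sub mem_ONE (mem_eps (IV.mem_pt t1) (IV.mem_pt q5))))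
  have mR := (IV.mem_add mem_ONE (IV.mem_mul (IV.mem_ofQ 13 50) m3)) hR
  have hchain := mL.2.trans ((val_mono (Nat.le_of_ble_eq_true hle)).trans mR.1)
  push_cast at hchain
  -- the quantities at `(t,q)`
  have hepsT : eps (val t1) (val q5) ≤ eps t q := c_eps_lo ht10 h1 ht1.le hq0.le hqv hv51
  have hadd := p0_add_eps ht0.le ht1 hq0 hq1
  have hpU : p0 t q ≤ 1 - eps (val t1) (val q5) := by linarith
  have hepsle := eps_le_sq ht0.le ht1 hq0.le hq1
  have ht2sq : t ^ 2 ≤ val t2 ^ 2 := pow_le_pow_left₀ ht0.le h2 2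
  have hZ : 0 < ZZ t q := Z_pos (sq_nonneg t) (sq_le_one' ht0.le ht1.le) (sq_nonneg q) (sq_lt_one' hq0.le hq1)
  have he : 0 < eps t q := by
    unfold eps
    have : 0 < 1 - q ^ 2 := by nlinarith
    positivity
  have hN := N1_small ht0 ht1 hq0 hq
  have hLLeq : LL t q = eps t q * N1 t q := by
    unfold N1; field_simp
  have hNL : N1 t q / (2 * L) ≤ 1 / 500 := by
    rw [div_le_iff₀ (by positivity)]
    norm_num at hLb
    nlinarith [hLb.1]
  have hE1 : Eq t q ≤ phi (abar t q) - 1 + t ^ 2 * (501 / 500) := by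
    rw [Eq_eq ht0.le ht1 hq0 hq1, hLLeq]
    have e : p0 t q = 1 - eps t q := by linarith
    rw [e]
    have e2 : eps t q * N1 t q / (2 * L) = eps t q * (N1 t q / (2 * L)) := by ring
    rw [e2]
    have h3 : eps t q * (N1 t q / (2 * L)) ≤ eps t q * (1 / 500) := mul_le_mul_of_nonneg_left hNL he.le
    nlinarith
  -- `phi (abar t q) ≤ phi (abar t1 q5)`
  have hab2 : abar (val t1) (val q5) ≤ abar t q := by
    have h3 := c_abar ht10 h1 ht1.le hq0.le hqv hv51
    have h4 : 0 ≤ abar t q := by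
      unfold abar
      exact mul_nonneg ht0.le (uu_nonneg' ht0.le ht1.le hq0.le hq1)
    exact abs_le_of_sq_le_sq' h3 h4 |>.2
  have hab3 : abar t q < 1 := by
    have := abar_sq_lt_one ht0.le ht1 hq0 hq1
    have h4 : 0 ≤ abar t q := hab0.trans hab2
    nlinarith
  have hphi := phi_anti hab0 hab2 hab3
  have hphi2 : phi (abar (val t1) (val q5)) = S (artanh (abar (val t1) (val q5))) := phi_eq_S hab0 hab1
  have hvalsc : (((501 : ℕ) : ℝ) / ((500 : ℕ) : ℝ)) = 501 / 500 := by norm_num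
  have hval13 : (((13 : ℕ) : ℝ) / ((50 : ℕ) : ℝ)) = 13 / 50 := by norm_num
  obtain ⟨hp1, hp0⟩ := p0_le_one ht0.le ht1 hq0.le hq1
  apply KEY_S_core ht0.le ht1 hq0 hq (d := 13 / 50) (by norm_num)
  · have h5 : 1 - L * (1 - eps (val t1) (val q5)) ≤ 1 - L * p0 t q := by
      have := mul_le_mul_of_nonneg_left hpU hL0.le
      linarith
    have h6 : 13 / 50 * (1 - L * (1 - eps (val t1) (val q5))) ≤ 13 / 50 * (1 - L * p0 t q) :=
      mul_le_mul_of_nonneg_left h5 (by norm_num)
    have h7 : val t2 ^ 2 * (501 / 500) ≥ t ^ 2 * (501 / 500) := by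
      apply mul_le_mul_of_nonneg_right ht2sq (by norm_num)
    norm_num at hchain
    linarith
  · -- the sum
    obtain ⟨s1, s2⟩ := small_Y
    have m5 := (mem_S (IV.mem_pt q5) (val_nonneg _) hv51) s1
    have h8 := val_mono (Nat.le_of_ble_eq_true s2)
    have h9 : (97 / 100 : ℝ) ≤ val 17893341751498265068 := by
      unfold val SC; norm_num
    have h10 := S_anti_q hq0.le hqv hv51
    have h11 : 1 - S (artanh q) ≤ 3 / 100 := by linarith [m5.1]
    have hY0 := Y_nonneg hq0 hq1
    have h12 : p0 t q * (1 - S (artanh q)) ≤ 1 * (3 / 100) :=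
      mul_le_mul hp1 h11 hY0 (by norm_num)
    linarith

end

end CK322
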