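import Vale.Agent.Lib.P322.KCell

/-!
`KEYprop` for `t` close to `1`: the weight `p0` is very small and `x'` is small.
-/

open Real

namespace CK322

def t4K : ℕ := 18442240474082181120
def qLoK : ℕ := 3689348814741910323
def qHiK : ℕ := 17437937757178560512
def zu : ℕ := 410843451870695271
def zp : ℕ := 84310546144362479
def zc : ℕ := 17546259977352199425

/-- the closed numbers of the zone -/
def zT0 : Bool :=
  (ivEps (IV.pt t4K) (IV.pt qHiK)).ok && (ivUU (IV.pt t4K) (IV.pt qHiK)).ok &&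
  (ivS (IV.pt (kpAb t4K qHiK))).ok && (IV.div F93 (IV.sub ONE (IV.pt zu))).ok &&
  Nat.ble (ivS (IV.pt (kpAb t4K qHiK))).hi zu &&
  Nat.ble (Nat.sub SC (ivEps (IV.pt t4K) (IV.pt qHiK)).lo) zp &&
  Nat.ble (IV.div F93 (IV.sub ONE (IV.pt zu))).hi zc &&
  Nat.ble zu HALFN

theorem zT0_true : zT0 = true := by decide +kernel

/-- the check on a cell of `q` -/
def zTcell (q1 q2 : ℕ) : Bool :=
  (ivY (IV.pt q2)).ok && (ivSig (IV.pt q1)).ok && (ivRho (IV.pt q1)).ok &&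
  Nat.blt 0 q1 && Nat.blt q2 SC &&
  Nat.ble
    (Nat.add (IV.mul (IV.mul (IV.pt zc) (IV.pt zp)) (ivsq (IV.pt (ivY (IV.pt q2)).hi))).hi
      (IV.mul (IV.pt zu) (IV.pt (Nat.sub (IV.mul (IV.pt zc) (IV.pt (ivY (IV.pt q2)).hi)).hi
        (ivSig (IV.pt q1)).lo))).hi)
    (ivRho (IV.pt q1)).lo

def zTtree : ℕ → ℕ → ℕ → Bool
  | 0, a, b => zTcell a b
  | d + 1, a, b =>
    zTcell a b || (zTtree d a (Nat.div (Nat.add a b) 2) && zTtree d (Nat.div (Nat.add a b) 2) b)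

theorem zTtree_true : zTtree 6 qLoK qHiK = true := by decide +kernel

section

variable {t q : ℝ}

theorem zTtree_sound (d : ℕ) {a b : ℕ} (h : zTtree d a b = true) (ha : val a ≤ q) (hb : q ≤ val b) :
    ∃ q1 q2, zTcell q1 q2 = true ∧ val q1 ≤ q ∧ q ≤ val q2 := by
  induction d generalizing a b with
  | zero => exact ⟨a, b, h, ha, hb⟩
  | succ d ih =>
    rw [zTtree] at h
    simp only [Bool.or_eq_true, Bool.and_eq_true] at h
    rcases h with h | ⟨h1, h2⟩
    · exact ⟨a, b, h, ha, hb⟩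
    · rcases le_total q (val (Nat.div (Nat.add a b) 2)) with c | c
      · exact ih h1 ha c
      · exact ih h2 c hb

/-- the real form of the estimate -/
theorem zT_core {x u c pm Y2 sg A B E rho1 : ℝ}
    (ht0 : 0 ≤ t) (ht1 : t < 1) (hq0 : 0 < q) (hq1 : q < 1)
    (hx : 0 ≤ x) (hxu : x ≤ u) (hIu : x + Iq t q ≤ u) (hu : u ≤ 1 / 2) (hc : 93 / 100 / (1 - u) ≤ c)
    (hp : p0 t q ≤ pm) (hY2 : 1 - S (artanh q) ≤ Y2)
    (hA : c * pm * Y2 ^ 2 ≤ A) (hB : c * Y2 ≤ B)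
    (hE : u * (B - sg) ≤ E) (hE0 : 0 ≤ E) (hsg : sg ≤ q ^ 2 / (1 + q ^ 2))
    (hsum : A + E ≤ rho1) (hrho : rho1 ≤ rhoθ (artanh q)) :
    Lft t q x ≤ Jq t q + sstar t q * x := by
  have hI := Iq_nonneg_s ht0 ht1 hq0 hq1
  have hu1 : 0 < 1 - u := by linarith
  have hc0 : 0 ≤ c := le_trans (by positivity) hc
  have hL := L_pos
  obtain ⟨hp0, -⟩ := p0_bounds ht0 ht1 hq0 hq1
  have hY0 : 0 ≤ 1 - S (artanh q) := by
    have := S_le_one (artanh_nonneg' hq0)
    linarith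
  set Y := 1 - S (artanh q) with hY
  set I := Iq t q with hIdef
  set p := p0 t q with hpdef
  have hIp : I ≤ p * Y := by
    rw [hIdef, Iq_eq ht0 ht1 hq0 hq1]
    have : 0 ≤ LL t q / (2 * L) := div_nonneg (LL_nonneg ht0 ht1 hq0 hq1) (by positivity)
    linarith
  -- the two pieces of the increment
  have h1 := supF_le_a hx hI (hIu.trans hu)
  have hden : 1 - u ≤ 1 - I - x := by linarith only [hIu]
  have hcu : 93 / 100 ≤ c * (1 - u) := by rwa [div_le_iff₀ hu1] at hc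
  have h2 : 93 / 100 * x * I / (1 - I - x) ≤ c * (x * I) := by
    rw [div_le_iff₀ (by linarith only [hIu, hu1])]
    have a2 : 0 ≤ x * I := mul_nonneg hx hI
    have a3 : c * (1 - u) ≤ c * (1 - I - x) := mul_le_mul_of_nonneg_left hden hc0
    have a4 := mul_le_mul_of_nonneg_right (hcu.trans a3) a2
    calc 93 / 100 * x * I = 93 / 100 * (x * I) := by ring
      _ ≤ c * (1 - I - x) * (x * I) := a4
      _ = c * (x * I) * (1 - I - x) := by ring
  have hIh : I ≤ 1 / 2 := by linarith only [hIu, hu, hx]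
  have h3 : psiC I ≤ c * I ^ 2 := by
    have a1 := psiC_le_mul_dpsi I
    have a2 := dpsi_le_P hI hIh
    have a3 : 93 / 100 * I / (1 - I) ≤ c * I := by
      rw [div_le_iff₀ (by linarith only [hIh])]
      have b2 : c * (1 - u) ≤ c * (1 - I) :=
        mul_le_mul_of_nonneg_left (by linarith only [hIu, hx]) hc0
      have b3 := mul_le_mul_of_nonneg_right (hcu.trans b2) hI
      calc 93 / 100 * I ≤ c * (1 - I) * I := b3
        _ = c * I * (1 - I) := by ring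
    have a4 : I * dpsi I ≤ I * (c * I) := mul_le_mul_of_nonneg_left (a2.trans a3) hI
    calc psiC I ≤ I * dpsi I := a1
      _ ≤ I * (c * I) := a4
      _ = c * I ^ 2 := by ring
  have h4 : x * I ≤ x * (p * Y) := mul_le_mul_of_nonneg_left hIp hx
  have h5 : I ^ 2 ≤ (p * Y) ^ 2 := pow_le_pow_left₀ hI hIp 2
  -- the bracket
  have h6 : p * Y ^ 2 ≤ pm * Y2 ^ 2 :=
    mul_le_mul hp (pow_le_pow_left₀ hY0 hY2 2) (by positivity) (hp0.le.trans hp)
  have h7 : c * (p * Y ^ 2) ≤ A := by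
    have a1 := mul_le_mul_of_nonneg_left h6 hc0
    have e : c * (pm * Y2 ^ 2) = c * pm * Y2 ^ 2 := by ring
    rw [e] at a1
    exact a1.trans hA
  have h8 : c * Y ≤ B := (mul_le_mul_of_nonneg_left hY2 hc0).trans hB
  set σ := q ^ 2 / (1 + q ^ 2) with hσ
  have h9 : x * (c * Y - σ) ≤ E := by
    have a1 : c * Y - σ ≤ B - sg := by linarith only [h8, hsg]
    by_cases hn : 0 ≤ B - sg
    · have a2 : x * (c * Y - σ) ≤ x * (B - sg) := mul_le_mul_of_nonneg_left a1 hx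
      have a3 : x * (B - sg) ≤ u * (B - sg) := mul_le_mul_of_nonneg_right hxu hn
      linarith only [a2, a3, hE]
    · have a2 : x * (c * Y - σ) ≤ x * 0 :=
        mul_le_mul_of_nonneg_left (by linarith only [not_le.1 hn, a1]) hx
      simp only [mul_zero] at a2
      linarith only [a2, hE0]
  have h10 : c * (p * Y ^ 2) + x * (c * Y - σ) ≤ rhoθ (artanh q) := by
    linarith only [h7, h9, hsum, hrho]
  have h11 := mul_le_mul_of_nonneg_left h10 hp0.le
  have hJ := Jq_sub ht0 ht1 hq0 hq1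
  have hLL : 0 ≤ LL t q / L := div_nonneg (LL_nonneg ht0 ht1 hq0 hq1) hL.le
  have hLft : Lft t q x = 2 * I + psiC I + supF x I := by
    unfold Lft supF
    rw [← hIdef]
    ring
  rw [hLft]
  have h12 : sstar t q = p * σ := rfl
  rw [h12]
  have h14 := mul_le_mul_of_nonneg_left h4 hc0
  have h15 := mul_le_mul_of_nonneg_left h5 hc0
  have e : p * (c * (p * Y ^ 2) + x * (c * Y - σ))
      = c * (x * (p * Y)) + c * (p * Y) ^ 2 - p * σ * x := by ring
  rw [e] at h11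
  linarith only [h1, h2, h3, h11, h14, h15, hJ, hLL]

theorem KEY_T (ht : val t4K ≤ t) (ht1 : t < 1) (hq : val qLoK ≤ q) (hq2 : q ≤ val qHiK) :
    KEYprop t q := by
  have h0 := zT0_true
  unfold zT0 at h0
  simp only [Bool.and_eq_true] at h0
  obtain ⟨⟨⟨⟨⟨⟨⟨ok1, ok2⟩, ok3⟩, ok4⟩, b1⟩, b2⟩, b3⟩, b4⟩ := h0
  obtain ⟨q1, q2, hc, hq1a, hq2b⟩ := zTtree_sound 6 zTtree_true hq hq2
  unfold zTcell at hc
  simp only [Bool.and_eq_true] at hc
  obtain ⟨⟨⟨⟨⟨ok5, ok6⟩, ok7⟩, h1⟩, h2⟩, h3⟩ := hc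
  have hq1p : 0 < val q1 := val_pos_of_pos (Nat.le_of_ble_eq_true h1)
  have hb2 : val q2 < 1 := val_lt_one_of_lt (Nat.le_of_ble_eq_true h2)
  have hq0 : 0 < q := hq1p.trans_le hq1a
  have hq1 : q < 1 := hq2b.trans_lt hb2
  have hq11 : val q1 < 1 := hq1a.trans_lt hq1
  have hq20 : 0 < val q2 := hq0.trans_le hq2b
  have ht0' : 0 ≤ val t4K := val_nonneg _
  have ht0 : 0 ≤ t := ht0'.trans ht
  have hHi1 : val qHiK < 1 := val_lt_one_of_lt (by decide)
  -- the closed numbers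
  have hE := (mem_eps (IV.mem_pt t4K) (IV.mem_pt qHiK) ok1).1.trans
    (c_eps_lo ht0' ht ht1.le hq0.le hq2 hHi1)
  have hp : p0 t q ≤ val zp := by
    have a1 := p0_add_eps ht0 ht1 hq0 hq1
    have a2 := val_sub_ge SC (ivEps (IV.pt t4K) (IV.pt qHiK)).lo
    rw [val_SC] at a2
    have a3 := val_mono (Nat.le_of_ble_eq_true b2)
    linarith
  have hUL := (mem_uu (IV.mem_pt t4K) (IV.mem_pt qHiK) ok2).1.trans
    (c_uu_lo ht0' ht ht1.le hq0.le hq2 hHi1)
  have hAb : val (kpAb t4K qHiK) ≤ abar t q := by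
    have a3 := IV.mem_mul (IV.mem_pt t4K) (IV.mem_pt (ivUU (IV.pt t4K) (IV.pt qHiK)).lo) rfl
    refine a3.1.trans ?_
    unfold abar
    exact mul_le_mul ht hUL (val_nonneg _) (ht0'.trans ht)
  have hab1 := abar_lt_one ht0 ht1 hq0 hq1
  have hphi : phi (abar t q) ≤ val zu := by
    have a2 := phi_anti_c (val_nonneg _) hAb hab1
    rw [phi_artanh (val_nonneg _) (hAb.trans_lt hab1)] at a2
    have a3 := (mem_S (IV.mem_pt _) (val_nonneg _) (hAb.trans_lt hab1) ok3).2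
    have a4 := val_mono (Nat.le_of_ble_eq_true b1)
    linarith
  have hc' : 93 / 100 / (1 - val zu) ≤ val zc := by
    have a1 := (IV.mem_div mem_F93 (IV.mem_sub mem_ONE (IV.mem_pt zu)) ok4).2
    have a2 := val_mono (Nat.le_of_ble_eq_true b3)
    linarith
  have hzu : val zu ≤ 1 / 2 := by
    have := val_mono (Nat.le_of_ble_eq_true b4)
    rwa [val_HALFN] at this
  -- the numbers of the cell
  have hY2 := (mem_Y (IV.mem_pt q2) hq20.le hb2 ok5).2
  have hS := S_le hq0.le hq2b hb2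
  have hY : 1 - S (artanh q) ≤ val (ivY (IV.pt q2)).hi := by linarith
  have hsg := (mem_Sig (IV.mem_pt q1) ok6).1.trans (sig_mono hq1p.le hq1a)
  have hθ1 : artanh (val q1) ≤ artanh q := Real.artanh_le_artanh (by linarith) hq1 hq1a
  have hrho := (mem_Rho (IV.mem_pt q1) hq1p hq11 ok7).1.trans
    (rhoθ_mono (Real.artanh_nonneg hq1p.le) hθ1)
  have hsum := val_mono (Nat.le_of_ble_eq_true h3)
  rw [val_add'] at hsum
  set Y2 := (ivY (IV.pt q2)).hi with hY2def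
  set sg := (ivSig (IV.pt q1)).lo with hsgdef
  have hA : val zc * val zp * val Y2 ^ 2 ≤
      val (IV.mul (IV.mul (IV.pt zc) (IV.pt zp)) (ivsq (IV.pt Y2))).hi :=
    (IV.mem_mul (IV.mem_mul (IV.mem_pt zc) (IV.mem_pt zp)) (mem_sq (IV.mem_pt Y2)) rfl).2
  have hB : val zc * val Y2 ≤ val (IV.mul (IV.pt zc) (IV.pt Y2)).hi := hi_mul _ _
  have hE' : val zu * (val (IV.mul (IV.pt zc) (IV.pt Y2)).hi - val sg) ≤
      val (IV.mul (IV.pt zu) (IV.pt (Nat.sub (IV.mul (IV.pt zc) (IV.pt Y2)).hi sg))).hi := by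
    have a1 := val_sub_ge (IV.mul (IV.pt zc) (IV.pt Y2)).hi sg
    exact (mul_le_mul_of_nonneg_left a1 (val_nonneg _)).trans (hi_mul _ _)
  have hxI : xq t q + Iq t q = phi (abar t q) := by
    unfold Iq
    ring
  have hI0 := Iq_nonneg_s ht0 ht1 hq0 hq1
  refine Or.inl ⟨xq t q, le_rfl, fun x hx hxD => ?_⟩
  exact zT_core ht0 ht1 hq0 hq1 hx (by linarith) (by linarith) hzu hc' hp hY hA hB hE'
    (val_nonneg _) hsg hsum hrho

end

end CK322
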