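import Vale.Agent.Lib.P322.MBound

/-!
The one-dimensional inequality `TT + 0.93 * (1 - xf (tanh θ) / S θ) ≤ gam`.

For small `θ`: truncated power series in `z = tanh² θ` and a Bernstein certificate.
For `θ ≥ 2`: elementary bounds.  In between: eleven cells with rational bounds on `exp`.
-/

open Real Set Filter Topology

namespace CK322

noncomputable section

/-! ### elementary facts about `y = exp (-2θ)` -/

theorem m1_E2y (θ : ℝ) : exp θ * exp θ * exp (-2 * θ) = 1 := by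
  rw [← exp_add, ← exp_add]
  have : θ + θ + -2 * θ = 0 := by ring
  rw [this, exp_zero]

theorem m1_cosh (θ : ℝ) : cosh θ = exp θ * (1 + exp (-2 * θ)) / 2 := by
  have hEm : exp (-θ) = exp θ * exp (-2 * θ) := by
    rw [← exp_add]; congr 1; ring
  rw [Real.cosh_eq, hEm]; ring

theorem m1_sinh (θ : ℝ) : sinh θ = exp θ * (1 - exp (-2 * θ)) / 2 := by
  have hEm : exp (-θ) = exp θ * exp (-2 * θ) := by
    rw [← exp_add]; congr 1; ring
  rw [Real.sinh_eq, hEm]; ring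

theorem m1_tanh (θ : ℝ) : tanh θ = (1 - exp (-2 * θ)) / (1 + exp (-2 * θ)) := by
  rw [Real.tanh_eq_sinh_div_cosh, m1_sinh, m1_cosh]
  have h1 := exp_pos θ
  have h2 : 0 < 1 + exp (-2 * θ) := by positivity
  field_simp

theorem m1_sinh_sq (θ : ℝ) :
    sinh θ ^ 2 = (1 - exp (-2 * θ)) ^ 2 / (4 * exp (-2 * θ)) := by
  have hy := exp_pos (-2 * θ)
  have hE := m1_E2y θ
  rw [m1_sinh]
  rw [eq_div_iff (by positivity)]
  calc (exp θ * (1 - exp (-2 * θ)) / 2) ^ 2 * (4 * exp (-2 * θ))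
      = (exp θ * exp θ * exp (-2 * θ)) * (1 - exp (-2 * θ)) ^ 2 := by ring
    _ = _ := by rw [hE, one_mul]

theorem m1_sinh_two (θ : ℝ) :
    sinh (2 * θ) = (1 - exp (-2 * θ) ^ 2) / (2 * exp (-2 * θ)) := by
  have hy := exp_pos (-2 * θ)
  have hE := m1_E2y θ
  rw [Real.sinh_two_mul, m1_sinh, m1_cosh]
  rw [eq_div_iff (by positivity)]
  calc 2 * (exp θ * (1 - exp (-2 * θ)) / 2) * (exp θ * (1 + exp (-2 * θ)) / 2) * (2 * exp (-2 * θ))
      = (exp θ * exp θ * exp (-2 * θ)) * (1 - exp (-2 * θ) ^ 2) := by ring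
    _ = _ := by rw [hE, one_mul]

theorem m1_log_two_cosh (θ : ℝ) : log (2 * cosh θ) = θ + log (1 + exp (-2 * θ)) := by
  have h1 : 0 < 1 + exp (-2 * θ) := by positivity
  have : 2 * cosh θ = exp θ * (1 + exp (-2 * θ)) := by rw [m1_cosh]; ring
  rw [this, log_mul (exp_pos θ).ne' h1.ne', log_exp]

/-- Identity for `gam - TT`. -/
theorem m1_Delta {θ : ℝ} (hθ : 0 < θ) :
    gam θ - TT θ = 1 - (1 - exp (-2 * θ)) / (2 * (θ + log (1 + exp (-2 * θ))))
      - (1 - exp (-2 * θ) ^ 2) * (log (1 + exp (-2 * θ)) / exp (-2 * θ))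
        / (4 * θ * (θ + log (1 + exp (-2 * θ)))) := by
  unfold gam TT
  rw [zeta_pos_eq hθ.ne', m1_sinh_sq, m1_sinh_two, m1_log_two_cosh]
  set y := exp (-2 * θ) with hy
  have hy0 : 0 < y := exp_pos _
  set lam := log (1 + y) with hlam
  have hlam0 : 0 ≤ lam := log_nonneg (by linarith)
  have hl : θ + lam ≠ 0 := by positivity
  field_simp
  ring

/-- Alternating bounds for `log (1 + y)`. -/
theorem m1_log_le {y : ℝ} (hy : 0 ≤ y) : log (1 + y) ≤ y - y ^ 2 / 2 + y ^ 3 / 3 := by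
  have hmono : MonotoneOn (fun t : ℝ => t - t ^ 2 / 2 + t ^ 3 / 3 - log (1 + t)) (Ici 0) := by
    apply monotoneOn_of_deriv_nonneg (convex_Ici 0)
    · apply ContinuousOn.sub (by fun_prop)
      apply ContinuousOn.log (by fun_prop)
      intro x hx
      have : (0 : ℝ) ≤ x := hx
      positivity
    · rw [interior_Ici]
      intro x hx
      have hx' : (0 : ℝ) < x := hx
      have h1x : 1 + x ≠ 0 := by positivity
      apply DifferentiableAt.differentiableWithinAt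
      apply DifferentiableAt.sub (by fun_prop)
      exact DifferentiableAt.log (by fun_prop) h1x
    · rw [interior_Ici]
      intro x hx
      have hx' : (0 : ℝ) < x := hx
      have h1x : 0 < 1 + x := by positivity
      have hd : HasDerivAt (fun t : ℝ => t - t ^ 2 / 2 + t ^ 3 / 3 - log (1 + t))
          (1 - (2 * x ^ 1 * 1) / 2 + (3 * x ^ 2 * 1) / 3 - 1 / (1 + x)) x := by
        apply HasDerivAt.sub
        · apply HasDerivAt.add
          · apply HasDerivAt.sub (hasDerivAt_id x)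
            exact ((hasDerivAt_id x).pow 2).div_const 2
          · exact ((hasDerivAt_id x).pow 3).div_const 3
        · exact ((hasDerivAt_id x).const_add 1).log h1x.ne'
      rw [hd.deriv]
      have : 1 - (2 * x ^ 1 * 1) / 2 + (3 * x ^ 2 * 1) / 3 - 1 / (1 + x) = x ^ 3 / (1 + x) := by
        field_simp
        ring
      rw [this]
      positivity
  have := hmono (Set.mem_Ici.mpr le_rfl) (show y ∈ Ici (0 : ℝ) from hy) hy
  simp at this
  linarith

theorem m1_le_log {y : ℝ} (hy : 0 ≤ y) : y - y ^ 2 / 2 ≤ log (1 + y) := by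
  have hmono : MonotoneOn (fun t : ℝ => log (1 + t) - (t - t ^ 2 / 2)) (Ici 0) := by
    apply monotoneOn_of_deriv_nonneg (convex_Ici 0)
    · apply ContinuousOn.sub _ (by fun_prop)
      apply ContinuousOn.log (by fun_prop)
      intro x hx
      have : (0 : ℝ) ≤ x := hx
      positivity
    · rw [interior_Ici]
      intro x hx
      have hx' : (0 : ℝ) < x := hx
      have h1x : 1 + x ≠ 0 := by positivity
      apply DifferentiableAt.differentiableWithinAt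
      apply DifferentiableAt.sub _ (by fun_prop)
      exact DifferentiableAt.log (by fun_prop) h1x
    · rw [interior_Ici]
      intro x hx
      have hx' : (0 : ℝ) < x := hx
      have h1x : 0 < 1 + x := by positivity
      have hd : HasDerivAt (fun t : ℝ => log (1 + t) - (t - t ^ 2 / 2))
          (1 / (1 + x) - (1 - (2 * x ^ 1 * 1) / 2)) x := by
        apply HasDerivAt.sub
        · exact ((hasDerivAt_id x).const_add 1).log h1x.ne'
        · apply HasDerivAt.sub (hasDerivAt_id x)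
          exact ((hasDerivAt_id x).pow 2).div_const 2
      rw [hd.deriv]
      have : 1 / (1 + x) - (1 - (2 * x ^ 1 * 1) / 2) = x ^ 2 / (1 + x) := by
        field_simp
        ring
      rw [this]
      positivity
  have := hmono (Set.mem_Ici.mpr le_rfl) (show y ∈ Ici (0 : ℝ) from hy) hy
  simp at this
  linarith

/-- Upper bound for `1 - xf / S` in terms of a bound on the inputs. -/
theorem m1_A_bound {θ b yh zh l1h : ℝ} (hθ : 0 < θ) (hb : θ ≤ b)
    (hyh : exp (-2 * θ) ≤ yh)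
    (hzh : tanh θ ^ 2 ≤ zh) (hzh1 : zh ≤ 1)
    (hlam : log (1 + exp (-2 * θ)) ≤ exp (-2 * θ) * l1h) (hl1h : 0 ≤ l1h) :
    1 - xf (tanh θ) / S θ
      ≤ 1 - 4 * (6931 / 10000) * (1 - 2 / 5 * zh) / ((1 + yh) * (2 * b + (1 + yh) * l1h)) := by
  set y := exp (-2 * θ) with hy
  have hy0 : 0 < y := exp_pos _
  have hy1 : 0 < 1 + y := by positivity
  have hyh0 : 0 < yh := lt_of_lt_of_le hy0 hyh
  have hb0 : 0 < b := lt_of_lt_of_le hθ hb
  have hL : (6931 / 10000 : ℝ) ≤ L := by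
    have := L_bounds.1
    norm_num at this ⊢
    linarith
  have hLpos := L_pos
  set z := tanh θ ^ 2 with hz
  have hz1 : 1 - z = 4 * y / (1 + y) ^ 2 := by
    rw [hz, m1_tanh, ← hy]
    field_simp
    ring
  have hxf : xf (tanh θ) = 4 * y / (1 + y) ^ 2 * (1 - 2 / 5 * z) := by
    unfold xf
    rw [← hz, hz1]
  have hPhi : Phi θ ≤ y * (2 * b / (1 + y) + l1h) := by
    rw [Phi_closed]
    have e : -2 * θ = -2 * θ := rfl
    have h1 : 2 * θ * y / (1 + y) ≤ y * (2 * b / (1 + y)) := by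
      have : y * (2 * b / (1 + y)) = 2 * b * y / (1 + y) := by ring
      rw [this]
      apply div_le_div_of_nonneg_right _ hy1.le
      nlinarith
    calc 2 * θ * y / (1 + y) + log (1 + y) ≤ y * (2 * b / (1 + y)) + y * l1h := add_le_add h1 hlam
      _ = _ := by ring
  have hPhipos : 0 < Phi θ := by
    have := S_pos θ
    unfold S at this
    exact (div_pos_iff_of_pos_right hLpos).mp this
  have hzz : 0 ≤ 1 - 2 / 5 * zh := by linarith
  have hzz' : 1 - 2 / 5 * zh ≤ 1 - 2 / 5 * z := by linarith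
  have hmain : 4 * (6931 / 10000) * (1 - 2 / 5 * zh) / ((1 + yh) * (2 * b + (1 + yh) * l1h))
      ≤ xf (tanh θ) / S θ := by
    have hS : S θ = Phi θ / L := rfl
    rw [hS, hxf]
    have hD : 0 < (1 + y) * (2 * b + (1 + y) * l1h) := by positivity
    have hD2 : (1 + y) * (2 * b + (1 + y) * l1h) ≤ (1 + yh) * (2 * b + (1 + yh) * l1h) := by
      have h1 : 1 + y ≤ 1 + yh := by linarith
      have h2 : 2 * b + (1 + y) * l1h ≤ 2 * b + (1 + yh) * l1h := by nlinarith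
      exact mul_le_mul h1 h2 (by positivity) (by positivity)
    have h3 : 4 * (6931 / 10000) * (1 - 2 / 5 * zh) / ((1 + yh) * (2 * b + (1 + yh) * l1h))
        ≤ 4 * L * (1 - 2 / 5 * z) / ((1 + y) * (2 * b + (1 + y) * l1h)) := by
      apply div_le_div₀ (mul_nonneg (by positivity) (le_trans hzz hzz')) _ hD hD2
      have h4 : (6931 / 10000 : ℝ) * (1 - 2 / 5 * zh) ≤ L * (1 - 2 / 5 * z) :=
        mul_le_mul hL hzz' hzz hLpos.le
      nlinarith
    refine le_trans h3 ?_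
    have e1 : 4 * y / (1 + y) ^ 2 * (1 - 2 / 5 * z) / (Phi θ / L)
        = (4 * L * (1 - 2 / 5 * z) * y) / ((1 + y) ^ 2 * Phi θ) := by
      field_simp
    rw [e1]
    rw [div_le_div_iff₀ hD (by positivity)]
    have hbig : 0 ≤ 4 * L * (1 - 2 / 5 * z) := by
      have : 0 ≤ 1 - 2 / 5 * z := le_trans hzz hzz'
      positivity
    have h5 : (1 + y) ^ 2 * Phi θ ≤ y * ((1 + y) * (2 * b + (1 + y) * l1h)) := by
      have e2 : y * ((1 + y) * (2 * b + (1 + y) * l1h))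
          = (1 + y) ^ 2 * (y * (2 * b / (1 + y) + l1h)) := by
        field_simp
      rw [e2]
      exact mul_le_mul_of_nonneg_left hPhi (by positivity)
    calc 4 * L * (1 - 2 / 5 * z) * ((1 + y) ^ 2 * Phi θ)
        ≤ 4 * L * (1 - 2 / 5 * z) * (y * ((1 + y) * (2 * b + (1 + y) * l1h))) :=
          mul_le_mul_of_nonneg_left h5 hbig
      _ = _ := by ring
  linarith

/-- Lower bound for `gam - TT`. -/
theorem m1_D_bound {θ a yl llo l1h : ℝ} (ha : 0 < a) (haθ : a ≤ θ) (hllo : 0 < llo)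
    (hllo2 : llo ≤ θ + log (1 + exp (-2 * θ)))
    (hyl : yl ≤ exp (-2 * θ)) (hyl0 : 0 ≤ yl) (hyl1 : yl ≤ 1)
    (hlam : log (1 + exp (-2 * θ)) ≤ exp (-2 * θ) * l1h) (hl1h : 0 ≤ l1h)
    (hy1 : exp (-2 * θ) ≤ 1) :
    1 - (1 - yl) / (2 * llo) - (1 - yl ^ 2) * l1h / (4 * a * llo) ≤ gam θ - TT θ := by
  have hθ : 0 < θ := lt_of_lt_of_le ha haθ
  rw [m1_Delta hθ]
  set y := exp (-2 * θ) with hy
  have hy0 : 0 < y := exp_pos _
  set lam := log (1 + y) with hlamdef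
  have hlam0 : 0 ≤ lam := log_nonneg (by linarith)
  have h1 : (1 - y) / (2 * (θ + lam)) ≤ (1 - yl) / (2 * llo) := by
    apply div_le_div₀ (by linarith) (by linarith) (by positivity) (by linarith)
  have h2 : (1 - y ^ 2) * (lam / y) / (4 * θ * (θ + lam))
      ≤ (1 - yl ^ 2) * l1h / (4 * a * llo) := by
    apply div_le_div₀
    · have : 0 ≤ 1 - yl ^ 2 := by nlinarith
      positivity
    · apply mul_le_mul
      · nlinarith
      · rw [div_le_iff₀ hy0]
        linarith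
      · positivity
      · nlinarith
    · positivity
    · have : a * llo ≤ θ * (θ + lam) := mul_le_mul haθ hllo2 hllo.le hθ.le
      nlinarith
  linarith

/-! ### `θ ≥ 2` -/

theorem exp_neg_four_le : exp (-4) ≤ 0.0184 := by
  have h := Real.exp_one_gt_d9
  have h4 : exp (-4) = (exp 1 ^ 4)⁻¹ := by
    rw [← exp_nat_mul, ← exp_neg]
    norm_num
  rw [h4]
  rw [inv_le_comm₀ (by positivity) (by norm_num)]
  have : (2.7182818283 : ℝ) ^ 4 ≤ exp 1 ^ 4 := by
    apply pow_le_pow_left₀ (by norm_num) h.le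
  refine le_trans ?_ this
  norm_num

theorem m1_large {θ : ℝ} (hθ : 2 ≤ θ) :
    93 / 100 * (1 - xf (tanh θ) / S θ) ≤ gam θ - TT θ := by
  have hθ0 : 0 < θ := by linarith
  have hy : exp (-2 * θ) ≤ 0.0184 := by
    refine le_trans (exp_le_exp.mpr (by linarith)) exp_neg_four_le
  have hy0 := exp_pos (-2 * θ)
  have hlam : log (1 + exp (-2 * θ)) ≤ exp (-2 * θ) * 1 := by
    have := log_le_sub_one_of_pos (show 0 < 1 + exp (-2 * θ) by positivity)
    linarith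
  have hz : tanh θ ^ 2 ≤ 1 := by
    have h1 := (tanh_lt_one θ).le
    have h2 := neg_one_lt_tanh θ
    nlinarith
  have hA := m1_A_bound (b := θ) (yh := 0.0184) (zh := 1) (l1h := 1) hθ0 le_rfl hy hz le_rfl hlam
    (by norm_num)
  have hlam0 : 0 ≤ log (1 + exp (-2 * θ)) := log_nonneg (by linarith)
  have hD := m1_D_bound (a := θ) (yl := 0) (llo := θ) (l1h := 1) hθ0 le_rfl hθ0 (by linarith) hy0.le
    le_rfl (by norm_num) hlam (by norm_num) (by linarith [show (0.0184 : ℝ) ≤ 1 by norm_num])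
  have key : 93 / 100 * (1 - 4 * (6931 / 10000) * (1 - 2 / 5 * 1) / ((1 + 0.0184) * (2 * θ + (1 + 0.0184) * 1)))
      ≤ 1 - (1 - 0) / (2 * θ) - (1 - 0 ^ 2) * 1 / (4 * θ * θ) := by
    have hpos : 0 < 2 * θ + (1 + 0.0184) * 1 := by positivity
    rw [← sub_nonneg]
    have e : 1 - (1 - 0) / (2 * θ) - (1 - 0 ^ 2) * 1 / (4 * θ * θ)
        - 93 / 100 * (1 - 4 * (6931 / 10000) * (1 - 2 / 5 * 1) / ((1 + 0.0184) * (2 * θ + (1 + 0.0184) * 1)))
        = ((1 - 93 / 100) * (4 * θ * θ) * ((1 + 0.0184) * (2 * θ + (1 + 0.0184) * 1))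
            + 93 / 100 * (4 * (6931 / 10000) * (1 - 2 / 5 * 1)) * (4 * θ * θ)
            - (2 * θ + 1) * ((1 + 0.0184) * (2 * θ + (1 + 0.0184) * 1)))
          / ((4 * θ * θ) * ((1 + 0.0184) * (2 * θ + (1 + 0.0184) * 1))) := by
      field_simp
      ring
    rw [e]
    apply div_nonneg _ (by positivity)
    norm_num
    nlinarith [mul_nonneg (sub_nonneg.mpr hθ) (sub_nonneg.mpr hθ), mul_nonneg (mul_nonneg (sub_nonneg.mpr hθ) (sub_nonneg.mpr hθ)) (sub_nonneg.mpr hθ)]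
  have hA2 := mul_le_mul_of_nonneg_left hA (show (0 : ℝ) ≤ 93 / 100 by norm_num)
  linarith

/-! ### cells -/

/-- Taylor sums for `exp`. -/
def tayL (t : ℝ) : ℝ :=
  1 + t + t ^ 2 / 2 + t ^ 3 / 6 + t ^ 4 / 24 + t ^ 5 / 120 + t ^ 6 / 720 + t ^ 7 / 5040
    + t ^ 8 / 40320 + t ^ 9 / 362880

def tayU (t : ℝ) : ℝ := tayL t + t ^ 10 * 11 / (3628800 * 10)

theorem tayL_le {t : ℝ} (h0 : 0 ≤ t) : tayL t ≤ exp t := by
  have := Real.sum_le_exp_of_nonneg h0 10
  simp only [Finset.sum_range_succ, Finset.sum_range_zero, Nat.factorial] at this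
  norm_num at this
  unfold tayL
  linarith

theorem le_tayU {t : ℝ} (h0 : 0 ≤ t) (h1 : t ≤ 1) : exp t ≤ tayU t := by
  have := Real.exp_bound' h0 h1 (n := 10) (by norm_num)
  simp only [Finset.sum_range_succ, Finset.sum_range_zero, Nat.factorial] at this
  norm_num at this
  unfold tayU tayL
  linarith

/-- Bounds for `exp (-2a)` with `0 ≤ a ≤ 2`. -/
theorem exp_bounds {a lo hi : ℝ} (h0 : 0 ≤ a) (h1 : a ≤ 2) (hlo0 : 0 ≤ lo)
    (hlo : lo * tayU (a / 2) ^ 4 ≤ 1) (hhi : 1 ≤ hi * tayL (a / 2) ^ 4) :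
    lo ≤ exp (-2 * a) ∧ exp (-2 * a) ≤ hi := by
  have ht0 : 0 ≤ a / 2 := by linarith
  have ht1 : a / 2 ≤ 1 := by linarith
  have e : exp (2 * a) = exp (a / 2) ^ 4 := by
    rw [← exp_nat_mul]; congr 1; push_cast; ring
  have e2 : exp (-2 * a) * exp (2 * a) = 1 := by
    rw [← exp_add]; simp
  have hpos : 0 < exp (2 * a) := exp_pos _
  have hT0 : 0 ≤ tayL (a / 2) := by unfold tayL; positivity
  have hL : tayL (a / 2) ^ 4 ≤ exp (2 * a) := by
    rw [e]; exact pow_le_pow_left₀ hT0 (tayL_le ht0) 4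
  have hU : exp (2 * a) ≤ tayU (a / 2) ^ 4 := by
    rw [e]; exact pow_le_pow_left₀ (exp_pos _).le (le_tayU ht0 ht1) 4
  constructor
  · have h3 : lo * exp (2 * a) ≤ 1 := le_trans (mul_le_mul_of_nonneg_left hU hlo0) hlo
    by_contra hcon
    push Not at hcon
    have := mul_lt_mul_of_pos_right hcon hpos
    linarith
  · by_contra hcon
    push Not at hcon
    have hhi0 : 0 ≤ hi := by
      by_contra hneg
      push Not at hneg
      have hp : 0 ≤ tayL (a / 2) ^ 4 := by positivity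
      nlinarith
    have h4 := mul_lt_mul_of_pos_right hcon hpos
    have h5 : hi * tayL (a / 2) ^ 4 ≤ hi * exp (2 * a) := mul_le_mul_of_nonneg_left hL hhi0
    linarith

/-- One cell. -/
theorem m1_cell {a b yl yh : ℝ} (ha : 0 < a) (hb : b ≤ 2)
    (hyl : yl ≤ exp (-2 * b)) (hyh : exp (-2 * a) ≤ yh) (hyl0 : 0 < yl) (hyh1 : yh ≤ 1 / 5)
    (hcheck : 93 / 100 * (1 - 4 * (6931 / 10000) * (1 - 2 / 5 * ((1 - yl) / (1 + yl)) ^ 2)
          / ((1 + yh) * (2 * b + (1 + yh) * (1 - yl / 2 + yh ^ 2 / 3))))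
      ≤ 1 - (1 - yl) / (2 * (a + (yl - yl ^ 2 / 2)))
        - (1 - yl ^ 2) * (1 - yl / 2 + yh ^ 2 / 3) / (4 * a * (a + (yl - yl ^ 2 / 2))))
    {θ : ℝ} (h1 : a ≤ θ) (h2 : θ ≤ b) :
    93 / 100 * (1 - xf (tanh θ) / S θ) ≤ gam θ - TT θ := by
  have hθ0 : 0 < θ := by linarith
  have hy1 : yl ≤ exp (-2 * θ) := le_trans hyl (exp_le_exp.mpr (by linarith))
  have hy2 : exp (-2 * θ) ≤ yh := le_trans (exp_le_exp.mpr (by linarith)) hyh
  set y := exp (-2 * θ) with hy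
  have hy0 : 0 < y := exp_pos _
  have hyl1 : yl ≤ 1 / 5 := by linarith
  have hl1h : 0 ≤ 1 - yl / 2 + yh ^ 2 / 3 := by nlinarith [sq_nonneg yh]
  have hlam : log (1 + y) ≤ y * (1 - yl / 2 + yh ^ 2 / 3) := by
    have h3 := m1_log_le hy0.le
    have h4 : y ^ 2 ≤ yh ^ 2 := pow_le_pow_left₀ hy0.le hy2 2
    nlinarith
  have hz : tanh θ ^ 2 ≤ ((1 - yl) / (1 + yl)) ^ 2 := by
    rw [m1_tanh, ← hy]
    apply pow_le_pow_left₀
    · apply div_nonneg <;> linarith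
    · apply div_le_div₀ (by linarith) (by linarith) (by linarith) (by linarith)
  have hzh1 : ((1 - yl) / (1 + yl)) ^ 2 ≤ 1 := by
    apply pow_le_one₀
    · apply div_nonneg <;> linarith
    · rw [div_le_one (by linarith)]; linarith
  have hA := m1_A_bound hθ0 h2 hy2 hz hzh1 hlam hl1h
  have hll : yl - yl ^ 2 / 2 ≤ y - y ^ 2 / 2 := by nlinarith
  have hlog := m1_le_log hy0.le
  have hllo0 : 0 < a + (yl - yl ^ 2 / 2) := by nlinarith
  have hD := m1_D_bound ha h1 hllo0 (by linarith) hy1 hyl0.le (by linarith) hlam hl1h (by linarith)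
  have hA2 := mul_le_mul_of_nonneg_left hA (show (0 : ℝ) ≤ 93 / 100 by norm_num)
  linarith

theorem m1_pt0 : (43011 / 250000 : ℝ) ≤ exp (-2 * (22 / 25 : ℝ)) ∧ exp (-2 * (22 / 25 : ℝ)) ≤ (34409 / 200000 : ℝ) := by
  apply exp_bounds (by norm_num) (by norm_num) (by norm_num)
  · norm_num [tayL, tayU]
  · norm_num [tayL, tayU]

theorem m1_pt1 : (6481 / 40000 : ℝ) ≤ exp (-2 * (91 / 100 : ℝ)) ∧ exp (-2 * (91 / 100 : ℝ)) ≤ (81013 / 500000 : ℝ) := by
  apply exp_bounds (by norm_num) (by norm_num) (by norm_num)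
  · norm_num [tayL, tayU]
  · norm_num [tayL, tayU]

theorem m1_pt2 : (2337 / 15625 : ℝ) ≤ exp (-2 * (19 / 20 : ℝ)) ∧ exp (-2 * (19 / 20 : ℝ)) ≤ (149569 / 1000000 : ℝ) := by
  apply exp_bounds (by norm_num) (by norm_num) (by norm_num)
  · norm_num [tayL, tayU]
  · norm_num [tayL, tayU]

theorem m1_pt3 : (138069 / 1000000 : ℝ) ≤ exp (-2 * (99 / 100 : ℝ)) ∧ exp (-2 * (99 / 100 : ℝ)) ≤ (13807 / 100000 : ℝ) := by
  apply exp_bounds (by norm_num) (by norm_num) (by norm_num)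
  · norm_num [tayL, tayU]
  · norm_num [tayL, tayU]

theorem m1_pt4 : (12493 / 100000 : ℝ) ≤ exp (-2 * (26 / 25 : ℝ)) ∧ exp (-2 * (26 / 25 : ℝ)) ≤ (124931 / 1000000 : ℝ) := by
  apply exp_bounds (by norm_num) (by norm_num) (by norm_num)
  · norm_num [tayL, tayU]
  · norm_num [tayL, tayU]

theorem m1_pt5 : (110803 / 1000000 : ℝ) ≤ exp (-2 * (11 / 10 : ℝ)) ∧ exp (-2 * (11 / 10 : ℝ)) ≤ (27701 / 250000 : ℝ) := by
  apply exp_bounds (by norm_num) (by norm_num) (by norm_num)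
  · norm_num [tayL, tayU]
  · norm_num [tayL, tayU]

theorem m1_pt6 : (96327 / 1000000 : ℝ) ≤ exp (-2 * (117 / 100 : ℝ)) ∧ exp (-2 * (117 / 100 : ℝ)) ≤ (12041 / 125000 : ℝ) := by
  apply exp_bounds (by norm_num) (by norm_num) (by norm_num)
  · norm_num [tayL, tayU]
  · norm_num [tayL, tayU]

theorem m1_pt7 : (20521 / 250000 : ℝ) ≤ exp (-2 * (5 / 4 : ℝ)) ∧ exp (-2 * (5 / 4 : ℝ)) ≤ (16417 / 200000 : ℝ) := by
  apply exp_bounds (by norm_num) (by norm_num) (by norm_num)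
  · norm_num [tayL, tayU]
  · norm_num [tayL, tayU]

theorem m1_pt8 : (32937 / 500000 : ℝ) ≤ exp (-2 * (34 / 25 : ℝ)) ∧ exp (-2 * (34 / 25 : ℝ)) ≤ (527 / 8000 : ℝ) := by
  apply exp_bounds (by norm_num) (by norm_num) (by norm_num)
  · norm_num [tayL, tayU]
  · norm_num [tayL, tayU]

theorem m1_pt9 : (49787 / 1000000 : ℝ) ≤ exp (-2 * (3 / 2 : ℝ)) ∧ exp (-2 * (3 / 2 : ℝ)) ≤ (12447 / 250000 : ℝ) := by
  apply exp_bounds (by norm_num) (by norm_num) (by norm_num)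
  · norm_num [tayL, tayU]
  · norm_num [tayL, tayU]

theorem m1_pt10 : (33373 / 1000000 : ℝ) ≤ exp (-2 * (17 / 10 : ℝ)) ∧ exp (-2 * (17 / 10 : ℝ)) ≤ (16687 / 500000 : ℝ) := by
  apply exp_bounds (by norm_num) (by norm_num) (by norm_num)
  · norm_num [tayL, tayU]
  · norm_num [tayL, tayU]

theorem m1_pt11 : (3663 / 200000 : ℝ) ≤ exp (-2 * (2 / 1 : ℝ)) ∧ exp (-2 * (2 / 1 : ℝ)) ≤ (4579 / 250000 : ℝ) := by
  apply exp_bounds (by norm_num) (by norm_num) (by norm_num)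
  · norm_num [tayL, tayU]
  · norm_num [tayL, tayU]

theorem m1_c0 {θ : ℝ} (h1 : (22 / 25 : ℝ) ≤ θ) (h2 : θ ≤ (91 / 100 : ℝ)) :
    93 / 100 * (1 - xf (tanh θ) / S θ) ≤ gam θ - TT θ := by
  refine m1_cell (a := (22 / 25 : ℝ)) (b := (91 / 100 : ℝ)) (yl := (6481 / 40000 : ℝ)) (yh := (34409 / 200000 : ℝ)) (by norm_num) (by norm_num)
    m1_pt1.1 m1_pt0.2 (by norm_num) (by norm_num) ?_ h1 h2
  norm_num

theorem m1_c1 {θ : ℝ} (h1 : (91 / 100 : ℝ) ≤ θ) (h2 : θ ≤ (19 / 20 : ℝ)) :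
    93 / 100 * (1 - xf (tanh θ) / S θ) ≤ gam θ - TT θ := by
  refine m1_cell (a := (91 / 100 : ℝ)) (b := (19 / 20 : ℝ)) (yl := (2337 / 15625 : ℝ)) (yh := (81013 / 500000 : ℝ)) (by norm_num) (by norm_num)
    m1_pt2.1 m1_pt1.2 (by norm_num) (by norm_num) ?_ h1 h2
  norm_num

theorem m1_c2 {θ : ℝ} (h1 : (19 / 20 : ℝ) ≤ θ) (h2 : θ ≤ (99 / 100 : ℝ)) :
    93 / 100 * (1 - xf (tanh θ) / S θ) ≤ gam θ - TT θ := by
  refine m1_cell (a := (19 / 20 : ℝ)) (b := (99 / 100 : ℝ)) (yl := (138069 / 1000000 : ℝ)) (yh := (149569 / 1000000 : ℝ)) (by norm_num) (by norm_num)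
    m1_pt3.1 m1_pt2.2 (by norm_num) (by norm_num) ?_ h1 h2
  norm_num

theorem m1_c3 {θ : ℝ} (h1 : (99 / 100 : ℝ) ≤ θ) (h2 : θ ≤ (26 / 25 : ℝ)) :
    93 / 100 * (1 - xf (tanh θ) / S θ) ≤ gam θ - TT θ := by
  refine m1_cell (a := (99 / 100 : ℝ)) (b := (26 / 25 : ℝ)) (yl := (12493 / 100000 : ℝ)) (yh := (13807 / 100000 : ℝ)) (by norm_num) (by norm_num)
    m1_pt4.1 m1_pt3.2 (by norm_num) (by norm_num) ?_ h1 h2
  norm_num

theorem m1_c4 {θ : ℝ} (h1 : (26 / 25 : ℝ) ≤ θ) (h2 : θ ≤ (11 / 10 : ℝ)) :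
    93 / 100 * (1 - xf (tanh θ) / S θ) ≤ gam θ - TT θ := by
  refine m1_cell (a := (26 / 25 : ℝ)) (b := (11 / 10 : ℝ)) (yl := (110803 / 1000000 : ℝ)) (yh := (124931 / 1000000 : ℝ)) (by norm_num) (by norm_num)
    m1_pt5.1 m1_pt4.2 (by norm_num) (by norm_num) ?_ h1 h2
  norm_num

theorem m1_c5 {θ : ℝ} (h1 : (11 / 10 : ℝ) ≤ θ) (h2 : θ ≤ (117 / 100 : ℝ)) :
    93 / 100 * (1 - xf (tanh θ) / S θ) ≤ gam θ - TT θ := by
  refine m1_cell (a := (11 / 10 : ℝ)) (b := (117 / 100 : ℝ)) (yl := (96327 / 1000000 : ℝ)) (yh := (27701 / 250000 : ℝ)) (by norm_num) (by norm_num)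
    m1_pt6.1 m1_pt5.2 (by norm_num) (by norm_num) ?_ h1 h2
  norm_num

theorem m1_c6 {θ : ℝ} (h1 : (117 / 100 : ℝ) ≤ θ) (h2 : θ ≤ (5 / 4 : ℝ)) :
    93 / 100 * (1 - xf (tanh θ) / S θ) ≤ gam θ - TT θ := by
  refine m1_cell (a := (117 / 100 : ℝ)) (b := (5 / 4 : ℝ)) (yl := (20521 / 250000 : ℝ)) (yh := (12041 / 125000 : ℝ)) (by norm_num) (by norm_num)
    m1_pt7.1 m1_pt6.2 (by norm_num) (by norm_num) ?_ h1 h2
  norm_num

theorem m1_c7 {θ : ℝ} (h1 : (5 / 4 : ℝ) ≤ θ) (h2 : θ ≤ (34 / 25 : ℝ)) :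
    93 / 100 * (1 - xf (tanh θ) / S θ) ≤ gam θ - TT θ := by
  refine m1_cell (a := (5 / 4 : ℝ)) (b := (34 / 25 : ℝ)) (yl := (32937 / 500000 : ℝ)) (yh := (16417 / 200000 : ℝ)) (by norm_num) (by norm_num)
    m1_pt8.1 m1_pt7.2 (by norm_num) (by norm_num) ?_ h1 h2
  norm_num

theorem m1_c8 {θ : ℝ} (h1 : (34 / 25 : ℝ) ≤ θ) (h2 : θ ≤ (3 / 2 : ℝ)) :
    93 / 100 * (1 - xf (tanh θ) / S θ) ≤ gam θ - TT θ := by
  refine m1_cell (a := (34 / 25 : ℝ)) (b := (3 / 2 : ℝ)) (yl := (49787 / 1000000 : ℝ)) (yh := (527 / 8000 : ℝ)) (by norm_num) (by norm_num)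
    m1_pt9.1 m1_pt8.2 (by norm_num) (by norm_num) ?_ h1 h2
  norm_num

theorem m1_c9 {θ : ℝ} (h1 : (3 / 2 : ℝ) ≤ θ) (h2 : θ ≤ (17 / 10 : ℝ)) :
    93 / 100 * (1 - xf (tanh θ) / S θ) ≤ gam θ - TT θ := by
  refine m1_cell (a := (3 / 2 : ℝ)) (b := (17 / 10 : ℝ)) (yl := (33373 / 1000000 : ℝ)) (yh := (12447 / 250000 : ℝ)) (by norm_num) (by norm_num)
    m1_pt10.1 m1_pt9.2 (by norm_num) (by norm_num) ?_ h1 h2
  norm_num

theorem m1_c10 {θ : ℝ} (h1 : (17 / 10 : ℝ) ≤ θ) (h2 : θ ≤ (2 / 1 : ℝ)) :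
    93 / 100 * (1 - xf (tanh θ) / S θ) ≤ gam θ - TT θ := by
  refine m1_cell (a := (17 / 10 : ℝ)) (b := (2 / 1 : ℝ)) (yl := (3663 / 200000 : ℝ)) (yh := (16687 / 500000 : ℝ)) (by norm_num) (by norm_num)
    m1_pt11.1 m1_pt10.2 (by norm_num) (by norm_num) ?_ h1 h2
  norm_num

theorem m1_mid {θ : ℝ} (h1 : (22 / 25 : ℝ) ≤ θ) (h2 : θ ≤ 2) :
    93 / 100 * (1 - xf (tanh θ) / S θ) ≤ gam θ - TT θ := by
  rcases le_total θ (91 / 100 : ℝ) with h0 | h0
  · exact m1_c0 (by linarith) h0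
  rcases le_total θ (19 / 20 : ℝ) with h1 | h1
  · exact m1_c1 (by linarith) h1
  rcases le_total θ (99 / 100 : ℝ) with h2 | h2
  · exact m1_c2 (by linarith) h2
  rcases le_total θ (26 / 25 : ℝ) with h3 | h3
  · exact m1_c3 (by linarith) h3
  rcases le_total θ (11 / 10 : ℝ) with h4 | h4
  · exact m1_c4 (by linarith) h4
  rcases le_total θ (117 / 100 : ℝ) with h5 | h5
  · exact m1_c5 (by linarith) h5
  rcases le_total θ (5 / 4 : ℝ) with h6 | h6
  · exact m1_c6 (by linarith) h6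
  rcases le_total θ (34 / 25 : ℝ) with h7 | h7
  · exact m1_c7 (by linarith) h7
  rcases le_total θ (3 / 2 : ℝ) with h8 | h8
  · exact m1_c8 (by linarith) h8
  rcases le_total θ (17 / 10 : ℝ) with h9 | h9
  · exact m1_c9 (by linarith) h9
  exact m1_c10 h9 (by linarith)

/-! ### small `θ`: truncated series in `z = tanh² θ` -/

theorem m1_tanh_abs (θ : ℝ) : |tanh θ| < 1 :=
  abs_lt.mpr ⟨neg_one_lt_tanh θ, tanh_lt_one θ⟩

theorem m1_two_theta (θ : ℝ) : log (1 + tanh θ) - log (1 - tanh θ) = 2 * θ := by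
  have h1 := neg_one_lt_tanh θ
  have h2 := tanh_lt_one θ
  have h3 := artanh_tanh θ
  rw [artanh_eq_half_log ⟨h1.le, h2.le⟩, log_div (by linarith) (by linarith)] at h3
  linarith

theorem m1_one_sub_z (θ : ℝ) : (1 - tanh θ ^ 2) * cosh θ ^ 2 = 1 := by
  have hc := cosh_pos θ
  rw [Real.tanh_eq_sinh_div_cosh]
  have := Real.cosh_sq θ
  field_simp
  nlinarith

theorem m1_log_cosh (θ : ℝ) : log (cosh θ) = -(1 / 2) * log (1 - tanh θ ^ 2) := by
  have h := m1_one_sub_z θ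
  have hc := cosh_pos θ
  have hz : 0 < 1 - tanh θ ^ 2 := by
    by_contra hn
    push Not at hn
    nlinarith [sq_nonneg (cosh θ)]
  have h2 : log (1 - tanh θ ^ 2) + 2 * log (cosh θ) = 0 := by
    have := congrArg log h
    rw [log_mul hz.ne' (by positivity), log_pow, log_one] at this
    push_cast at this
    linarith
  linarith

theorem m1_artanh_lower {θ : ℝ} (hθ : 0 < θ) :
    tanh θ * (1 + tanh θ ^ 2 / 3 + (tanh θ ^ 2) ^ 2 / 5 + (tanh θ ^ 2) ^ 3 / 7 + (tanh θ ^ 2) ^ 4 / 9)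
      ≤ θ := by
  have hq0 : 0 ≤ tanh θ := by
    rw [m1_tanh]
    have : exp (-2 * θ) ≤ 1 := by
      apply exp_le_one_iff.mpr; linarith
    apply div_nonneg <;> linarith [exp_pos (-2 * θ)]
  have hs := Real.hasSum_log_sub_log_of_abs_lt_one (m1_tanh_abs θ)
  have h := sum_le_hasSum (Finset.range 5) (fun k _ => by positivity) hs
  rw [m1_two_theta] at h
  simp only [Finset.sum_range_succ, Finset.sum_range_zero] at h
  norm_num at h
  nlinarith

theorem m1_E_bound {θ : ℝ} (hθ : 0 < θ) :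
    tanh θ ^ 2 / 2 + (tanh θ ^ 2) ^ 2 / 12 + (tanh θ ^ 2) ^ 3 / 30 + (tanh θ ^ 2) ^ 4 / 56
      ≤ L - Phi θ := by
  set q := tanh θ with hq
  have hq0 : 0 ≤ q := by
    rw [hq, m1_tanh]
    have : exp (-2 * θ) ≤ 1 := by
      apply exp_le_one_iff.mpr; linarith
    apply div_nonneg <;> linarith [exp_pos (-2 * θ)]
  have hqabs : |q| < 1 := m1_tanh_abs θ
  have hz1 : q ^ 2 < 1 := by
    rw [sq_lt_one_iff_abs_lt_one]; exact hqabs
  have hzabs : |q ^ 2| < 1 := by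
    rw [abs_of_nonneg (by positivity)]; exact hz1
  have hs1 := (Real.hasSum_log_sub_log_of_abs_lt_one hqabs).mul_left (q / 2)
  have hs2 := (Real.hasSum_pow_div_log_of_abs_lt_one hzabs).mul_left (1 / 2 : ℝ)
  have hs := hs1.sub hs2
  have hval : q / 2 * (log (1 + q) - log (1 - q)) - 1 / 2 * -log (1 - q ^ 2) = L - Phi θ := by
    rw [hq, m1_two_theta]
    unfold Phi
    rw [m1_log_cosh]
    ring
  rw [hval] at hs
  have hterm : ∀ k : ℕ, q / 2 * (2 * (1 / (2 * (k : ℝ) + 1)) * q ^ (2 * k + 1))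
      - 1 / 2 * ((q ^ 2) ^ (k + 1) / ((k : ℝ) + 1))
      = (q ^ 2) ^ (k + 1) * (1 / (2 * (k : ℝ) + 1) - 1 / (2 * (k : ℝ) + 2)) := by
    intro k
    have e : q ^ (2 * k + 1) * q = (q ^ 2) ^ (k + 1) := by
      rw [← pow_mul, ← pow_succ]
      congr 1
    have h1 : (2 * (k : ℝ) + 1) ≠ 0 := by positivity
    have h2 : ((k : ℝ) + 1) ≠ 0 := by positivity
    have h3 : (2 * (k : ℝ) + 2) ≠ 0 := by positivity
    calc q / 2 * (2 * (1 / (2 * (k : ℝ) + 1)) * q ^ (2 * k + 1))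
        - 1 / 2 * ((q ^ 2) ^ (k + 1) / ((k : ℝ) + 1))
        = (q ^ (2 * k + 1) * q) * (1 / (2 * (k : ℝ) + 1))
          - 1 / 2 * ((q ^ 2) ^ (k + 1) / ((k : ℝ) + 1)) := by ring
      _ = _ := by
        rw [e]
        field_simp
  have hnn : ∀ k : ℕ, 0 ≤ (q ^ 2) ^ (k + 1) * (1 / (2 * (k : ℝ) + 1) - 1 / (2 * (k : ℝ) + 2)) := by
    intro k
    apply mul_nonneg (by positivity)
    rw [sub_nonneg]
    apply one_div_le_one_div_of_le (by positivity)
    linarith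
  have h := sum_le_hasSum (Finset.range 4)
    (fun k _ => by rw [hterm k]; exact hnn k) hs
  simp only [Finset.sum_range_succ, Finset.sum_range_zero] at h
  simp only [hterm] at h
  norm_num at h
  linarith

theorem m1_ell_bound {θ : ℝ} (hz : tanh θ ^ 2 ≤ 1 / 2) :
    log (2 * cosh θ) ≤ 69315 / 100000
      + (tanh θ ^ 2 + (tanh θ ^ 2) ^ 2 / 2 + (tanh θ ^ 2) ^ 3 / 3 + (tanh θ ^ 2) ^ 4 / 4
        + 2 * (tanh θ ^ 2) ^ 5) / 2 := by
  have h0 : log (2 * cosh θ) = L + log (cosh θ) := by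
    rw [log_mul (by norm_num) (cosh_pos θ).ne']
    rfl
  rw [h0, m1_log_cosh]
  set z := tanh θ ^ 2 with hzdef
  have hz0 : 0 ≤ z := by positivity
  have habs : |z| < 1 := by
    rw [abs_of_nonneg hz0]; linarith
  have h := Real.abs_log_sub_add_sum_range_le habs 4
  simp only [Finset.sum_range_succ, Finset.sum_range_zero] at h
  rw [abs_of_nonneg hz0] at h
  have h2 := (abs_le.mp h).1
  norm_num at h2
  have h3 : z ^ 5 / (1 - z) ≤ 2 * z ^ 5 := by
    rw [div_le_iff₀ (by linarith)]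
    have : 0 ≤ z ^ 5 := by positivity
    nlinarith
  have hL : L ≤ 69315 / 100000 := by
    have := L_bounds.2
    norm_num at this ⊢
    linarith
  nlinarith

/-- polynomial bounds -/
def m1_sb (z : ℝ) : ℝ := 1 - (z / 2 + z ^ 2 / 12 + z ^ 3 / 30 + z ^ 4 / 56) / (69315 / 100000)
def m1_tb (z : ℝ) : ℝ := 1 + z / 3 + z ^ 2 / 5 + z ^ 3 / 7 + z ^ 4 / 9
def m1_lb (z : ℝ) : ℝ :=
  69315 / 100000 + (z + z ^ 2 / 2 + z ^ 3 / 3 + z ^ 4 / 4 + 2 * z ^ 5) / 2

/-- Bernstein form -/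
def m1_bern (z w : ℝ) : ℝ :=
  (64267968 / 78125 : ℝ) * z ^ 0 * w ^ 13
    + (3610865931584 / 361015625 : ℝ) * z ^ 1 * w ^ 12
    + (2124340298599712 / 37906640625 : ℝ) * z ^ 2 * w ^ 11
    + (4357367099750512 / 22743984375 : ℝ) * z ^ 3 * w ^ 10
    + (16897597326103208 / 37906640625 : ℝ) * z ^ 4 * w ^ 9
    + (762431088462497414 / 1023479296875 : ℝ) * z ^ 5 * w ^ 8
    + (939829270474063246 / 1023479296875 : ℝ) * z ^ 6 * w ^ 7
    + (223572524831472862 / 265346484375 : ℝ) * z ^ 7 * w ^ 6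
    + (12299627240361907651 / 21493065234375 : ℝ) * z ^ 8 * w ^ 5
    + (12104960095371653947 / 42986130468750 : ℝ) * z ^ 9 * w ^ 4
    + (1377955213992208151 / 14328710156250 : ℝ) * z ^ 10 * w ^ 3
    + (903929102385649427 / 42986130468750 : ℝ) * z ^ 11 * w ^ 2
    + (214700925901294547 / 85972260937500 : ℝ) * z ^ 12 * w ^ 1
    + (2950226533335923 / 28657420312500 : ℝ) * z ^ 13 * w ^ 0

theorem m1_bern_nonneg {z w : ℝ} (hz : 0 ≤ z) (hw : 0 ≤ w) : 0 ≤ m1_bern z w := by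
  unfold m1_bern
  positivity

theorem m1_key_poly {z : ℝ} (h0 : 0 ≤ z) (h1 : z ≤ 1 / 2) :
    93 / 100 * (m1_sb z - (1 - z) * (1 - 2 / 5 * z)) * (1 - z) * m1_lb z * m1_tb z
      ≤ m1_sb z * (z * m1_tb z - m1_lb z + (1 - z) * m1_lb z * m1_tb z) := by
  have h : m1_sb z * (z * m1_tb z - m1_lb z + (1 - z) * m1_lb z * m1_tb z)
      - 93 / 100 * (m1_sb z - (1 - z) * (1 - 2 / 5 * z)) * (1 - z) * m1_lb z * m1_tb z
      = z * m1_bern z (1 / 2 - z) := by
    unfold m1_sb m1_tb m1_lb m1_bern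
    ring
  have h2 := mul_nonneg h0 (m1_bern_nonneg h0 (show 0 ≤ 1 / 2 - z by linarith))
  linarith

theorem m1_small {θ : ℝ} (hθ : 0 < θ) (hz : tanh θ ^ 2 ≤ 1 / 2) :
    93 / 100 * (1 - xf (tanh θ) / S θ) ≤ gam θ - TT θ := by
  set q := tanh θ with hq
  set z := q ^ 2 with hzdef
  have hz0 : 0 ≤ z := by positivity
  have hz1 : 0 < 1 - z := by linarith
  have hq0 : 0 < q := by
    rw [hq, m1_tanh]
    have : exp (-2 * θ) < 1 := by
      apply exp_lt_one_iff.mpr; linarith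
    apply div_pos <;> linarith [exp_pos (-2 * θ)]
  have hz2 : z ^ 2 ≤ 1 / 4 := by nlinarith
  have hz3 : z ^ 3 ≤ 1 / 8 := by nlinarith [pow_nonneg hz0 2]
  have hz4 : z ^ 4 ≤ 1 / 16 := by nlinarith [pow_nonneg hz0 2, pow_nonneg hz0 3]
  have hsb : 0 < m1_sb z := by
    unfold m1_sb
    norm_num
    linarith
  have htb : 0 < m1_tb z := by
    unfold m1_tb
    positivity
  have hlb : 0 < m1_lb z := by
    unfold m1_lb
    positivity
  have hL := L_pos
  have hLh : L ≤ 69315 / 100000 := by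
    have := L_bounds.2
    norm_num at this ⊢
    linarith
  -- `S`
  have hE := m1_E_bound hθ
  rw [← hq, ← hzdef] at hE
  set Ez := z / 2 + z ^ 2 / 12 + z ^ 3 / 30 + z ^ 4 / 56 with hEz
  have hEz0 : 0 ≤ Ez := by positivity
  have hS : S θ ≤ m1_sb z := by
    have h1 : S θ ≤ 1 - Ez / L := by
      unfold S
      have e : 1 - Ez / L = (L - Ez) / L := by
        field_simp
      rw [e]
      apply div_le_div_of_nonneg_right _ hL.le
      linarith
    have h2 : Ez / (69315 / 100000) ≤ Ez / L := div_le_div_of_nonneg_left hEz0 hL hLh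
    unfold m1_sb
    linarith
  have hSpos := S_pos θ
  have hxfval : xf q = (1 - z) * (1 - 2 / 5 * z) := rfl
  have hxfpos : 0 ≤ (1 - z) * (1 - 2 / 5 * z) := by
    apply mul_nonneg hz1.le
    linarith
  have hA : 1 - xf q / S θ ≤ 1 - (1 - z) * (1 - 2 / 5 * z) / m1_sb z := by
    rw [hxfval]
    have := div_le_div_of_nonneg_left hxfpos hSpos hS
    linarith
  -- `gam` and `TT`
  have hcosh : cosh θ ^ 2 = 1 / (1 - z) := by
    have := m1_one_sub_z θ
    rw [← hq, ← hzdef] at this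
    field_simp
    linarith
  have hsinh : sinh θ ^ 2 = z / (1 - z) := by
    have h1 : sinh θ = q * cosh θ := by
      rw [hq, Real.tanh_eq_sinh_div_cosh]
      have := cosh_pos θ
      field_simp
    rw [h1, mul_pow, hcosh]
    ring
  have hzeta : zeta θ = q / ((1 - z) * θ) := by
    rw [zeta_pos_eq hθ.ne', Real.sinh_two_mul]
    have h1 : sinh θ = q * cosh θ := by
      rw [hq, Real.tanh_eq_sinh_div_cosh]
      have := cosh_pos θ
      field_simp
    rw [h1]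
    have e : 2 * (q * cosh θ) * cosh θ = 2 * q * cosh θ ^ 2 := by ring
    rw [e, hcosh]
    field_simp
  have hell := m1_ell_bound (θ := θ) (by rw [← hq, ← hzdef]; exact hz)
  rw [← hq, ← hzdef] at hell
  have hellpos : 0 < log (2 * cosh θ) := by
    have h1 : log (2 * cosh θ) = L + log (cosh θ) := by
      rw [log_mul (by norm_num) (cosh_pos θ).ne']
      rfl
    have h2 : 0 ≤ log (cosh θ) := log_nonneg (one_le_cosh θ)
    linarith
  have hgam : z / (1 - z) / m1_lb z ≤ gam θ := by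
    unfold gam
    rw [hsinh]
    apply div_le_div_of_nonneg_left (by positivity) hellpos
    unfold m1_lb
    exact hell
  have hth := m1_artanh_lower hθ
  rw [← hq, ← hzdef] at hth
  have hTT : TT θ ≤ 1 / (1 - z) / m1_tb z - 1 := by
    unfold TT
    rw [hzeta]
    have h1 : q * m1_tb z ≤ θ := by
      unfold m1_tb
      exact hth
    have h2 : q / ((1 - z) * θ) ≤ 1 / (1 - z) / m1_tb z := by
      rw [div_div, div_le_div_iff₀ (by positivity) (by positivity)]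
      have := mul_le_mul_of_nonneg_left h1 hz1.le
      nlinarith
    linarith
  -- final
  have hfin : 93 / 100 * (1 - (1 - z) * (1 - 2 / 5 * z) / m1_sb z)
      ≤ z / (1 - z) / m1_lb z - (1 / (1 - z) / m1_tb z - 1) := by
    have hk := m1_key_poly hz0 (by linarith)
    rw [← sub_nonneg]
    have e : z / (1 - z) / m1_lb z - (1 / (1 - z) / m1_tb z - 1)
        - 93 / 100 * (1 - (1 - z) * (1 - 2 / 5 * z) / m1_sb z)
        = (m1_sb z * (z * m1_tb z - m1_lb z + (1 - z) * m1_lb z * m1_tb z)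
          - 93 / 100 * (m1_sb z - (1 - z) * (1 - 2 / 5 * z)) * (1 - z) * m1_lb z * m1_tb z)
          / ((1 - z) * m1_lb z * m1_tb z * m1_sb z) := by
      field_simp
      ring
    rw [e]
    apply div_nonneg (by linarith) (by positivity)
  have hA2 := mul_le_mul_of_nonneg_left hA (show (0 : ℝ) ≤ 93 / 100 by norm_num)
  linarith

/-- `tanh² ≤ 1/2` for `θ ≤ 0.88`. -/
theorem m1_z_small {θ : ℝ} (h0 : 0 < θ) (h : θ ≤ 22 / 25) : tanh θ ^ 2 ≤ 1 / 2 := by
  have hy : exp (-2 * (22 / 25 : ℝ)) ≤ exp (-2 * θ) := exp_le_exp.mpr (by linarith)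
  have hlo := le_trans m1_pt0.1 hy
  have hy1 : exp (-2 * θ) < 1 := by
    apply exp_lt_one_iff.mpr; linarith
  rw [m1_tanh]
  set y := exp (-2 * θ) with hydef
  have hq1 : (1 - y) / (1 + y) ≤ 7065 / 10000 := by
    rw [div_le_iff₀ (by linarith)]
    norm_num at hlo ⊢
    linarith
  have hq0 : 0 ≤ (1 - y) / (1 + y) := by
    apply div_nonneg <;> linarith
  have := pow_le_pow_left₀ hq0 hq1 2
  refine le_trans this ?_
  norm_num

/-- The core inequality of the module. -/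
theorem M1_core {θ : ℝ} (h : 0 < θ) :
    93 / 100 * (1 - xf (tanh θ) / S θ) ≤ gam θ - TT θ := by
  rcases le_total θ (22 / 25) with h1 | h1
  · exact m1_small h (m1_z_small h h1)
  rcases le_total θ 2 with h2 | h2
  · exact m1_mid h1 h2
  · exact m1_large h2

/-- `M1_main` from the bound `fF θ ≤ 93/100`. -/
theorem M1_main_of {θ : ℝ} (h : 0 < θ) (hf : fF θ ≤ 93 / 100) :
    TT θ + fF θ * (1 - xf (tanh θ) / S θ) ≤ gam θ := by
  have hA : 0 ≤ 1 - xf (tanh θ) / S θ := by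
    have h1 := xf_le_phi (a := tanh θ) ⟨(neg_one_lt_tanh θ).le, (tanh_lt_one θ).le⟩
    rw [phi_tanh] at h1
    rw [sub_nonneg, div_le_one (S_pos θ)]
    exact h1
  have h2 := mul_le_mul_of_nonneg_right hf hA
  have h3 := M1_core h
  linarith

end

end CK322
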