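import Vale.Agent.Lib.P322.Theta

/-!
Noise semigroup on the cube: heat equation for the entropy and the comparison argument
turning the Bellman inequality into `phi ρ ≤ E phi (T_ρ F)` for balanced Boolean `F`.
-/

open Real Set Filter Topology

namespace CK322

noncomputable section

/-- the signed bit -/
def sgn (b : Bool) : ℝ := if b then 1 else -1

/-- noise operator with correlation `ρ` -/
def noise {n : ℕ} (ρ : ℝ) (F : (Fin n → Bool) → ℝ) (y : Fin n → Bool) : ℝ :=
  ∑ x : Fin n → Bool, (∏ i, ((1 + ρ * sgn (x i) * sgn (y i)) / 2)) * F x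

/-- the noise kernel -/
def kern {n : ℕ} (ρ : ℝ) (x y : Fin n → Bool) : ℝ :=
  ∏ i, ((1 + ρ * sgn (x i) * sgn (y i)) / 2)

theorem noise_eq {n : ℕ} (ρ : ℝ) (F : (Fin n → Bool) → ℝ) (y : Fin n → Bool) :
    noise ρ F y = ∑ x, kern ρ x y * F x := rfl

theorem sgn_not (b : Bool) : sgn (!b) = - sgn b := by
  cases b <;> simp [sgn]

theorem factor_pos {ρ : ℝ} (h0 : 0 ≤ ρ) (h1 : ρ < 1) (a b : Bool) :
    0 < (1 + ρ * sgn a * sgn b) / 2 := by
  cases a <;> cases b <;> simp [sgn] <;> linarith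

theorem factor_nonneg {ρ : ℝ} (h0 : 0 ≤ ρ) (h1 : ρ ≤ 1) (a b : Bool) :
    0 ≤ (1 + ρ * sgn a * sgn b) / 2 := by
  cases a <;> cases b <;> simp [sgn] <;> linarith

theorem kern_pos {n : ℕ} {ρ : ℝ} (h0 : 0 ≤ ρ) (h1 : ρ < 1) (x y : Fin n → Bool) :
    0 < kern ρ x y :=
  Finset.prod_pos fun i _ => factor_pos h0 h1 _ _

theorem kern_nonneg {n : ℕ} {ρ : ℝ} (h0 : 0 ≤ ρ) (h1 : ρ ≤ 1) (x y : Fin n → Bool) :
    0 ≤ kern ρ x y :=
  Finset.prod_nonneg fun i _ => factor_nonneg h0 h1 _ _

theorem kern_sum_left {n : ℕ} (ρ : ℝ) (y : Fin n → Bool) : ∑ x, kern ρ x y = 1 := by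
  unfold kern
  have := Finset.prod_univ_sum (fun _ : Fin n => (Finset.univ : Finset Bool))
    (fun i b => (1 + ρ * sgn b * sgn (y i)) / 2)
  rw [Fintype.piFinset_univ] at this
  rw [← this]
  apply Finset.prod_eq_one
  intro i _
  rw [Fintype.sum_bool]
  cases y i <;> simp [sgn] <;> ring

theorem kern_sum_right {n : ℕ} (ρ : ℝ) (x : Fin n → Bool) : ∑ y, kern ρ x y = 1 := by
  unfold kern
  have := Finset.prod_univ_sum (fun _ : Fin n => (Finset.univ : Finset Bool))
    (fun i b => (1 + ρ * sgn (x i) * sgn b) / 2)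
  rw [Fintype.piFinset_univ] at this
  rw [← this]
  apply Finset.prod_eq_one
  intro i _
  rw [Fintype.sum_bool]
  cases x i <;> simp [sgn] <;> ring

theorem noise_mem_Icc {n : ℕ} {ρ : ℝ} (h0 : 0 ≤ ρ) (h1 : ρ ≤ 1) {F : (Fin n → Bool) → ℝ}
    (hF : ∀ x, F x = 1 ∨ F x = -1) (y : Fin n → Bool) : noise ρ F y ∈ Icc (-1 : ℝ) 1 := by
  rw [noise_eq]
  have hk := kern_sum_left (n := n) ρ y
  constructor
  · have e : (-1 : ℝ) = ∑ x, kern ρ x y * (-1) := by rw [← Finset.sum_mul, hk]; ring
    rw [e]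
    refine Finset.sum_le_sum fun x _ => ?_
    apply mul_le_mul_of_nonneg_left _ (kern_nonneg h0 h1 x y)
    rcases hF x with h | h <;> rw [h] <;> norm_num
  · have e : (1 : ℝ) = ∑ x, kern ρ x y * 1 := by rw [← Finset.sum_mul, hk]; ring
    rw [e]
    refine Finset.sum_le_sum fun x _ => ?_
    apply mul_le_mul_of_nonneg_left _ (kern_nonneg h0 h1 x y)
    rcases hF x with h | h <;> rw [h] <;> norm_num

theorem noise_mem_Ioo {n : ℕ} {ρ : ℝ} (h0 : 0 ≤ ρ) (h1 : ρ < 1) {F : (Fin n → Bool) → ℝ}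
    (hF : ∀ x, F x = 1 ∨ F x = -1) {x₁ x₂ : Fin n → Bool} (hx₁ : F x₁ = 1) (hx₂ : F x₂ = -1)
    (y : Fin n → Bool) : noise ρ F y ∈ Ioo (-1 : ℝ) 1 := by
  rw [noise_eq]
  have hk := kern_sum_left (n := n) ρ y
  constructor
  · have h2 : ∑ x, kern ρ x y * (1 + F x) = 1 + ∑ x, kern ρ x y * F x := by
      simp only [mul_add, mul_one, Finset.sum_add_distrib, hk]
    have h3 : kern ρ x₁ y * (1 + F x₁) ≤ ∑ x, kern ρ x y * (1 + F x) :=
      Finset.single_le_sum (f := fun x => kern ρ x y * (1 + F x))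
        (fun x _ => mul_nonneg (kern_nonneg h0 h1.le x y)
          (by rcases hF x with h | h <;> rw [h] <;> norm_num)) (Finset.mem_univ x₁)
    have h4 := kern_pos h0 h1 x₁ y
    rw [hx₁] at h3
    linarith
  · have h2 : ∑ x, kern ρ x y * (1 - F x) = 1 - ∑ x, kern ρ x y * F x := by
      simp only [mul_sub, mul_one, Finset.sum_sub_distrib, hk]
    have h3 : kern ρ x₂ y * (1 - F x₂) ≤ ∑ x, kern ρ x y * (1 - F x) :=
      Finset.single_le_sum (f := fun x => kern ρ x y * (1 - F x))
        (fun x _ => mul_nonneg (kern_nonneg h0 h1.le x y)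
          (by rcases hF x with h | h <;> rw [h] <;> norm_num)) (Finset.mem_univ x₂)
    have h4 := kern_pos h0 h1 x₂ y
    rw [hx₂] at h3
    linarith

theorem avg_noise {n : ℕ} (ρ : ℝ) (F : (Fin n → Bool) → ℝ) : avg (noise ρ F) = avg F := by
  unfold avg
  congr 1
  simp only [noise_eq]
  rw [Finset.sum_comm]
  refine Finset.sum_congr rfl fun x _ => ?_
  rw [← Finset.sum_mul, kern_sum_right, one_mul]

/-! ### derivative of the kernel -/

theorem flip_apply_self_semi {n : ℕ} (i : Fin n) (y : Fin n → Bool) : flip i y i = !y i := by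
  simp [flip]

theorem flip_apply_ne_semi {n : ℕ} {i j : Fin n} (h : j ≠ i) (y : Fin n → Bool) :
    flip i y j = y j := by
  simp [flip, Function.update_of_ne h]

theorem flip_flip_semi {n : ℕ} (i : Fin n) (y : Fin n → Bool) : flip i (flip i y) = y := by
  funext j
  by_cases h : j = i
  · subst h; simp [flip_apply_self_semi]
  · rw [flip_apply_ne_semi h, flip_apply_ne_semi h]

/-- product of the factors other than `i` -/
def kernE {n : ℕ} (ρ : ℝ) (x y : Fin n → Bool) (i : Fin n) : ℝ :=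
  ∏ j ∈ Finset.univ.erase i, ((1 + ρ * sgn (x j) * sgn (y j)) / 2)

theorem kern_split {n : ℕ} (ρ : ℝ) (x y : Fin n → Bool) (i : Fin n) :
    kern ρ x y = ((1 + ρ * sgn (x i) * sgn (y i)) / 2) * kernE ρ x y i :=
  (Finset.mul_prod_erase _ (fun j => (1 + ρ * sgn (x j) * sgn (y j)) / 2)
    (Finset.mem_univ i)).symm

theorem kern_flip_split {n : ℕ} (ρ : ℝ) (x y : Fin n → Bool) (i : Fin n) :
    kern ρ x (flip i y) = ((1 - ρ * sgn (x i) * sgn (y i)) / 2) * kernE ρ x y i := by
  rw [kern_split ρ x (flip i y) i, flip_apply_self_semi, sgn_not]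
  have : kernE ρ x (flip i y) i = kernE ρ x y i := by
    unfold kernE
    refine Finset.prod_congr rfl fun j hj => ?_
    rw [flip_apply_ne_semi (Finset.ne_of_mem_erase hj)]
  rw [this]
  ring

theorem kern_hasDerivAt {n : ℕ} (ρ : ℝ) (x y : Fin n → Bool) :
    ∃ d : ℝ, HasDerivAt (fun r => kern r x y) d ρ ∧
      ρ * d = ∑ i, (kern ρ x y - kern ρ x (flip i y)) / 2 := by
  refine ⟨∑ i, kernE ρ x y i • (sgn (x i) * sgn (y i) / 2), ?_, ?_⟩
  · unfold kern kernE
    apply HasDerivAt.fun_finsetProd (u := Finset.univ)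
      (f := fun i r => (1 + r * sgn (x i) * sgn (y i)) / 2)
    intro i _
    have h1 : HasDerivAt (fun r : ℝ => r * sgn (x i) * sgn (y i)) (sgn (x i) * sgn (y i)) ρ := by
      have := ((hasDerivAt_id ρ).mul_const (sgn (x i))).mul_const (sgn (y i))
      simpa using this
    exact ((h1.const_add 1).div_const 2)
  · rw [Finset.mul_sum]
    refine Finset.sum_congr rfl fun i _ => ?_
    rw [kern_split ρ x y i, kern_flip_split ρ x y i]
    simp only [smul_eq_mul]
    ring

theorem noise_hasDerivAt {n : ℕ} (ρ : ℝ) (F : (Fin n → Bool) → ℝ) (y : Fin n → Bool) :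
    ∃ d : ℝ, HasDerivAt (fun r => noise r F y) d ρ ∧
      ρ * d = ∑ i, (noise ρ F y - noise ρ F (flip i y)) / 2 := by
  choose d hd hd' using fun x : Fin n → Bool => kern_hasDerivAt ρ x y
  refine ⟨∑ x, d x * F x, ?_, ?_⟩
  · simp only [noise_eq]
    exact HasDerivAt.fun_sum fun x _ => (hd x).mul_const (F x)
  · simp only [noise_eq]
    rw [Finset.mul_sum]
    have : ∀ x, ρ * (d x * F x)
        = ∑ i, (kern ρ x y - kern ρ x (flip i y)) / 2 * F x := by
      intro x
      rw [← mul_assoc, hd' x, Finset.sum_mul]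
    simp_rw [this]
    rw [Finset.sum_comm]
    refine Finset.sum_congr rfl fun i _ => ?_
    rw [← Finset.sum_sub_distrib, Finset.sum_div]
    refine Finset.sum_congr rfl fun x _ => ?_
    ring

/-! ### derivative of the entropy -/

theorem hasDerivAt_artanh_semi {u : ℝ} (hu : u ∈ Ioo (-1 : ℝ) 1) :
    HasDerivAt artanh (1 / (1 - u ^ 2)) u := by
  have h1u : 1 - u ≠ 0 := by linarith [hu.2]
  have h1u' : 1 + u ≠ 0 := by linarith [hu.1]
  have h1 : HasDerivAt (fun x : ℝ => (1 + x) / (1 - x)) ((1 * (1 - u) - (1 + u) * (-1)) / (1 - u) ^ 2) u := by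
    have ha : HasDerivAt (fun x : ℝ => 1 + x) 1 u := by simpa using (hasDerivAt_id u).const_add 1
    have hb : HasDerivAt (fun x : ℝ => 1 - x) (-1) u := by simpa using (hasDerivAt_id u).const_sub 1
    exact ha.div hb h1u
  have h2 := (h1.log (div_ne_zero h1u' h1u)).const_mul (1 / 2 : ℝ)
  have h3 : HasDerivAt (fun x : ℝ => 1 / 2 * log ((1 + x) / (1 - x))) (1 / (1 - u ^ 2)) u := by
    refine h2.congr_deriv ?_
    have : 1 - u ^ 2 = (1 + u) * (1 - u) := by ring
    rw [this]
    field_simp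
    ring
  refine h3.congr_of_eventuallyEq ?_
  filter_upwards [Ioo_mem_nhds hu.1 hu.2] with x hx
  exact artanh_eq_half_log ⟨hx.1.le, hx.2.le⟩

theorem hasDerivAt_phi_semi {u : ℝ} (hu : u ∈ Ioo (-1 : ℝ) 1) :
    HasDerivAt phi (-artanh u / L) u := by
  have h1u : 0 < 1 - u := by linarith [hu.2]
  have h1u' : 0 < 1 + u := by linarith [hu.1]
  have hp : HasDerivAt (fun x : ℝ => (1 + x) / 2) (1 / 2) u := by
    simpa using ((hasDerivAt_id u).const_add 1).div_const 2
  have hb := hasDerivAt_binEntropy (p := (1 + u) / 2) (by positivity) (by intro h; linarith)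
  have h2 := (HasDerivAt.comp u hb hp).div_const L
  have h3 : (log (1 - (1 + u) / 2) - log ((1 + u) / 2)) * (1 / 2) / L = -artanh u / L := by
    rw [artanh_eq_half_log ⟨hu.1.le, hu.2.le⟩]
    have e1 : 1 - (1 + u) / 2 = (1 - u) / 2 := by ring
    rw [e1, log_div h1u.ne' (by norm_num), log_div h1u'.ne' (by norm_num),
      log_div h1u'.ne' h1u.ne']
    ring
  rw [h3] at h2
  exact h2

/-! ### heat equation for the entropy -/

theorem avg_flip_semi {n : ℕ} (i : Fin n) (h : (Fin n → Bool) → ℝ) :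
    avg (fun y => h (flip i y)) = avg h := by
  unfold avg
  congr 1
  exact Equiv.sum_comp (Function.Involutive.toPerm (flip i) (flip_flip_semi i)) h

theorem avg_add_semi {Z : Type*} [Fintype Z] (f g : Z → ℝ) :
    avg (fun z => f z + g z) = avg f + avg g := by
  unfold avg
  rw [Finset.sum_add_distrib, add_div]

theorem avg_const_mul_semi {Z : Type*} [Fintype Z] (c : ℝ) (f : Z → ℝ) :
    avg (fun z => c * f z) = c * avg f := by
  unfold avg
  rw [← Finset.mul_sum, mul_div_assoc]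

theorem avg_sum_semi {Z ι : Type*} [Fintype Z] [Fintype ι] (f : ι → Z → ℝ) :
    avg (fun z => ∑ i, f i z) = ∑ i, avg (f i) := by
  unfold avg
  rw [Finset.sum_comm, Finset.sum_div]

theorem avg_eq_of_symm {n : ℕ} (g : (Fin n → Bool) → ℝ) (i : Fin n) :
    avg (fun y => -artanh (g y) / L * ((g y - g (flip i y)) / 2))
      = - avg (fun y => D1 (g y) (g (flip i y))) := by
  set a : (Fin n → Bool) → ℝ := fun y => -artanh (g y) / L * ((g y - g (flip i y)) / 2) with ha
  have h1 : avg (fun y => a (flip i y)) = avg a := avg_flip_semi i a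
  have h2 : ∀ y, D1 (g y) (g (flip i y)) = (-1 / 2) * a y + (-1 / 2) * a (flip i y) := by
    intro y
    simp only [ha, flip_flip_semi]
    unfold D1
    have hL : L ≠ 0 := L_pos.ne'
    field_simp
    ring
  simp_rw [h2]
  rw [avg_add_semi, avg_const_mul_semi, avg_const_mul_semi, h1]
  ring

theorem avg_hasDerivAt_phi {n : ℕ} {ρ : ℝ} {F : (Fin n → Bool) → ℝ}
    (hg : ∀ y, noise ρ F y ∈ Ioo (-1 : ℝ) 1) :
    ∃ d : ℝ, HasDerivAt (fun r => avg (fun y => phi (noise r F y))) d ρ ∧
      ρ * d = - Dir (noise ρ F) := by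
  choose d hd hd' using fun y : Fin n → Bool => noise_hasDerivAt ρ F y
  refine ⟨avg (fun y => (-artanh (noise ρ F y) / L) * d y), ?_, ?_⟩
  · unfold avg
    have : ∀ y, HasDerivAt (fun r => phi (noise r F y)) (-artanh (noise ρ F y) / L * d y) ρ :=
      fun y => HasDerivAt.comp ρ (hasDerivAt_phi_semi (hg y)) (hd y)
    exact (HasDerivAt.fun_sum fun y _ => this y).div_const _
  · rw [← avg_const_mul_semi]
    have : ∀ y, ρ * (-artanh (noise ρ F y) / L * d y)
        = ∑ i, -artanh (noise ρ F y) / L * ((noise ρ F y - noise ρ F (flip i y)) / 2) := by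
      intro y
      rw [mul_left_comm, hd' y, Finset.mul_sum]
    simp_rw [this]
    rw [avg_sum_semi]
    unfold Dir
    rw [← Finset.sum_neg_distrib]
    refine Finset.sum_congr rfl fun i _ => ?_
    exact avg_eq_of_symm (noise ρ F) i

/-! ### the comparison -/

/-- the Bellman inequality at a balanced function in convenient form -/
theorem bellman_balanced {n : ℕ} {g : (Fin n → Bool) → ℝ} {θ : ℝ}
    (hb : avg g = 0)
    (hbell : 2 * (phi (avg g) - avg (fun x => phi (g x))) + alR θ * xf (avg g)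
        - TT θ * avg (fun x => phi (g x)) ≤ Dir g) :
    hh θ + (zeta θ + 1) * (S θ - avg (fun x => phi (g x))) ≤ Dir g := by
  have h0 : phi 0 = 1 := by
    have : ((1 : ℝ) + 0) / 2 = 2⁻¹ := by norm_num
    unfold phi
    rw [this, binEntropy_two_inv]
    exact div_self L_pos.ne'
  rw [hb, h0] at hbell
  have hx : xf 0 = 1 := by norm_num [xf]
  rw [hx] at hbell
  unfold alR TT at hbell
  linarith

theorem zeta_artanh_semi {r : ℝ} (h0 : 0 < r) (h1 : r < 1) :
    zeta (artanh r) = r / ((1 - r ^ 2) * artanh r) := by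
  have hθ : 0 < artanh r := artanh_pos ⟨h0, h1⟩
  rw [zeta_pos_eq hθ.ne']
  have hmem : r ∈ Ioo (-1 : ℝ) 1 := ⟨by linarith, h1⟩
  have hs : 0 < 1 - r ^ 2 := by nlinarith
  have hss := sqrt_pos.mpr hs
  rw [sinh_two_mul, sinh_artanh hmem, cosh_artanh hmem]
  have hsq : √(1 - r ^ 2) * √(1 - r ^ 2) = 1 - r ^ 2 := mul_self_sqrt hs.le
  field_simp
  rw [sq_sqrt hs.le]

theorem tanh_artanh_semi {r : ℝ} (h0 : 0 < r) (h1 : r < 1) : tanh (artanh r) = r :=
  tanh_artanh ⟨by linarith, h1⟩

/-- the comparison function `(V - phi) / H` is antitone on `(0,1)`. -/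
theorem comparison_step {n : ℕ} {F : (Fin n → Bool) → ℝ} {r : ℝ} (h0 : 0 < r) (h1 : r < 1)
    (hg : ∀ y, noise r F y ∈ Ioo (-1 : ℝ) 1) (hbal : avg (noise r F) = 0)
    (hbell : ∀ θ : ℝ, 0 ≤ θ → 2 * (phi (avg (noise r F)) - avg (fun x => phi (noise r F x)))
        + alR θ * xf (avg (noise r F))
        - TT θ * avg (fun x => phi (noise r F x)) ≤ Dir (noise r F)) :
    ∃ d : ℝ, HasDerivAt (fun s => (avg (fun y => phi (noise s F y)) - phi s)
        / (s * artanh s / L)) d r ∧ d ≤ 0 := by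
  obtain ⟨dV, hdV, hdV'⟩ := avg_hasDerivAt_phi hg
  have hmem : r ∈ Ioo (-1 : ℝ) 1 := ⟨by linarith, h1⟩
  have hθ : 0 < artanh r := artanh_pos ⟨h0, h1⟩
  have hs : 0 < 1 - r ^ 2 := by nlinarith
  have hL := L_pos
  have hphi := hasDerivAt_phi_semi hmem
  have hHd : HasDerivAt (fun s => s * artanh s / L)
      ((1 * artanh r + r * (1 / (1 - r ^ 2))) / L) r :=
    ((hasDerivAt_id r).mul (hasDerivAt_artanh_semi hmem)).div_const L
  have hHpos : 0 < r * artanh r / L := by positivity
  have hder := (hdV.sub hphi).div hHd hHpos.ne'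
  refine ⟨_, hder, ?_⟩
  have hb := bellman_balanced hbal (hbell (artanh r) hθ.le)
  have hdir : Dir (noise r F) = -(r * dV) := by linarith
  rw [hdir] at hb
  have hh_eq : hh (artanh r) = r * artanh r / L := by
    unfold hh
    rw [tanh_artanh_semi h0 h1]
    ring
  have hS : S (artanh r) = phi r := by
    rw [← phi_tanh, tanh_artanh_semi h0 h1]
  rw [hh_eq, hS, zeta_artanh_semi h0 h1] at hb
  set θ := artanh r with hθdef
  set V := avg (fun y => phi (noise r F y)) with hV
  simp only [Pi.sub_apply]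
  apply div_nonpos_of_nonpos_of_nonneg _ (by positivity)
  -- clear denominators
  have key : (dV - -θ / L) * (r * θ / L) * (r * L * L) * (1 - r ^ 2)
      ≤ (V - phi r) * ((1 * θ + r * (1 / (1 - r ^ 2))) / L) * (r * L * L) * (1 - r ^ 2) := by
    have e1 : (V - phi r) * ((1 * θ + r * (1 / (1 - r ^ 2))) / L) * (r * L * L) * (1 - r ^ 2)
        = (V - phi r) * (θ * (1 - r ^ 2) + r) * (r * L) := by
      field_simp
    have e2 : (dV - -θ / L) * (r * θ / L) * (r * L * L) * (1 - r ^ 2)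
        = (r * dV + r * θ / L) * (r * θ) * L * (1 - r ^ 2) := by
      field_simp
      ring
    rw [e1, e2]
    have hb2 : r * dV + r * θ / L ≤ (r / ((1 - r ^ 2) * θ) + 1) * (V - phi r) := by
      nlinarith [hb]
    have hpos : 0 ≤ (r * θ) * L * (1 - r ^ 2) := by positivity
    have := mul_le_mul_of_nonneg_right hb2 hpos
    calc (r * dV + r * θ / L) * (r * θ) * L * (1 - r ^ 2)
        = (r * dV + r * θ / L) * ((r * θ) * L * (1 - r ^ 2)) := by ring
      _ ≤ (r / ((1 - r ^ 2) * θ) + 1) * (V - phi r) * ((r * θ) * L * (1 - r ^ 2)) := this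
      _ = (V - phi r) * (θ * (1 - r ^ 2) + r) * (r * L) := by
        field_simp
        ring
  have hpos : 0 < (r * L * L) * (1 - r ^ 2) := by positivity
  have key2 : ((dV - -θ / L) * (r * θ / L) - (V - phi r) * ((1 * θ + r * (1 / (1 - r ^ 2))) / L))
      * ((r * L * L) * (1 - r ^ 2)) ≤ 0 := by
    nlinarith [key]
  by_contra hcon
  push Not at hcon
  have := mul_pos hcon hpos
  linarith

theorem phi_continuous_semi : Continuous phi := by
  unfold phi
  exact (binEntropy_continuous.comp (by fun_prop)).div_const L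

theorem phi_one_semi : phi 1 = 0 := by
  unfold phi
  norm_num

/-- Main comparison statement: the Bellman inequality (for this `n`) implies the theorem. -/
theorem noise_balanced_phi_of {n : ℕ}
    (hbell : ∀ g : (Fin n → Bool) → ℝ, (∀ x, g x ∈ Ioo (-1 : ℝ) 1) → ∀ θ : ℝ, 0 ≤ θ →
      2 * (phi (avg g) - avg (fun x => phi (g x))) + alR θ * xf (avg g)
        - TT θ * avg (fun x => phi (g x)) ≤ Dir g)
    (F : (Fin n → Bool) → ℝ) (hF : ∀ x, F x = 1 ∨ F x = -1)
    (hb : avg F = 0) {ρ : ℝ} (h0 : 0 ≤ ρ) (h1 : ρ ≤ 1) :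
    phi ρ ≤ avg (fun y => phi (noise ρ F y)) := by
  have hcard : (0 : ℝ) < Fintype.card (Fin n → Bool) := by
    exact_mod_cast Fintype.card_pos
  -- both values are attained
  have hsum : ∑ x, F x = 0 := by
    unfold avg at hb
    rcases div_eq_zero_iff.mp hb with h | h
    · exact h
    · exact absurd h hcard.ne'
  have hex1 : ∃ x, F x = 1 := by
    by_contra hne
    push Not at hne
    have hall : ∀ x, F x = -1 := fun x => (hF x).resolve_left (hne x)
    simp only [hall] at hsum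
    simp at hsum
  have hex2 : ∃ x, F x = -1 := by
    by_contra hne
    push Not at hne
    have hall : ∀ x, F x = 1 := fun x => (hF x).resolve_right (hne x)
    simp only [hall] at hsum
    simp at hsum
  obtain ⟨x₁, hx₁⟩ := hex1
  obtain ⟨x₂, hx₂⟩ := hex2
  have hV_nonneg : ∀ s : ℝ, 0 ≤ s → s ≤ 1 → 0 ≤ avg (fun y => phi (noise s F y)) := by
    intro s hs0 hs1
    unfold avg
    apply div_nonneg _ hcard.le
    apply Finset.sum_nonneg
    intro y _
    have := noise_mem_Icc hs0 hs1 hF y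
    exact phi_nonneg this.1 this.2
  -- the endpoints
  rcases eq_or_lt_of_le h0 with rfl | h0'
  · -- ρ = 0
    have hz : ∀ y, noise 0 F y = 0 := by
      intro y
      have hk : ∀ x, kern (0 : ℝ) x y = (1 / 2 : ℝ) ^ n := by
        intro x
        unfold kern
        simp
      rw [noise_eq]
      simp only [hk]
      rw [← Finset.mul_sum, hsum, mul_zero]
    have hz2 : phi 0 = 1 := by
      have : ((1 : ℝ) + 0) / 2 = 2⁻¹ := by norm_num
      unfold phi
      rw [this, binEntropy_two_inv]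
      exact div_self L_pos.ne'
    simp only [hz, hz2]
    unfold avg
    simp only [Finset.sum_const, Finset.card_univ, nsmul_eq_mul, mul_one]
    rw [div_self hcard.ne']
  rcases eq_or_lt_of_le h1 with rfl | h1'
  · rw [phi_one_semi]
    exact hV_nonneg 1 (by norm_num) le_rfl
  -- interior: antitonicity
  set Q : ℝ → ℝ := fun s => (avg (fun y => phi (noise s F y)) - phi s) / (s * artanh s / L) with hQ
  have hstep : ∀ r ∈ Ioo (0 : ℝ) 1, ∃ d, HasDerivAt Q d r ∧ d ≤ 0 := by
    intro r hr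
    have hg := noise_mem_Ioo hr.1.le hr.2 hF hx₁ hx₂
    refine comparison_step hr.1 hr.2 hg ?_ (fun θ hθ => hbell _ hg θ hθ)
    rw [avg_noise, hb]
  have hanti : AntitoneOn Q (Ioo (0 : ℝ) 1) := by
    apply antitoneOn_of_deriv_nonpos (convex_Ioo 0 1)
    · intro r hr
      obtain ⟨d, hd, _⟩ := hstep r hr
      exact hd.continuousAt.continuousWithinAt
    · intro r hr
      rw [interior_Ioo] at hr
      obtain ⟨d, hd, _⟩ := hstep r hr
      exact hd.differentiableAt.differentiableWithinAt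
    · intro r hr
      rw [interior_Ioo] at hr
      obtain ⟨d, hd, hd'⟩ := hstep r hr
      rw [hd.deriv]
      exact hd'
  have hL := L_pos
  have hHρ : 0 < ρ * artanh ρ / L := by
    have := artanh_pos ⟨h0', h1'⟩
    positivity
  -- pass to the limit
  have hlim : Tendsto (fun s => -phi s / (ρ * artanh ρ / L)) (𝓝[<] (1 : ℝ))
      (𝓝 (-phi 1 / (ρ * artanh ρ / L))) := by
    have : Continuous (fun s => -phi s / (ρ * artanh ρ / L)) :=
      (phi_continuous_semi.neg).div_const _
    exact (this.tendsto 1).mono_left nhdsWithin_le_nhds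
  have hev : ∀ᶠ s in 𝓝[<] (1 : ℝ), -phi s / (ρ * artanh ρ / L) ≤ Q ρ := by
    filter_upwards [Ioo_mem_nhdsLT h1'] with s hs
    have hs1 : s ∈ Ioo (0 : ℝ) 1 := ⟨h0'.trans hs.1, hs.2⟩
    have hρ1 : ρ ∈ Ioo (0 : ℝ) 1 := ⟨h0', h1'⟩
    have ha := hanti hρ1 hs1 hs.1.le
    refine le_trans ?_ ha
    have hphi : 0 ≤ phi s := phi_nonneg (by linarith [hs1.1]) hs1.2.le
    have hV := hV_nonneg s hs1.1.le hs1.2.le
    have hHs : ρ * artanh ρ / L ≤ s * artanh s / L := by
      apply div_le_div_of_nonneg_right _ hL.le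
      have h2 : artanh ρ ≤ artanh s := artanh_le_artanh (by linarith) hs.2 hs.1.le
      have h3 : 0 < artanh ρ := artanh_pos hρ1
      nlinarith [hs.1]
    have hHs' : 0 < s * artanh s / L := lt_of_lt_of_le hHρ hHs
    simp only [hQ]
    calc -phi s / (ρ * artanh ρ / L) ≤ -phi s / (s * artanh s / L) := by
          rw [neg_div, neg_div]
          exact neg_le_neg (div_le_div_of_nonneg_left hphi hHρ hHs)
      _ ≤ _ := by
          apply div_le_div_of_nonneg_right _ hHs'.le
          linarith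
  have hfin := le_of_tendsto hlim hev
  rw [phi_one_semi] at hfin
  simp only [neg_zero, zero_div] at hfin
  simp only [hQ] at hfin
  have := (div_nonneg_iff.mp hfin).elim (fun h => h.1) (fun h => absurd h.2 (not_le.mpr hHρ))
  linarith

end

end CK322
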