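import Vale.Agent.Lib.P322.KDet
import Vale.Agent.Lib.P322.CubeCore
import Vale.Agent.Lib.P322.SemiCore

/-!
The Bellman inequality and the noise inequality for balanced functions.
-/

open Real Set

namespace CK322

theorem bellman {n : ℕ} (g : (Fin n → Bool) → ℝ) (hg : ∀ x, g x ∈ Ioo (-1:ℝ) 1) {θ : ℝ} (hθ : 0 ≤ θ) :
    2 * (phi (avg g) - avg (fun x => phi (g x))) + alR θ * xf (avg g) - TT θ * avg (fun x => phi (g x))
      ≤ Dir g := by
  refine bellman_of ?_ ?_ g hg hθ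
  · intro a ha θ hθ
    have hx := xf_pos' ha
    have hv := phi_pos ha
    have h1 := RR_tangent hx hv hθ
    rw [RR_of_le hx (xf_le_phi ⟨ha.1.le, ha.2.le⟩)] at h1
    exact h1
  · intro n u w hu hw θ hθ
    exact K_tan u w hu hw hθ

theorem noise_balanced_phi {n : ℕ} (F : (Fin n → Bool) → ℝ) (hF : ∀ x, F x = 1 ∨ F x = -1)
    (hb : avg F = 0) {ρ : ℝ} (h0 : 0 ≤ ρ) (h1 : ρ ≤ 1) :
    phi ρ ≤ avg (fun y => phi (noise ρ F y)) :=
  noise_balanced_phi_of (fun g hg _ hθ => bellman g hg hθ) F hF hb h0 h1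

end CK322
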