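import Vale.Agent.Lib.P322.General

/-!
The capped function `psiC` of the second Bellman inequality: on `[0,1/2]` it is `rhoT (1 - D)`,
beyond `1/2` it continues by its tangent line.
-/

open Real Set Filter Topology

namespace CK322

noncomputable section

/-- the slope at the cap -/
def T0 : ℝ := TTs (1 / 2)

/-- the capped function -/
def psiC (D : ℝ) : ℝ := if D ≤ 1 / 2 then rhoT (1 - D) else rhoT (1 / 2) + T0 * (D - 1 / 2)

/-- its derivative -/
def dpsi (D : ℝ) : ℝ := if D ≤ 1 / 2 then TTs (1 - D) else T0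

/-- the tangent line at parameter `θ` -/
def tanL (θ D : ℝ) : ℝ := rhoθ θ + TT θ * (D - 1 + S θ)

theorem rhoT_of_ge {s : ℝ} (h : 1 ≤ s) : rhoT s = 0 := by
  unfold rhoT; rw [if_neg (not_lt.2 h)]

theorem TTs_of_ge {s : ℝ} (h : 1 ≤ s) : TTs s = 0 := by
  unfold TTs; rw [if_neg (not_lt.2 h)]

theorem S_le_one {θ : ℝ} (h : 0 ≤ θ) : S θ ≤ 1 := by
  have := S_strictAnti.antitoneOn (mem_Ici.2 le_rfl) (mem_Ici.2 h) h
  rwa [S_zero] at this

theorem TTs_S {θ : ℝ} (h : 0 ≤ θ) : TTs (S θ) = TT θ := by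
  by_cases h1 : S θ < 1
  · unfold TTs; rw [if_pos h1, Sinv_S h]
  · rw [TTs_of_ge (not_lt.1 h1)]
    rcases h.lt_or_eq with h2 | h2
    · have := S_strictAnti (mem_Ici.2 le_rfl) (mem_Ici.2 h) h2
      rw [S_zero] at this
      exact absurd this h1
    · rw [← h2, TT_zero]

theorem rhoT_S {θ : ℝ} (h : 0 ≤ θ) : rhoT (S θ) = rhoθ θ := by
  by_cases h1 : S θ < 1
  · unfold rhoT; rw [if_pos h1, Sinv_S h]
  · rw [rhoT_of_ge (not_lt.1 h1)]
    rcases h.lt_or_eq with h2 | h2
    · have := S_strictAnti (mem_Ici.2 le_rfl) (mem_Ici.2 h) h2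
      rw [S_zero] at this
      exact absurd this h1
    · rw [← h2, rhoθ_zero]

/-- the cap parameter -/
def θc : ℝ := Sinv (1 / 2)

theorem θc_nonneg : 0 ≤ θc := (Sinv_spec (by norm_num) (by norm_num)).1

theorem S_θc : S θc = 1 / 2 := (Sinv_spec (by norm_num) (by norm_num)).2

theorem T0_eq : T0 = TT θc := by
  unfold T0
  rw [← S_θc, TTs_S θc_nonneg]

theorem rhoT_half : rhoT (1 / 2) = rhoθ θc := by
  rw [← S_θc, rhoT_S θc_nonneg]

theorem T0_nonneg : 0 ≤ T0 := TTs_nonneg (by norm_num)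

theorem psiC_of_le {D : ℝ} (h : D ≤ 1 / 2) : psiC D = rhoT (1 - D) := by
  unfold psiC; rw [if_pos h]

theorem psiC_of_gt {D : ℝ} (h : 1 / 2 < D) : psiC D = rhoT (1 / 2) + T0 * (D - 1 / 2) := by
  unfold psiC; rw [if_neg (not_le.2 h)]

theorem dpsi_of_le {D : ℝ} (h : D ≤ 1 / 2) : dpsi D = TTs (1 - D) := by
  unfold dpsi; rw [if_pos h]

theorem dpsi_of_ge {D : ℝ} (h : 1 / 2 ≤ D) : dpsi D = T0 := by
  rcases h.lt_or_eq with h1 | h1
  · unfold dpsi; rw [if_neg (not_le.2 h1)]
  · rw [← h1, dpsi_of_le le_rfl]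
    unfold T0
    norm_num

theorem psiC_zero : psiC 0 = 0 := by
  rw [psiC_of_le (by norm_num), sub_zero, rhoT_of_ge le_rfl]

theorem psiC_half : psiC (1 / 2) = rhoθ θc := by
  rw [psiC_of_le le_rfl, ← rhoT_half]
  norm_num

theorem rhoT_tan {θ s : ℝ} (hθ : 0 ≤ θ) (hs : 0 < s) :
    rhoθ θ + TT θ * (S θ - s) ≤ rhoT s := rhoT_core hθ hs

/-- `psiC` dominates its tangent lines. -/
theorem tanL_le_psiC {θ D : ℝ} (hθ : 0 ≤ θ) (hS : 1 / 2 ≤ S θ) (hD : D < 1) : tanL θ D ≤ psiC D := by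
  unfold tanL
  by_cases h : D ≤ 1 / 2
  · rw [psiC_of_le h]
    have := rhoT_tan hθ (show 0 < 1 - D by linarith)
    have e : D - 1 + S θ = S θ - (1 - D) := by ring
    rw [e]
    exact this
  · have h' : 1 / 2 < D := not_le.1 h
    rw [psiC_of_gt h']
    have h1 := rhoT_tan hθ (show (0 : ℝ) < 1 / 2 by norm_num)
    have h2 : TT θ ≤ T0 := by
      rw [← TTs_S hθ]
      exact TTs_anti (by norm_num) hS
    have e : rhoθ θ + TT θ * (D - 1 + S θ) = rhoθ θ + TT θ * (S θ - 1 / 2) + TT θ * (D - 1 / 2) := by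
      ring
    rw [e]
    have h3 : TT θ * (D - 1 / 2) ≤ T0 * (D - 1 / 2) :=
      mul_le_mul_of_nonneg_right h2 (by linarith)
    linarith

/-- every value of `psiC` is attained by a tangent line. -/
theorem psiC_attain {D : ℝ} (hD : D < 1) :
    ∃ θ, 0 ≤ θ ∧ 1 / 2 ≤ S θ ∧ psiC D = tanL θ D ∧ TT θ = dpsi D := by
  by_cases h : D ≤ 1 / 2
  · by_cases h0 : D ≤ 0
    · refine ⟨0, le_rfl, by rw [S_zero]; norm_num, ?_, ?_⟩
      · rw [psiC_of_le h, rhoT_of_ge (by linarith)]
        unfold tanL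
        rw [rhoθ_zero, TT_zero]
        ring
      · rw [dpsi_of_le h, TTs_of_ge (by linarith), TT_zero]
    · have h0' : 0 < D := not_le.1 h0
      obtain ⟨a1, a2⟩ := Sinv_spec (show 0 < 1 - D by linarith) (by linarith)
      refine ⟨Sinv (1 - D), a1, by rw [a2]; linarith, ?_, ?_⟩
      · rw [psiC_of_le h]
        unfold tanL rhoT
        rw [if_pos (by linarith), a2]
        ring
      · rw [dpsi_of_le h]
        unfold TTs
        rw [if_pos (by linarith)]
  · have h' : 1 / 2 < D := not_le.1 h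
    refine ⟨θc, θc_nonneg, by rw [S_θc], ?_, ?_⟩
    · rw [psiC_of_gt h', rhoT_half, T0_eq]
      unfold tanL
      rw [S_θc]
      ring
    · rw [dpsi_of_ge h'.le, T0_eq]

theorem dpsi_nonneg {D : ℝ} (hD : D < 1) : 0 ≤ dpsi D := by
  by_cases h : D ≤ 1 / 2
  · rw [dpsi_of_le h]; exact TTs_nonneg (by linarith)
  · rw [dpsi_of_ge (not_le.1 h).le]; exact T0_nonneg

theorem dpsi_mono {D₁ D₂ : ℝ} (h : D₁ ≤ D₂) (hD : D₂ < 1) : dpsi D₁ ≤ dpsi D₂ := by
  by_cases h2 : D₂ ≤ 1 / 2
  · rw [dpsi_of_le h2, dpsi_of_le (h.trans h2)]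
    exact TTs_anti (by linarith) (by linarith)
  · rw [dpsi_of_ge (not_le.1 h2).le]
    by_cases h1 : D₁ ≤ 1 / 2
    · rw [dpsi_of_le h1]
      exact TTs_anti (by norm_num) (by linarith)
    · rw [dpsi_of_ge (not_le.1 h1).le]

theorem dpsi_le_T0 {D : ℝ} (hD : D < 1) : dpsi D ≤ T0 := by
  by_cases h : D ≤ 1 / 2
  · rw [dpsi_of_le h]
    exact TTs_anti (by norm_num) (by linarith)
  · rw [dpsi_of_ge (not_le.1 h).le]

/-- the tangent inequality for `psiC` -/
theorem psiC_tangent {D D' : ℝ} (hD : D < 1) (hD' : D' < 1) :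
    psiC D + dpsi D * (D' - D) ≤ psiC D' := by
  obtain ⟨θ, h0, h1, h2, h3⟩ := psiC_attain hD
  have := tanL_le_psiC h0 h1 hD'
  rw [h2, ← h3]
  unfold tanL at this ⊢
  linarith

theorem psiC_nonneg {D : ℝ} (hD : D < 1) : 0 ≤ psiC D := by
  have := tanL_le_psiC (θ := 0) le_rfl (by rw [S_zero]; norm_num) hD
  unfold tanL at this
  rw [rhoθ_zero, TT_zero] at this
  linarith

theorem psiC_mono {D D' : ℝ} (h : D ≤ D') (hD' : D' < 1) : psiC D ≤ psiC D' := by
  have := psiC_tangent (h.trans_lt hD') hD'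
  have h2 := dpsi_nonneg (h.trans_lt hD')
  have h3 : 0 ≤ dpsi D * (D' - D) := mul_nonneg h2 (by linarith)
  linarith

/-- `psiC` is Lipschitz with constant `T0` -/
theorem psiC_sub_le {D D' : ℝ} (h : D ≤ D') (hD' : D' < 1) : psiC D' - psiC D ≤ T0 * (D' - D) := by
  have := psiC_tangent hD' (h.trans_lt hD')
  have h2 := dpsi_le_T0 hD'
  have h3 : dpsi D' * (D' - D) ≤ T0 * (D' - D) := mul_le_mul_of_nonneg_right h2 (by linarith)
  nlinarith

theorem hasDerivAt_psiC {D : ℝ} (hD : D < 1) : HasDerivAt psiC (dpsi D) D := by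
  have hg : ∀ y, y < 1 → HasDerivAt (fun x => rhoT (1 - x)) (TTs (1 - y)) y := by
    intro y hy
    have h1 := hasDerivAt_rhoT (show 0 < 1 - y by linarith)
    have h2 : HasDerivAt (fun x : ℝ => 1 - x) (-1) y := by
      simpa using (hasDerivAt_id y).const_sub 1
    have h3 := h1.comp y h2
    refine h3.congr_deriv ?_
    ring
  have hh : ∀ y, HasDerivAt (fun x => rhoT (1 / 2) + T0 * (x - 1 / 2)) T0 y := by
    intro y
    have h2 : HasDerivAt (fun x : ℝ => x - 1 / 2) 1 y := by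
      simpa using (hasDerivAt_id y).sub_const (1 / 2)
    have h3 := (h2.const_mul T0).const_add (rhoT (1 / 2))
    simpa using h3
  rcases lt_trichotomy D (1 / 2) with h | h | h
  · rw [dpsi_of_le h.le]
    refine (hg D hD).congr_of_eventuallyEq ?_
    filter_upwards [gt_mem_nhds h] with y hy
    exact psiC_of_le hy.le
  · subst h
    rw [dpsi_of_le le_rfl]
    have e : TTs (1 - (1 / 2 : ℝ)) = T0 := by unfold T0; norm_num
    rw [e]
    have h1 : HasDerivWithinAt psiC T0 (Iic (1 / 2)) (1 / 2) := by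
      have := (hg (1 / 2) (by norm_num)).hasDerivWithinAt (s := Iic (1 / 2))
      rw [e] at this
      refine this.congr ?_ ?_
      · intro y hy
        exact psiC_of_le hy
      · exact psiC_of_le le_rfl
    have h2 : HasDerivWithinAt psiC T0 (Ici (1 / 2)) (1 / 2) := by
      refine (hh (1 / 2)).hasDerivWithinAt.congr ?_ ?_
      · intro y hy
        rcases (mem_Ici.1 hy).lt_or_eq with h3 | h3
        · exact psiC_of_gt h3
        · rw [← h3, psiC_of_le le_rfl]
          norm_num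
      · rw [psiC_of_le le_rfl]
        norm_num
    have h3 := h1.union h2
    rw [Iic_union_Ici] at h3
    exact h3.hasDerivAt Filter.univ_mem
  · rw [dpsi_of_ge h.le]
    refine (hh D).congr_of_eventuallyEq ?_
    filter_upwards [lt_mem_nhds h] with y hy
    exact psiC_of_gt hy

/-- the slope comparison behind the `Sup` bounds -/
theorem om_sub_le {w₁ w₂ : ℝ} (h1 : 1 ≤ w₁) (h : w₁ ≤ w₂) : om w₂ - om w₁ ≤ 93 / 100 * (w₂ - w₁) := by
  have hanti : AntitoneOn (fun w => om w - 93 / 100 * w) (Ici 1) := by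
    have hd : ∀ x : ℝ, 1 < x → HasDerivAt (fun w => om w - 93 / 100 * w)
        (fF (Sinv (1 / x)) - 93 / 100) x := by
      intro x hx
      have := (hasDerivAt_om hx).fun_sub ((hasDerivAt_id' x).const_mul (93 / 100 : ℝ))
      exact this.congr_deriv (by ring)
    apply antitoneOn_of_deriv_nonpos (convex_Ici 1)
    · intro x hx
      have hx1 : (1 : ℝ) ≤ x := hx
      apply ContinuousAt.continuousWithinAt
      apply ContinuousAt.sub (om_continuousAt (by linarith))
      fun_prop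
    · intro x hx
      rw [interior_Ici] at hx
      exact (hd x hx).differentiableAt.differentiableWithinAt
    · intro x hx
      rw [interior_Ici] at hx
      have hx1 : (1 : ℝ) < x := hx
      rw [(hd x hx1).deriv]
      have hx0 : 0 < x := by linarith
      have hs1 : 1 / x < 1 := by rw [div_lt_one hx0]; exact hx1
      have := fF_le (Sinv_pos (show 0 < 1 / x by positivity) hs1)
      linarith
  have := hanti (mem_Ici.2 h1) (mem_Ici.2 (h1.trans h)) h
  simp only at this
  linarith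

theorem TTs_eq_om {s : ℝ} (h : 0 < s) : TTs s = om (1 / s) := by
  unfold om
  rw [one_div_one_div]

/-- the slope bound: `dpsi` has slope at most `0.93 / (1-D)²`. -/
theorem dpsi_sub_le {D₁ D₂ : ℝ} (h0 : 0 ≤ D₁) (h : D₁ ≤ D₂) (h2 : D₂ ≤ 1 / 2) :
    dpsi D₂ - dpsi D₁ ≤ 93 / 100 * (D₂ - D₁) / ((1 - D₁) * (1 - D₂)) := by
  have a1 : 0 < 1 - D₁ := by linarith
  have a2 : 0 < 1 - D₂ := by linarith
  rw [dpsi_of_le h2, dpsi_of_le (h.trans h2), TTs_eq_om a1, TTs_eq_om a2]
  have h3 := om_sub_le (w₁ := 1 / (1 - D₁)) (w₂ := 1 / (1 - D₂))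
    (by rw [le_div_iff₀ a1]; linarith) (one_div_le_one_div_of_le a2 (by linarith))
  refine h3.trans (le_of_eq ?_)
  field_simp
  ring

/-- the difference of slopes at distance `I`, main form -/
theorem dpsi_diff_le_w {x I w : ℝ} (hx : 0 ≤ x) (hI : 0 ≤ I) (hw : 0 < w) (h : x + I + w ≤ 1) :
    dpsi (x + I) - dpsi x ≤ 93 / 50 * (I / (w + I)) := by
  have hq : 0 ≤ I / (w + I) := by positivity
  have hwI : 0 < w + I := by linarith
  have hx1 : x + I < 1 := by linarith
  by_cases hhalf : 1 / 2 ≤ x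
  · rw [dpsi_of_ge hhalf, dpsi_of_ge (by linarith)]
    linarith
  have hhalf' : x < 1 / 2 := not_le.1 hhalf
  have h1x : 0 < 1 - x := by linarith
  have hD₂ : dpsi (x + I) = dpsi (min (x + I) (1 / 2)) := by
    by_cases h3 : x + I ≤ 1 / 2
    · rw [min_eq_left h3]
    · have h3' : 1 / 2 < x + I := not_le.1 h3
      rw [min_eq_right h3'.le, dpsi_of_ge h3'.le, dpsi_of_ge le_rfl]
  rw [hD₂]
  set D₂ := min (x + I) (1 / 2) with hD₂def
  have hD₂1 : D₂ ≤ x + I := min_le_left _ _
  have hD₂2 : D₂ ≤ 1 / 2 := min_le_right _ _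
  have hD₂3 : x ≤ D₂ := le_min (by linarith) hhalf'.le
  have h4 := dpsi_sub_le hx hD₂3 hD₂2
  refine h4.trans ?_
  have a2 : 0 < 1 - D₂ := by linarith
  rw [div_le_iff₀ (by positivity)]
  -- `I / (w + I) * (1-x) ≥ I`, and `1 - D₂ ≥ 1/2`
  have e1 : I / (w + I) * (1 - x) ≥ I := by
    rw [ge_iff_le, div_mul_eq_mul_div, le_div_iff₀ hwI]
    nlinarith
  have e2 : (D₂ - x) ≤ I := by linarith
  have e3 : 93 / 100 * (D₂ - x) ≤ 93 / 100 * I := by linarith
  have e4 : 93 / 100 * I ≤ 93 / 100 * (I / (w + I) * (1 - x)) := by linarith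
  have e5 : 93 / 100 * (I / (w + I) * (1 - x)) ≤
      93 / 50 * (I / (w + I)) * ((1 - x) * (1 - D₂)) := by
    have : 0 ≤ I / (w + I) * (1 - x) := by positivity
    nlinarith
  linarith

/-- the difference of slopes at distance `I`, uniform form -/
theorem dpsi_diff_le_half {x I : ℝ} (hx : 0 ≤ x) (hI : 0 ≤ I) (h : x + I < 1) :
    dpsi (x + I) - dpsi x ≤ 93 / 50 * (I / (1 / 2 + I)) := by
  have hq : 0 ≤ I / (1 / 2 + I) := by positivity
  by_cases h3 : x + I ≤ 1 / 2
  · exact dpsi_diff_le_w hx hI (by norm_num) (by linarith)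
  have h3' : 1 / 2 < x + I := not_le.1 h3
  by_cases hhalf : 1 / 2 ≤ x
  · rw [dpsi_of_ge hhalf, dpsi_of_ge (by linarith)]
    linarith
  have hhalf' : x < 1 / 2 := not_le.1 hhalf
  rw [dpsi_of_ge h3'.le]
  have h4 := dpsi_diff_le_w (x := x) (I := 1 / 2 - x) (w := 1 / 2) hx (by linarith) (by norm_num)
    (by linarith)
  have e : x + (1 / 2 - x) = 1 / 2 := by ring
  rw [e, dpsi_of_ge le_rfl] at h4
  refine h4.trans ?_
  apply mul_le_mul_of_nonneg_left _ (by norm_num)
  rw [div_le_div_iff₀ (by linarith) (by linarith)]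
  nlinarith

/-- the function `Sup` -/
def supF (x I : ℝ) : ℝ := psiC (x + I) - psiC x - psiC I

theorem supF_zero (I : ℝ) : supF 0 I = 0 := by
  unfold supF
  rw [zero_add, psiC_zero]
  ring

/-- a bound on `Sup` from a bound on the difference of slopes -/
theorem supF_le_of_slope {x I K : ℝ} (hx : 0 ≤ x) (h1 : x + I < 1) (hI : 0 ≤ I)
    (hK : ∀ y, 0 ≤ y → y ≤ x → dpsi (y + I) - dpsi y ≤ K) : supF x I ≤ K * x := by
  have hd : ∀ y, 0 ≤ y → y ≤ x → HasDerivAt (fun y => K * y - supF y I)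
      (K - (dpsi (y + I) - dpsi y)) y := by
    intro y hy0 hyx
    have a1 : HasDerivAt (fun y => psiC (y + I)) (dpsi (y + I)) y :=
      (hasDerivAt_psiC (by linarith)).comp_add_const y I
    have a2 := hasDerivAt_psiC (show y < 1 by linarith)
    have a3 : HasDerivAt (fun y => K * y) K y := by
      simpa using (hasDerivAt_id y).const_mul K
    have a4 := a3.sub ((a1.sub a2).sub_const (psiC I))
    exact a4
  have hm : MonotoneOn (fun y => K * y - supF y I) (Icc 0 x) := by
    apply monotoneOn_of_deriv_nonneg (convex_Icc 0 x)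
    · intro y hy
      exact (hd y hy.1 hy.2).continuousAt.continuousWithinAt
    · intro y hy
      rw [interior_Icc] at hy
      exact (hd y hy.1.le hy.2.le).differentiableAt.differentiableWithinAt
    · intro y hy
      rw [interior_Icc] at hy
      rw [(hd y hy.1.le hy.2.le).deriv]
      have := hK y hy.1.le hy.2.le
      linarith
  have := hm (left_mem_Icc.2 hx) (right_mem_Icc.2 hx) hx
  simp only [supF_zero, mul_zero, sub_zero] at this
  linarith

/-- uniform bound on `Sup` -/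
theorem supF_le_half {x I : ℝ} (hx : 0 ≤ x) (hI : 0 ≤ I) (h1 : x + I < 1) :
    supF x I ≤ 93 / 50 * (I / (1 / 2 + I)) * x :=
  supF_le_of_slope hx h1 hI fun y hy0 hyx => dpsi_diff_le_half hy0 hI (by linarith)

/-- uniform bound on `Sup`, second form -/
theorem supF_le_T0 {x I : ℝ} (hx : 0 ≤ x) (hI : 0 ≤ I) (h1 : x + I < 1) : supF x I ≤ T0 * x :=
  supF_le_of_slope hx h1 hI fun y hy0 hyx => by
    have a1 := dpsi_le_T0 (show y + I < 1 by linarith)
    have a2 := dpsi_nonneg (show y < 1 by linarith)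
    linarith

/-- the main bound on `Sup` -/
theorem supF_le_a {x I : ℝ} (hx : 0 ≤ x) (hI : 0 ≤ I) (h1 : x + I ≤ 1 / 2) :
    supF x I ≤ 93 / 100 * x * I / (1 - I - x) := by
  have hd : ∀ y, 0 ≤ y → y ≤ x → HasDerivAt (fun y => 93 / 100 * y * I / (1 - I - y) - supF y I)
      (93 / 100 * I * (1 - I) / (1 - I - y) ^ 2 - (dpsi (y + I) - dpsi y)) y := by
    intro y hy0 hyx
    have a1 : HasDerivAt (fun y => psiC (y + I)) (dpsi (y + I)) y :=
      (hasDerivAt_psiC (by linarith)).comp_add_const y I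
    have a2 := hasDerivAt_psiC (show y < 1 by linarith)
    have hc : 1 - I - y ≠ 0 := by linarith
    have a3 : HasDerivAt (fun y => 93 / 100 * y * I / (1 - I - y))
        (93 / 100 * I * (1 - I) / (1 - I - y) ^ 2) y := by
      have b1 : HasDerivAt (fun y : ℝ => 93 / 100 * y * I) (93 / 100 * I) y := by
        have := ((hasDerivAt_id y).const_mul (93 / 100 : ℝ)).mul_const I
        simpa using this
      have b2 : HasDerivAt (fun y : ℝ => 1 - I - y) (-1) y := by
        simpa using (hasDerivAt_id y).const_sub (1 - I)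
      have b3 := b1.div b2 hc
      refine b3.congr_deriv ?_
      field_simp
      ring
    have a4 := a3.sub ((a1.sub a2).sub_const (psiC I))
    exact a4
  have hm : MonotoneOn (fun y => 93 / 100 * y * I / (1 - I - y) - supF y I) (Icc 0 x) := by
    apply monotoneOn_of_deriv_nonneg (convex_Icc 0 x)
    · intro y hy
      exact (hd y hy.1 hy.2).continuousAt.continuousWithinAt
    · intro y hy
      rw [interior_Icc] at hy
      exact (hd y hy.1.le hy.2.le).differentiableAt.differentiableWithinAt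
    · intro y hy
      rw [interior_Icc] at hy
      have hy0 := hy.1
      have hyx := hy.2
      rw [(hd y hy0.le hyx.le).deriv]
      have h2 := dpsi_sub_le hy0.le (show y ≤ y + I by linarith) (by linarith)
      have e : y + I - y = I := by ring
      rw [e] at h2
      have hc : 0 < 1 - I - y := by linarith
      have hy1 : 0 < 1 - y := by linarith
      have hc2 : 0 < 1 - (y + I) := by linarith
      have h3 : 93 / 100 * I / ((1 - y) * (1 - (y + I)))
          ≤ 93 / 100 * I * (1 - I) / (1 - I - y) ^ 2 := by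
        have e2 : 1 - (y + I) = 1 - I - y := by ring
        rw [e2, div_le_div_iff₀ (by positivity) (by positivity)]
        have : 1 - I - y ≤ (1 - I) * (1 - y) := by nlinarith
        have h4 : 0 ≤ 93 / 100 * I * (1 - I - y) := by positivity
        nlinarith [mul_le_mul_of_nonneg_left this h4]
      linarith
  have := hm (left_mem_Icc.2 hx) (right_mem_Icc.2 hx) hx
  simp only [supF_zero, mul_zero, zero_mul, zero_div, sub_zero] at this
  linarith

/-- the form of the main bound with a constant slope -/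
theorem supF_le_K {x I Du Iu : ℝ} (hx : 0 ≤ x) (hI : 0 ≤ I) (hxD : x ≤ Du) (hIu : I ≤ Iu)
    (h1 : Du + Iu ≤ 1 / 2) : supF x I ≤ 93 / 100 * Iu / (1 - Du - Iu) * x := by
  have h := supF_le_a hx hI (by linarith)
  refine h.trans ?_
  have hc : 0 < 1 - I - x := by linarith
  have hc2 : 0 < 1 - Du - Iu := by linarith
  rw [div_le_iff₀ hc]
  have e : 93 / 100 * Iu / (1 - Du - Iu) * x * (1 - I - x)
      = 93 / 100 * x * (Iu * ((1 - I - x) / (1 - Du - Iu))) := by ring
  rw [e]
  have h2 : 1 ≤ (1 - I - x) / (1 - Du - Iu) := by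
    rw [le_div_iff₀ hc2]; linarith
  have h3 : I ≤ Iu * ((1 - I - x) / (1 - Du - Iu)) := by
    have : 0 ≤ Iu := hI.trans hIu
    nlinarith
  have h4 : 0 ≤ 93 / 100 * x := by positivity
  nlinarith [mul_le_mul_of_nonneg_left h3 h4]

end

end CK322
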