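import Vale.Agent.Lib.P322.KDefs

/-!
Convexity of the slope `dpsi` of the capped function on `[0,1/2]`, and the bounds on `psiC`
that follow from it.
-/

open Real Set Filter Topology

namespace CK322

noncomputable section

/-! ### versions without side conditions -/

theorem hasDerivAt_psiC' (D : ℝ) : HasDerivAt psiC (dpsi D) D := by
  by_cases h : D < 1
  · exact hasDerivAt_psiC h
  · have h' : 1 / 2 < D := by linarith [not_lt.1 h]
    rw [dpsi_of_ge h'.le]
    have h2 : HasDerivAt (fun x : ℝ => rhoT (1 / 2) + T0 * (x - 1 / 2)) T0 D := by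
      have := (((hasDerivAt_id D).sub_const (1 / 2)).const_mul T0).const_add (rhoT (1 / 2))
      simpa using this
    refine h2.congr_of_eventuallyEq ?_
    filter_upwards [lt_mem_nhds h'] with y hy
    exact psiC_of_gt hy

theorem dpsi_nonneg' (D : ℝ) : 0 ≤ dpsi D := by
  by_cases h : D < 1
  · exact dpsi_nonneg h
  · rw [dpsi_of_ge (by linarith [not_lt.1 h])]
    exact T0_nonneg

theorem dpsi_mono' {D₁ D₂ : ℝ} (h : D₁ ≤ D₂) : dpsi D₁ ≤ dpsi D₂ := by
  by_cases h2 : D₂ < 1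
  · exact dpsi_mono h h2
  · rw [dpsi_of_ge (show 1 / 2 ≤ D₂ by linarith [not_lt.1 h2])]
    by_cases h1 : D₁ < 1
    · exact dpsi_le_T0 h1
    · rw [dpsi_of_ge (show 1 / 2 ≤ D₁ by linarith [not_lt.1 h1])]

theorem dpsi_le_T0' (D : ℝ) : dpsi D ≤ T0 := by
  by_cases h : D < 1
  · exact dpsi_le_T0 h
  · rw [dpsi_of_ge (by linarith [not_lt.1 h])]

theorem dpsi_zero : dpsi 0 = 0 := by
  rw [dpsi_of_le (by norm_num), sub_zero, TTs_of_ge le_rfl]

theorem dpsi_of_nonpos {D : ℝ} (h : D ≤ 0) : dpsi D = 0 := by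
  rw [dpsi_of_le (by linarith), TTs_of_ge (by linarith)]

/-- `psiC` has monotone derivative, hence lies above its tangent lines. -/
theorem psiC_tangent' (D D' : ℝ) : psiC D + dpsi D * (D' - D) ≤ psiC D' := by
  have hconv : ConvexOn ℝ univ psiC := by
    apply MonotoneOn.convexOn_of_deriv convex_univ
    · exact fun x _ => (hasDerivAt_psiC' x).continuousAt.continuousWithinAt
    · exact fun x _ => (hasDerivAt_psiC' x).differentiableAt.differentiableWithinAt
    · intro a _ b _ hab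
      rw [(hasDerivAt_psiC' a).deriv, (hasDerivAt_psiC' b).deriv]
      exact dpsi_mono' hab
  rcases lt_trichotomy D D' with h | h | h
  · have := hconv.deriv_le_slope (mem_univ D) (mem_univ D') h (hasDerivAt_psiC' D).differentiableAt
    rw [(hasDerivAt_psiC' D).deriv] at this
    rw [slope_def_field, le_div_iff₀ (by linarith)] at this
    linarith
  · subst h
    simp
  · have := hconv.slope_le_deriv (mem_univ D') (mem_univ D) h (hasDerivAt_psiC' D).differentiableAt
    rw [(hasDerivAt_psiC' D).deriv] at this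
    rw [slope_def_field, div_le_iff₀ (by linarith)] at this
    nlinarith

theorem psiC_mono' {D D' : ℝ} (h : D ≤ D') : psiC D ≤ psiC D' := by
  have := psiC_tangent' D D'
  have h2 := dpsi_nonneg' D
  have h3 : 0 ≤ dpsi D * (D' - D) := mul_nonneg h2 (by linarith)
  linarith

theorem psiC_sub_le' {D D' : ℝ} (h : D ≤ D') : psiC D' - psiC D ≤ T0 * (D' - D) := by
  have := psiC_tangent' D' D
  have h2 := dpsi_le_T0' D'
  have h3 : dpsi D' * (D' - D) ≤ T0 * (D' - D) := mul_le_mul_of_nonneg_right h2 (by linarith)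
  nlinarith

/-- convexity through the origin -/
theorem psiC_mul_le {p Y : ℝ} (h0 : 0 ≤ p) (h1 : p ≤ 1) : psiC (p * Y) ≤ p * psiC Y := by
  have a1 := psiC_tangent' (p * Y) Y
  have a2 := psiC_tangent' (p * Y) 0
  rw [psiC_zero] at a2
  have a3 := mul_le_mul_of_nonneg_left a1 h0
  have a4 := mul_le_mul_of_nonneg_left a2 (sub_nonneg.2 h1)
  nlinarith

/-- `psiC w ≤ w dpsi w` -/
theorem psiC_le_mul_dpsi (w : ℝ) : psiC w ≤ w * dpsi w := by
  have a2 := psiC_tangent' w 0
  rw [psiC_zero] at a2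
  linarith

/-! ### the second derivative -/

/-- `dpsi'` in the parameter `θ`, up to the factor `L`. -/
private def PP (θ : ℝ) : ℝ := cosh θ ^ 2 * ((θ * cosh (2 * θ) - sinh (2 * θ) / 2) / θ ^ 3)

private theorem BB3_nonneg {θ : ℝ} (h : 0 ≤ θ) :
    0 ≤ 2 * θ ^ 2 * sinh (2 * θ) - 3 * θ * cosh (2 * θ) + 3 / 2 * sinh (2 * θ) := by
  have hd : ∀ x : ℝ, HasDerivAt (fun x => 2 * x ^ 2 * sinh (2 * x) - 3 * x * cosh (2 * x)
      + 3 / 2 * sinh (2 * x)) (2 * x * (2 * x * cosh (2 * x) - sinh (2 * x))) x := by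
    intro x
    have h2 : HasDerivAt (fun x : ℝ => 2 * x) 2 x := by
      simpa using (hasDerivAt_id x).const_mul (2 : ℝ)
    have hs := (Real.hasDerivAt_sinh (2 * x)).comp x h2
    have hc := (Real.hasDerivAt_cosh (2 * x)).comp x h2
    have h1 : HasDerivAt (fun x : ℝ => 2 * x ^ 2) (4 * x) x := by
      have := (hasDerivAt_pow 2 x).const_mul (2 : ℝ)
      exact this.congr_deriv (by norm_num; ring)
    have h3 : HasDerivAt (fun x : ℝ => 3 * x) 3 x := by
      simpa using (hasDerivAt_id x).const_mul (3 : ℝ)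
    have := ((h1.fun_mul hs).fun_sub (h3.fun_mul hc)).fun_add (hs.const_mul (3 / 2 : ℝ))
    refine this.congr_deriv ?_
    simp only [Function.comp]
    ring
  have hm : MonotoneOn (fun x => 2 * x ^ 2 * sinh (2 * x) - 3 * x * cosh (2 * x)
      + 3 / 2 * sinh (2 * x)) (Ici 0) := by
    apply monotoneOn_of_deriv_nonneg (convex_Ici 0)
    · exact fun x _ => (hd x).continuousAt.continuousWithinAt
    · exact fun x _ => (hd x).differentiableAt.differentiableWithinAt
    · intro x hx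
      rw [interior_Ici] at hx
      rw [(hd x).deriv]
      have hx0 : (0 : ℝ) < x := hx
      have := sinh_le_mul_cosh (show 0 ≤ 2 * x by linarith)
      apply mul_nonneg (by linarith)
      nlinarith
  have := hm (mem_Ici.2 le_rfl) (mem_Ici.2 h) h
  simpa using this

private theorem BB2_mono {θ₁ θ₂ : ℝ} (h0 : 0 < θ₁) (h : θ₁ ≤ θ₂) :
    (θ₁ * cosh (2 * θ₁) - sinh (2 * θ₁) / 2) / θ₁ ^ 3
      ≤ (θ₂ * cosh (2 * θ₂) - sinh (2 * θ₂) / 2) / θ₂ ^ 3 := by
  have hd : ∀ x : ℝ, 0 < x → HasDerivAt (fun x => (x * cosh (2 * x) - sinh (2 * x) / 2) / x ^ 3)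
      ((2 * x ^ 2 * sinh (2 * x) - 3 * x * cosh (2 * x) + 3 / 2 * sinh (2 * x)) / x ^ 4) x := by
    intro x hx
    have h2 : HasDerivAt (fun x : ℝ => 2 * x) 2 x := by
      simpa using (hasDerivAt_id x).const_mul (2 : ℝ)
    have hs := (Real.hasDerivAt_sinh (2 * x)).comp x h2
    have hc := (Real.hasDerivAt_cosh (2 * x)).comp x h2
    have h1 := ((hasDerivAt_id' x).fun_mul hc).fun_sub (hs.div_const 2)
    have h3 := hasDerivAt_pow 3 x
    have := h1.fun_div h3 (by positivity)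
    refine this.congr_deriv ?_
    simp only [Function.comp]
    field_simp
    ring
  have hm : MonotoneOn (fun x => (x * cosh (2 * x) - sinh (2 * x) / 2) / x ^ 3) (Ioi 0) := by
    apply monotoneOn_of_deriv_nonneg (convex_Ioi 0)
    · exact fun x hx => (hd x hx).continuousAt.continuousWithinAt
    · intro x hx
      rw [interior_Ioi] at hx
      exact (hd x hx).differentiableAt.differentiableWithinAt
    · intro x hx
      rw [interior_Ioi] at hx
      rw [(hd x hx).deriv]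
      have hx0 : (0 : ℝ) < x := hx
      exact div_nonneg (BB3_nonneg hx0.le) (by positivity)
  exact hm h0 (h0.trans_le h) h

private theorem BB2_nonneg {θ : ℝ} (h : 0 < θ) :
    0 ≤ (θ * cosh (2 * θ) - sinh (2 * θ) / 2) / θ ^ 3 := by
  have := sinh_le_mul_cosh (show 0 ≤ 2 * θ by linarith)
  apply div_nonneg _ (by positivity)
  nlinarith

private theorem PP_mono {θ₁ θ₂ : ℝ} (h0 : 0 < θ₁) (h : θ₁ ≤ θ₂) : PP θ₁ ≤ PP θ₂ := by
  unfold PP
  have h1 : cosh θ₁ ^ 2 ≤ cosh θ₂ ^ 2 := by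
    have : cosh θ₁ ≤ cosh θ₂ := by
      rw [Real.cosh_le_cosh, abs_of_pos h0, abs_of_pos (h0.trans_le h)]
      exact h
    exact pow_le_pow_left₀ (Real.cosh_pos _).le this 2
  exact mul_le_mul h1 (BB2_mono h0 h) (BB2_nonneg h0) (by positivity)

private theorem fF_eq_PP {θ : ℝ} (h : 0 < θ) : fF θ = S θ ^ 2 * (L * PP θ) := by
  have hL := L_pos
  unfold fF PP S
  field_simp

private theorem Sinv_anti' {s₁ s₂ : ℝ} (h0 : 0 < s₁) (h12 : s₁ ≤ s₂) (h2 : s₂ ≤ 1) :
    Sinv s₂ ≤ Sinv s₁ := by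
  obtain ⟨a1, a2⟩ := Sinv_spec h0 (h12.trans h2)
  obtain ⟨b1, b2⟩ := Sinv_spec (h0.trans_le h12) h2
  by_contra hlt
  have := S_strictAnti (mem_Ici.2 a1) (mem_Ici.2 b1) (not_le.1 hlt)
  rw [a2, b2] at this
  linarith

/-- the derivative of `dpsi` on `(0,1/2)` -/
private theorem hasDerivAt_dpsi {D : ℝ} (h0 : 0 < D) (h1 : D < 1 / 2) :
    HasDerivAt dpsi (L * PP (Sinv (1 - D))) D := by
  have hw : 1 < 1 / (1 - D) := by
    rw [lt_div_iff₀ (by linarith)]
    linarith
  have h2 := hasDerivAt_om hw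
  have e1 : 1 / (1 / (1 - D)) = 1 - D := one_div_one_div _
  rw [e1] at h2
  have h3 : HasDerivAt (fun x : ℝ => 1 / (1 - x)) (1 / (1 - D) ^ 2) D := by
    have hne : 1 - D ≠ 0 := by linarith
    have := (hasDerivAt_const D (1 : ℝ)).fun_div ((hasDerivAt_id' D).const_sub 1) hne
    refine this.congr_deriv ?_
    simp
  have h4 := HasDerivAt.comp (h₂ := om) (h := fun x : ℝ => 1 / (1 - x)) D h2 h3
  have hs0 : 0 < 1 - D := by linarith
  have hs1 : 1 - D < 1 := by linarith
  have hθ := Sinv_pos hs0 hs1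
  obtain ⟨-, hS⟩ := Sinv_spec hs0 hs1.le
  have e2 : fF (Sinv (1 - D)) * (1 / (1 - D) ^ 2) = L * PP (Sinv (1 - D)) := by
    rw [fF_eq_PP hθ, hS]
    field_simp
  rw [e2] at h4
  refine h4.congr_of_eventuallyEq ?_
  filter_upwards [gt_mem_nhds (show D < 1 / 2 from h1)] with y hy
  show dpsi y = om (1 / (1 - y))
  rw [dpsi_of_le hy.le, TTs_eq_om (by linarith)]

/-- `dpsi` is convex on `[0,1/2]`. -/
theorem dpsi_convexOn : ConvexOn ℝ (Icc 0 (1 / 2)) dpsi := by
  apply MonotoneOn.convexOn_of_deriv (convex_Icc _ _)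
  · intro x hx
    have h1 : ContinuousAt (fun y : ℝ => TTs (1 - y)) x := by
      have h2 : ContinuousAt TTs (1 - x) := TTs_continuousAt (by linarith [hx.2])
      exact ContinuousAt.comp (f := fun y : ℝ => 1 - y) (g := TTs) h2 (by fun_prop)
    refine h1.continuousWithinAt.congr ?_ ?_
    · intro y hy
      exact dpsi_of_le hy.2
    · exact dpsi_of_le hx.2
  · intro x hx
    rw [interior_Icc] at hx
    exact (hasDerivAt_dpsi hx.1 hx.2).differentiableAt.differentiableWithinAt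
  · intro a ha b hb hab
    rw [interior_Icc] at ha hb
    rw [(hasDerivAt_dpsi ha.1 ha.2).deriv, (hasDerivAt_dpsi hb.1 hb.2).deriv]
    have hb0 : 0 < 1 - b := by linarith [hb.2]
    have := Sinv_anti' hb0 (show 1 - b ≤ 1 - a by linarith) (by linarith [ha.1])
    exact mul_le_mul_of_nonneg_left
      (PP_mono (Sinv_pos (by linarith [ha.2]) (by linarith [ha.1])) this) L_pos.le

/-- increments of `dpsi` grow with the base point -/
theorem dpsi_incr {x y I : ℝ} (hx : 0 ≤ x) (hxy : x ≤ y) (hI : 0 ≤ I) (h : y + I ≤ 1 / 2) :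
    dpsi (x + I) - dpsi x ≤ dpsi (y + I) - dpsi y := by
  rcases (show 0 ≤ y + I - x by linarith).eq_or_lt with h0 | h0
  · have e1 : I = 0 := by linarith
    have e2 : y = x := by linarith
    rw [e1, e2]
  set d := y + I - x with hd
  have hm1 : x ∈ Icc (0 : ℝ) (1 / 2) := ⟨hx, by linarith⟩
  have hm2 : y + I ∈ Icc (0 : ℝ) (1 / 2) := ⟨by linarith, h⟩
  have hc := dpsi_convexOn
  have hp1 : 0 ≤ (y - x) / d := div_nonneg (by linarith) h0.le
  have hp2 : 0 ≤ I / d := div_nonneg hI h0.le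
  have hp3 : (y - x) / d + I / d = 1 := by
    rw [← add_div, div_eq_one_iff_eq h0.ne']
    rw [hd]
    ring
  have hp4 : I / d + (y - x) / d = 1 := by linarith
  have a1 := hc.2 hm1 hm2 hp1 hp2 hp3
  have a2 := hc.2 hm1 hm2 hp2 hp1 hp4
  simp only [smul_eq_mul] at a1 a2
  have e1 : (y - x) / d * x + I / d * (y + I) = x + I := by
    field_simp
    rw [hd]
    ring
  have e2 : I / d * x + (y - x) / d * (y + I) = y := by
    field_simp
    rw [hd]
    ring
  rw [e1] at a1
  rw [e2] at a2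
  have e3 : (y - x) / d * dpsi x + I / d * dpsi (y + I) + (I / d * dpsi x + (y - x) / d * dpsi (y + I))
      = ((y - x) / d + I / d) * dpsi x + ((y - x) / d + I / d) * dpsi (y + I) := by ring
  rw [hp3] at e3
  linarith

/-- chord bound for `dpsi` -/
theorem dpsi_chord {a b x : ℝ} (h0 : 0 ≤ a) (hax : a ≤ x) (hxb : x ≤ b) (hb : b ≤ 1 / 2) (hab : a < b) :
    dpsi x ≤ dpsi a + (dpsi b - dpsi a) * ((x - a) / (b - a)) := by
  have hm1 : a ∈ Icc (0 : ℝ) (1 / 2) := ⟨h0, by linarith⟩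
  have hm2 : b ∈ Icc (0 : ℝ) (1 / 2) := ⟨by linarith, hb⟩
  have hd : 0 < b - a := by linarith
  have a1 := dpsi_convexOn.2 hm1 hm2 (show 0 ≤ (b - x) / (b - a) from div_nonneg (by linarith) hd.le)
    (show 0 ≤ (x - a) / (b - a) from div_nonneg (by linarith) hd.le)
    (by rw [← add_div, div_eq_one_iff_eq hd.ne']; ring)
  simp only [smul_eq_mul] at a1
  have e1 : (b - x) / (b - a) * a + (x - a) / (b - a) * b = x := by
    field_simp
    ring
  rw [e1] at a1
  refine a1.trans (le_of_eq ?_)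
  field_simp
  ring

/-- the trapezoid bound for `psiC` -/
theorem psi_trap {a b : ℝ} (h0 : 0 ≤ a) (hab : a ≤ b) (hb : b ≤ 1 / 2) :
    psiC b - psiC a ≤ (b - a) * (dpsi a + dpsi b) / 2 := by
  rcases hab.eq_or_lt with rfl | hlt
  · simp
  have hd0 : 0 < b - a := by linarith
  have hd : ∀ x : ℝ, HasDerivAt (fun x => psiC x - (dpsi a * x
      + (dpsi b - dpsi a) * ((x - a) ^ 2 / (2 * (b - a)))))
      (dpsi x - (dpsi a + (dpsi b - dpsi a) * ((x - a) / (b - a)))) x := by
    intro x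
    have h1 : HasDerivAt (fun x : ℝ => (x - a) ^ 2 / (2 * (b - a))) ((x - a) / (b - a)) x := by
      have := (((hasDerivAt_id' x).sub_const a).pow 2).div_const (2 * (b - a))
      refine this.congr_deriv ?_
      field_simp
      simp
      ring
    have h2 := (hasDerivAt_psiC' x).fun_sub
      (((hasDerivAt_id' x).const_mul (dpsi a)).fun_add (h1.const_mul (dpsi b - dpsi a)))
    refine h2.congr_deriv ?_
    ring
  have hanti : AntitoneOn (fun x => psiC x - (dpsi a * x
      + (dpsi b - dpsi a) * ((x - a) ^ 2 / (2 * (b - a))))) (Icc a b) := by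
    apply antitoneOn_of_deriv_nonpos (convex_Icc a b)
    · exact fun x _ => (hd x).continuousAt.continuousWithinAt
    · exact fun x _ => (hd x).differentiableAt.differentiableWithinAt
    · intro x hx
      rw [interior_Icc] at hx
      rw [(hd x).deriv]
      have := dpsi_chord h0 hx.1.le hx.2.le hb hlt
      linarith
  have := hanti (left_mem_Icc.2 hab) (right_mem_Icc.2 hab) hab
  simp only at this
  have e1 : (a - a) ^ 2 / (2 * (b - a)) = 0 := by simp
  have e2 : (b - a) ^ 2 / (2 * (b - a)) = (b - a) / 2 := by field_simp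
  rw [e1, e2] at this
  nlinarith

/-! ### the basic bounds -/

/-- the slope bound from the origin -/
theorem dpsi_le_P {x : ℝ} (h0 : 0 ≤ x) (h1 : x ≤ 1 / 2) : dpsi x ≤ 93 / 100 * x / (1 - x) := by
  have := dpsi_sub_le (le_refl 0) h0 h1
  rw [dpsi_zero] at this
  simpa using this

/-- the Lipschitz bound of `dpsi` -/
theorem dpsi_lip {Y x U : ℝ} (hY : 0 ≤ Y) (hx : Y ≤ x) (hU : U ≤ 1 / 2) (hmin : min x (1 / 2) ≤ U) :
    dpsi x - dpsi Y ≤ 93 / 100 / (1 - U) ^ 2 * (x - Y) := by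
  have hU1 : 0 < 1 - U := by linarith
  have hc : 0 ≤ 93 / 100 / (1 - U) ^ 2 := by positivity
  by_cases hYh : 1 / 2 ≤ Y
  · rw [dpsi_of_ge hYh, dpsi_of_ge (hYh.trans hx)]
    have := mul_nonneg hc (sub_nonneg.2 hx)
    linarith
  have hYh' : Y < 1 / 2 := not_le.1 hYh
  set x' := min x (1 / 2) with hx'
  have hx'1 : x' ≤ x := min_le_left _ _
  have hx'2 : x' ≤ 1 / 2 := min_le_right _ _
  have hx'3 : Y ≤ x' := le_min hx hYh'.le
  have e : dpsi x = dpsi x' := by
    by_cases h : x ≤ 1 / 2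
    · rw [hx', min_eq_left h]
    · rw [hx', min_eq_right (not_le.1 h).le, dpsi_of_ge (not_le.1 h).le, dpsi_of_ge le_rfl]
  rw [e]
  have h2 := dpsi_sub_le hY hx'3 hx'2
  refine h2.trans ?_
  have h3 : 0 < 1 - Y := by linarith
  have h4 : 0 < 1 - x' := by linarith
  rw [div_le_iff₀ (by positivity)]
  have h5 : (1 - U) ^ 2 ≤ (1 - Y) * (1 - x') := by
    have a1 : 1 - U ≤ 1 - Y := by linarith
    have a2 : 1 - U ≤ 1 - x' := by linarith
    nlinarith
  have h6 : 93 / 100 / (1 - U) ^ 2 * (x - Y) * ((1 - Y) * (1 - x'))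
      ≥ 93 / 100 / (1 - U) ^ 2 * (x' - Y) * (1 - U) ^ 2 := by
    have a1 : 0 ≤ x' - Y := by linarith
    have a2 : x' - Y ≤ x - Y := by linarith
    have a3 := mul_le_mul a2 h5 (by positivity) (by linarith)
    have := mul_le_mul_of_nonneg_left a3 hc
    nlinarith
  have e2 : 93 / 100 / (1 - U) ^ 2 * (x' - Y) * (1 - U) ^ 2 = 93 / 100 * (x' - Y) := by
    field_simp
  linarith

/-- second order Taylor bound from a Lipschitz bound of the slope -/
theorem psi_taylor {Y u c : ℝ} (hu : Y ≤ u)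
    (hlip : ∀ x, Y ≤ x → x ≤ u → dpsi x - dpsi Y ≤ c * (x - Y)) :
    psiC u ≤ psiC Y + dpsi Y * (u - Y) + c / 2 * (u - Y) ^ 2 := by
  have hd : ∀ x : ℝ, HasDerivAt (fun x => psiC x - (dpsi Y * (x - Y) + c / 2 * (x - Y) ^ 2))
      (dpsi x - (dpsi Y + c * (x - Y))) x := by
    intro x
    have h1 := ((hasDerivAt_id' x).sub_const Y).const_mul (dpsi Y)
    have h2 := (((hasDerivAt_id' x).sub_const Y).pow 2).const_mul (c / 2)
    have h3 := (hasDerivAt_psiC' x).fun_sub (h1.fun_add h2)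
    refine h3.congr_deriv ?_
    simp
    ring
  have hanti : AntitoneOn (fun x => psiC x - (dpsi Y * (x - Y) + c / 2 * (x - Y) ^ 2)) (Icc Y u) := by
    apply antitoneOn_of_deriv_nonpos (convex_Icc Y u)
    · exact fun x _ => (hd x).continuousAt.continuousWithinAt
    · exact fun x _ => (hd x).differentiableAt.differentiableWithinAt
    · intro x hx
      rw [interior_Icc] at hx
      rw [(hd x).deriv]
      have := hlip x hx.1.le hx.2.le
      linarith
  have := hanti (left_mem_Icc.2 hu) (right_mem_Icc.2 hu) hu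
  simp only [sub_self, mul_zero, ne_eq, OfNat.ofNat_ne_zero, not_false_eq_true, zero_pow, add_zero,
    sub_zero] at this
  linarith

/-- lower bound of `rhoθ` -/
theorem rho_lower' {θ : ℝ} (hθ : 0 ≤ θ) : (1 - S θ) ^ 2 / (4 * L) ≤ rhoθ θ := by
  rcases hθ.eq_or_lt with rfl | h
  · rw [S_zero, rhoθ_zero]
    simp
  have hS := S_pos θ
  have hS1 : S θ < 1 := by
    have := S_strictAnti (mem_Ici.2 le_rfl) (mem_Ici.2 h.le) h
    rwa [S_zero] at this
  have h1 := RR_lower hS hS1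
  rw [RR_one_S h.le] at h1
  have hL := L_pos
  have h2 : (1 - S θ) ^ 2 / 2 ≤ S θ - 1 + 1 * log (1 / S θ) := by
    -- `-log s ≥ (1-s) + (1-s)²/2`
    have hd : ∀ x : ℝ, 0 < x → HasDerivAt (fun s => s - 1 - log s - (1 - s) ^ 2 / 2)
        (1 - 1 / x + (1 - x)) x := by
      intro x hx
      have a1 := ((hasDerivAt_id' x).sub_const 1).fun_sub (Real.hasDerivAt_log hx.ne')
      have a2 := (((hasDerivAt_id' x).const_sub 1).pow 2).div_const 2
      have := a1.fun_sub a2
      refine this.congr_deriv ?_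
      simp
      ring
    have hanti : AntitoneOn (fun s => s - 1 - log s - (1 - s) ^ 2 / 2) (Ioc 0 1) := by
      apply antitoneOn_of_deriv_nonpos (convex_Ioc 0 1)
      · exact fun x hx => (hd x hx.1).continuousAt.continuousWithinAt
      · intro x hx
        rw [interior_Ioc] at hx
        exact (hd x hx.1).differentiableAt.differentiableWithinAt
      · intro x hx
        rw [interior_Ioc] at hx
        rw [(hd x hx.1).deriv]
        have hx0 := hx.1
        have hx1 := hx.2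
        have e : 1 - 1 / x + (1 - x) = -(1 - x) ^ 2 / x := by
          field_simp
          ring
        rw [e]
        apply div_nonpos_of_nonpos_of_nonneg _ hx0.le
        nlinarith [sq_nonneg (1 - x)]
    have := hanti ⟨hS, hS1.le⟩ (⟨one_pos, le_rfl⟩ : (1 : ℝ) ∈ Ioc (0 : ℝ) 1) hS1.le
    simp only [sub_self, log_one, ne_eq, OfNat.ofNat_ne_zero, not_false_eq_true, zero_pow, zero_div] at this
    rw [one_mul, one_div, Real.log_inv]
    linarith
  have h3 : 1 / (2 * L) * ((1 - S θ) ^ 2 / 2) ≤ 1 / (2 * L) * (S θ - 1 + 1 * log (1 / S θ)) :=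
    mul_le_mul_of_nonneg_left h2 (by positivity)
  have e : (1 - S θ) ^ 2 / (4 * L) = 1 / (2 * L) * ((1 - S θ) ^ 2 / 2) := by
    field_simp
    ring
  rw [e]
  linarith

/-- lower bound of `psiC` -/
theorem psiC_ge {D : ℝ} (h0 : 0 ≤ D) (h1 : D ≤ 1 / 2) : D ^ 2 / (4 * L) ≤ psiC D := by
  have hs0 : 0 < 1 - D := by linarith
  obtain ⟨a1, a2⟩ := Sinv_spec hs0 (by linarith)
  have h2 := rho_lower' a1
  rw [a2] at h2
  rw [psiC_of_le h1, ← a2, rhoT_S a1]
  have e : (1 - (1 - D)) = D := by ring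
  rw [e] at h2
  exact h2

/-- `S θ ≥ 1/2` or not, `psiC (1 - S θ) ≤ rhoθ θ` -/
theorem psiC_le_rho {θ : ℝ} (hθ : 0 ≤ θ) : psiC (1 - S θ) ≤ rhoθ θ := by
  by_cases h : 1 - S θ ≤ 1 / 2
  · rw [psiC_of_le h]
    have e : 1 - (1 - S θ) = S θ := by ring
    rw [e, rhoT_S hθ]
  · have h' : 1 / 2 < 1 - S θ := not_le.1 h
    rw [psiC_of_gt h', rhoT_half, T0_eq]
    have := rhoθ_tangent θc_nonneg hθ
    rw [S_θc] at this
    have e : TT θc * (1 - S θ - 1 / 2) = TT θc * (1 / 2 - S θ) := by ring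
    rw [e]
    exact this

/-- `dpsi (1 - S θ) ≤ TT θ` -/
theorem dpsi_le_TT {θ : ℝ} (hθ : 0 ≤ θ) : dpsi (1 - S θ) ≤ TT θ := by
  by_cases h : 1 - S θ ≤ 1 / 2
  · rw [dpsi_of_le h]
    have e : 1 - (1 - S θ) = S θ := by ring
    rw [e, TTs_S hθ]
  · have h' : 1 / 2 < 1 - S θ := not_le.1 h
    rw [dpsi_of_ge h'.le, T0_eq]
    have hle : θc ≤ θ := by
      by_contra hc
      have := S_strictAnti (mem_Ici.2 hθ) (mem_Ici.2 θc_nonneg) (not_le.1 hc)
      rw [S_θc] at this
      linarith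
    have := zeta_mono (mem_Ici.2 θc_nonneg) (mem_Ici.2 hθ) hle
    unfold TT
    linarith

/-- `rhoθ` is monotone. -/
theorem rhoθ_mono {θ₁ θ₂ : ℝ} (h0 : 0 ≤ θ₁) (h : θ₁ ≤ θ₂) : rhoθ θ₁ ≤ rhoθ θ₂ := by
  have a1 := rhoθ_tangent h0 (h0.trans h)
  have a2 := TT_nonneg h0
  have a3 := S_strictAnti.antitoneOn (mem_Ici.2 h0) (mem_Ici.2 (h0.trans h)) h
  have := mul_nonneg a2 (sub_nonneg.2 a3)
  linarith

theorem TT_mono {θ₁ θ₂ : ℝ} (h0 : 0 ≤ θ₁) (h : θ₁ ≤ θ₂) : TT θ₁ ≤ TT θ₂ := by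
  have := zeta_mono (mem_Ici.2 h0) (mem_Ici.2 (h0.trans h)) h
  unfold TT
  linarith

end

end CK322
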